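import Mathlib

/-! Gates acting on one bit of the index of an array. -/

namespace Vale.Agent.P338

variable {k : Type} [CommRing k]

/-- Twice the square root of the flip by the mask `μ`. -/
def gate1 (ι : k) (μ : ℕ) (v : ℕ → k) : ℕ → k := fun i => (1 + ι) * v i + (1 - ι) * v (i ^^^ μ)

/-- The gate, scaled by `h`, on the bits `pos f0, …, pos (f0 + t - 1)`. -/
def gall (ι h : k) (pos : ℕ → ℕ) (f0 t : ℕ) (v : ℕ → k) : ℕ → k :=
  (List.range t).foldr (fun n v => h • gate1 ι (2 ^ pos (f0 + n)) v) v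

/-- The bits `pos (f1 + n)` to be flipped: all of them if `fl`, otherwise those for which the
bit `pos (f0 + n)` of `i` is set. -/
def cmask (pos : ℕ → ℕ) (f0 f1 t : ℕ) (fl : Bool) (i : ℕ) : ℕ :=
  ∑ n ∈ Finset.range t, if fl = true ∨ i.testBit (pos (f0 + n)) = true then 2 ^ pos (f1 + n) else 0

/-- Roots of unity. -/
noncomputable def rt (n : ℤ) (N : ℕ) : ℂ :=
  Complex.exp (2 * Real.pi * Complex.I * (n : ℂ) / (N : ℂ))

end Vale.Agent.P338
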