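import Vale.Agent.P338.NatOps
import Vale.Agent.P338.Gate

/-! Families of complex numbers that can be approximated in polynomial time. -/

namespace Vale.Agent.P338

open Finset

variable {ι β : Type}

/-- The class with an additional precision argument `p`: costs are polynomial in `p`. -/
def Cls.prec (𝒯 : Cls ι) : Cls (ℕ × ι) where
  dom := fun p => 𝒯.dom p.2
  mem := fun T => ∃ c T', 𝒯.mem T' ∧ ∀ p : ℕ × ι, 𝒯.dom p.2 → T p ≤ T' p.2 * (p.1 + 1) ^ c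
  const := fun c => ⟨0, _, 𝒯.const c, fun _ _ => by simp⟩
  add := fun ⟨c, T, h, g⟩ ⟨d, U, h', g'⟩ => ⟨c + d, _, 𝒯.add h h', fun p hp => by
    have h1 := g p hp
    have h2 := g' p hp
    have h3 : (p.1 + 1) ^ c ≤ (p.1 + 1) ^ (c + d) := Nat.pow_le_pow_right (by omega) (by omega)
    have h4 : (p.1 + 1) ^ d ≤ (p.1 + 1) ^ (c + d) := Nat.pow_le_pow_right (by omega) (by omega)
    have h5 := Nat.mul_le_mul_left (T p.2) h3
    have h6 := Nat.mul_le_mul_left (U p.2) h4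
    rw [add_mul]; beta_reduce; omega⟩
  mono := fun ⟨c, T, h, g⟩ h' => ⟨c, T, h, fun p hp => (h' p hp).trans (g p hp)⟩

/-- Gaussian rationals: real numerator, imaginary numerator, denominator minus one. -/
abbrev GQ : Type := ℤ × ℤ × ℕ

/-- Their values. -/
noncomputable def GQ.val (x : GQ) : ℂ := ((x.1 : ℂ) + (x.2.1 : ℂ) * Complex.I) / ((x.2.2 : ℂ) + 1)

/-- sum -/
def GQ.add (x y : GQ) : GQ :=
  (x.1 * ((y.2.2 + 1 : ℕ) : ℤ) + y.1 * ((x.2.2 + 1 : ℕ) : ℤ),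
    x.2.1 * ((y.2.2 + 1 : ℕ) : ℤ) + y.2.1 * ((x.2.2 + 1 : ℕ) : ℤ), (x.2.2 + 1) * (y.2.2 + 1) - 1)
/-- product -/
def GQ.mul (x y : GQ) : GQ :=
  (x.1 * y.1 - x.2.1 * y.2.1, x.1 * y.2.1 + x.2.1 * y.1, (x.2.2 + 1) * (y.2.2 + 1) - 1)
/-- inverse -/
def GQ.inv (x : GQ) : GQ :=
  (x.1 * ((x.2.2 + 1 : ℕ) : ℤ), -(x.2.1 * ((x.2.2 + 1 : ℕ) : ℤ)),
    (x.1 * x.1 + x.2.1 * x.2.1).toNat - 1)
/-- height -/
def GQ.ht (x : GQ) : ℕ := x.1.natAbs + x.2.1.natAbs + (x.2.2 + 1)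
/-- logarithmic bound -/
def GQ.lg (x : GQ) : ℕ := (x.1.natAbs + x.2.1.natAbs).size

theorem GQ.den_ne (d : ℕ) : (d : ℂ) + 1 ≠ 0 := by exact_mod_cast Nat.succ_ne_zero d

theorem GQ.den_mul (d e : ℕ) : (((d + 1) * (e + 1) - 1 : ℕ) : ℂ) + 1 = (d + 1) * (e + 1) := by
  have : (d + 1) * (e + 1) - 1 + 1 = (d + 1) * (e + 1) := Nat.sub_add_cancel (Nat.mul_pos (Nat.succ_pos _) (Nat.succ_pos _))
  exact_mod_cast this

theorem GQ.val_add (x y : GQ) : (x.add y).val = x.val + y.val := by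
  have h1 := GQ.den_ne x.2.2
  have h2 := GQ.den_ne y.2.2
  simp only [GQ.val, GQ.add, GQ.den_mul]
  push_cast; field_simp; ring

theorem GQ.val_mul (x y : GQ) : (x.mul y).val = x.val * y.val := by
  have h1 := GQ.den_ne x.2.2
  have h2 := GQ.den_ne y.2.2
  simp only [GQ.val, GQ.mul, GQ.den_mul]
  push_cast; field_simp
  linear_combination (-(x.2.1 : ℂ) * y.2.1) * Complex.I_mul_I

theorem GQ.val_inv (x : GQ) (h : x.val ≠ 0) : x.inv.val = x.val⁻¹ := by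
  have h1 := GQ.den_ne x.2.2
  have h2 : (x.1 : ℂ) + x.2.1 * Complex.I ≠ 0 := fun h' => h (by simp [GQ.val, h'])
  have h3 : 0 < x.1 * x.1 + x.2.1 * x.2.1 := by
    refine (add_nonneg (mul_self_nonneg _) (mul_self_nonneg _)).lt_of_ne fun h' => h2 ?_
    have := (mul_self_add_mul_self_eq_zero.1 h'.symm)
    simp [this.1, this.2]
  have h4 : ((((x.1 * x.1 + x.2.1 * x.2.1).toNat - 1 : ℕ) : ℂ) + 1) =
      (x.1 + x.2.1 * Complex.I) * (x.1 - x.2.1 * Complex.I) := by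
    have e : (((x.1 * x.1 + x.2.1 * x.2.1).toNat - 1 : ℕ) : ℤ) + 1 = x.1 * x.1 + x.2.1 * x.2.1 := by
      omega
    have e2 : ((((x.1 * x.1 + x.2.1 * x.2.1).toNat - 1 : ℕ) : ℂ) + 1) =
        x.1 * x.1 + x.2.1 * x.2.1 := by exact_mod_cast e
    rw [e2]; linear_combination ((x.2.1 : ℂ) * x.2.1) * Complex.I_mul_I
  have h5 : (x.1 : ℂ) - x.2.1 * Complex.I ≠ 0 := fun h' => GQ.den_ne _ (by rw [h4, h', mul_zero])
  simp only [GQ.val, GQ.inv, h4]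
  push_cast; field_simp; ring

theorem GQ.norm_val (x : GQ) : ‖x.val‖ + 1 ≤ 2 ^ x.lg := by
  have h1 : ‖x.val‖ ≤ (x.1.natAbs + x.2.1.natAbs : ℕ) := by
    rw [GQ.val, norm_div]
    have : (1 : ℝ) ≤ ‖(x.2.2 : ℂ) + 1‖ := by
      have : ‖((x.2.2 + 1 : ℕ) : ℂ)‖ = (x.2.2 + 1 : ℕ) := Complex.norm_natCast _
      push_cast at this; rw [this]; linarith [Nat.cast_nonneg (α := ℝ) x.2.2]
    refine (div_le_self (norm_nonneg _) this).trans ((norm_add_le _ _).trans (le_of_eq ?_))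
    simp [Nat.cast_natAbs]
  have h2 : x.1.natAbs + x.2.1.natAbs + 1 ≤ 2 ^ x.lg := Nat.lt_size_self _
  have h3 : ((x.1.natAbs + x.2.1.natAbs : ℕ) : ℝ) + 1 ≤ 2 ^ x.lg := by exact_mod_cast h2
  linarith

theorem GQ.ht_add (x y : GQ) : (x.add y).ht ≤ x.ht * y.ht := by
  have h1 := Int.natAbs_add_le (x.1 * ((y.2.2 + 1 : ℕ) : ℤ)) (y.1 * ((x.2.2 + 1 : ℕ) : ℤ))
  have h2 := Int.natAbs_add_le (x.2.1 * ((y.2.2 + 1 : ℕ) : ℤ)) (y.2.1 * ((x.2.2 + 1 : ℕ) : ℤ))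
  have h3 : (x.2.2 + 1) * (y.2.2 + 1) - 1 + 1 = (x.2.2 + 1) * (y.2.2 + 1) :=
    Nat.sub_add_cancel (Nat.mul_pos (Nat.succ_pos _) (Nat.succ_pos _))
  simp only [Int.natAbs_mul, Int.natAbs_natCast] at h1 h2
  simp only [GQ.ht, GQ.add, h3]
  nlinarith [Nat.zero_le ((x.1.natAbs + x.2.1.natAbs) * (y.1.natAbs + y.2.1.natAbs))]

theorem GQ.ht_mul (x y : GQ) : (x.mul y).ht ≤ x.ht * y.ht := by
  have h1 := Int.natAbs_sub_le (x.1 * y.1) (x.2.1 * y.2.1)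
  have h2 := Int.natAbs_add_le (x.1 * y.2.1) (x.2.1 * y.1)
  have h3 : (x.2.2 + 1) * (y.2.2 + 1) - 1 + 1 = (x.2.2 + 1) * (y.2.2 + 1) :=
    Nat.sub_add_cancel (Nat.mul_pos (Nat.succ_pos _) (Nat.succ_pos _))
  simp only [Int.natAbs_mul] at h1 h2
  simp only [GQ.ht, GQ.mul, h3]
  nlinarith [Nat.zero_le ((x.1.natAbs + x.2.1.natAbs) * (y.2.2 + 1)),
    Nat.zero_le ((y.1.natAbs + y.2.1.natAbs) * (x.2.2 + 1))]

theorem GQ.sz_eq (x : GQ) : sz x = sz x.1 + (sz x.2.1 + sz x.2.2) := by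
  rw [sz_prod, sz_prod x.2]

theorem GQ.ht_le (x : GQ) : x.ht ≤ 2 ^ (sz x + 2) := by
  have e := x.sz_eq
  have h1 : x.1.natAbs < 2 ^ sz x := (lt_two_pow_sz _).trans_le
    (Nat.pow_le_pow_right two_pos (by have := sz_natAbs_le x.1; omega))
  have h2 : x.2.1.natAbs < 2 ^ sz x := (lt_two_pow_sz _).trans_le
    (Nat.pow_le_pow_right two_pos (by have := sz_natAbs_le x.2.1; omega))
  have h3 : x.2.2 < 2 ^ sz x := (lt_two_pow_sz _).trans_le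
    (Nat.pow_le_pow_right two_pos (by omega))
  rw [GQ.ht, pow_add]; omega

theorem GQ.sz_le {x : GQ} {b : ℕ} (h : x.ht ≤ 2 ^ b) : sz x ≤ 12 * b + 10 := by
  rw [GQ.ht] at h
  have h1 := sz_int_lt (z := x.1) (b := b) (by omega)
  have h2 := sz_int_lt (z := x.2.1) (b := b) (by omega)
  have h3 := sz_nat_lt (n := x.2.2) (b := b) (by omega)
  rw [x.sz_eq]; omega

theorem GQ.foldl_add (u : ℕ → GQ) (n : ℕ) :
    (((List.range n).map u).foldl GQ.add (0, 0, 0)).val = ∑ k ∈ range n, (u k).val := by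
  induction n with
  | zero => simp [GQ.val]
  | succ n ih => simp [List.range_succ, List.foldl_append, GQ.val_add, sum_range_succ, ← ih]

theorem GQ.foldl_mul (u : ℕ → GQ) (n : ℕ) :
    (((List.range n).map u).foldl GQ.mul (1, 0, 0)).val = ∏ k ∈ range n, (u k).val := by
  induction n with
  | zero => simp [GQ.val]
  | succ n ih => simp [List.range_succ, List.foldl_append, GQ.val_mul, prod_range_succ, ← ih]

theorem norm_prod_sub (a b : ℕ → ℂ) (M : ℕ → ℝ) (δ : ℝ) (hδ : 0 ≤ δ) (n : ℕ)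
    (h : ∀ k < n, ‖a k - b k‖ ≤ δ ∧ ‖a k‖ ≤ M k ∧ ‖b k‖ ≤ M k ∧ 1 ≤ M k) :
    ‖∏ k ∈ range n, a k - ∏ k ∈ range n, b k‖ ≤ n * δ * ∏ k ∈ range n, M k := by
  induction n with
  | zero => simp
  | succ n ih =>
    have h1 := ih fun k hk => h k (by omega)
    obtain ⟨h2, h3, -, h5⟩ := h n (by omega)
    have h6 : ‖∏ k ∈ range n, b k‖ ≤ ∏ k ∈ range n, M k := by
      rw [norm_prod]
      exact prod_le_prod (fun _ _ => norm_nonneg _) fun k hk =>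
        (h k (by have := mem_range.1 hk; omega)).2.2.1
    have h7 := (norm_nonneg _).trans h6
    have e : ∏ k ∈ range (n + 1), a k - ∏ k ∈ range (n + 1), b k =
        (∏ k ∈ range n, a k - ∏ k ∈ range n, b k) * a n + (∏ k ∈ range n, b k) * (a n - b n) := by
      rw [prod_range_succ, prod_range_succ]; ring
    rw [e, prod_range_succ M]
    refine (norm_add_le _ _).trans ?_
    rw [norm_mul, norm_mul]
    have h8 := mul_le_mul h1 h3 (norm_nonneg _) ((norm_nonneg _).trans h1)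
    have h9 := mul_le_mul h6 h2 (norm_nonneg _) h7
    have h10 := mul_le_mul_of_nonneg_left h5 (mul_nonneg h7 hδ)
    push_cast
    nlinarith

theorem Cls.prec_mem {𝒯 : Cls ι} {T : ι → ℕ} (h : 𝒯.mem T) : 𝒯.prec.mem (fun p => T p.2) :=
  ⟨0, T, h, fun _ _ => by simp⟩

theorem Cls.prec_fst (𝒯 : Cls ι) : 𝒯.prec.mem (fun p => p.1) :=
  ⟨1, _, 𝒯.const 1, fun _ _ => by simp⟩

theorem Cls.pays_prec_snd (𝒯 : Cls ι) : 𝒯.prec.Pays 𝒯 (fun p => p.2) :=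
  ⟨fun _ h => h, fun _ h => Cls.prec_mem h⟩

theorem Cls.pays_prec {𝒮 : Cls β} [Mulc 𝒮] {𝒯 : Cls ι} {q : β → ℕ} {h : β → ι} (hq : 𝒮.mem q)
    (hp : 𝒮.Pays 𝒯 h) : 𝒮.Pays 𝒯.prec (fun a => (q a, h a)) :=
  ⟨fun a ha => hp.1 a ha, fun _ ⟨c, T', h1, h2⟩ =>
    𝒮.mono (Mulc.mul (hp.2 T' h1) (Cls.pow (𝒮.add hq (𝒮.const 1)) c))
      fun a ha => h2 (q a, h a) (hp.1 a ha)⟩

instance (𝒯 : Cls ι) [h : Mulc 𝒯] : Mulc 𝒯.prec :=
  ⟨fun ⟨c, T, h1, g⟩ ⟨d, U, h2, g'⟩ => ⟨c + d, _, h.mul h1 h2, fun a ha => by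
    have := Nat.mul_le_mul (g a ha) (g' a ha)
    rw [pow_add]; linarith⟩⟩

variable [Enc ι] [Enc β]

instance (𝒯 : Cls ι) [h : Dom 𝒯] : Dom 𝒯.prec :=
  ⟨𝒯.prec.mono (𝒯.prec.add (Cls.lin 𝒯.prec_fst 4 2 fun _ _ => le_rfl) (Cls.prec_mem h.sz))
    fun p _ => by have := sz_nat_le p.1; rw [sz_prod]; omega⟩

/-- `f i` can be approximated to `p` bits at a cost in `𝒯` times a polynomial in `p`. -/
@[fun_prop]
def Apx (𝒯 : Cls ι) (f : ι → ℂ) : Prop :=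
  ∃ g : ℕ × ι → GQ, Tm 𝒯.prec g ∧ ∀ p i, 𝒯.dom i → ‖(g (p, i)).val - f i‖ ≤ 1 / 2 ^ p

variable {𝒯 : Cls ι} [Dom 𝒯] [Mulc 𝒯] {f g : ι → ℂ}

@[fun_prop] theorem Tm.gqAdd {x y : ι → GQ} (hx : Tm 𝒯 x) (hy : Tm 𝒯 y) :
    Tm 𝒯 (fun i => (x i).add (y i)) :=
  have dx := hx.snd.snd.add (Tm.const 1)
  have dy := hy.snd.snd.add (Tm.const 1)
  ((hx.fst.zmul dy.natCast).zadd (hy.fst.zmul dx.natCast)).pair
    (((hx.snd.fst.zmul dy.natCast).zadd (hy.snd.fst.zmul dx.natCast)).pair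
      ((dx.mul dy).sub (Tm.const 1)))
@[fun_prop] theorem Tm.gqMul {x y : ι → GQ} (hx : Tm 𝒯 x) (hy : Tm 𝒯 y) :
    Tm 𝒯 (fun i => (x i).mul (y i)) :=
  have dx := hx.snd.snd.add (Tm.const 1)
  have dy := hy.snd.snd.add (Tm.const 1)
  ((hx.fst.zmul hy.fst).zsub (hx.snd.fst.zmul hy.snd.fst)).pair
    (((hx.fst.zmul hy.snd.fst).zadd (hx.snd.fst.zmul hy.fst)).pair ((dx.mul dy).sub (Tm.const 1)))
@[fun_prop] theorem Tm.gqInv {x : ι → GQ} (hx : Tm 𝒯 x) : Tm 𝒯 (fun i => (x i).inv) := by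
  unfold GQ.inv; fun_prop
omit [Mulc 𝒯] in
@[fun_prop] theorem Tm.gqLg {x : ι → GQ} (hx : Tm 𝒯 x) : Tm 𝒯 (fun i => (x i).lg) := by
  unfold GQ.lg; fun_prop

theorem Tm.gqFold {op : GQ → GQ → GQ} (h1 : ∀ x y, (op x y).ht ≤ x.ht * y.ht)
    (h2 : Tm (pt (GQ × GQ)) fun p => op p.1 p.2) {x0 : GQ} (h0 : x0.ht ≤ 2) {l : ι → List GQ}
    (hl : Tm 𝒯 l) : Tm 𝒯 (fun i => (l i).foldl op x0) := by
  refine Tm.foldlE (g := fun _ y x => op y x) hl (Tm.const x0)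
    (fun i n y => y.ht ≤ 2 ^ (n * (sz (l i) + 2) + 1))
    (B := fun i => 12 * (sz (l i) * (sz (l i) + 2)) + 22)
    (Cls.lin (Mulc.mul hl.szb (𝒯.add hl.szb (𝒯.const 2))) 12 22 fun _ _ => le_rfl)
    (fun i _ => by simpa using h0) (fun i _ n x hx y hy => ?_) (fun i _ n hn y hy => ?_)
    fun _ => h2.compPt (f := fun p : (GQ × GQ) × ι => (p.1.2, p.1.1))
      (Tm.id.fst.snd.pair Tm.id.fst.fst)
  · have h3 : x.ht ≤ 2 ^ (sz (l i) + 2) := x.ht_le.trans (Nat.pow_le_pow_right two_pos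
      (by have := sz_mem (List.mem_of_getElem? hx); omega))
    refine (h1 y x).trans ((Nat.mul_le_mul hy h3).trans (le_of_eq ?_))
    rw [← pow_add]; congr 1; ring
  · have h3 := GQ.sz_le hy
    have h4 := length_le_sz (l i)
    have h5 : n * (sz (l i) + 2) ≤ sz (l i) * (sz (l i) + 2) := Nat.mul_le_mul_right _ (by omega)
    omega

omit [Mulc 𝒯] in
theorem Tm.liftP {γ : Type} [Enc γ] {x : ι → γ} (hx : Tm 𝒯 x) : Tm 𝒯.prec (fun p => x p.2) :=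
  hx.compP Tm.id.snd 𝒯.pays_prec_snd

theorem Tm.atP {γ : Type} [Enc γ] {𝒮 : Cls β} {u : ℕ × β → γ} (hu : Tm 𝒮.prec u) {q : ι → ℕ}
    {h : ι → β} (hq : Tm 𝒯 q) (hq' : 𝒯.mem q) (hh : Tm 𝒯 h) (hp : 𝒯.Pays 𝒮 h) :
    Tm 𝒯 (fun i => u (q i, h i)) := hu.compP (hq.pair hh) (Cls.pays_prec hq' hp)

omit [Dom 𝒯] [Mulc 𝒯] in
theorem Apx.congr' (h : Apx 𝒯 f) (e : ∀ i, 𝒯.dom i → g i = f i) : Apx 𝒯 g := by
  obtain ⟨u, h1, h2⟩ := h
  exact ⟨u, h1, fun p i hi => e i hi ▸ h2 p i hi⟩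
theorem Apx.congr (h : Apx 𝒯 f) (e : ∀ i, 𝒯.dom i → g i = f i) : Apx 𝒯 g := h.congr' e
theorem Apx.ofInt {x : ι → ℤ} (hx : Tm 𝒯 x) : Apx 𝒯 (fun i => (x i : ℂ)) :=
  ⟨fun p => (x p.2, 0, 0), hx.liftP.pair (Tm.const _), fun p i _ => by simp [GQ.val]⟩
theorem Apx.ofNat {x : ι → ℕ} (hx : Tm 𝒯 x) : Apx 𝒯 (fun i => (x i : ℂ)) :=
  (Apx.ofInt hx.natCast).congr fun i _ => by simp
theorem Apx.const (x : GQ) {z : ℂ} (h : x.val = z) : Apx 𝒯 (fun _ => z) :=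
  ⟨fun _ => x, Tm.const _, fun p i _ => by simp [h]⟩
theorem Apx.iteR {c : ι → Prop} [DecidablePred c] (hc : Tm 𝒯 c) (hf : Apx (𝒯.res c) f)
    (hg : Apx (𝒯.res fun i => ¬ c i) g) : Apx 𝒯 (fun i => if c i then f i else g i) := by
  obtain ⟨u, h1, h2⟩ := hf
  obtain ⟨v, h3, h4⟩ := hg
  have key : ∀ (d : ι → Prop), (𝒯.prec.res fun p => d p.2).Pays (𝒯.res d).prec fun a => a :=
    fun d => ⟨fun a ha => ha, fun T ⟨e, T', ⟨T'', k1, k2⟩, k3⟩ =>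
      ⟨fun p => T'' p.2 * (p.1 + 1) ^ e, ⟨e, T'', k1, fun _ _ => le_rfl⟩, fun a ha hd =>
        (k3 a ⟨ha, hd⟩).trans (Nat.mul_le_mul_right _ (k2 _ ha hd))⟩⟩
  refine ⟨fun p => if c p.2 then u p else v p, Tm.iteR hc.liftP (h1.weaken (key c))
    (h3.weaken (key fun i => ¬ c i)), fun p i hi => ?_⟩
  by_cases h : c i
  · simpa [h] using h2 p i ⟨hi, h⟩
  · simpa [h] using h4 p i ⟨hi, h⟩
theorem Apx.compP {𝒮 : Cls β} {u : β → ℂ} {h : ι → β} (hu : Apx 𝒮 u) (hh : Tm 𝒯 h)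
    (hp : 𝒯.Pays 𝒮 h) : Apx 𝒯 (fun i => u (h i)) := by
  obtain ⟨v, h1, h2⟩ := hu
  exact ⟨fun p => v (p.1, h p.2), h1.atP Tm.id.fst 𝒯.prec_fst hh.liftP
    (𝒯.pays_prec_snd.trans hp), fun p i hi => h2 p _ (hp.1 i hi)⟩
theorem Apx.ite {c : ι → Prop} [DecidablePred c] (hc : Tm 𝒯 c) (hf : Apx 𝒯 f) (hg : Apx 𝒯 g) :
    Apx 𝒯 (fun i => if c i then f i else g i) :=
  Apx.iteR hc (hf.compP Tm.id (𝒯.pays_res _)) (hg.compP Tm.id (𝒯.pays_res _))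

theorem Tm.apxList {n q : ι → ℕ} (hn : Tm 𝒯 n) (h : 𝒯.mem n) (hq : Tm 𝒯 q) (h' : 𝒯.mem q)
    {v : ℕ × ℕ × ι → GQ} (hv : Tm (𝒯.ext fun i (k : ℕ) => k < n i).prec v) :
    Tm 𝒯.prec (fun a => (List.range (n a.2)).map fun k => v (a.1 + q a.2, k, a.2)) := by
  refine Tm.mapE (g := fun a k => v (a.1 + q a.2, k, a.2))
    (hn.liftP.rangeP (Cls.prec_mem h)) fun D => ?_
  refine hv.atP (q := fun z : ℕ × ℕ × ι => z.2.1 + q z.2.2) (h := fun z => (z.1, z.2.2))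
    (Tm.id.snd.fst.add (hq.liftP.lift _))
    (Cls.ext_mem _ (𝒯.prec.add 𝒯.prec_fst (Cls.prec_mem h'))) (Tm.id.fst.pair Tm.id.snd.snd)
    ⟨fun a ha => ⟨ha.1, List.mem_range.1 ha.2⟩, fun T ⟨T', k1, k2⟩ =>
      ⟨_, Cls.prec_mem k1, fun a ha hk => k2 (a.1, a.2.2) ha (List.mem_range.1 hk)⟩⟩

theorem Apx.sum {n : ι → ℕ} {u : ι → ℕ → ℂ} (hn : Tm 𝒯 n) (h : 𝒯.mem n)
    (hu : Dom (𝒯.ext fun i (k : ℕ) => k < n i) →
      Apx (𝒯.ext fun i (k : ℕ) => k < n i) (fun p => u p.2 p.1)) :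
    Apx 𝒯 (fun i => ∑ k ∈ range (n i), u i k) := by
  obtain ⟨v, h1, h2⟩ := hu (Cls.dom_lt h)
  refine ⟨_, Tm.gqFold GQ.ht_add (Tm.id.fst.gqAdd Tm.id.snd) (x0 := (0, 0, 0)) (by decide)
    (Tm.apxList hn h hn h h1), fun p i hi => ?_⟩
  rw [GQ.foldl_add, ← sum_sub_distrib]
  refine (norm_sum_le _ _).trans ((sum_le_sum fun k hk =>
    h2 (p + n i) (k, i) ⟨hi, mem_range.1 hk⟩).trans ?_)
  rw [sum_const, card_range, nsmul_eq_mul, pow_add, mul_one_div,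
    div_le_div_iff₀ (by positivity) (by positivity), one_mul, mul_comm]
  have : (n i : ℝ) ≤ 2 ^ n i := by exact_mod_cast Nat.lt_two_pow_self.le
  gcongr
theorem Apx.prod {n : ι → ℕ} {u : ι → ℕ → ℂ} (hn : Tm 𝒯 n) (h : 𝒯.mem n)
    (hu : Dom (𝒯.ext fun i (k : ℕ) => k < n i) →
      Apx (𝒯.ext fun i (k : ℕ) => k < n i) (fun p => u p.2 p.1)) :
    Apx 𝒯 (fun i => ∏ k ∈ range (n i), u i k) := by
  have D := Cls.dom_lt h
  obtain ⟨v, h1, h2⟩ := hu D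
  have h3 : Tm (𝒯.ext fun i (k : ℕ) => k < n i) (fun a => (v (0, a)).lg + 1) :=
    (h1.atP (Tm.const 0) (Cls.const _ 0) Tm.id (Cls.pays_refl _)).gqLg.add (Tm.const 1)
  have h4 : Tm 𝒯 (fun i => ∑ k ∈ range (n i), ((v (0, k, i)).lg + 1)) :=
    Tm.sumRange (u := fun i k => (v (0, k, i)).lg + 1) hn h fun _ => h3
  have h5 : 𝒯.mem (fun i => ∑ k ∈ range (n i), ((v (0, k, i)).lg + 1)) := by
    obtain ⟨T', k1, k2⟩ := (h1.atP (Tm.const 0) (Cls.const _ 0) Tm.id (Cls.pays_refl _)).szb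
    refine 𝒯.mono (Mulc.mul h (𝒯.add k1 (𝒯.const 3))) fun i hi => ?_
    have : ∀ k ∈ range (n i), (v (0, k, i)).lg + 1 ≤ T' i + 3 := fun k hk => by
      have e1 := k2 (k, i) hi (mem_range.1 hk)
      have e2 := (v (0, k, i)).ht_le
      have e3 : (v (0, k, i)).lg ≤ sz (v (0, k, i)) + 2 :=
        Nat.size_le.2 (by rw [GQ.ht] at e2; omega)
      dsimp only at e1
      omega
    simpa using sum_le_card_nsmul _ _ _ this
  refine ⟨_, Tm.gqFold GQ.ht_mul (Tm.id.fst.gqMul Tm.id.snd) (x0 := (1, 0, 0)) (by decide)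
    (Tm.apxList hn h (hn.add h4) (𝒯.add h h5) h1), fun p i hi => ?_⟩
  rw [GQ.foldl_mul]
  set B := ∑ k ∈ range (n i), ((v (0, k, i)).lg + 1) with hB
  refine (norm_prod_sub _ _ (fun k => 2 ^ ((v (0, k, i)).lg + 1)) (1 / 2 ^ (p + (n i + B)))
    (by positivity) _ fun k hk => ?_).trans ?_
  · have e1 := h2 (p + (n i + B)) (k, i) ⟨hi, hk⟩
    have e2 := h2 0 (k, i) ⟨hi, hk⟩
    have e3 := (v (0, k, i)).norm_val
    have e4 : (1 : ℝ) / 2 ^ (p + (n i + B)) ≤ 1 :=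
      (div_le_one (by positivity)).2 (one_le_pow₀ (by norm_num))
    have e5 : (1 : ℝ) ≤ 2 ^ (v (0, k, i)).lg := one_le_pow₀ (by norm_num)
    have e6 := norm_le_insert (v (0, k, i)).val (u i k)
    have e7 := norm_le_insert' (v (p + (n i + B), k, i)).val (u i k)
    simp only [pow_zero, div_one] at e2
    refine ⟨e1, ?_, ?_, ?_⟩ <;> rw [pow_succ] <;> linarith
  · rw [prod_pow_eq_pow_sum, ← hB, pow_add, pow_add]
    have : (n i : ℝ) ≤ 2 ^ n i := by exact_mod_cast Nat.lt_two_pow_self.le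
    calc _ ≤ 2 ^ n i * (1 / (2 ^ p * (2 ^ n i * 2 ^ B))) * (2 : ℝ) ^ B := by gcongr
      _ = _ := by field_simp
theorem Apx.two (hf : Apx 𝒯 f) (hg : Apx 𝒯 g) (G : ι → ℕ → Prop) [Dom (𝒯.ext G)] :
    Apx (𝒯.ext G) (fun p => if p.1 = 0 then f p.2 else g p.2) :=
  Apx.ite (Tm.id.fst.eq (Tm.const 0)) (hf.compP Tm.id.snd (𝒯.pays_ext _))
    (hg.compP Tm.id.snd (𝒯.pays_ext _))
theorem Apx.add (hf : Apx 𝒯 f) (hg : Apx 𝒯 g) : Apx 𝒯 (fun i => f i + g i) :=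
  (Apx.sum (u := fun i k => if k = 0 then f i else g i) (Tm.const 2) (𝒯.const 2)
    fun _ => hf.two hg _).congr fun i _ => by simp [sum_range_succ]
theorem Apx.mul (hf : Apx 𝒯 f) (hg : Apx 𝒯 g) : Apx 𝒯 (fun i => f i * g i) :=
  (Apx.prod (u := fun i k => if k = 0 then f i else g i) (Tm.const 2) (𝒯.const 2)
    fun _ => hf.two hg _).congr fun i _ => by simp [prod_range_succ]
theorem Apx.neg (hf : Apx 𝒯 f) : Apx 𝒯 (fun i => - f i) :=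
  ((Apx.const (-1, 0, 0) (z := -1) (by simp [GQ.val])).mul hf).congr fun i _ => by simp
theorem Apx.inv (hf : Apx 𝒯 f) (h : ∀ i, 𝒯.dom i → 1 ≤ ‖f i‖) : Apx 𝒯 (fun i => (f i)⁻¹) := by
  obtain ⟨v, h1, h2⟩ := hf
  refine ⟨fun a => (v (a.1 + 1, a.2)).inv, (h1.atP (Tm.id.fst.add (Tm.const 1))
    (𝒯.prec.add 𝒯.prec_fst (Cls.const _ 1)) Tm.id.snd 𝒯.pays_prec_snd).gqInv, fun p i hi => ?_⟩
  have e1 := h2 (p + 1) i hi
  have e2 := h i hi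
  have e3 : (1 : ℝ) / 2 ^ (p + 1) ≤ 1 / 2 :=
    one_div_le_one_div_of_le two_pos (le_self_pow₀ (by norm_num) (by omega))
  have e4 := norm_le_insert (v (p + 1, i)).val (f i)
  have e5 : 1 / 2 ≤ ‖(v (p + 1, i)).val‖ := by linarith
  have n1 : (v (p + 1, i)).val ≠ 0 := fun h' => by rw [h', norm_zero] at e5; linarith
  have n2 : f i ≠ 0 := fun h' => by rw [h', norm_zero] at e2; linarith
  rw [GQ.val_inv _ n1, inv_sub_inv n1 n2, norm_div, norm_mul, norm_sub_rev,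
    div_le_iff₀ (by positivity)]
  refine e1.trans ?_
  rw [pow_succ, ← one_div_mul_one_div]
  have : 1 / 2 * 1 ≤ ‖(v (p + 1, i)).val‖ * ‖f i‖ := by gcongr
  exact mul_le_mul_of_nonneg_left (by linarith) (by positivity)
theorem Apx.pow (hf : Apx 𝒯 f) {n : ι → ℕ} (hn : Tm 𝒯 n) (h : 𝒯.mem n) :
    Apx 𝒯 (fun i => f i ^ n i) :=
  (Apx.prod (u := fun i _ => f i) hn h fun _ => hf.compP Tm.id.snd (𝒯.pays_ext _)).congr
    fun i _ => by simp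
theorem Apx.lim {s : ℕ → ι → ℂ} (hs : Apx 𝒯.prec fun a => s a.1 a.2)
    (h : ∀ p i, 𝒯.dom i → ‖s p i - f i‖ ≤ 1 / 2 ^ p) : Apx 𝒯 f := by
  obtain ⟨v, h1, h2⟩ := hs
  have a1 : Tm 𝒯.prec fun a => a.1 + 1 := Tm.id.fst.add (Tm.const 1)
  have a2 : 𝒯.prec.mem fun a => a.1 + 1 := 𝒯.prec.add 𝒯.prec_fst (Cls.const _ 1)
  refine ⟨fun a => v (a.1 + 1, a.1 + 1, a.2), h1.atP a1 a2 (a1.pair Tm.id.snd)
    (Cls.pays_prec a2 𝒯.pays_prec_snd), fun p i hi => ?_⟩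
  have e1 := h2 (p + 1) (p + 1, i) hi
  have e2 := h (p + 1) i hi
  have e3 := norm_sub_le_norm_sub_add_norm_sub (v (p + 1, p + 1, i)).val (s (p + 1) i) (f i)
  have e4 : (1 : ℝ) / 2 ^ p = 1 / 2 ^ (p + 1) + 1 / 2 ^ (p + 1) := by
    rw [pow_succ]; field_simp; norm_num
  simp only at e1
  linarith
theorem Apx.series {t : ℕ → ι → ℂ} (ht : Apx 𝒯.prec fun a => t a.1 a.2)
    (hb : ∀ i, 𝒯.dom i → ∀ k, ‖t k i‖ ≤ 1 * (1 / 2) ^ k)
    (hs : ∀ i, 𝒯.dom i → HasSum (fun k => t k i) (f i)) : Apx 𝒯 f := by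
  have a1 : Tm 𝒯.prec fun a => a.1 + 1 := Tm.id.fst.add (Tm.const 1)
  have a2 : 𝒯.prec.mem fun a => a.1 + 1 := 𝒯.prec.add 𝒯.prec_fst (Cls.const _ 1)
  refine Apx.lim (s := fun p i => ∑ k ∈ range (p + 1), t k i)
    (Apx.sum (u := fun (a : ℕ × ι) k => t k a.2) a1 a2 fun _ =>
      ht.compP (h := fun z : ℕ × ℕ × ι => (z.1, z.2.2)) (Tm.id.fst.pair Tm.id.snd.snd)
        (Cls.pays_prec (Cls.ext_of_le a2 fun _ _ _ h => h.le)
          ((Cls.pays_ext _ _).trans 𝒯.pays_prec_snd))) fun p i hi => ?_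
  refine (norm_sub_le_of_geometric_bound_of_hasSum (by norm_num) (hb i hi) (hs i hi) _).trans
    (le_of_eq ?_)
  rw [pow_succ, one_div_pow]; ring
theorem Apx.exp (hf : Apx 𝒯 f) (h : ∀ i, 𝒯.dom i → ‖f i‖ ≤ 1 / 2) :
    Apx 𝒯 (fun i => Complex.exp (f i)) := by
  have h1 : ∀ k : ℕ, (1 : ℝ) ≤ ‖((k.factorial : ℕ) : ℂ)‖ := fun k => by
    rw [Complex.norm_natCast]; exact_mod_cast k.factorial_pos
  refine Apx.series (t := fun k i => f i ^ k / (k.factorial : ℂ)) ?_ (fun i hi k => ?_)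
    fun i _ => ?_
  · have a1 : Apx 𝒯.prec fun a => ((a.1.factorial : ℕ) : ℂ) :=
      (Apx.prod (u := fun _ j => ((j + 1 : ℕ) : ℂ)) Tm.id.fst 𝒯.prec_fst fun _ =>
        Apx.ofNat (Tm.id.fst.add (Tm.const 1))).congr fun a _ => by
          rw [← Nat.cast_prod, prod_range_add_one_eq_factorial]
    exact (((hf.compP Tm.id.snd 𝒯.pays_prec_snd).pow Tm.id.fst 𝒯.prec_fst).mul
      (a1.inv fun a _ => h1 _)).congr fun a _ => div_eq_mul_inv _ _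
  · rw [norm_div, norm_pow, one_mul]
    exact (div_le_self (by positivity) (h1 k)).trans (by gcongr; exact h i hi)
  · rw [Complex.exp_eq_exp_ℂ]; exact NormedSpace.expSeries_div_hasSum_exp _
theorem Apx.arctan (d : ℕ) (hd : 1 ≤ d) :
    Apx 𝒯 (fun _ => ((Real.arctan ((d : ℝ) + 1)⁻¹ : ℝ) : ℂ)) := by
  have hd' : (1 : ℝ) ≤ d := by exact_mod_cast hd
  have h0 : ‖((d : ℝ) + 1)⁻¹‖ ≤ 1 / 2 := by
    rw [Real.norm_of_nonneg (by positivity), one_div]; gcongr; linarith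
  have h1 : ∀ k : ℕ, (1 : ℝ) ≤ ‖((2 * k + 1 : ℕ) : ℂ)‖ := fun k => by
    rw [Complex.norm_natCast]; exact_mod_cast Nat.le_add_left 1 _
  refine Apx.series (t := fun k _ =>
    (-1) ^ k * ((((d : ℝ) + 1)⁻¹ : ℝ) : ℂ) ^ (2 * k + 1) / ((2 * k + 1 : ℕ) : ℂ)) ?_
    (fun i _ k => ?_) fun i _ => ?_
  · have a1 : Tm 𝒯.prec fun a => 2 * a.1 + 1 := Tm.id.fst.dbl.add (Tm.const 1)
    have a2 : 𝒯.prec.mem fun a => 2 * a.1 + 1 := Cls.lin 𝒯.prec_fst 2 1 fun _ _ => le_rfl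
    exact ((((Apx.const (-1, 0, 0) (z := -1) (by simp [GQ.val])).pow Tm.id.fst 𝒯.prec_fst).mul
      ((Apx.const (1, 0, d) (z := ((((d : ℝ) + 1)⁻¹ : ℝ) : ℂ)) (by simp [GQ.val])).pow a1 a2)).mul
      ((Apx.ofNat a1).inv fun a _ => h1 _)).congr fun a _ => div_eq_mul_inv _ _
  · rw [norm_div, norm_mul, norm_pow, norm_neg, norm_one, one_pow, norm_pow, Complex.norm_real,
      one_mul, one_mul]
    refine (div_le_self (by positivity) (h1 k)).trans ((pow_le_pow_left₀ (norm_nonneg _) h0 _).trans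
      (pow_le_pow_of_le_one (by norm_num) (by norm_num) (by omega)))
  · have := Complex.hasSum_ofReal.2 (Real.hasSum_arctan (h0.trans_lt (by norm_num)))
    simpa using this
theorem Apx.pi : Apx 𝒯 (fun _ => (Real.pi : ℂ)) :=
  ((Apx.const (4, 0, 0) (z := 4) (by simp [GQ.val])).mul
    ((Apx.arctan 1 le_rfl).add (Apx.arctan 2 one_le_two))).congr fun i _ => by
      have e1 : ((1 : ℕ) : ℝ) + 1 = 2 := by norm_num
      have e2 : ((2 : ℕ) : ℝ) + 1 = 3 := by norm_num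
      rw [← Complex.ofReal_add, e1, e2, Real.arctan_inv_2_add_arctan_inv_3]; push_cast; ring
theorem Apx.rt {n : ι → ℤ} {N : ι → ℕ} (hn : Tm 𝒯 n) (hN : Tm 𝒯 N)
    (h : ∀ i, 𝒯.dom i → 0 < N i) : Apx 𝒯 (fun i => rt (n i) (N i)) := by
  have a1 : Tm 𝒯 fun i => n i - (N i : ℤ) * (n i / (N i : ℤ)) := by fun_prop
  have a2 := ((Apx.const (0, 1, 7) (z := Complex.I / 8) (by norm_num [GQ.val])).mul Apx.pi).mul
    ((Apx.ofInt a1).mul ((Apx.ofNat hN).inv fun i hi => by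
      rw [Complex.norm_natCast]; exact_mod_cast h i hi))
  refine ((a2.exp fun i hi => ?_).pow (Tm.const 16) (𝒯.const 16)).congr fun i hi => ?_
  · have hN' : (0 : ℤ) < N i := by exact_mod_cast h i hi
    have hN2 : (0 : ℝ) < N i := by exact_mod_cast h i hi
    have e1 : 0 ≤ n i % (N i : ℤ) := Int.emod_nonneg _ hN'.ne'
    have e2 : n i % (N i : ℤ) < N i := Int.emod_lt_of_pos _ hN'
    have e3 : ‖((n i % (N i : ℤ) : ℤ) : ℂ)‖ ≤ N i := by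
      rw [Complex.norm_intCast, abs_of_nonneg (by exact_mod_cast e1)]; exact_mod_cast e2.le
    rw [← Int.emod_def, norm_mul, norm_mul, norm_mul, norm_inv, Complex.norm_natCast, norm_div,
      Complex.norm_I, Complex.norm_real, Real.norm_of_nonneg Real.pi_pos.le, ← div_eq_mul_inv]
    have e4 := (div_le_one hN2).2 e3
    have e5 : ‖(8 : ℂ)‖ = 8 := by simp
    rw [e5]
    calc _ ≤ 1 / 8 * 4 * (1 : ℝ) := by gcongr; exact Real.pi_le_four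
      _ = _ := by norm_num
  · have hN' : (N i : ℂ) ≠ 0 := by exact_mod_cast (h i hi).ne'
    rw [← Complex.exp_nat_mul, P338.rt, Complex.exp_eq_exp_iff_exists_int]
    refine ⟨n i / (N i : ℤ), ?_⟩
    push_cast; field_simp; ring

/-- Fixed point approximation with `p i` fractional bits. -/
theorem Apx.round (hf : Apx 𝒯 f) {p : ι → ℕ} (hp : Tm 𝒯 p) (h : 𝒯.mem p) :
    ∃ d : ι → ℤ × ℤ, Tm 𝒯 d ∧ ∀ i, 𝒯.dom i →
      ‖(((d i).1 : ℂ) + ((d i).2 : ℂ) * Complex.I) - 2 ^ p i * f i‖ ≤ 3 := by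
  obtain ⟨v, h1, h2⟩ := hf
  have a1 : Tm 𝒯 fun i => v (p i, i) := h1.atP hp h Tm.id 𝒯.pays_refl
  have a2 : Tm 𝒯 fun i => 2 ^ p i := hp.pow2 h
  have a3 : Tm 𝒯 fun i => (v (p i, i)).2.2 + 1 := a1.snd.snd.add (Tm.const 1)
  refine ⟨_, ((a1.fst.zmul a2.natCast).zdiv a3).pair ((a1.snd.fst.zmul a2.natCast).zdiv a3),
    fun i hi => ?_⟩
  have key : ∀ (a : ℤ) (D : ℕ), ‖((a / ((D + 1 : ℕ) : ℤ) : ℤ) : ℂ) - a / ((D : ℂ) + 1)‖ ≤ 1 := by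
    intro a D
    have hD : (0 : ℤ) < (D + 1 : ℕ) := by omega
    have e1 := Int.emod_nonneg a hD.ne'
    have e2 := Int.emod_lt_of_pos a hD
    have e3 : ((a / ((D + 1 : ℕ) : ℤ) : ℤ) : ℂ) - a / ((D : ℂ) + 1) =
        -((a % ((D + 1 : ℕ) : ℤ) : ℤ) : ℂ) / ((D + 1 : ℕ) : ℂ) := by
      have := GQ.den_ne D
      rw [Int.emod_def]; push_cast; field_simp; ring
    rw [e3, norm_div, norm_neg, Complex.norm_intCast, Complex.norm_natCast,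
      abs_of_nonneg (by exact_mod_cast e1), div_le_one (by positivity)]
    exact_mod_cast e2.le
  have e1 := h2 (p i) i hi
  set x := v (p i, i)
  have e2 : ‖(2 : ℂ) ^ p i * (x.val - f i)‖ ≤ 1 := by
    rw [norm_mul, norm_pow, Complex.norm_ofNat]
    calc _ ≤ (2 : ℝ) ^ p i * (1 / 2 ^ p i) := by gcongr
      _ = 1 := by field_simp
  have e3 := key (x.1 * ((2 ^ p i : ℕ) : ℤ)) x.2.2
  have e4 := key (x.2.1 * ((2 ^ p i : ℕ) : ℤ)) x.2.2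
  set A := x.1 * ((2 ^ p i : ℕ) : ℤ) / ((x.2.2 + 1 : ℕ) : ℤ)
  set B := x.2.1 * ((2 ^ p i : ℕ) : ℤ) / ((x.2.2 + 1 : ℕ) : ℤ)
  have e5 : (A : ℂ) + B * Complex.I - 2 ^ p i * f i =
      (A - (x.1 * ((2 ^ p i : ℕ) : ℤ) : ℤ) / ((x.2.2 : ℂ) + 1)) +
      (B - (x.2.1 * ((2 ^ p i : ℕ) : ℤ) : ℤ) / ((x.2.2 : ℂ) + 1)) * Complex.I +
      2 ^ p i * (x.val - f i) := by
    rw [GQ.val]; push_cast; ring
  rw [e5]
  refine (norm_add₃_le).trans ?_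
  rw [norm_mul, Complex.norm_I]
  linarith

end Vale.Agent.P338
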