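import Vale.Agent.P338.NatLin

/-! Arithmetic in polynomial time. -/

namespace Vale.Agent.P338

theorem mul_fold (l : List Bool) (g : ℕ) :
    l.reverse.foldl (fun y b => 2 * y + if b = true then g else 0) 0 = ofB l * g := by
  rw [List.foldl_reverse]
  induction l with
  | nil => simp
  | cons b l ih => rw [List.foldr_cons, ih, ofB_cons]; cases b <;> simp <;> ring

open Classical in
/-- One round of binary search. -/
noncomputable def bsSt (P : ℕ → Prop) (s : ℕ × ℕ) (_ : Unit) : ℕ × ℕ :=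
  (if P (s.1 + s.2 / 2) then s.1 + s.2 / 2 else s.1, s.2 / 2)

theorem bs_spec (P : ℕ → Prop) (u : List Unit) (y : ℕ) (h0 : P y) (h1 : ¬ P (y + 2 ^ u.length)) :
    P (u.foldl (bsSt P) (y, 2 ^ u.length)).1 ∧
      ¬ P ((u.foldl (bsSt P) (y, 2 ^ u.length)).1 + 1) := by
  induction u generalizing y with
  | nil => exact ⟨h0, by simpa using h1⟩
  | cons a u ih =>
    have e : 2 ^ (a :: u).length / 2 = 2 ^ u.length := by
      rw [List.length_cons, pow_succ, Nat.mul_div_cancel _ two_pos]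
    rw [List.foldl_cons, bsSt]
    dsimp only
    rw [e]
    split_ifs with h
    · refine ih _ h ?_
      rwa [List.length_cons, pow_succ, mul_two, ← add_assoc] at h1
    · exact ih _ h0 h

theorem lt_two_pow_sz (n : ℕ) : n < 2 ^ sz n :=
  (Nat.lt_size_self n).trans_le (Nat.pow_le_pow_right two_pos (by have := size_le_sz n; omega))

theorem zdiv_eq (x : ℤ) (g : ℕ) :
    x / (g : ℤ) = ((x.toNat / g : ℕ) : ℤ) - (((-x).toNat + g - 1) / g : ℕ) := by
  rcases g.eq_zero_or_pos with rfl | hg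
  · simp
  rcases le_or_gt 0 x with h | h
  · obtain ⟨n, rfl⟩ := Int.eq_ofNat_of_zero_le h
    have : (0 + g - 1) / g = 0 := Nat.div_eq_of_lt (by omega)
    rw [show (-(n : ℤ)).toNat = 0 by omega, this]
    simp
  · obtain ⟨m, hm⟩ : ∃ m : ℕ, x = -(m : ℤ) := ⟨(-x).toNat, by omega⟩
    have h1 := Nat.div_add_mod (m + g - 1) g
    have h2 := Nat.mod_lt (m + g - 1) hg
    rw [show x.toNat = 0 by omega, show (-x).toNat = m by omega, Nat.zero_div]
    generalize (m + g - 1) / g = q at h1 ⊢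
    generalize (m + g - 1) % g = r at h1 h2
    have h3 : (g : ℤ) * q + r = m + g - 1 := by
      have : g * q + r + 1 = m + g := by omega
      have := congrArg (Nat.cast : ℕ → ℤ) this
      push_cast at this; omega
    refine ((Int.ediv_emod_unique (r := g - 1 - r) (by exact_mod_cast hg)).2 ⟨?_, ?_, ?_⟩).1
    · rw [hm]; push_cast; linear_combination -h3
    · omega
    · omega

variable {α β γ δ ι : Type} [Enc α] [Enc β] [Enc γ] [Enc δ] [Enc ι] {𝒯 : Cls ι} [Dom 𝒯]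

omit [Dom 𝒯] in
theorem Tm.callExt {G : ι → β → Prop} {G' : ι → γ → Prop} [Dom (𝒯.ext G')] {F : β × ι → δ}
    (hF : Tm (𝒯.ext G) F) {k : γ × ι → β} (hk : Tm (𝒯.ext G') k)
    (h : ∀ p : γ × ι, 𝒯.dom p.2 → G' p.2 p.1 → G p.2 (k p)) :
    Tm (𝒯.ext G') (fun p => F (k p, p.2)) :=
  hF.compP (hk.pair Tm.id.snd) ⟨fun p hp => ⟨hp.1, h p hp.1 hp.2⟩, fun _ ⟨T, h1, h2⟩ =>
    ⟨T, h1, fun p e1 e2 => h2 (k p, p.2) e1 (h p e1 e2)⟩⟩

section pol
variable [Mulc 𝒯] {f g : ι → ℕ} {x y : ι → ℤ}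

@[fun_prop] theorem Tm.mul (hf : Tm 𝒯 f) (hg : Tm 𝒯 g) : Tm 𝒯 (fun i => f i * g i) := by
  refine (Tm.foldlE (g := fun i y b => 2 * y + if b = true then g i else 0) hf.bits.reverse
    (Tm.const 0) (fun i n y => y + g i ≤ 2 ^ n * g i)
    (B := fun i => 2 * (sz (f i) + sz (g i))) (Cls.cmul (𝒯.add hf.szb hg.szb) 2)
    (fun i _ => by simp) (fun i _ n b _ y hy => ?_) (fun i _ n hn y hy => ?_) fun _ => ?_).congr
    fun i _ => by rw [mul_fold, ofB_bits]
  · rw [pow_succ', mul_assoc]; split_ifs <;> omega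
  · rw [List.length_reverse, Nat.size_eq_bits_len] at hn
    have h1 : y < 2 ^ ((f i).size + (g i).size) := by
      rw [pow_add]
      exact lt_of_le_of_lt (le_of_add_le_left hy) (Nat.mul_lt_mul_of_le_of_lt
        (Nat.pow_le_pow_right two_pos hn) (Nat.lt_size_self _) (by positivity))
    have := sz_nat_lt h1
    have := size_le_sz (f i)
    have := size_le_sz (g i)
    omega
  · exact Tm.id.fst.snd.dbl.add (Tm.id.fst.fst.isTrue.ite (hg.lift _) (Tm.const 0))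

/-- Binary search. -/
theorem Tm.bsearch {P : ι → ℕ → Prop} {u : ι → List Unit} (hu : Tm 𝒯 u)
    (hP : Dom (𝒯.ext fun i (k : ℕ) => k ≤ 2 ^ (u i).length) →
      Tm (𝒯.ext fun i (k : ℕ) => k ≤ 2 ^ (u i).length) (fun p => P p.2 p.1)) :
    ∃ r : ι → ℕ, Tm 𝒯 r ∧ ∀ i, P i 0 → ¬ P i (2 ^ (u i).length) → P i (r i) ∧ ¬ P i (r i + 1) := by
  classical
  have hsz : ∀ i k, k ≤ 2 ^ (u i).length → sz k ≤ 2 * sz (u i) + 2 := fun i k hk => by
    have := sz_nat_lt (n := k) (b := (u i).length + 1)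
      (hk.trans_lt (Nat.pow_lt_pow_right one_lt_two (Nat.lt_succ_self _)))
    have := length_le_sz (u i)
    omega
  have hP' := hP (Cls.dom_ext (Cls.lin hu.szb 2 2 fun _ _ => le_rfl) fun i k _ hk => hsz i k hk)
  refine ⟨fun i => ((u i).foldl (bsSt (P i)) (0, 2 ^ (u i).length)).1, Tm.fst ?_,
    fun i h0 h1 => bs_spec _ _ 0 h0 (by rwa [zero_add])⟩
  refine Tm.foldlE hu ((Tm.const 0).pair hu.pow2U) (fun i _ s => s.1 + s.2 ≤ 2 ^ (u i).length)
    (B := fun i => 4 * sz (u i) + 4) (Cls.lin hu.szb 4 4 fun _ _ => le_rfl)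
    (fun i _ => by simp) (fun i _ n b _ s hs => ?_) (fun i _ n _ s hs => ?_) fun _ => ?_
  · simp only [bsSt]; split_ifs <;> omega
  · have := hsz i s.1 (by omega)
    have := hsz i s.2 (by omega)
    rw [sz_prod]; omega
  · have hk := (Tm.id (𝒯 := 𝒯.ext fun i (p : Unit × ℕ × ℕ) => ∃ n : ℕ, p.1 ∈ (u i)[n]? ∧
      p.2.1 + p.2.2 ≤ 2 ^ (u i).length)).fst.snd
    have hm := hk.fst.add hk.snd.half
    exact ((hP'.callExt hm fun p _ ⟨_, _, hp⟩ => by omega).ite hm hk.fst).pair hk.snd.half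

omit [Mulc 𝒯] in
theorem Tm.sizeU (hf : Tm 𝒯 f) : Tm 𝒯 (fun i => (f i).bits.map fun _ => ()) :=
  Tm.map0 (Tm.const ()) hf.bits

@[fun_prop] theorem Tm.div (hf : Tm 𝒯 f) (hg : Tm 𝒯 g) : Tm 𝒯 (fun i => f i / g i) := by
  obtain ⟨r, hr, h⟩ := Tm.bsearch (P := fun i k => k * g i ≤ f i) hf.sizeU fun _ =>
    (Tm.id.fst.mul (hg.lift _)).le (hf.lift _)
  refine (hg.isZero.ite (Tm.const 0) hr).congr fun i _ => ?_
  split_ifs with h0
  · rw [h0, Nat.div_zero]
  · obtain ⟨h1, h2⟩ := h i (by simp) (by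
      rw [List.length_map, Nat.size_eq_bits_len, not_le]
      exact (Nat.lt_size_self _).trans_le (Nat.le_mul_of_pos_right _ (Nat.pos_of_ne_zero h0)))
    exact Nat.div_eq_of_lt_le h1 (not_le.1 h2)
@[fun_prop] theorem Tm.mod (hf : Tm 𝒯 f) (hg : Tm 𝒯 g) : Tm 𝒯 (fun i => f i % g i) :=
  (hf.sub (hg.mul (hf.div hg))).congr fun _ _ => Nat.mod_def _ _
@[fun_prop] theorem Tm.dvd (hf : Tm 𝒯 f) (hg : Tm 𝒯 g) : Tm 𝒯 (fun i => f i ∣ g i) :=
  (hg.mod hf).isZero.congr fun _ _ => propext (Nat.dvd_iff_mod_eq_zero ..)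
theorem Tm.pow (hf : Tm 𝒯 f) (hg : Tm 𝒯 g) (h : 𝒯.mem g) : Tm 𝒯 (fun i => f i ^ g i) := by
  have e : ∀ (n a s : ℕ), (List.replicate n ()).foldl (fun y _ => y * a) s = s * a ^ n := by
    intro n a
    induction n with
    | zero => simp
    | succ n ih => intro s; rw [List.replicate_succ, List.foldl_cons, ih]; ring
  refine (Tm.foldlE (g := fun i y _ => y * f i) (hg.unary h) (Tm.const 1)
    (fun i n y => y = f i ^ n) (B := fun i => 4 * (sz (f i) * g i) + 6)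
    (Cls.lin (Mulc.mul hf.szb h) 4 6 fun _ _ => le_rfl)
    (fun i _ => by simp) (fun i _ n b _ y hy => by rw [hy, pow_succ])
    (fun i _ n hn y hy => ?_) fun _ => Tm.id.fst.snd.mul (hf.lift _)).congr
    fun i _ => by rw [e, one_mul]
  rw [List.length_replicate] at hn
  have h1 : y < 2 ^ (sz (f i) * g i + 1) := by
    rw [hy]
    refine lt_of_le_of_lt (Nat.pow_le_pow_left (lt_two_pow_sz _).le n) ?_
    rw [← pow_mul]
    exact Nat.pow_lt_pow_right one_lt_two (Nat.lt_succ_of_le (Nat.mul_le_mul_left _ hn))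
  have := sz_nat_lt h1
  omega
@[fun_prop] theorem Tm.zmul (hx : Tm 𝒯 x) (hy : Tm 𝒯 y) : Tm 𝒯 (fun i => x i * y i) :=
  (((hx.toNat.mul hy.toNat).add (hx.negPart.mul hy.negPart)).zdiff
    ((hx.toNat.mul hy.negPart).add (hx.negPart.mul hy.toNat))).congr fun i _ => by
    have h1 : x i = ((x i).toNat : ℤ) - (- x i).toNat := by omega
    have h2 : y i = ((y i).toNat : ℤ) - (- y i).toNat := by omega
    push_cast
    linear_combination (y i) * h1 + (((x i).toNat : ℤ) - (- x i).toNat) * h2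
@[fun_prop] theorem Tm.zdiv (hx : Tm 𝒯 x) (hg : Tm 𝒯 g) : Tm 𝒯 (fun i => x i / (g i : ℤ)) :=
  ((hx.toNat.div hg).zdiff (((hx.negPart.add hg).sub (Tm.const 1)).div hg)).congr
    fun _ _ => zdiv_eq _ _

theorem Tm.foldNat {l : ι → List ℕ} (hl : Tm 𝒯 l) (op : ℕ → ℕ → ℕ) {s : ℕ} (hs : s < 4)
    (hop : Tm (pt (ℕ × ℕ)) (fun p => op p.1 p.2))
    (hb : ∀ a b m n, a < 2 ^ (m + 1) → b < 2 ^ (n + 1) → op a b < 2 ^ (m + 1 + (n + 1))) :
    Tm 𝒯 (fun i => (l i).foldl op s) := by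
  refine Tm.foldlE (g := fun _ => op) hl (Tm.const s) (fun i n y => y < 2 ^ sz ((l i).take n))
    (B := fun i => 4 * sz (l i) + 2) (Cls.lin hl.szb 4 2 fun _ _ => le_rfl)
    (fun i _ => by simpa using hs) (fun i _ n b hb' y hy => ?_) (fun i _ n _ y hy => ?_)
    fun _ => hop.compPt (Tm.id.fst.snd.pair Tm.id.fst.fst)
  · have h1 := sz_append ((l i).take n) [b]
    have h2 := two_le_sz ((l i).take n)
    have h3 := two_le_sz b
    rw [List.take_add_one, Option.mem_def.1 hb', Option.toList_some,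
      show sz ((l i).take n ++ [b]) = (sz ((l i).take n) - 1) + 1 + ((sz b - 1) + 1) by
        simp at h1; omega]
    exact hb _ _ _ _ (by rwa [Nat.sub_add_cancel (by omega)])
      (by rw [Nat.sub_add_cancel (by omega)]; exact lt_two_pow_sz b)
  · have := sz_nat_lt hy
    have := sz_sublist (List.take_sublist n (l i))
    omega
@[fun_prop] theorem Tm.sum {l : ι → List ℕ} (hl : Tm 𝒯 l) : Tm 𝒯 (fun i => (l i).sum) :=
  (hl.foldNat (· + ·) (s := 0) (by omega) (Tm.id.fst.add Tm.id.snd) fun a b m n ha hb => by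
    have h1 : 2 ^ (m + 1) * 2 ≤ 2 ^ (m + 1) * 2 ^ (n + 1) :=
      Nat.mul_le_mul_left _ (Nat.le_self_pow (by omega) 2)
    have h2 : 2 * 2 ^ (n + 1) ≤ 2 ^ (m + 1) * 2 ^ (n + 1) :=
      Nat.mul_le_mul_right _ (Nat.le_self_pow (by omega) 2)
    rw [pow_add 2 (m + 1)]; omega).congr fun _ _ => List.sum_eq_foldl
@[fun_prop] theorem Tm.prod {l : ι → List ℕ} (hl : Tm 𝒯 l) : Tm 𝒯 (fun i => (l i).prod) :=
  (hl.foldNat (· * ·) (s := 1) (by omega) (Tm.id.fst.mul Tm.id.snd) fun a b m n ha hb => by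
    rw [pow_add 2 (m + 1)]; exact Nat.mul_lt_mul'' ha hb).congr fun _ _ => List.prod_eq_foldl
@[fun_prop] theorem Tm.log (hf : Tm 𝒯 f) (hg : Tm 𝒯 g) :
    Tm 𝒯 (fun i => Nat.log (f i) (g i)) := by
  have hb : ∀ n : ℕ, 2 ^ n.size ≤ 2 * n + 1 := fun n => by
    rcases n.eq_zero_or_pos with rfl | h
    · simp
    · have h1 := Nat.size_pos.2 h
      have h2 : 2 ^ (n.size - 1) ≤ n := Nat.lt_size.1 (by omega)
      rw [show n.size = n.size - 1 + 1 by omega, pow_succ]; omega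
  obtain ⟨r, hr, h⟩ := Tm.bsearch (P := fun i k => f i ^ k ≤ g i) hg.size.sizeU fun _ =>
    ((hf.lift _).pow Tm.id.fst (Cls.ext_of_le hg.szb fun k i _ hk => by
      rw [List.length_map, Nat.size_eq_bits_len] at hk
      have := hb (g i).size
      have := size_le_sz (g i)
      change k ≤ _
      omega)).le (hg.lift _)
  refine (((hf.le (Tm.const 1)).or hg.isZero).ite (Tm.const 0) hr).congr fun i _ => ?_
  split_ifs with h0
  · rcases h0 with h0 | h0
    · exact Nat.log_of_left_le_one h0 _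
    · rw [h0, Nat.log_zero_right]
  · obtain ⟨h1, h2⟩ := h i (by rw [pow_zero]; omega) (by
      rw [List.length_map, Nat.size_eq_bits_len, not_le]
      exact (Nat.lt_size_self _).trans_le ((Nat.pow_le_pow_right two_pos
        (Nat.lt_size_self _).le).trans (Nat.pow_le_pow_left (by omega) _)))
    exact Nat.log_eq_of_pow_le_of_lt_pow h1 (not_le.1 h2)
theorem Tm.rangeP (hf : Tm 𝒯 f) (h : 𝒯.mem f) : Tm 𝒯 (fun i => List.range (f i)) :=
  hf.range (Mulc.mul h (𝒯.mono hf.szb fun i _ => by have := size_le_sz (f i); omega))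
omit [Mulc 𝒯] in
theorem Cls.dom_lt (h : 𝒯.mem f) : Dom (𝒯.ext fun i (k : ℕ) => k < f i) :=
  Cls.dom_ext (Cls.lin h 4 2 fun _ _ => le_rfl) fun i k _ hk => by
    have := sz_nat_le k; omega
theorem Tm.sumRange {u : ι → ℕ → ℕ} (hf : Tm 𝒯 f) (h : 𝒯.mem f)
    (hu : Dom (𝒯.ext fun i (k : ℕ) => k < f i) →
      Tm (𝒯.ext fun i (k : ℕ) => k < f i) (fun p => u p.2 p.1)) :
    Tm 𝒯 (fun i => ∑ k ∈ Finset.range (f i), u i k) := by
  have e : (fun i (k : ℕ) => k ∈ List.range (f i)) = fun i k => k < f i := by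
    funext i k; exact propext List.mem_range
  exact (Tm.mapE (g := u) (hf.rangeP h) (by rw [e]; exact hu)).sum.congr fun i _ => by
    rw [Finset.sum, Finset.range_val, Multiset.range, Multiset.map_coe, Multiset.sum_coe]
theorem Tm.allRange {u : ι → ℕ → Prop} (hf : Tm 𝒯 f) (h : 𝒯.mem f)
    (hu : Dom (𝒯.ext fun i (k : ℕ) => k < f i) →
      Tm (𝒯.ext fun i (k : ℕ) => k < f i) (fun p => u p.2 p.1)) :
    Tm 𝒯 (fun i => ∀ k < f i, u i k) := by
  classical
  exact (Tm.sumRange (u := fun i k => if u i k then 0 else 1) hf h fun hd =>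
    (hu hd).ite (Tm.const 0) (Tm.const 1)).isZero.congr fun i _ => by
      simp [Finset.sum_eq_zero_iff]
theorem Tm.prime (hf : Tm 𝒯 f) (h : 𝒯.mem f) : Tm 𝒯 (fun i => (f i).Prime) :=
  (((Tm.const 2).le hf).and (Tm.allRange (u := fun i m => ¬ m ∣ f i ∨ m = 1) hf h fun _ =>
    (Tm.id.fst.dvd (hf.lift _)).not.or (Tm.id.fst.eq (Tm.const 1)))).congr fun i _ => by
      simp only [Nat.prime_def_lt, imp_iff_not_or (a := _ ∣ _)]
/-- The integer part of the `g`-th root. -/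
theorem Tm.root (hf : Tm 𝒯 f) (hg : Tm 𝒯 g) (h : 𝒯.mem g) : ∃ r : ι → ℕ, Tm 𝒯 r ∧
    ∀ i, 𝒯.dom i → 0 < g i → r i ^ g i ≤ f i ∧ f i < (r i + 1) ^ g i := by
  obtain ⟨r, hr, h'⟩ := Tm.bsearch (P := fun i k => k ^ g i ≤ f i) hf.sizeU fun _ =>
    (Tm.id.fst.pow (hg.lift _) (Cls.ext_mem _ h)).le (hf.lift _)
  refine ⟨r, hr, fun i _ h0 => ?_⟩
  obtain ⟨h1, h2⟩ := h' i (by rw [zero_pow h0.ne']; exact Nat.zero_le _) (by
    rw [List.length_map, Nat.size_eq_bits_len, not_le]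
    exact (Nat.lt_size_self _).trans_le (Nat.le_self_pow h0.ne' _))
  exact ⟨h1, not_le.1 h2⟩

end pol

end Vale.Agent.P338
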