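import Vale.Agent.P338.ArrDefs
import Vale.Agent.P338.NatOps

/-! Linear time passes over arrays. -/

namespace Vale.Agent.P338

theorem getElem?_flatten_of {α : Type} {n : ℕ} (L : List (List α)) (h : ∀ x ∈ L, x.length = n)
    (w : ℕ) {i : ℕ} (hi : i < n) : L.flatten[w * n + i]? = (L.getD w [])[i]? := by
  induction L generalizing w with
  | nil => simp
  | cons x L ih =>
    have hx := h x (by simp)
    cases w with
    | zero => simp [List.getElem?_append_left (hx ▸ hi)]
    | succ w =>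
      have := ih (fun y hy => h y (by simp [hy])) w
      rw [List.flatten_cons, List.getElem?_append_right (by rw [hx, add_mul]; omega), hx,
        List.getD_cons_succ, ← this]
      refine congrArg _ ?_
      rw [add_mul]; omega

theorem getD_flatten_of {α : Type} {n : ℕ} (L : List (List α)) (h : ∀ x ∈ L, x.length = n)
    (w : ℕ) {i : ℕ} (hi : i < n) (d : α) :
    L.flatten.getD (w * n + i) d = (L.getD w []).getD i d := by
  rw [List.getD_eq_getElem?_getD (l := L.flatten), getElem?_flatten_of L h w hi,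
    ← List.getD_eq_getElem?_getD]

theorem idx_decomp {i A R : ℕ} (h : i < A * R) : ∃ u < A, ∃ v < R, i = u * R + v := by
  have hR : 0 < R := Nat.pos_of_mul_pos_left (lt_of_le_of_lt (Nat.zero_le _) h)
  exact ⟨i / R, (Nat.div_lt_iff_lt_mul hR).2 h, i % R, Nat.mod_lt _ hR,
    (Nat.div_add_mod' i R).symm⟩

theorem getD_mem_of_lt {α : Type} {L : List α} {v : ℕ} (h : v < L.length) (d : α) :
    L.getD v d ∈ L := by
  rw [List.getD_eq_getElem _ _ h]
  exact List.getElem_mem h

theorem exists_getD_of_mem {α : Type} {L : List α} {x : α} (h : x ∈ L) (d : α) :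
    ∃ v < L.length, x = L.getD v d := by
  obtain ⟨v, hv, rfl⟩ := List.getElem_of_mem h
  exact ⟨v, hv, (List.getD_eq_getElem _ _ hv).symm⟩

theorem blocks_mem {A R C : ℕ} {l : List ℕ} (hl : l.length = A * R * C) (hR : 0 < R) (hC : 0 < C)
    {L : List (List ℕ)} (hL : L ∈ chunks R (chunks C l)) :
    L.length = R ∧ ∀ x ∈ L, x.length = C ∧ ∀ a ∈ x, a ∈ l :=
  ⟨length_of_mem_chunks hR (length_chunks hC hl) L hL, fun x hx =>
    ⟨length_of_mem_chunks hC hl x (mem_of_mem_chunks hL x hx),
      mem_of_mem_chunks (mem_of_mem_chunks hL x hx)⟩⟩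

theorem dg_eq {A R R' C : ℕ} {π : ℕ → ℕ → Option ℕ} {l : List ℕ} (hl : l.length = A * R * C)
    (hR : 0 < R) (hC : 0 < C) (F : ℕ × List (List ℕ) → List (List ℕ))
    (hF : ∀ u < A, ∀ L ∈ chunks R (chunks C l), (F (u, L)).length = R' ∧ ∀ v < R',
      (F (u, L)).getD v [] = (π u v).elim (List.replicate C 0) fun v' => L.getD v' [])
    (hπ : ∀ u < A, ∀ v < R', ∀ v' ∈ π u v, v' < R) :
    dg R R' C π l = (((List.range A).zip (chunks R (chunks C l))).map F).flatten.flatten := by
  have hZ : (chunks C l).length = A * R := length_chunks hC hl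
  have hX : (chunks R (chunks C l)).length = A := length_chunks hR hZ
  have hZ' := length_of_mem_chunks hC hl
  have hX' := length_of_mem_chunks hR hZ
  have fl1 := flatten_chunks hC l
  have fl2 := flatten_chunks hR (chunks C l)
  have hb := fun L (hL : L ∈ chunks R (chunks C l)) => blocks_mem hl hR hC hL
  generalize chunks R (chunks C l) = X at *
  generalize chunks C l = Z at *
  have hY : ∀ y ∈ ((List.range A).zip X).map F, ∃ u < A, ∃ L ∈ X, y = F (u, L) := by
    intro y hy
    obtain ⟨q, hq, rfl⟩ := List.mem_map.1 hy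
    obtain ⟨k1, k2⟩ := List.of_mem_zip (a := q.1) (b := q.2) hq
    exact ⟨q.1, List.mem_range.1 k1, q.2, k2, rfl⟩
  have hY1 : ∀ y ∈ ((List.range A).zip X).map F, y.length = R' := by
    intro y hy
    obtain ⟨u, hu, L, hL, rfl⟩ := hY y hy
    exact (hF u hu L hL).1
  have hY2 : ∀ z ∈ (((List.range A).zip X).map F).flatten, z.length = C := by
    intro z hz
    obtain ⟨y, hy, hzy⟩ := List.mem_flatten.1 hz
    obtain ⟨u, hu, L, hL, rfl⟩ := hY y hy
    obtain ⟨v, hv, rfl⟩ := exists_getD_of_mem hzy []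
    rw [(hF u hu L hL).1] at hv
    rw [(hF u hu L hL).2 v hv]
    cases e : π u v with
    | none => simp
    | some v' =>
      have := hπ u hu v hv v' e
      exact ((hb L hL).2 _ (getD_mem_of_lt (by rw [(hb L hL).1]; exact this) [])).1
  have hlen := length_dg (R' := R') π hR hC hl
  refine ext_gt ?_ fun i hi => ?_
  · rw [hlen, length_flatten_of _ hY2, length_flatten_of _ hY1]
    simp [hX]
  · rw [hlen] at hi
    obtain ⟨w, hw, c, hc, rfl⟩ := idx_decomp hi
    obtain ⟨u, hu, v, hv, rfl⟩ := idx_decomp hw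
    have hL : X.getD u [] ∈ X := getD_mem_of_lt (by omega) []
    have e1 : (((List.range A).zip X).map F).getD u [] = F (u, X.getD u []) := by
      rw [List.getD_eq_getElem _ _ (by simp; omega), List.getD_eq_getElem _ _ (by omega)]
      simp
    rw [gt_dg π hR hl hu hv hc, gt_flatten _ hY2 _ hc, getD_flatten_of _ hY1 _ hv, e1,
      (hF u hu _ hL).2 v hv]
    cases e : π u v with
    | none => simp [gt, List.getD_eq_getElem?_getD, hc]
    | some v' =>
      have := hπ u hu v hv v' e
      simp only [Option.elim_some]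
      rw [← fl1, gt_flatten _ hZ' _ hc, ← fl2, getD_flatten_of _ hX' _ this]

theorem sz_blocks {R C b : ℕ} {L : List (List ℕ)} (hL : L.length = R)
    (h : ∀ x ∈ L, x.length = C ∧ Bd (2 ^ b) x) (hR : 0 < R) (hC : 0 < C) :
    sz L ≤ 6 * (R * C * (b + 1)) := by
  have h1 := sz_le_of_forall L (B := C * (4 * b + 2) + 2) fun x hx => by
    have := (h x hx).2.sz_le
    rwa [(h x hx).1] at this
  rw [hL] at h1
  have h2 : R ≤ R * C := Nat.le_mul_of_pos_right _ hC
  have h3 : R * (C * (4 * b + 2) + 2) = 4 * (R * C * b) + 2 * (R * C) + 2 * R := by ring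
  have h4 : R * C * (b + 1) = R * C * b + R * C := by ring
  omega

theorem le_mul3 {A R C : ℕ} (hA : 0 < A) (hR : 0 < R) (hC : 0 < C) :
    A ≤ A * R * C ∧ R ≤ A * R * C ∧ C ≤ A * R * C ∧ A * R ≤ A * R * C :=
  ⟨(Nat.le_mul_of_pos_right _ hR).trans (Nat.le_mul_of_pos_right _ hC),
    (Nat.le_mul_of_pos_left _ hA).trans (Nat.le_mul_of_pos_right _ hC),
    Nat.le_mul_of_pos_left _ (Nat.mul_pos hA hR), Nat.le_mul_of_pos_right _ hC⟩

/-- A block of zeros of the same length. -/
def zer (x : List ℕ) : List ℕ := x.map fun _ => 0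

theorem zer_eq {x : List ℕ} {C : ℕ} (h : x.length = C) : zer x = List.replicate C 0 := by
  rw [zer, List.map_const', h]

theorem lin_zer : Tm (lin (List ℕ)) zer := Tm.map0 (Tm.const 0) Tm.id

theorem filter_range_nth (p : ℕ → Prop) [DecidablePred p] (R : ℕ) :
    ((List.range R).filter fun v => decide (p v)).length = Nat.count p R ∧
    ∀ v < Nat.count p R, ((List.range R).filter fun v => decide (p v))[v]? = some (Nat.nth p v) := by
  induction R with
  | zero => simp
  | succ R ih =>
    rw [List.range_succ, List.filter_append, Nat.count_succ]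
    by_cases h : p R
    · simp only [h, if_true, List.filter_cons, decide_true, List.filter_nil, List.length_append,
        ih.1, List.length_cons, List.length_nil]
      refine ⟨trivial, fun v hv => ?_⟩
      by_cases h2 : v < Nat.count p R
      · rw [List.getElem?_append_left (by rw [ih.1]; exact h2), ih.2 v h2]
      · have h3 : v = Nat.count p R := by omega
        rw [List.getElem?_append_right (by rw [ih.1]; omega), ih.1, h3, Nat.nth_count h]
        simp
    · simp only [h, if_false, List.filter_cons, decide_false, List.filter_nil, List.append_nil,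
        add_zero, Bool.false_eq_true]
      exact ih

theorem zip_mask (p : ℕ → Prop) [DecidablePred p] {R : ℕ} {L : List (List ℕ)}
    (hL : L.length = R) : ((List.range R).map fun v => decide (p v)).zip L =
      (List.range R).map fun v => (decide (p v), L.getD v []) := by
  refine List.ext_getElem (by simp [hL]) fun v h1 h2 => ?_
  have hv : v < L.length := by simp at h2; omega
  simp [List.getElem?_eq_getElem hv]

/-- One round of spreading a list along a mask. -/
def exStep {α : Type} (q : Bool × List α) : List α × List α :=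
  if q.1 = true then (q.2.take 1, q.2.tail) else ([], q.2)

theorem mapAcc_ex {α : Type} (p : ℕ → Prop) [DecidablePred p] (s : List α) (n a : ℕ) :
    (mapAcc exStep ((List.range' a n).map fun v => decide (p v)) (s.drop (Nat.count p a))).1 =
      (List.range' a n).map fun v => if p v then (s.drop (Nat.count p v)).take 1 else [] := by
  induction n generalizing a with
  | zero => rfl
  | succ n ih =>
    have := ih (a + 1)
    rw [Nat.count_succ] at this
    by_cases h : p a
    · simp only [h, if_true] at this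
      simp [List.range'_succ, mapAcc, exStep, h, this]
    · simp only [h, if_false, add_zero] at this
      simp [List.range'_succ, mapAcc, exStep, h, this]

theorem sz_mapAcc_ex {α : Type} [Enc α] (m : List Bool) (s : List α) :
    sz (mapAcc exStep m s).1 ≤ sz s + 2 * m.length := by
  induction m generalizing s with
  | nil => simpa [mapAcc] using two_le_sz s
  | cons b m ih =>
    cases b with
    | false =>
      have := ih s
      simp [mapAcc, exStep] at this ⊢
      omega
    | true =>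
      have := ih s.tail
      cases s with
      | nil => simp [mapAcc, exStep] at this ⊢; omega
      | cons a s => simp [mapAcc, exStep] at this ⊢; omega

theorem lin_ex {α : Type} [Enc α] :
    Tm (lin (List Bool × List α)) (fun p => (mapAcc exStep p.1 p.2).1) := by
  have h0 : Tm (ipc fun q : Bool × List α => sz (exStep q).1) exStep :=
    Tm.condP ipc_popF (Tm.pushP (𝒯 := ipc fun _ => 0) ([] : List α))
      (Cls.pays_big (fun _ _ => trivial) ⟨_, big_self _ _, fun a _ h => by simp [exStep, h]⟩)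
      (Cls.pays_big (fun _ _ => trivial) (Cls.const _ 0))
  have h4 : (lin (List Bool × List α)).mem (fun p => sz (mapAcc exStep p.1 p.2).1) :=
    big_of_le 1 0 fun p _ => by
      have := sz_mapAcc_ex p.1 p.2
      have := length_le_sz p.1
      rw [sz_prod]; omega
  refine (Tm.mapAccB h0 Tm.id.fst Tm.id.snd (fun _ _ _ _ => trivial)
    (Cls.mono _ h4 fun p _ => ?_) h4).fst
  rw [mapAcc_fst, sz_list, List.map_map]
  exact Nat.le_add_right _ _

variable {ι Θ δ : Type} [Enc ι] [Enc Θ] [Enc δ] {𝒯 : Cls ι} [Dom 𝒯] {b : ι → ℕ}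
  {l : ι → List ℕ} {A R R' B C Mo k : ι → ℕ} {θ : ι → Θ} {P : ℕ × Θ → Prop} {κ : ℕ × Θ → ℕ}

theorem ArrOK.range (h : ArrOK 𝒯 b l) {n : ι → ℕ} (hn : Tm 𝒯 n)
    (hle : ∀ i, 𝒯.dom i → n i ≤ (l i).length) : Tm 𝒯 (fun i => List.range (n i)) :=
  hn.range (𝒯.mono h.cost fun i hi => Nat.mul_le_mul (hle i hi)
    ((Nat.size_le.2 ((hle i hi).trans_lt (h.len i hi))).trans (Nat.le_succ _)))

theorem ArrOK.cnt (h : ArrOK 𝒯 b l) (hR : Tm 𝒯 R) (hC : Tm 𝒯 C)
    (hl : ∀ i, 𝒯.dom i → (l i).length = A i * R i * C i ∧ 0 < A i ∧ 0 < R i ∧ 0 < C i) :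
    Tm 𝒯 A :=
  (hR.chunks (hC.chunks h.tm)).length.congr fun i hi =>
    (length_chunks (hl i hi).2.2.1 (length_chunks (hl i hi).2.2.2 (hl i hi).1)).symm

/-- Generic rule: `op` rearranges the `R` blocks below each value `u` of the earlier digits. -/
theorem Tm.dg {π : ι → ℕ → ℕ → Option ℕ} {op : (ℕ × List (List ℕ)) × Θ → List (List ℕ)}
    {Q : (ℕ × List (List ℕ)) × Θ → Prop} {σ : (ℕ × List (List ℕ)) × Θ → ℕ} [Dom (big Q σ)]
    (hop : Tm (big Q σ) op) (h : ArrOK 𝒯 b l) (hθ : Tm 𝒯 θ) (hR : Tm 𝒯 R) (hC : Tm 𝒯 C)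
    (hl : ∀ i, 𝒯.dom i → (l i).length = A i * R i * C i ∧ 0 < A i ∧ 0 < R i ∧ 0 < C i)
    {c : ι → ℕ}
    (hs : ∀ i, 𝒯.dom i → ∀ u < A i, ∀ L : List (List ℕ), L.length = R i →
      (∀ x ∈ L, x.length = C i ∧ Bd (2 ^ b i) x) →
      Q ((u, L), θ i) ∧ σ ((u, L), θ i) ≤ c i ∧ (op ((u, L), θ i)).length = R' i ∧
      ∀ v < R' i, (op ((u, L), θ i)).getD v [] =
        (π i u v).elim (List.replicate (C i) 0) fun v' => L.getD v' [])
    (hπ : ∀ i, 𝒯.dom i → ∀ u < A i, ∀ v < R' i, ∀ v' ∈ π i u v, v' < R i)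
    (hc : 𝒯.mem fun i => A i * c i) :
    Tm 𝒯 (fun i => dg (R i) (R' i) (C i) (π i) (l i)) := by
  have hX := hR.chunks (hC.chunks h.tm)
  have hA := h.range (h.cnt hR hC hl) fun i hi => by
    obtain ⟨e, k1, k2, k3⟩ := hl i hi
    rw [e]; exact (le_mul3 k1 k2 k3).1
  have hb : ∀ i, 𝒯.dom i → ∀ L ∈ P338.chunks (R i) (P338.chunks (C i) (l i)),
      L.length = R i ∧ ∀ x ∈ L, x.length = C i ∧ Bd (2 ^ b i) x := by
    intro i hi L hL
    obtain ⟨e, _, k2, k3⟩ := hl i hi
    obtain ⟨k4, k5⟩ := blocks_mem e k2 k3 hL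
    exact ⟨k4, fun x hx => ⟨(k5 x hx).1, fun a ha => h.bd i hi a ((k5 x hx).2 a ha)⟩⟩
  have h1 := Tm.mapU hop (hA.zip hX) hθ (c := c) (fun i hi q hq => by
      obtain ⟨k1, k2⟩ := List.of_mem_zip (a := q.1) (b := q.2) hq
      obtain ⟨k3, k4, _⟩ := hs i hi q.1 (List.mem_range.1 k1) q.2 (hb i hi _ k2).1 (hb i hi _ k2).2
      exact ⟨k3, k4⟩)
    (𝒯.mono hc fun i _ => Nat.mul_le_mul_right _ (by simp))
  refine h1.flatten.flatten.congr fun i hi => ?_
  obtain ⟨e, _, k2, k3⟩ := hl i hi
  exact dg_eq e k2 k3 (fun q => op (q, θ i))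
    (fun u hu L hL => (hs i hi u hu L (hb i hi _ hL).1 (hb i hi _ hL).2).2.2) (hπ i hi)

/-- The generic rule for a linear time rearrangement with a small environment. -/
theorem Tm.dgL {π : ι → ℕ → ℕ → Option ℕ} {op : List (List ℕ) × Θ → List (List ℕ)}
    (hop : Tm (lin (List (List ℕ) × Θ)) op) (h : ArrOK 𝒯 b l) (hθ : Tm 𝒯 θ) (hR : Tm 𝒯 R)
    (hC : Tm 𝒯 C)
    (hl : ∀ i, 𝒯.dom i → (l i).length = A i * R i * C i ∧ 0 < A i ∧ 0 < R i ∧ 0 < C i)
    (hs : ∀ i, 𝒯.dom i → ∀ u < A i, ∀ L : List (List ℕ), L.length = R i →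
      (∀ x ∈ L, x.length = C i) → (op (L, θ i)).length = R' i ∧
      ∀ v < R' i, (op (L, θ i)).getD v [] =
        (π i u v).elim (List.replicate (C i) 0) fun v' => L.getD v' [])
    (hπ : ∀ i, 𝒯.dom i → ∀ u < A i, ∀ v < R' i, ∀ v' ∈ π i u v, v' < R i)
    (hc : 𝒯.mem fun i => A i * sz (θ i)) :
    Tm 𝒯 (fun i => P338.dg (R i) (R' i) (C i) (π i) (l i)) := by
  refine Tm.dg (Q := fun _ => True) (σ := sz) (op := fun q => op (q.1.2, q.2))
    (hop.comp (Tm.id.fst.snd.pair Tm.id.snd)) h hθ hR hC hl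
    (c := fun i => 4 * (b i + 1) + 6 * (R i * C i * (b i + 1)) + sz (θ i))
    (fun i hi u hu L hL hx => ⟨trivial, ?_, hs i hi u hu L hL fun x k => (hx x k).1⟩) hπ
    (𝒯.mono (𝒯.add (Cls.cmul h.cost 10) hc) fun i hi => ?_)
  · obtain ⟨e, k1, k2, k3⟩ := hl i hi
    have k4 := sz_blocks hL hx k2 k3
    have k5 : u < 2 ^ b i := by
      have := h.len i hi
      have := (le_mul3 k1 k2 k3).1
      omega
    have k6 := sz_nat_lt k5
    simp only [sz_pair]
    omega
  · obtain ⟨e, k1, k2, k3⟩ := hl i hi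
    have k4 := Nat.mul_le_mul_right (b i + 1) (le_mul3 k1 k2 k3).1
    have k5 : A i * (4 * (b i + 1) + 6 * (R i * C i * (b i + 1)) + sz (θ i))
        = 4 * (A i * (b i + 1)) + 6 * (A i * R i * C i * (b i + 1)) + A i * sz (θ i) := by ring
    rw [k5, e]
    omega

theorem rot_spec {α : Type} (L : List α) {Mo s v : ℕ} (hM : Mo ≤ L.length) (hs : s < Mo) :
    ((L.take Mo).drop s ++ (L.take Mo).take s ++ L.drop Mo)[v]? =
      L[if v < Mo then (v + s) % Mo else v]? := by
  by_cases h1 : v < Mo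
  · rw [if_pos h1, List.getElem?_append_left (by simp; omega)]
    by_cases h2 : v + s < Mo
    · rw [List.getElem?_append_left (by simp; omega), Nat.mod_eq_of_lt h2, List.getElem?_drop,
        List.getElem?_take_of_lt (by omega), add_comm]
    · have e2 : (v + s) % Mo = v + s - Mo := by
        rw [Nat.mod_eq_sub_mod (by omega), Nat.mod_eq_of_lt (by omega)]
      have e3 : (List.drop s (List.take Mo L)).length = Mo - s := by simp; omega
      rw [List.getElem?_append_right (by omega), e3, e2, List.getElem?_take_of_lt (by omega),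
        List.getElem?_take_of_lt (by omega)]
      exact congrArg _ (by omega)
  · have e3 : (List.drop s (List.take Mo L) ++ List.take s (List.take Mo L)).length = Mo := by
      simp; omega
    rw [if_neg h1, List.getElem?_append_right (by omega), e3, List.getElem?_drop]
    exact congrArg _ (by omega)

theorem shear_amount [Dom (poly P κ)] {f : ℕ × Θ → ℕ} (hf : Tm (poly P κ) f) :
    ∃ (T : ℕ × ℕ × Θ → ℕ) (c0 C0 : ℕ),
      Tm (big (fun q => P (q.1, q.2.2)) T) (fun q => f (q.1, q.2.2) % q.2.1) ∧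
      ∀ u m t, P (u, t) → T (u, m, t) + sz (u, m, t) ≤ C0 * (κ (u, t) + sz m + 1) ^ c0 := by
  have pay : (poly (fun q : ℕ × ℕ × Θ => P (q.1, q.2.2)) fun q => κ (q.1, q.2.2) + sz q.2.1).Pays
      (poly P κ) (fun q => (q.1, q.2.2)) :=
    Cls.pays_poly' (fun _ hq => hq) (Cls.mono _ (poly_self _ _) fun q _ => Nat.le_add_right _ _)
  have D : Dom (poly (fun q : ℕ × ℕ × Θ => P (q.1, q.2.2)) fun q => κ (q.1, q.2.2) + sz q.2.1) :=
    ⟨Cls.mono _ (Cls.add _ (pay.2 _ Dom.sz) (poly_self _ _)) fun q _ => by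
      simp only [sz_prod q, sz_prod q.2, sz_pair]; omega⟩
  have hF := (hf.compP (Tm.id.fst.pair Tm.id.snd.snd) pay).mod Tm.id.snd.fst
  obtain ⟨T, hT, hF'⟩ := hF.toBig
  obtain ⟨c0, C0, hb⟩ := Cls.add _ hT D.sz
  exact ⟨T, c0, C0, hF', fun u m t h => hb (u, m, t) h⟩

theorem shear_op {T : ℕ × ℕ × Θ → ℕ} {P' : ℕ × ℕ × Θ → Prop} {F : ℕ × ℕ × Θ → ℕ}
    (hF : Tm (big P' T) F) [Dom (big (fun q : (ℕ × List (List ℕ)) × ℕ × Θ => P' (q.1.1, q.2))
      fun q => T (q.1.1, q.2) + sz (q.1.1, q.2) + sz q.1.2)] :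
    Tm (big (fun q : (ℕ × List (List ℕ)) × ℕ × Θ => P' (q.1.1, q.2))
      fun q => T (q.1.1, q.2) + sz (q.1.1, q.2) + sz q.1.2)
      (fun q => (q.1.2.take q.2.1).drop (F (q.1.1, q.2)) ++ (q.1.2.take q.2.1).take (F (q.1.1, q.2))
        ++ q.1.2.drop q.2.1) := by
  have hs : Tm (big (fun q : (ℕ × List (List ℕ)) × ℕ × Θ => P' (q.1.1, q.2))
      fun q => T (q.1.1, q.2) + sz (q.1.1, q.2) + sz q.1.2) (fun q => F (q.1.1, q.2)) :=
    hF.compB (Tm.id.fst.fst.pair Tm.id.snd) (fun _ hq => hq)
      (big_of_le 1 0 fun q _ => by omega)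
  exact ((hs.drop (Tm.id.snd.fst.take Tm.id.fst.snd)).append
    (hs.take (Tm.id.snd.fst.take Tm.id.fst.snd))).append (Tm.id.snd.fst.drop Tm.id.fst.snd)

theorem Tm.shear [Dom (poly P κ)] {f : ℕ × Θ → ℕ} (hf : Tm (poly P κ) f) (h : ArrOK 𝒯 b l)
    (hθ : Tm 𝒯 θ) (hR : Tm 𝒯 R) (hM : Tm 𝒯 Mo) (hC : Tm 𝒯 C)
    (hl : ∀ i, 𝒯.dom i → (l i).length = A i * R i * C i ∧ 0 < A i ∧ 0 < Mo i ∧ Mo i ≤ R i ∧
      0 < C i)
    (hP : ∀ i, 𝒯.dom i → ∀ u < A i, P (u, θ i) ∧ κ (u, θ i) ≤ k i)
    (hk : ∀ c, 𝒯.mem fun i => A i * (k i + b i + 1) ^ c) :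
    Tm 𝒯 (fun i => shear (R i) (Mo i) (C i) (fun u => f (u, θ i)) (l i)) := by
  obtain ⟨T, c0, C0, hF, hb⟩ := shear_amount hf
  have D' : Dom (big (fun q : (ℕ × List (List ℕ)) × ℕ × Θ => P (q.1.1, q.2.2))
      fun q => T (q.1.1, q.2) + sz (q.1.1, q.2) + sz q.1.2) := ⟨big_of_le 1 0 fun q _ => by
    simp only [sz_prod q, sz_prod q.1, sz_pair]; omega⟩
  have hop := shear_op hF
  have hl' : ∀ i, 𝒯.dom i → (l i).length = A i * R i * C i ∧ 0 < A i ∧ 0 < R i ∧ 0 < C i :=
    fun i hi => by
      obtain ⟨e, k1, k2, k3, k4⟩ := hl i hi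
      exact ⟨e, k1, by omega, k4⟩
  refine Tm.dg (R' := R) (π := fun i u v => some (if v < Mo i then (v + f (u, θ i)) % Mo i else v))
    hop h (hM.pair hθ) hR hC hl'
    (c := fun i => C0 * (4 * (k i + b i + 1)) ^ c0 + 6 * (R i * C i * (b i + 1)))
    (fun i hi u hu L hL hx => ⟨(hP i hi u hu).1, ?_, ?_, fun v hv => ?_⟩) ?_
    (𝒯.mono (𝒯.add (Cls.cmul (hk c0) (C0 * 4 ^ c0)) (Cls.cmul h.cost 6)) fun i hi => ?_)
  · obtain ⟨e, k1, k2, k3, k4⟩ := hl i hi
    have k5 := sz_blocks hL hx (by omega) k4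
    have k6 := hb u (Mo i) (θ i) (hP i hi u hu).1
    have k7 : Mo i < 2 ^ b i := by
      have := h.len i hi
      have := (le_mul3 k1 (show 0 < R i by omega) k4).2.1
      omega
    have k8 := sz_nat_lt k7
    have k9 := (hP i hi u hu).2
    have k10 : C0 * (κ (u, θ i) + sz (Mo i) + 1) ^ c0 ≤ C0 * (4 * (k i + b i + 1)) ^ c0 :=
      Nat.mul_le_mul_left _ (Nat.pow_le_pow_left (by omega) _)
    exact Nat.add_le_add (k6.trans k10) k5
  · obtain ⟨e, k1, k2, k3, k4⟩ := hl i hi
    have := Nat.mod_lt (f (u, θ i)) k2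
    simp only [List.length_append, List.length_drop, List.length_take, hL]
    omega
  · obtain ⟨e, k1, k2, k3, k4⟩ := hl i hi
    have k5 := Nat.mod_lt (f (u, θ i)) k2
    have k6 := rot_spec L (v := v) (show Mo i ≤ L.length by omega) k5
    rw [Nat.add_mod_mod] at k6
    simp only [Option.elim_some, List.getD_eq_getElem?_getD, k6]
  · intro i hi u _ v hv v' hv'
    obtain ⟨e, k1, k2, k3, k4⟩ := hl i hi
    have k5 := Nat.mod_lt (v + f (u, θ i)) k2
    have : (if v < Mo i then (v + f (u, θ i)) % Mo i else v) = v' := Option.some.inj hv'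
    split_ifs at this <;> omega
  · obtain ⟨e, _⟩ := hl i hi
    rw [e, mul_pow]
    exact le_of_eq (by ring)

section
variable [Dom (poly P κ)] {p : ℕ × Θ → Prop} [DecidablePred p] (hp : Tm (poly P κ) p)
  (h : ArrOK 𝒯 b l) (hθ : Tm 𝒯 θ) (hR : Tm 𝒯 R) (hC : Tm 𝒯 C)
  (hl : ∀ i, 𝒯.dom i → (l i).length = A i * R i * C i ∧ 0 < A i ∧ 0 < R i ∧ 0 < C i)
  (hP : ∀ i, 𝒯.dom i → ∀ v < R i, P (v, θ i) ∧ κ (v, θ i) ≤ k i)
  (hk : ∀ c, 𝒯.mem fun i => R i * (k i + b i + 1) ^ c)
include hp h hθ hR hC hl hP hk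

omit hC in
theorem Tm.maskL : Tm 𝒯 (fun i => (List.range (R i)).map fun v => Decidable.decide (p (v, θ i))) ∧
    𝒯.mem fun i => A i * sz ((List.range (R i)).map fun v => Decidable.decide (p (v, θ i))) := by
  have hr := h.range hR fun i hi => by
    obtain ⟨e, k1, k2, k3⟩ := hl i hi
    rw [e]; exact (le_mul3 k1 k2 k3).2.1
  refine ⟨Tm.mapP hp.decide hr hθ (k := k) (fun i hi v hv => hP i hi v (List.mem_range.1 hv))
    fun c => 𝒯.mono (hk c) fun i _ => ?_, Cls.lin h.cost 6 0 fun i hi => ?_⟩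
  · rw [List.length_range]
    exact Nat.mul_le_mul_left _ (Nat.pow_le_pow_left (by omega) _)
  · obtain ⟨e, k1, k2, k3⟩ := hl i hi
    have k4 := sz_le_of_forall ((List.range (R i)).map fun v => Decidable.decide (p (v, θ i)))
      (B := 4) fun a _ => sz_bool a
    rw [List.length_map, List.length_range] at k4
    have k5 := Nat.mul_le_mul_left (A i) k4
    have k6 := le_mul3 k1 k2 k3
    have k7 : A i * (R i * 4 + 2) = 4 * (A i * R i) + 2 * A i := by ring
    have k8 : (l i).length ≤ (l i).length * (b i + 1) := Nat.le_mul_of_pos_right _ (by omega)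
    omega

omit hp hθ hR hC hP hk [Dom 𝒯] in
theorem ArrOK.small (hM' : ∀ i, 𝒯.dom i → Mo i ≤ R i) : 𝒯.mem fun i => A i * sz (Mo i) := by
  refine Cls.lin h.cost 4 0 fun i hi => ?_
  obtain ⟨e, k1, k2, k3⟩ := hl i hi
  have k6 := le_mul3 k1 k2 k3
  have k7 : Mo i < 2 ^ b i := by
    have := h.len i hi
    have := hM' i hi
    omega
  have k8 := sz_nat_lt k7
  have k9 : A i * sz (Mo i) ≤ (l i).length * (4 * (b i + 1)) := Nat.mul_le_mul (by omega) (by omega)
  rw [mul_left_comm] at k9
  omega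

theorem Tm.maskD : Tm 𝒯 (fun i => maskD (R i) (C i) (fun v => p (v, θ i)) (l i)) := by
  obtain ⟨hm, hm'⟩ := Tm.maskL hp h hθ hR hl hP hk
  have hop : Tm (lin (List (List ℕ) × List Bool))
      (fun q => List.zipWith (fun c x => if c = true then x else zer x) q.2 q.1) :=
    Tm.zipWith0 (Tm.id.fst.isTrue.ite Tm.id.snd (lin_zer.comp Tm.id.snd)) Tm.id.snd Tm.id.fst
  refine Tm.dgL hop h hm hR hC hl (fun i hi u _ L hL hx => ⟨by simp [hL], fun v hv => ?_⟩) ?_ hm'
  · have hv' : v < L.length := by omega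
    rw [List.getD_eq_getElem _ _ (by simp; omega)]
    by_cases hpv : p (v, θ i)
    · simp [hpv, List.getElem?_eq_getElem hv']
    · simp [hpv, zer_eq (hx _ (List.getElem_mem hv'))]
  · intro i _ u _ v hv v' hv'
    by_cases hpv : p (v, θ i)
    · have : v = v' := by simpa [hpv] using hv'
      omega
    · simp [hpv] at hv'

theorem Tm.expandD (hM : Tm 𝒯 Mo) (hM' : ∀ i, 𝒯.dom i → Mo i ≤ R i) :
    Tm 𝒯 (fun i => expandD (R i) (C i) (fun v => p (v, θ i)) (Mo i) (l i)) := by
  obtain ⟨hm, hm'⟩ := Tm.maskL hp h hθ hR hl hP hk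
  have hop : Tm (lin (List (List ℕ) × List Bool × ℕ))
      (fun q => List.zipWith (fun (y : List (List ℕ)) x => y.headD (zer x))
        (P338.mapAcc exStep q.2.1 (q.1.take q.2.2)).1 q.1) :=
    Tm.zipWith0 (Tm.id.fst.headD (lin_zer.comp Tm.id.snd))
      (lin_ex.comp (Tm.id.snd.fst.pair (Tm.id.snd.snd.take Tm.id.fst))) Tm.id.fst
  refine Tm.dgL hop h (hm.pair hM) hR hC hl (fun i hi u _ L hL hx => ?_) ?_
    (𝒯.mono (𝒯.add hm' (h.small hl hM')) fun i _ => by rw [sz_pair, mul_add])
  · have e := mapAcc_ex (fun v => p (v, θ i)) (L.take (Mo i)) (R i) 0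
    rw [Nat.count_zero, List.drop_zero, ← List.range_eq_range'] at e
    simp only [e]
    refine ⟨by simp [hL], fun v hv => ?_⟩
    have hv' : v < L.length := by omega
    have hMo := hM' i hi
    rw [List.getD_eq_getElem _ _ (by simp; omega)]
    simp only [List.getElem_zipWith, List.getElem_map, List.getElem_range,
      zer_eq (hx _ (List.getElem_mem hv'))]
    by_cases hpv : p (v, θ i)
    · generalize Nat.count (fun v => p (v, θ i)) v = n
      by_cases hn : n < Mo i
      · have hn' : n < L.length := by omega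
        simp [hpv, hn, List.head?_take, List.head?_drop, List.getElem?_eq_getElem hn']
      · rw [List.drop_of_length_le (by simp; omega)]
        simp [hn]
    · simp [hpv]
  · intro i hi u _ v hv v' hv'
    have hMo := hM' i hi
    split_ifs at hv' with h1
    · have : Nat.count (fun v => p (v, θ i)) v = v' := by simpa using hv'
      omega
    · simp at hv'

theorem Tm.compressD (hM : Tm 𝒯 Mo)
    (hM' : ∀ i, 𝒯.dom i → Mo i ≤ Nat.count (fun v => p (v, θ i)) (R i)) :
    Tm 𝒯 (fun i => compressD (R i) (C i) (fun v => p (v, θ i)) (Mo i) (l i)) := by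
  obtain ⟨hm, hm'⟩ := Tm.maskL hp h hθ hR hl hP hk
  have hMR : ∀ i, 𝒯.dom i → Mo i ≤ R i := fun i hi => (hM' i hi).trans (Nat.count_le _)
  have hop : Tm (lin (List (List ℕ) × List Bool × ℕ))
      (fun q => (((q.2.1.zip q.1).filter Prod.fst).map Prod.snd).take q.2.2
        ++ (q.1.drop q.2.2).map zer) :=
    (Tm.id.snd.snd.take (Tm.id.snd.fst.zip Tm.id.fst).select).append
      (Tm.map0 lin_zer (Tm.id.snd.snd.drop Tm.id.fst))
  refine Tm.dgL hop h (hm.pair hM) hR hC hl (fun i hi u _ L hL hx => ?_) ?_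
    (𝒯.mono (𝒯.add hm' (h.small hl hMR)) fun i _ => by rw [sz_pair, mul_add])
  · have hMo := hM' i hi
    have hMo' := hMR i hi
    obtain ⟨f1, f2⟩ := filter_range_nth (fun v => p (v, θ i)) (R i)
    have e : ((((List.range (R i)).map fun v => Decidable.decide (p (v, θ i))).zip L).filter
        Prod.fst).map Prod.snd = ((List.range (R i)).filter
          fun v => Decidable.decide (p (v, θ i))).map fun v => L.getD v [] := by
      rw [zip_mask (fun v => p (v, θ i)) hL, List.filter_map, List.map_map]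
      rfl
    simp only [e]
    have e3 : (List.take (Mo i) (((List.range (R i)).filter
        fun v => Decidable.decide (p (v, θ i))).map fun v => L.getD v [])).length = Mo i := by
      rw [List.length_take, List.length_map, f1]; omega
    refine ⟨by rw [List.length_append, e3]; simp; omega, fun v hv => ?_⟩
    rw [List.getD_eq_getElem?_getD]
    by_cases h1 : v < Mo i
    · rw [List.getElem?_append_left (by omega), List.getElem?_take_of_lt h1, List.getElem?_map,
        f2 v (by omega), if_pos h1]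
      rfl
    · have hv' : v < L.length := by omega
      rw [List.getElem?_append_right (by omega), e3, List.getElem?_map, List.getElem?_drop,
        show Mo i + (v - Mo i) = v by omega, List.getElem?_eq_getElem hv', if_neg h1]
      exact zer_eq (hx _ (List.getElem_mem hv'))
  · intro i hi u _ v hv v' hv'
    have hMo := hM' i hi
    split_ifs at hv' with h1
    · have : Nat.nth (fun v => p (v, θ i)) v = v' := by simpa using hv'
      rw [← this]
      exact Nat.nth_lt_of_lt_count (by omega)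
    · simp at hv'

end

section
variable (h : ArrOK 𝒯 b l) (hR : Tm 𝒯 R) (hC : Tm 𝒯 C)
  (hl : ∀ i, 𝒯.dom i → (l i).length = A i * R i * C i ∧ 0 < A i ∧ 0 < R i ∧ 0 < C i)
include h hR hC hl

theorem Tm.padD (hR' : Tm 𝒯 R') (hc : 𝒯.mem fun i => A i * R' i * C i * (b i + 1)) :
    Tm 𝒯 (fun i => padD (R i) (R' i) (C i) (l i)) := by
  let σ : (ℕ × List (List ℕ)) × ℕ → ℕ := fun q => sz q + q.2 * sz (zer (q.1.2.headD []))
  have D : Dom (ipc σ) := ⟨big_of_le 1 0 fun q _ => by simp only [σ]; omega⟩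
  have hop : Tm (ipc σ) (fun q =>
      (q.1.2 ++ List.replicate q.2 (zer (q.1.2.headD []))).take q.2) :=
    Tm.id.snd.take (Tm.id.fst.snd.append (Tm.id.snd.replicate
      (lin_zer.comp (Tm.id.fst.snd.headD (Tm.const [])))
      (big_of_le 1 0 fun q _ => by simp only [σ]; omega)))
  refine Tm.dg hop h hR' hR hC hl
    (c := fun i => 6 * (b i + 1) + 6 * (R i * C i * (b i + 1)) + 8 * (R' i * C i * (b i + 1)))
    (fun i hi u hu L hL hx => ?_) ?_
    (𝒯.mono (𝒯.add (Cls.cmul h.cost 12) (Cls.cmul hc 8)) fun i hi => ?_)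
  · obtain ⟨e, k1, k2, k3⟩ := hl i hi
    have hz : zer (L.headD []) = List.replicate (C i) 0 := by
      cases L with
      | nil => simp at hL; omega
      | cons x L => exact zer_eq (hx x (by simp)).1
    refine ⟨trivial, ?_, by simp, fun v hv => ?_⟩
    · have k4 := sz_blocks hL hx k2 k3
      have k5 : u < 2 ^ b i := by
        have := h.len i hi
        have := (le_mul3 k1 k2 k3).1
        omega
      have k6 := sz_nat_lt k5
      have k7 := sz_nat_le (R' i)
      have k8 : sz (0 : ℕ) = 2 := rfl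
      have k9 : R' i ≤ R' i * C i := Nat.le_mul_of_pos_right _ k3
      have k10 : R' i * C i ≤ R' i * C i * (b i + 1) := Nat.le_mul_of_pos_right _ (by omega)
      have k11 : R' i * (C i * 2 + 2) = 2 * (R' i * C i) + 2 * R' i := by ring
      simp only [σ, sz_pair, hz, sz_replicate, k8]
      omega
    · simp only [hz]
      rw [List.getD_eq_getElem?_getD, List.getElem?_take_of_lt hv]
      by_cases h1 : v < R i
      · rw [List.getElem?_append_left (by omega), if_pos h1, ← List.getD_eq_getElem?_getD]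
        rfl
      · rw [List.getElem?_append_right (by omega), if_neg h1,
          List.getElem?_replicate, if_pos (by omega)]
        rfl
  · intro i _ u _ v _ v' hv'
    split_ifs at hv' with h1
    · have : v = v' := by simpa using hv'
      omega
    · simp at hv'
  · obtain ⟨e, k1, k2, k3⟩ := hl i hi
    have k4 := Nat.mul_le_mul_right (b i + 1) (le_mul3 k1 k2 k3).1
    have k5 : A i * (6 * (b i + 1) + 6 * (R i * C i * (b i + 1)) + 8 * (R' i * C i * (b i + 1)))
        = 6 * (A i * (b i + 1)) + 6 * (A i * R i * C i * (b i + 1))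
          + 8 * (A i * R' i * C i * (b i + 1)) := by ring
    rw [k5, e]
    omega

theorem Tm.negD : Tm 𝒯 (fun i => negD (R i) (C i) (l i)) := by
  have hop : Tm (lin (List (List ℕ) × Unit)) (fun q => q.1.take 1 ++ q.1.tail.reverse) :=
    ((Tm.const 1).take Tm.id.fst).append Tm.id.fst.tail.reverse
  refine Tm.dgL hop h (Tm.const ()) hR hC hl (fun i hi u _ L hL hx => ?_) ?_
    (Cls.lin h.cost 2 0 fun i hi => ?_)
  · obtain ⟨e, k1, k2, k3⟩ := hl i hi
    cases L with
    | nil => simp at hL; omega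
    | cons x L =>
      rw [← hL]
      refine ⟨by simp, fun v hv => ?_⟩
      cases v with
      | zero => simp
      | succ v =>
        have hv' : v < L.length := by simpa using hv
        have e2 : ((x :: L).length - (v + 1)) % (x :: L).length = L.length - 1 - v + 1 := by
          rw [List.length_cons, Nat.mod_eq_of_lt (by omega)]; omega
        simp only [Option.elim_some, e2, List.getD_cons_succ]
        simp [List.getD_eq_getElem?_getD, List.getElem?_reverse hv']
  · intro i hi u _ v _ v' hv'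
    have : (R i - v) % R i = v' := by simpa using hv'
    rw [← this]
    exact Nat.mod_lt _ (hl i hi).2.2.1
  · obtain ⟨e, k1, k2, k3⟩ := hl i hi
    have k4 := (le_mul3 k1 k2 k3).1
    have k8 : (l i).length ≤ (l i).length * (b i + 1) := Nat.le_mul_of_pos_right _ (by omega)
    rw [sz_unit]
    omega

/-- The entrywise map uses a value `D` computed once for each block. -/
theorem Tm.mapD [Dom (poly P κ)] {D : ℕ × Θ → δ} (hD : Tm (poly P κ) D) (hθ : Tm 𝒯 θ)
    (hP : ∀ i, 𝒯.dom i → ∀ v < R i, P (v, θ i) ∧ κ (v, θ i) ≤ k i)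
    (hk : ∀ c, 𝒯.mem fun i => A i * R i * (k i + b i + 1) ^ c)
    {Q : ℕ × δ → Prop} {σ : ℕ × δ → ℕ} [Dom (big Q σ)] {g : ℕ × δ → ℕ} (hg : Tm (big Q σ) g)
    {c : ι → ℕ} (hQ : ∀ i, 𝒯.dom i → ∀ v < R i, ∀ x ∈ l i,
      Q (x, D (v, θ i)) ∧ σ (x, D (v, θ i)) ≤ c i)
    (hc : 𝒯.mem fun i => (l i).length * c i) :
    Tm 𝒯 (fun i => mapD (R i) (C i) (fun v x => g (x, D (v, θ i))) (l i)) := by
  have hr := h.range hR fun i hi => by
    obtain ⟨e, k1, k2, k3⟩ := hl i hi
    rw [e]; exact (le_mul3 k1 k2 k3).2.1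
  have hDl : Tm 𝒯 (fun i => (List.range (R i)).map fun v => D (v, θ i)) :=
    Tm.mapP hD hr hθ (k := k) (fun i hi v hv => hP i hi v (List.mem_range.1 hv))
      fun c => 𝒯.mono (hk c) fun i hi => by
        rw [List.length_range]
        exact Nat.mul_le_mul (Nat.le_mul_of_pos_left _ (hl i hi).2.1)
          (Nat.pow_le_pow_left (by omega) _)
  obtain ⟨c0, C0, hb⟩ := hD.szb
  have hDa : Tm 𝒯 (fun i => (List.replicate (A i)
      ((List.range (R i)).map fun v => D (v, θ i))).flatten) := by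
    refine ((h.cnt hR hC hl).replicate hDl
      (𝒯.mono (𝒯.add (Cls.cmul (hk c0) C0) (Cls.cmul h.cost 2)) fun i hi => ?_)).flatten
    obtain ⟨e, k1, k2, k3⟩ := hl i hi
    have k4 := sz_le_of_forall ((List.range (R i)).map fun v => D (v, θ i))
      (B := C0 * (k i + b i + 1) ^ c0) fun a ha => by
        obtain ⟨v, hv, rfl⟩ := List.mem_map.1 ha
        obtain ⟨k5, k6⟩ := hP i hi v (List.mem_range.1 hv)
        exact (hb _ k5).trans (Nat.mul_le_mul_left _ (Nat.pow_le_pow_left (by omega) _))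
    rw [List.length_map, List.length_range] at k4
    have k5 := Nat.mul_le_mul_left (A i) k4
    have k6 : A i * (R i * (C0 * (k i + b i + 1) ^ c0) + 2)
        = C0 * (A i * R i * (k i + b i + 1) ^ c0) + 2 * A i := by ring
    have k7 := (le_mul3 k1 k2 k3).1
    have k8 : (l i).length ≤ (l i).length * (b i + 1) := Nat.le_mul_of_pos_right _ (by omega)
    omega
  have hZ := (hC.chunks h.tm).zip hDa
  let P2 : (List ℕ × δ) × Unit → Prop := fun q => ∀ x ∈ q.1.1, Q (x, q.1.2)
  let τ2 : (List ℕ × δ) × Unit → ℕ := fun q => sz q + (q.1.1.map fun x => σ (x, q.1.2)).sum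
  have D2 : Dom (big P2 τ2) := ⟨big_of_le 1 0 fun q _ => by simp only [τ2]; omega⟩
  have hin : Tm (big P2 τ2) (fun q => q.1.1.map fun x => g (x, q.1.2)) :=
    Tm.mapB hg Tm.id.fst.fst Tm.id.fst.snd (fun _ hq => hq)
      (big_of_le 1 0 fun q _ => by simp only [τ2]; omega)
  have hq : ∀ i, 𝒯.dom i → ∀ q ∈ (P338.chunks (C i) (l i)).zip (List.replicate (A i)
      ((List.range (R i)).map fun v => D (v, θ i))).flatten, q.1.length = C i ∧
        ∀ x ∈ q.1, Q (x, q.2) ∧ σ (x, q.2) ≤ c i := by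
    intro i hi q hq
    obtain ⟨e, k1, k2, k3⟩ := hl i hi
    obtain ⟨k4, k5⟩ := List.of_mem_zip (a := q.1) (b := q.2) hq
    obtain ⟨y, k6, k7⟩ := List.mem_flatten.1 k5
    rw [List.eq_of_mem_replicate k6] at k7
    obtain ⟨v, hv, k8⟩ := List.mem_map.1 k7
    refine ⟨length_of_mem_chunks k3 e _ k4, fun x hx => ?_⟩
    rw [← k8]
    exact hQ i hi v (List.mem_range.1 hv) x (mem_of_mem_chunks k4 x hx)
  have hout := Tm.mapB hin hZ (Tm.const ()) (fun i hi q k x hx => ((hq i hi q k).2 x hx).1)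
    (𝒯.mono (𝒯.add (Cls.cmul hZ.szb 2) hc) fun i hi => by
      obtain ⟨e, k1, k2, k3⟩ := hl i hi
      have k4 := length_chunks k3 e
      have k5 := hq i hi
      have k6 : ((P338.chunks (C i) (l i)).zip (List.replicate (A i)
          ((List.range (R i)).map fun v => D (v, θ i))).flatten).length ≤ A i * R i := by
        rw [List.length_zip, k4]; exact min_le_left _ _
      generalize (P338.chunks (C i) (l i)).zip (List.replicate (A i)
          ((List.range (R i)).map fun v => D (v, θ i))).flatten = W at k5 k6 ⊢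
      have k7 : (W.map fun q => (q.1.map fun x => σ (x, q.2)).sum).sum ≤ W.length * (C i * c i) :=
        sum_le_of_forall fun q k => by
          rw [← (k5 q k).1]
          exact sum_le_of_forall fun x hx => ((k5 q k).2 x hx).2
      have k8 : W.length * (C i * c i) ≤ (l i).length * c i := by
        rw [e, mul_assoc (A i * R i)]
        exact Nat.mul_le_mul_right _ k6
      have k9 := sz_list W
      have k10 := length_le_sz W
      simp only [τ2, sz_pair, sz_unit, List.sum_map_add, List.map_const', List.sum_replicate,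
        smul_eq_mul]
      omega)
  refine hout.flatten.congr fun i hi => ?_
  obtain ⟨e, k1, k2, k3⟩ := hl i hi
  have k4 := length_chunks k3 e
  have k5 : ∀ y ∈ List.replicate (A i) ((List.range (R i)).map fun v => D (v, θ i)),
      y.length = R i := fun y hy => by rw [List.eq_of_mem_replicate hy]; simp
  have k6 := length_flatten_of _ k5
  rw [List.length_replicate] at k6
  have k7 : ∀ y ∈ ((P338.chunks (C i) (l i)).zip (List.replicate (A i)
      ((List.range (R i)).map fun v => D (v, θ i))).flatten).map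
        (fun q => q.1.map fun x => g (x, q.2)), y.length = C i := by
    intro y hy
    obtain ⟨q, k, rfl⟩ := List.mem_map.1 hy
    rw [List.length_map]
    exact (hq i hi q k).1
  refine ext_gt ?_ fun j hj => ?_
  · rw [length_mapD, length_flatten_of _ k7, List.length_map, List.length_zip, k4, k6, min_self, e]
  · rw [length_mapD] at hj
    rw [gt_mapD _ _ _ hj]
    rw [e] at hj
    obtain ⟨w, hw, c, hc, rfl⟩ := idx_decomp hj
    have k8 : (List.replicate (A i) ((List.range (R i)).map fun v => D (v, θ i))).flatten[w]?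
        = some (D (w % R i, θ i)) := by
      obtain ⟨u, hu, v, hv, rfl⟩ := idx_decomp hw
      rw [getElem?_flatten_of _ k5 _ hv, idx_mod hv, List.getD_eq_getElem _ _ (by simpa using hu)]
      simp [hv]
    have k9 : gt (l i) (w * C i + c) = gt ((P338.chunks (C i) (l i)).getD w []) c := by
      conv_lhs => rw [← flatten_chunks k3 (l i)]
      exact gt_flatten _ (length_of_mem_chunks k3 e) _ hc
    have k10 : w < (P338.chunks (C i) (l i)).length := by omega
    have k11 := length_of_mem_chunks k3 e _ (List.getElem_mem k10)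
    rw [gt_flatten _ k7 _ hc, idx_div hc, k9, List.getD_eq_getElem _ _ k10,
      List.getD_eq_getElem _ _ (by simp only [List.length_map, List.length_zip]; omega)]
    obtain ⟨_, k12⟩ := List.getElem?_eq_some_iff.1 k8
    simp only [List.getElem_map, List.getElem_zip, k12]
    rw [gt_eq (l := List.map _ _) (by rw [List.length_map]; omega), gt_eq (by omega),
      List.getElem_map]

end

end Vale.Agent.P338
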