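import Vale.Agent.P338.ListOps

/-! Arrays of naturals with a mixed radix index. -/

namespace Vale.Agent.P338

/-- Entry of an array. -/
def gt (l : List ℕ) (i : ℕ) : ℕ := l.getD i 0

/-- Array given by a function. -/
def tab (n : ℕ) (f : ℕ → ℕ) : List ℕ := (List.range n).map f

/-- All entries are below `B`. -/
def Bd (B : ℕ) (l : List ℕ) : Prop := ∀ x ∈ l, x < B

/-- Rearrangement along one digit: the index `(u, v, c)` with `v < R'`, `c < C` receives the
entry `(u, π u v, c)` of the old array, whose digit has range `R`, or zero. -/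
def dg (R R' C : ℕ) (π : ℕ → ℕ → Option ℕ) (l : List ℕ) : List ℕ :=
  tab (l.length / (R * C) * R' * C) fun i =>
    (π (i / C / R') (i / C % R')).elim 0 fun v => gt l ((i / C / R' * R + v) * C + i % C)

/-- Exchange of two digits of range `R` in the index `(a, x, b, y, c)`, `b < B`, `c < C`. -/
def swap (R B C : ℕ) (l : List ℕ) : List ℕ :=
  tab l.length fun i =>
    gt l ((((i / C / R / B / R * R + i / C % R) * B + i / C / R % B) * R + i / C / R / B % R) * C
      + i % C)

/-- Rotation of the first `Mo` values of a digit by an amount depending on the earlier digits. -/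
def shear (R Mo C : ℕ) (f : ℕ → ℕ) : List ℕ → List ℕ :=
  dg R R C fun u v => some (if v < Mo then (v + f u) % Mo else v)

/-- Zero outside `p`. -/
def maskD (R C : ℕ) (p : ℕ → Prop) [DecidablePred p] : List ℕ → List ℕ :=
  dg R R C fun _ v => if p v then some v else none

/-- Put the first `Mo` values of a digit on the values satisfying `p`. -/
def expandD (R C : ℕ) (p : ℕ → Prop) [DecidablePred p] (Mo : ℕ) : List ℕ → List ℕ :=
  dg R R C fun _ v => if p v ∧ Nat.count p v < Mo then some (Nat.count p v) else none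

/-- The inverse rearrangement. -/
noncomputable def compressD (R C : ℕ) (p : ℕ → Prop) (Mo : ℕ) : List ℕ → List ℕ :=
  dg R R C fun _ v => if v < Mo then some (Nat.nth p v) else none

/-- Change of the range of a digit, by padding with zeros or by truncation. -/
def padD (R R' C : ℕ) : List ℕ → List ℕ := dg R R' C fun _ v => if v < R then some v else none

/-- Negation of a digit. -/
def negD (R C : ℕ) : List ℕ → List ℕ := dg R R C fun _ v => some ((R - v) % R)

/-- Multiplication of a digit. -/
def scaleD (R C p : ℕ) : List ℕ → List ℕ := dg R R C fun _ v => some (p * v % R)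

/-- Entrywise map depending on one digit. -/
def mapD (R C : ℕ) (h : ℕ → ℕ → ℕ) (l : List ℕ) : List ℕ :=
  tab l.length fun i => h (i / C % R) (gt l i)

@[simp] theorem length_tab (n : ℕ) (f : ℕ → ℕ) : (tab n f).length = n := by simp [tab]

theorem gt_tab {n i : ℕ} (f : ℕ → ℕ) (h : i < n) : gt (tab n f) i = f i := by
  simp [gt, tab, List.getD_eq_getElem?_getD, h]

theorem gt_of_le {l : List ℕ} {i : ℕ} (h : l.length ≤ i) : gt l i = 0 := by
  simp [gt, List.getD_eq_getElem?_getD, List.getElem?_eq_none h]

theorem gt_eq {l : List ℕ} {i : ℕ} (h : i < l.length) : gt l i = l[i] := by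
  simp [gt, List.getD_eq_getElem?_getD, h]

theorem gt_mem {l : List ℕ} {i : ℕ} (h : i < l.length) : gt l i ∈ l := by
  rw [gt_eq h]; exact List.getElem_mem h

theorem ext_gt {l l' : List ℕ} (h : l.length = l'.length) (h' : ∀ i < l.length, gt l i = gt l' i) :
    l = l' := List.ext_getElem h fun i h1 h2 => by rw [← gt_eq h1, ← gt_eq h2, h' i h1]

theorem Bd.gt {B : ℕ} {l : List ℕ} (h : Bd B l) (hB : 0 < B) (i : ℕ) : gt l i < B := by
  by_cases hi : i < l.length
  · exact h _ (gt_mem hi)
  · rwa [gt_of_le (by omega)]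

theorem bd_tab {B n : ℕ} {f : ℕ → ℕ} (h : ∀ i < n, f i < B) : Bd B (tab n f) := by
  intro x hx
  obtain ⟨i, hi, rfl⟩ := List.mem_map.1 hx
  exact h i (List.mem_range.1 hi)

theorem Bd.mono {B B' : ℕ} {l : List ℕ} (h : Bd B l) (hB : B ≤ B') : Bd B' l :=
  fun x hx => (h x hx).trans_le hB

theorem Bd.sz_le {b : ℕ} {l : List ℕ} (h : Bd (2 ^ b) l) : sz l ≤ l.length * (4 * b + 2) + 2 :=
  sz_le_of_forall l fun a ha => sz_nat_lt (h a ha)

theorem length_dg {A R R' C : ℕ} (π : ℕ → ℕ → Option ℕ) {l : List ℕ} (hR : 0 < R) (hC : 0 < C)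
    (h : l.length = A * R * C) : (dg R R' C π l).length = A * R' * C := by
  rw [dg, length_tab, h, mul_assoc A, Nat.mul_div_cancel _ (Nat.mul_pos hR hC)]

theorem idx_lt {u v A R : ℕ} (hu : u < A) (hv : v < R) : u * R + v < A * R := by
  nlinarith

theorem idx_div {u v R : ℕ} (hv : v < R) : (u * R + v) / R = u := by
  rw [mul_comm, Nat.mul_add_div (by omega), Nat.div_eq_of_lt hv, add_zero]

theorem idx_mod {u v R : ℕ} (hv : v < R) : (u * R + v) % R = v := by
  rw [mul_comm, Nat.mul_add_mod, Nat.mod_eq_of_lt hv]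

theorem gt_dg {A R R' C : ℕ} (π : ℕ → ℕ → Option ℕ) {l : List ℕ} (hR : 0 < R)
    (h : l.length = A * R * C) {u v c : ℕ} (hu : u < A) (hv : v < R') (hc : c < C) :
    gt (dg R R' C π l) ((u * R' + v) * C + c) =
      (π u v).elim 0 fun v' => gt l ((u * R + v') * C + c) := by
  have h1 := length_dg (R' := R') π hR (by omega) h
  rw [dg, length_tab] at h1
  rw [dg, h1, gt_tab _ (idx_lt (idx_lt hu hv) hc), idx_div hc, idx_mod hc, idx_div hv, idx_mod hv]

theorem bd_dg {B R R' C : ℕ} (π : ℕ → ℕ → Option ℕ) {l : List ℕ} (h : Bd B l) (hB : 0 < B) :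
    Bd B (dg R R' C π l) := bd_tab fun i _ => by
  cases π (i / C / R') (i / C % R') with
  | none => exact hB
  | some v => exact h.gt hB _

@[simp] theorem length_swap (R B C : ℕ) (l : List ℕ) : (swap R B C l).length = l.length :=
  length_tab _ _

theorem gt_swap {A R B C : ℕ} {l : List ℕ} (h : l.length = A * R * B * R * C) {a x b y c : ℕ}
    (ha : a < A) (hx : x < R) (hb : b < B) (hy : y < R) (hc : c < C) :
    gt (swap R B C l) ((((a * R + x) * B + b) * R + y) * C + c) =
      gt l ((((a * R + y) * B + b) * R + x) * C + c) := by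
  rw [swap, h, gt_tab _ (idx_lt (idx_lt (idx_lt (idx_lt ha hx) hb) hy) hc), idx_div hc, idx_mod hc,
    idx_div hy, idx_mod hy, idx_div hb, idx_mod hb, idx_div hx, idx_mod hx]

theorem bd_swap {B' R B C : ℕ} {l : List ℕ} (h : Bd B' l) (hB : 0 < B') :
    Bd B' (swap R B C l) := bd_tab fun _ _ => h.gt hB _

@[simp] theorem length_mapD (R C : ℕ) (h : ℕ → ℕ → ℕ) (l : List ℕ) :
    (mapD R C h l).length = l.length := length_tab _ _

theorem gt_mapD (R C : ℕ) (h : ℕ → ℕ → ℕ) {l : List ℕ} {i : ℕ} (hi : i < l.length) :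
    gt (mapD R C h l) i = h (i / C % R) (gt l i) := gt_tab _ hi

/-- Piece number `w` of length `n`. -/
def piece (n w : ℕ) (l : List ℕ) : List ℕ := (l.drop (w * n)).take n

theorem length_piece {n w k : ℕ} {l : List ℕ} (h : l.length = k * n) (hw : w < k) :
    (piece n w l).length = n := by
  have := idx_lt hw (Nat.lt_succ_self n)
  have h2 : (w + 1) * n ≤ k * n := Nat.mul_le_mul_right _ hw
  simp only [piece, List.length_take, List.length_drop, h]
  rw [add_mul] at h2
  omega

theorem gt_piece {n w i : ℕ} (l : List ℕ) (hi : i < n) : gt (piece n w l) i = gt l (w * n + i) := by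
  simp [gt, piece, List.getD_eq_getElem?_getD, hi]

theorem bd_piece {B n w : ℕ} {l : List ℕ} (h : Bd B l) : Bd B (piece n w l) :=
  fun x hx => h x (List.mem_of_mem_drop (List.mem_of_mem_take hx))

theorem gt_flatten {n : ℕ} (L : List (List ℕ)) (h : ∀ x ∈ L, x.length = n) (w : ℕ) {i : ℕ}
    (hi : i < n) : gt L.flatten (w * n + i) = gt (L.getD w []) i := by
  induction L generalizing w with
  | nil => simp [gt]
  | cons x L ih =>
    have hx := h x (by simp)
    cases w with
    | zero => simp [gt, List.getD_eq_getElem?_getD, List.getElem?_append_left (hx ▸ hi)]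
    | succ w =>
      have := ih (fun y hy => h y (by simp [hy])) w
      simp only [gt, List.getD_eq_getElem?_getD, List.flatten_cons, List.getElem?_cons_succ] at *
      rw [List.getElem?_append_right (by rw [hx, add_mul]; omega), hx, ← this]
      congr 2
      rw [add_mul]; omega

theorem length_flatten_of {α : Type} {n : ℕ} (L : List (List α)) (h : ∀ x ∈ L, x.length = n) :
    L.flatten.length = L.length * n := by
  induction L with
  | nil => simp
  | cons x L ih =>
    rw [List.flatten_cons, List.length_append, ih fun y hy => h y (by simp [hy]), h x (by simp),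
      List.length_cons]
    ring

/-- Hypotheses on an array argument: words and indices have at most `b` bits, and the class pays
for one pass. -/
structure ArrOK {ι : Type} [Enc ι] (𝒯 : Cls ι) (b : ι → ℕ) (l : ι → List ℕ) : Prop where
  tm : Tm 𝒯 l
  bd : ∀ i, 𝒯.dom i → Bd (2 ^ b i) (l i)
  len : ∀ i, 𝒯.dom i → (l i).length < 2 ^ b i
  cost : 𝒯.mem fun i => (l i).length * (b i + 1)

end Vale.Agent.P338
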