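import Mathlib

/-! Numerical lemmas for the total cost. -/

namespace Vale.Agent.P338.AsymAux

open Real

/-- `f` is at most a constant times `x ^ t`. -/
def Sm {ι : Type} (x : ι → ℝ) (t : ℝ) (f : ι → ℝ) : Prop :=
  ∃ K : ℝ, 0 ≤ K ∧ ∀ i, f i ≤ K * x i ^ t

variable {ι : Type} {x : ι → ℝ}

theorem Sm.of_le {t : ℝ} {f g : ι → ℝ} (h : Sm x t g) (hf : ∀ i, f i ≤ g i) : Sm x t f := by
  obtain ⟨K, hK, h⟩ := h
  exact ⟨K, hK, fun i => (hf i).trans (h i)⟩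

theorem Sm.mono (hx : ∀ i, 1 ≤ x i) {t s : ℝ} {f : ι → ℝ} (h : Sm x t f) (hts : t ≤ s) :
    Sm x s f := by
  obtain ⟨K, hK, h⟩ := h
  exact ⟨K, hK, fun i => (h i).trans
    (mul_le_mul_of_nonneg_left (rpow_le_rpow_of_exponent_le (hx i) hts) hK)⟩

theorem Sm.add {t : ℝ} {f g : ι → ℝ} (h1 : Sm x t f) (h2 : Sm x t g) :
    Sm x t (fun i => f i + g i) := by
  obtain ⟨K, hK, h1⟩ := h1
  obtain ⟨L, hL, h2⟩ := h2
  refine ⟨K + L, by positivity, fun i => ?_⟩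
  have := h1 i
  have := h2 i
  linarith [add_mul K L (x i ^ t)]

theorem Sm.mul (hx : ∀ i, 1 ≤ x i) {t s : ℝ} {f g : ι → ℝ} (h1 : Sm x t f) (h2 : Sm x s g)
    (hg : ∀ i, 0 ≤ g i) : Sm x (t + s) (fun i => f i * g i) := by
  obtain ⟨K, hK, h1⟩ := h1
  obtain ⟨L, hL, h2⟩ := h2
  refine ⟨K * L, by positivity, fun i => ?_⟩
  have hx0 : 0 < x i := lt_of_lt_of_le one_pos (hx i)
  calc f i * g i ≤ (K * x i ^ t) * (L * x i ^ s) :=
        mul_le_mul (h1 i) (h2 i) (hg i) (by positivity)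
    _ = K * L * x i ^ (t + s) := by rw [rpow_add hx0]; ring

theorem Sm.const (c : ℝ) : Sm x 0 (fun _ => c) :=
  ⟨|c|, abs_nonneg c, fun i => by simpa using le_abs_self c⟩

theorem Sm.cmul {t : ℝ} {f : ι → ℝ} (c : ℝ) (hc : 0 ≤ c) (h : Sm x t f) :
    Sm x t (fun i => c * f i) := by
  obtain ⟨K, hK, h⟩ := h
  refine ⟨c * K, by positivity, fun i => ?_⟩
  rw [mul_assoc]
  exact mul_le_mul_of_nonneg_left (h i) hc

theorem Sm.self : Sm x 1 x := ⟨1, zero_le_one, fun i => by simp⟩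

theorem Sm.root (hx : ∀ i, 1 ≤ x i) {t : ℝ} {f : ι → ℝ}
    (h : Sm x (5 * t) (fun i => f i ^ 5)) : Sm x t f := by
  obtain ⟨K, hK, h⟩ := h
  refine ⟨K + 1, by positivity, fun i => ?_⟩
  have hx0 : 0 < x i := lt_of_lt_of_le one_pos (hx i)
  have h1 : K ≤ (K + 1) ^ 5 := by
    have : (K + 1) ^ 1 ≤ (K + 1) ^ 5 := pow_le_pow_right₀ (by linarith) (by norm_num)
    linarith [pow_one (K + 1)]
  have h2 : x i ^ (5 * t) = (x i ^ t) ^ 5 := by
    rw [mul_comm, rpow_mul hx0.le]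
    exact_mod_cast rpow_natCast (x i ^ t) 5
  refine le_of_pow_le_pow_left₀ (n := 5) (by norm_num) (by positivity) ?_
  calc f i ^ 5 ≤ K * x i ^ (5 * t) := h i
    _ ≤ (K + 1) ^ 5 * (x i ^ t) ^ 5 := by
        rw [h2]; exact mul_le_mul_of_nonneg_right h1 (by positivity)
    _ = ((K + 1) * x i ^ t) ^ 5 := by rw [mul_pow]

theorem size_eq (k : ℕ) (hk : 1 ≤ k) : k.size = Nat.log 2 k + 1 := by
  apply le_antisymm
  · exact Nat.size_le.2 (Nat.lt_pow_succ_log_self one_lt_two k)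
  · exact Nat.lt_size.2 (Nat.pow_log_le_self 2 (by omega))

theorem log_le (k : ℕ) (hk : 1 ≤ k) : (Nat.log 2 k : ℝ) * Real.log 2 ≤ Real.log k := by
  have h : ((2 : ℝ) ^ Nat.log 2 k) ≤ k := by
    exact_mod_cast Nat.pow_log_le_self 2 (by omega : k ≠ 0)
  have := Real.log_le_log (by positivity) h
  rwa [Real.log_pow] at this

theorem le_log (k : ℕ) (hk : 1 ≤ k) : Real.log k ≤ (Nat.log 2 k : ℝ) + 1 := by
  have h : (k : ℝ) ≤ (2 : ℝ) ^ (Nat.log 2 k + 1) := by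
    exact_mod_cast (Nat.lt_pow_succ_log_self one_lt_two k).le
  have h1 := Real.log_le_log (by exact_mod_cast hk) h
  rw [Real.log_pow] at h1
  have h2 := Real.log_two_lt_d9
  have h3 : (0 : ℝ) ≤ ((Nat.log 2 k + 1 : ℕ) : ℝ) := by positivity
  have h4 : ((Nat.log 2 k + 1 : ℕ) : ℝ) * Real.log 2 ≤ ((Nat.log 2 k + 1 : ℕ) : ℝ) * 1 :=
    mul_le_mul_of_nonneg_left (by linarith) h3
  push_cast at h4 h1
  linarith

theorem size_le_log (n : ℕ) (hn : 2 ≤ n) : (n.size : ℝ) ≤ 3 * Real.log n := by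
  rw [size_eq n (by omega)]
  have h1 := log_le n (by omega)
  have h2 := Real.log_two_gt_d9
  have h3 : Real.log 2 ≤ Real.log n := Real.log_le_log (by norm_num) (by exact_mod_cast hn)
  have h4 : (0 : ℝ) ≤ Nat.log 2 n := by positivity
  have h5 : (Nat.log 2 n : ℝ) * 0.69 ≤ (Nat.log 2 n : ℝ) * Real.log 2 :=
    mul_le_mul_of_nonneg_left (by linarith) h4
  push_cast
  linarith

theorem size_le_rpow (e : ℝ) (he : 0 < e) (k : ℕ) (hk : 1 ≤ k) :
    (k.size : ℝ) ≤ (2 / e + 1) * (k : ℝ) ^ e := by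
  rw [size_eq k hk]
  have h1 := log_le k hk
  have h2 := Real.log_two_gt_d9
  have hk1 : (1 : ℝ) ≤ k := by exact_mod_cast hk
  have h3 := Real.log_le_rpow_div (x := (k : ℝ)) (by positivity) he
  have h4 : (0 : ℝ) ≤ Nat.log 2 k := by positivity
  have h5 : (Nat.log 2 k : ℝ) * 0.5 ≤ (Nat.log 2 k : ℝ) * Real.log 2 :=
    mul_le_mul_of_nonneg_left (by linarith) h4
  have h6 : (1 : ℝ) ≤ (k : ℝ) ^ e := one_le_rpow hk1 he.le
  have h7 : (2 / e + 1) * (k : ℝ) ^ e = 2 * ((k : ℝ) ^ e / e) + (k : ℝ) ^ e := by ring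
  push_cast
  linarith

/-- A power of two with a small exponent. -/
theorem two_pow_le (k m : ℕ) (hk : 1 ≤ k) (t : ℝ) (ht : 0 ≤ t)
    (h : (m : ℝ) ≤ t * Nat.log 2 k) : (2 : ℝ) ^ m ≤ (k : ℝ) ^ t := by
  have h1 : ((2 : ℝ) ^ Nat.log 2 k) ≤ k := by
    exact_mod_cast Nat.pow_log_le_self 2 (by omega : k ≠ 0)
  calc (2 : ℝ) ^ m = (2 : ℝ) ^ (m : ℝ) := (rpow_natCast 2 m).symm
    _ ≤ (2 : ℝ) ^ ((Nat.log 2 k : ℝ) * t) :=
        rpow_le_rpow_of_exponent_le one_le_two (by linarith [mul_comm t (Nat.log 2 k : ℝ)])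
    _ = ((2 : ℝ) ^ Nat.log 2 k) ^ t := by rw [rpow_mul zero_le_two, rpow_natCast]
    _ ≤ (k : ℝ) ^ t := rpow_le_rpow (by positivity) h1 ht

/-- The contraction factor. -/
noncomputable def th : ℝ := 1 - 1 / (289 * 2 ^ 30)

theorem th_pos : 0 < th := by unfold th; norm_num

theorem th_le_one : th ≤ 1 := by unfold th; norm_num

theorem th_inv : 1 / 289 ≤ th := by unfold th; norm_num

theorem th_pow_le (m : ℕ) : th ^ m ≤ Real.exp (-(m / (289 * 2 ^ 30))) := by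
  have h : th ≤ Real.exp (-(1 / (289 * 2 ^ 30))) := by
    have := Real.add_one_le_exp (-(1 / (289 * 2 ^ 30)) : ℝ)
    unfold th
    linarith
  calc th ^ m ≤ Real.exp (-(1 / (289 * 2 ^ 30))) ^ m := pow_le_pow_left₀ th_pos.le h m
    _ = Real.exp (-(m / (289 * 2 ^ 30))) := by
        rw [← Real.exp_nat_mul]; congr 1; ring

theorem th_big (j r : ℕ) (hr : r = 2 ^ 43 * j) : (289 : ℝ) ^ j * th ^ r ≤ th ^ j := by
  have h1 := th_pow_le r
  have h2 : (289 : ℝ) * 289 ≤ Real.exp 12 := by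
    have h3 : (2.7 : ℝ) ≤ Real.exp 1 := by linarith [Real.exp_one_gt_d9]
    calc (289 : ℝ) * 289 ≤ 2.7 ^ 12 := by norm_num
      _ ≤ Real.exp 1 ^ 12 := pow_le_pow_left₀ (by norm_num) h3 12
      _ = Real.exp 12 := by rw [← Real.exp_nat_mul]; norm_num
  have h3 : ((289 : ℝ) * 289) ^ j ≤ Real.exp (12 * j) := by
    calc ((289 : ℝ) * 289) ^ j ≤ Real.exp 12 ^ j := pow_le_pow_left₀ (by norm_num) h2 j
      _ = Real.exp (12 * j) := by rw [← Real.exp_nat_mul, mul_comm]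
  have h4 : Real.exp (12 * j) * Real.exp (-(r / (289 * 2 ^ 30))) ≤ 1 := by
    rw [← Real.exp_add]
    apply Real.exp_le_one_iff.2
    have hj : (0 : ℝ) ≤ j := by positivity
    have : (r : ℝ) = 2 ^ 43 * j := by rw [hr]; push_cast; norm_num
    rw [this]
    have h5 : (2 : ℝ) ^ 43 * j / (289 * 2 ^ 30) = 8192 / 289 * j := by ring
    rw [h5]
    linarith
  have h5 : ((289 : ℝ) * 289) ^ j * th ^ r ≤ 1 :=
    (mul_le_mul h3 h1 (pow_nonneg th_pos.le _) (by positivity)).trans h4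
  have h6 : ((1 : ℝ) / 289) ^ j ≤ th ^ j := pow_le_pow_left₀ (by norm_num) th_inv j
  refine le_trans ?_ h6
  rw [one_div_pow, le_div_iff₀ (by positivity)]
  rw [mul_pow] at h5
  linarith [mul_right_comm ((289 : ℝ) ^ j) (th ^ r) (289 ^ j)]

theorem th_small (k j : ℕ) (hk : 1 ≤ k) (hj : j = Nat.log 2 k / 2 ^ 53) :
    th ^ j ≤ Real.exp 1 * (k : ℝ) ^ (-(1 / 2 ^ 92 : ℝ)) := by
  have h1 := th_pow_le j
  have h2 := le_log k hk
  have h3 : Nat.log 2 k < 2 ^ 53 * (j + 1) := by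
    rw [hj]; exact Nat.lt_mul_div_succ _ (by positivity)
  have h4 : (Nat.log 2 k : ℝ) + 1 ≤ 2 ^ 53 * (j + 1) := by exact_mod_cast h3
  have hk0 : (0 : ℝ) < k := by exact_mod_cast hk
  refine h1.trans ?_
  rw [rpow_def_of_pos hk0, ← Real.exp_add]
  apply Real.exp_le_exp.2
  have hj0 : (0 : ℝ) ≤ j := by positivity
  have h5 : Real.log k ≤ 2 ^ 53 * (j + 1) := h2.trans h4
  have h6 : Real.log k * (1 / 2 ^ 92) ≤ 2 ^ 53 * (j + 1) * (1 / 2 ^ 92) :=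
    mul_le_mul_of_nonneg_right h5 (by positivity)
  have h7 : (2 : ℝ) ^ 53 * (j + 1) * (1 / 2 ^ 92) = j / 2 ^ 39 + 1 / 2 ^ 39 := by ring
  have h8 : (j : ℝ) / 2 ^ 39 ≤ j / (289 * 2 ^ 30) :=
    div_le_div_of_nonneg_left hj0 (by positivity) (by norm_num)
  have h9 : (1 : ℝ) / 2 ^ 39 ≤ 1 := by norm_num
  linarith

theorem div_le (r : ℕ) :
    (((289 * 2 ^ 30 - 1) ^ r / (2 ^ 30) ^ r : ℕ) : ℝ) ≤ 289 ^ r * th ^ r := by
  refine Nat.cast_div_le.trans (le_of_eq ?_)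
  rw [← mul_pow, Nat.cast_pow, Nat.cast_pow, ← div_pow]
  congr 1
  unfold th
  norm_num

/-- The bound for the number of passes of a gate layer. -/
theorem gc_le (C X y p q T T1 A A1 t0 s j r : ℝ) (hC : 0 ≤ C) (hX : 0 ≤ X) (hp : 1 ≤ p)
    (hq : 1 ≤ q) (hpq : p * p ≤ q) (hT : 0 ≤ T) (hT' : T ≤ 1) (hT1 : 0 ≤ T1) (hT1' : T1 ≤ 1)
    (hpT : 1 ≤ p * T) (hpT1 : p * T1 ≤ T) (hA : A ≤ p * T) (hA10 : 0 ≤ A1)
    (hA1 : A1 ≤ q * T1) (ht0 : 0 ≤ t0) (ht : t0 * p ≤ X) (hs0 : 0 ≤ s) (hs : s * q ≤ C * X)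
    (hj0 : 0 ≤ j) (hj : j + 1 ≤ y) (hr0 : 0 ≤ r) (hr : r + 1 ≤ y) :
    (A + 1) * (t0 + 1 + (j + 1) * ((A1 + 1) * (s + r + 1))) ≤
      2 * (X * T) + 2 * q + 4 * C * (y * (X * T)) + 4 * (y * y * (q * q)) := by
  have hp0 : 0 ≤ p := by linarith
  have hq0 : 0 ≤ q := by linarith
  have hy0 : 0 ≤ y := by linarith
  have hpq' : p ≤ q := by nlinarith
  have a1 : A + 1 ≤ 2 * (p * T) := by linarith
  have a2 : p * T ≤ p := by nlinarith
  have b1 : (A + 1) * (t0 + 1) ≤ 2 * (X * T) + 2 * q := by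
    have h1 : (A + 1) * (t0 + 1) ≤ 2 * (p * T) * (t0 + 1) :=
      mul_le_mul_of_nonneg_right a1 (by linarith)
    have h2 : t0 * p * T ≤ X * T := mul_le_mul_of_nonneg_right ht hT
    nlinarith
  have c1 : p * (A1 * s) ≤ C * (X * T) := by
    have h1 : A1 * s ≤ q * T1 * s := mul_le_mul_of_nonneg_right hA1 hs0
    have h2 : s * q * T1 ≤ C * X * T1 := mul_le_mul_of_nonneg_right hs hT1
    have h3 : A1 * s ≤ C * X * T1 := by linarith [mul_comm (q * T1) s, mul_assoc s q T1]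
    have h4 : p * (A1 * s) ≤ p * (C * X * T1) := mul_le_mul_of_nonneg_left h3 hp0
    have h5 : C * X * (p * T1) ≤ C * X * T := mul_le_mul_of_nonneg_left hpT1 (by positivity)
    nlinarith
  have c2 : p * s ≤ C * (X * T) := by
    have h1 : p * s * 1 ≤ p * s * (p * T) := mul_le_mul_of_nonneg_left hpT (by positivity)
    have h2 : p * p * (s * T) ≤ q * (s * T) := mul_le_mul_of_nonneg_right hpq (by positivity)
    have h3 : s * q * T ≤ C * X * T := mul_le_mul_of_nonneg_right hs hT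
    nlinarith
  have c3 : p * ((A1 + 1) * (r + 1)) ≤ 2 * (y * (q * q)) := by
    have h1 : q * T1 ≤ q := by nlinarith
    have h2 : A1 + 1 ≤ 2 * q := by linarith
    have h3 : (A1 + 1) * (r + 1) ≤ 2 * q * y := mul_le_mul h2 hr (by linarith) (by positivity)
    have h4 : p * ((A1 + 1) * (r + 1)) ≤ q * (2 * q * y) :=
      mul_le_mul hpq' h3 (by positivity) hq0
    nlinarith
  have c4 : p * ((A1 + 1) * (s + r + 1)) ≤ 2 * C * (X * T) + 2 * (y * (q * q)) := by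
    have : p * ((A1 + 1) * (s + r + 1)) = p * (A1 * s) + p * s + p * ((A1 + 1) * (r + 1)) := by
      ring
    linarith
  have d1 : (A + 1) * ((j + 1) * ((A1 + 1) * (s + r + 1))) ≤
      2 * p * (y * ((A1 + 1) * (s + r + 1))) :=
    mul_le_mul (by linarith) (mul_le_mul_of_nonneg_right hj (by positivity)) (by positivity)
      (by positivity)
  have d2 : y * (p * ((A1 + 1) * (s + r + 1))) ≤ y * (2 * C * (X * T) + 2 * (y * (q * q))) :=
    mul_le_mul_of_nonneg_left c4 hy0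
  nlinarith

end Vale.Agent.P338.AsymAux
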