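import Vale.Agent.P338.Params
import Vale.Agent.P338.AsymAux

/-! The total cost. -/

namespace Vale.Agent.P338

open AsymAux

theorem tc_bound (C : ℕ) : ∃ K : ℝ, 0 ≤ K ∧ ∀ (n : ℕ) (c : Cf), 2 ≤ n → Fits C n c →
    (c.tc : ℝ) ≤ K * (n.size : ℝ) ^ (2 - (1 : ℝ) / 2 ^ 100) := by
  let ι := {p : ℕ × Cf // 2 ≤ p.1 ∧ Fits C p.1 p.2}
  let x : ι → ℝ := fun i => (i.1.1.size : ℝ)
  let y : ι → ℝ := fun i => (i.1.1.size.size : ℝ)
  have hk : ∀ i : ι, 1 ≤ i.1.1.size := fun i => Nat.size_pos.2 (by have := i.2.1; omega)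
  have hx : ∀ i, 1 ≤ x i := fun i => by
    have := hk i
    simp only [x]
    exact_mod_cast this
  have hy0 : ∀ i, 0 ≤ y i := fun i => by simp only [y]; positivity
  have hC : (0 : ℝ) ≤ C := by positivity
  have Sy : Sm x (1 / 2 ^ 97) y :=
    ⟨_, by positivity, fun i => size_le_rpow (1 / 2 ^ 97) (by positivity) _ (hk i)⟩
  have hu : ∀ i : ι, 2 ^ 53 * i.1.2.r2 ≤ Nat.log 2 i.1.1.size := fun i => by
    rw [i.2.2.r2]; exact Nat.mul_div_le _ _
  have hu' : ∀ i : ι, 1024 * i.1.2.r1 ≤ Nat.log 2 i.1.1.size := fun i => by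
    have := hu i
    have h1 := i.2.2.r1
    omega
  have hr : ∀ i : ι, 2 * i.1.2.r2 ≤ i.1.2.r1 ∧ 30 * i.1.2.r2 ≤ i.1.2.r1 := fun i => by
    have h1 := i.2.2.r1
    omega
  have Sq : Sm x (1 / 100) (fun i => (289 : ℝ) ^ i.1.2.r1) := by
    refine ⟨1, zero_le_one, fun i => ?_⟩
    rw [one_mul]
    have h1 : (289 : ℝ) ^ i.1.2.r1 ≤ 2 ^ (9 * i.1.2.r1) := by
      rw [pow_mul]; exact pow_le_pow_left₀ (by norm_num) (by norm_num) _
    refine h1.trans (two_pow_le _ _ (hk i) _ (by norm_num) ?_)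
    have h2 : (1024 : ℝ) * i.1.2.r1 ≤ Nat.log 2 i.1.1.size := by exact_mod_cast hu' i
    have h3 : (0 : ℝ) ≤ i.1.2.r1 := by positivity
    push_cast
    linarith
  have SE : Sm x (1 / 32) (fun i => (i.1.2.E : ℝ)) := by
    refine ⟨1, zero_le_one, fun i => ?_⟩
    rw [one_mul]
    have h1 : (i.1.2.E : ℝ) = 2 ^ (30 * (i.1.2.r1 + i.1.2.r2)) := by
      rw [Cf.E, Wn, ← pow_mul]; push_cast; rfl
    refine h1.le.trans (two_pow_le _ _ (hk i) _ (by norm_num) ?_)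
    have h2 : (1024 : ℝ) * i.1.2.r1 ≤ Nat.log 2 i.1.1.size := by exact_mod_cast hu' i
    have h3 : (30 : ℝ) * i.1.2.r2 ≤ i.1.2.r1 := by exact_mod_cast (hr i).2
    have h4 : (0 : ℝ) ≤ i.1.2.r1 := by positivity
    push_cast
    linarith
  have ST : Sm x (-(1 / 2 ^ 92)) (fun i => th ^ i.1.2.r2) :=
    ⟨Real.exp 1, by positivity, fun i => th_small _ _ (hk i) i.2.2.r2⟩
  have hT0 : ∀ i : ι, 0 ≤ th ^ i.1.2.r2 := fun i => pow_nonneg th_pos.le _
  have SXT : Sm x (1 + -(1 / 2 ^ 92)) (fun i => x i * th ^ i.1.2.r2) := Sm.self.mul hx ST hT0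
  have hx0 : ∀ i, 0 ≤ x i := fun i => zero_le_one.trans (hx i)
  have Sg : Sm x (1 - 1 / 2 ^ 92 + 1 / 2 ^ 97) (fun i => (i.1.2.gc : ℝ)) := by
    have g1 := (SXT.cmul 2 zero_le_two).mono hx (s := 1 - 1 / 2 ^ 92 + 1 / 2 ^ 97) (by norm_num)
    have g2 := (Sq.cmul 2 zero_le_two).mono hx (s := 1 - 1 / 2 ^ 92 + 1 / 2 ^ 97) (by norm_num)
    have g3 := ((Sy.mul hx SXT (fun i => mul_nonneg (hx0 i) (hT0 i))).cmul (4 * C)
      (by positivity)).mono hx (s := 1 - 1 / 2 ^ 92 + 1 / 2 ^ 97) (by norm_num)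
    have g4 := (((Sy.mul hx Sy hy0).mul hx (Sq.mul hx Sq (fun i => by positivity))
      (fun i => by positivity)).cmul 4 (by norm_num)).mono hx
      (s := 1 - 1 / 2 ^ 92 + 1 / 2 ^ 97) (by norm_num)
    refine (((g1.add g2).add g3).add g4).of_le fun i => ?_
    have hs := size_eq _ (hk i)
    have hy1 : (i.1.2.r1 : ℝ) + 1 ≤ y i := by
      have : i.1.2.r1 + 1 ≤ i.1.1.size.size := by have := hu' i; omega
      simp only [y]
      exact_mod_cast this
    have hy2 : (i.1.2.r2 : ℝ) + 1 ≤ y i := by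
      have : i.1.2.r2 + 1 ≤ i.1.1.size.size := by have := hu' i; have := hr i; omega
      simp only [y]
      exact_mod_cast this
    have key := gc_le C (x i) (y i) (289 ^ i.1.2.r2) (289 ^ i.1.2.r1) (th ^ i.1.2.r2)
      (th ^ i.1.2.r1) ((Nn ^ i.1.2.r2 / Wn ^ i.1.2.r2 : ℕ) : ℝ)
      ((Nn ^ i.1.2.r1 / Wn ^ i.1.2.r1 : ℕ) : ℝ) i.1.2.t0 i.1.2.μ.size i.1.2.r2 i.1.2.r1 hC (hx0 i)
      (one_le_pow₀ (by norm_num)) (one_le_pow₀ (by norm_num))
      (by
        rw [← pow_add]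
        exact pow_le_pow_right₀ (by norm_num) (by have := hr i; omega))
      (hT0 i) (pow_le_one₀ th_pos.le th_le_one) (pow_nonneg th_pos.le _)
      (pow_le_one₀ th_pos.le th_le_one)
      (by
        rw [← mul_pow]
        exact one_le_pow₀ (by linarith [th_inv]))
      (th_big _ _ i.2.2.r1) (div_le _) (by positivity) (div_le _) (by positivity)
      (by simp only [x]; exact_mod_cast i.2.2.t0) (by positivity)
      (by simp only [x]; exact_mod_cast i.2.2.mu) (by positivity) hy2 (by positivity) hy1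
    refine le_trans (le_of_eq ?_) key
    rw [Cf.gc, Cf.sw, swc]
    push_cast
    ring
  have Sb : Sm x (1 + 3 / 2 ^ 97) (fun i => (i.1.2.b : ℝ) + 1) := by
    have g1 := ((Sm.self.mul hx ((Sy.mul hx Sy hy0).mul hx Sy hy0)
      (fun i => by have := hy0 i; positivity)).cmul C hC).mono hx (s := 1 + 3 / 2 ^ 97)
      (by norm_num)
    refine g1.of_le fun i => ?_
    have h : ((i.1.2.b + 1 : ℕ) : ℝ) ≤ ((C * i.1.1.size * i.1.1.size.size ^ 3 : ℕ) : ℝ) := by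
      exact_mod_cast i.2.2.b
    push_cast at h
    refine h.trans (le_of_eq ?_)
    simp only [x, y]
    ring
  have Sa : Sm x (1 / 2 ^ 97) (fun i => (i.1.2.a : ℝ) + 1) :=
    (Sy.cmul C hC).of_le fun i => by simp only [y]; exact_mod_cast i.2.2.a
  have Sr : Sm x (1 / 2 ^ 97) (fun i => (i.1.2.ρ : ℝ) + 1) :=
    (Sy.cmul C hC).of_le fun i => by simp only [y]; exact_mod_cast i.2.2.rho
  have Sk : Sm x (17 / 10) (fun i => (kc i.1.2.b : ℝ)) := by
    apply Sm.root hx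
    have b2 := Sb.mul hx Sb (fun i => by positivity)
    have b4 := b2.mul hx b2 (fun i => by positivity)
    have b8 := ((b4.mul hx b4 (fun i => by positivity)).cmul 256 (by norm_num)).mono hx
      (s := 5 * (17 / 10)) (by norm_num)
    refine b8.of_le fun i => ?_
    have h : ((kc i.1.2.b ^ 5 : ℕ) : ℝ) ≤ ((256 * (i.1.2.b + 1) ^ 8 : ℕ) : ℝ) := by
      exact_mod_cast kc_pow_le i.1.2.b
    push_cast at h
    refine h.trans (le_of_eq ?_)
    ring
  have t1 := (Sr.mul hx (Sa.mul hx (Sb.mul hx Sg (fun i => by positivity))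
    (fun i => by positivity)) (fun i => by positivity)).mono hx (s := 2 - 1 / 2 ^ 100)
    (by norm_num)
  have t2 := (Sr.mul hx (Sa.mul hx Sk (fun i => by positivity))
    (fun i => by positivity)).mono hx (s := 2 - 1 / 2 ^ 100) (by norm_num)
  have t3 := ((SE.mul hx SE (fun i => by positivity)).mul hx Sb
    (fun i => by positivity)).mono hx (s := 2 - 1 / 2 ^ 100) (by norm_num)
  have t4 := (SE.mul hx Sk (fun i => by positivity)).mono hx (s := 2 - 1 / 2 ^ 100)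
    (by norm_num)
  obtain ⟨K, hK, h⟩ := ((t1.add t2).add t3).add t4
  refine ⟨K, hK, fun n c hn hF => ?_⟩
  refine le_trans (le_of_eq ?_) (h ⟨(n, c), hn, hF⟩)
  rw [Cf.tc, Cf.rc]
  push_cast
  ring

theorem cost_bound (C : ℕ) : ∃ C' : ℝ, ∀ (n : ℕ) (c : Cf), 2 ≤ n → Fits C n c →
    ((c.E * c.R * c.R * c.R * c.tc : ℕ) : ℝ) ≤
      C' * n * (Real.log n) ^ (1 - (1 : ℝ) / 2 ^ 100) := by
  obtain ⟨K, hK, h⟩ := tc_bound C
  refine ⟨3 * C * K, fun n c hn hF => ?_⟩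
  have h1 := h n c hn hF
  have hk : (0 : ℝ) < n.size := by exact_mod_cast Nat.size_pos.2 (by omega : 0 < n)
  have h2 : ((c.E * c.R * c.R * c.R : ℕ) : ℝ) * n.size ≤ C * n := by exact_mod_cast hF.len
  have h3 := size_le_log n hn
  have he0 : (0 : ℝ) ≤ 1 - 1 / 2 ^ 100 := by norm_num
  have he1 : (1 : ℝ) - 1 / 2 ^ 100 ≤ 1 := by norm_num
  have he2 : (2 : ℝ) - 1 / 2 ^ 100 = 1 + (1 - 1 / 2 ^ 100) := by ring
  rw [he2] at h1
  generalize (1 : ℝ) - 1 / 2 ^ 100 = e at he0 he1 h1 ⊢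
  rw [Real.rpow_add hk, Real.rpow_one] at h1
  have hl : 0 ≤ Real.log n := by linarith
  have h4 : (n.size : ℝ) ^ e ≤ 3 * Real.log n ^ e := by
    calc (n.size : ℝ) ^ e ≤ (3 * Real.log n) ^ e := Real.rpow_le_rpow hk.le h3 he0
      _ = 3 ^ e * Real.log n ^ e := Real.mul_rpow (by norm_num) hl
      _ ≤ 3 * Real.log n ^ e := by
          refine mul_le_mul_of_nonneg_right ?_ (by positivity)
          calc (3 : ℝ) ^ e ≤ 3 ^ (1 : ℝ) := Real.rpow_le_rpow_of_exponent_le (by norm_num) he1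
            _ = 3 := Real.rpow_one 3
  rw [Nat.cast_mul]
  have hL : (0 : ℝ) ≤ ((c.E * c.R * c.R * c.R : ℕ) : ℝ) := by positivity
  generalize ((c.E * c.R * c.R * c.R : ℕ) : ℝ) = L at h2 hL ⊢
  calc L * c.tc ≤ L * (K * (n.size * (n.size : ℝ) ^ e)) := mul_le_mul_of_nonneg_left h1 hL
    _ = L * n.size * (K * (n.size : ℝ) ^ e) := by ring
    _ ≤ C * n * (K * (3 * Real.log n ^ e)) :=
        mul_le_mul h2 (mul_le_mul_of_nonneg_left h4 hK) (by positivity) (by positivity)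
    _ = 3 * C * K * n * Real.log n ^ e := by ring

end Vale.Agent.P338
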