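import Vale.Agent.P338.Arr

/-! Conversions between numbers, bit strings and lists of digits. -/

namespace Vale.Agent.P338

theorem val_eq_ofB (x : List Bool) : val x = ofB x.reverse := by
  rw [val, ofB, List.foldr_reverse]
  congr 1
  funext a b
  exact (Nat.bit_val b a).symm

theorem val_lt (x : List Bool) : val x < 2 ^ x.length := by
  rw [val_eq_ofB, ← List.length_reverse]
  exact ofB_lt _

/-- The first `k` bits, least significant bit first. -/
def padB (k z : ℕ) : List Bool := (z.bits ++ List.replicate k false).take k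

theorem length_padB (k z : ℕ) : (padB k z).length = k := by simp [padB]

theorem ofB_padB (k z : ℕ) : ofB (padB k z) = z % 2 ^ k := by
  have h : ofB (List.replicate k false) = 0 := by
    simpa using ofB_false (List.replicate k ())
  rw [padB, ofB_take, ofB_append, h, ofB_bits, mul_zero, add_zero]

theorem bin_eq (k z : ℕ) : bin k z = (padB k z).reverse := by
  refine List.ext_getElem (by simp [bin, length_padB]) fun j h1 h2 => ?_
  have hj : j < k := by simpa [bin] using h1
  have h3 := testBit_ofB (padB k z) (k - 1 - j)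
  rw [ofB_padB, Nat.testBit_mod_two_pow, decide_eq_true (by omega : k - 1 - j < k), Bool.true_and,
    List.getD_eq_getElem _ _ (by rw [length_padB]; omega)] at h3
  simp only [bin, List.getElem_ofFn, List.getElem_reverse, length_padB, h3]

theorem ofDigits_step (d : ℕ) (l : List ℕ) : Nat.ofDigits (2 ^ d) l =
    ofB (l.map (padB d)).flatten + Nat.ofDigits (2 ^ d) (l.map fun x => x / 2 ^ d) * 2 ^ d := by
  induction l with
  | nil => simp
  | cons a l ih =>
    rw [List.map_cons, List.map_cons, List.flatten_cons, ofB_append, ofB_padB, length_padB,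
      Nat.ofDigits_cons, Nat.ofDigits_cons, ih]
    have := Nat.mod_add_div a (2 ^ d)
    linarith

theorem chunks_padB {n d : ℕ} (hd : 0 < d) (x : ℕ) :
    (chunks d (padB (n * d) x)).map ofB = tab n fun k => x / 2 ^ (d * k) % 2 ^ d := by
  have h1 : (n * d + d - 1) / d = n := Nat.div_eq_of_lt_le (by omega) (by rw [add_mul]; omega)
  rw [chunks, length_padB, h1, List.map_map, tab]
  refine List.map_congr_left fun k hk => ?_
  have h2 : (k + 1) * d ≤ n * d := Nat.mul_le_mul_right _ (List.mem_range.1 hk)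
  rw [add_mul] at h2
  rw [Function.comp_apply, ofB_take, ofB_drop, ofB_padB, mul_comm d k]
  refine Nat.eq_of_testBit_eq fun j => ?_
  simp only [Nat.testBit_mod_two_pow, Nat.testBit_div_two_pow]
  by_cases hj : j < d
  · rw [decide_eq_true (by omega : j + k * d < n * d), Bool.true_and]
  · simp [hj]

section
variable {ι : Type} [Enc ι] {𝒯 : Cls ι} [Dom 𝒯]

theorem Tm.val {x : ι → List Bool} (hx : Tm 𝒯 x) : Tm 𝒯 (fun i => val (x i)) :=
  hx.reverse.ofB.congr fun _ _ => val_eq_ofB _

theorem Tm.falses {k : ι → ℕ} (hk : Tm 𝒯 k) (hm : 𝒯.mem k) :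
    Tm 𝒯 (fun i => List.replicate (k i) false) :=
  (Tm.map0 (g := fun _ => false) (Tm.const false) (hk.unary hm)).congr fun i _ => by simp

theorem Tm.padB {k z : ι → ℕ} (hk : Tm 𝒯 k) (hz : Tm 𝒯 z) (hm : 𝒯.mem k) :
    Tm 𝒯 (fun i => padB (k i) (z i)) := hk.take (hz.bits.append (hk.falses hm))

theorem Tm.bin {k z : ι → ℕ} (hk : Tm 𝒯 k) (hz : Tm 𝒯 z) (hm : 𝒯.mem k) :
    Tm 𝒯 (fun i => bin (k i) (z i)) :=
  (hk.padB hz hm).reverse.congr fun _ _ => bin_eq _ _

/-- Evaluation of a list of bounded coefficients at a power of two. -/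
theorem Tm.ofDigits {l : ι → List ℕ} {d : ι → ℕ} (C : ℕ) (hl : Tm 𝒯 l) (hd : Tm 𝒯 d)
    (h : ∀ i, 𝒯.dom i → 0 < d i ∧ Bd (2 ^ (C * d i)) (l i))
    (hm : 𝒯.mem fun i => ((l i).length + 1) * d i) :
    Tm 𝒯 (fun i => Nat.ofDigits (2 ^ d i) (l i)) := by
  induction C generalizing l with
  | zero =>
    refine (Tm.const 0).congr fun i hi => ?_
    have h1 := (h i hi).2
    rw [zero_mul, pow_zero] at h1
    generalize l i = L at h1
    induction L with
    | nil => rfl
    | cons a L ih =>
      have h2 := h1 a (by simp)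
      rw [Nat.ofDigits_cons, ih fun y hy => h1 y (by simp [hy])]
      omega
  | succ C ih =>
    have hdm : 𝒯.mem d := 𝒯.mono hm fun i _ => Nat.le_mul_of_pos_left _ (Nat.succ_pos _)
    have b1 : Tm (lin (ℕ × List Bool)) fun p => (p.1.bits ++ p.2).take p.2.length :=
      Tm.id.snd.length.take (Tm.id.fst.bits.append Tm.id.snd)
    have h1 : Tm 𝒯 fun i => (l i).map (P338.padB (d i)) :=
      (Tm.mapL b1 hl (hd.falses hdm) (Cls.lin hm 4 0 fun i hi => by
        have e : sz false = 2 := rfl
        have := (h i hi).1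
        rw [sz_replicate, e]
        nlinarith)).congr fun i _ => List.map_congr_left fun x _ => by
          rw [List.length_replicate]; rfl
    have b2 : Tm (lin (ℕ × ℕ)) fun p => p.1 / 2 ^ p.2 := Tm.id.fst.shr Tm.id.snd
    have h2 : Tm 𝒯 fun i => (l i).map fun x => x / 2 ^ d i :=
      Tm.mapL b2 hl hd (Cls.lin hm 6 0 fun i hi => by
        have := (h i hi).1
        have := Nat.mul_le_mul_left (l i).length (sz_nat_le (d i))
        nlinarith)
    have h3 := ih h2 (fun i hi => ⟨(h i hi).1, fun y hy => by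
      obtain ⟨x, hx, rfl⟩ := List.mem_map.1 hy
      have := (h i hi).2 x hx
      rw [add_mul, one_mul, pow_add] at this
      exact (Nat.div_lt_iff_lt_mul (by positivity)).2 this⟩)
      (𝒯.mono hm fun i _ => by rw [List.length_map])
    exact (h1.flatten.ofB.add (h3.shl hd hdm)).congr fun i _ => ofDigits_step _ _

/-- The first `n` digits in base `2 ^ d`. -/
theorem Tm.digs {x d n : ι → ℕ} (hx : Tm 𝒯 x) (hd : Tm 𝒯 d) (hn : Tm 𝒯 n)
    (h : ∀ i, 𝒯.dom i → 0 < d i) (hm : 𝒯.mem fun i => n i * d i) :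
    Tm 𝒯 (fun i => tab (n i) fun k => x i / 2 ^ (d i * k) % 2 ^ d i) := by
  have key : Tm (𝒯.res fun i => ¬ n i = 0) fun i => n i * d i := by
    have hm' : (𝒯.res fun i => ¬ n i = 0).mem fun i => n i * d i := Cls.res_mem hm
    have hdm : (𝒯.res fun i => ¬ n i = 0).mem d :=
      Cls.mono _ hm' fun i hi => Nat.le_mul_of_pos_left _ (Nat.pos_of_ne_zero hi.2)
    refine ((hn.res _).replicate ((hd.res _).unary hdm)
      (Cls.lin hm' 4 0 fun i hi => ?_)).flatten.length.congr fun i _ => by simp
    have := h i hi.1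
    rw [sz_replicate, sz_unit]
    nlinarith
  have h1 : Tm 𝒯 fun i => n i * d i :=
    (Tm.iteR hn.isZero (Tm.const 0) key).congr fun i _ => by
      split_ifs with h0
      · rw [h0, zero_mul]
      · rfl
  exact (Tm.map0 Tm.id.ofB (hd.chunks (h1.padB hx hm))).congr fun i hi =>
    (chunks_padB (h i hi) _).symm

end

theorem ofDigits_tab (B n : ℕ) (f : ℕ → ℕ) :
    Nat.ofDigits B (tab n f) = ∑ k ∈ Finset.range n, f k * B ^ k := by
  induction n with
  | zero => rfl
  | succ n ih =>
    have e : tab (n + 1) f = tab n f ++ [f n] := by simp [tab, List.range_succ]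
    rw [e, Nat.ofDigits_append, ih, Finset.sum_range_succ, length_tab, Nat.ofDigits_singleton,
      mul_comm]

theorem sum_digs {x d n : ℕ} (h : x < 2 ^ (d * n)) :
    ∑ k ∈ Finset.range n, x / 2 ^ (d * k) % 2 ^ d * (2 ^ d) ^ k = x := by
  have key : ∀ m, ∑ k ∈ Finset.range m, x / 2 ^ (d * k) % 2 ^ d * (2 ^ d) ^ k =
      x % 2 ^ (d * m) := by
    intro m
    induction m with
    | zero => simp [Nat.mod_one]
    | succ m ih =>
      rw [Finset.sum_range_succ, ih, mul_add, mul_one, pow_add, Nat.mod_mul, ← pow_mul,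
        mul_comm (2 ^ (d * m))]
  rw [key, Nat.mod_eq_of_lt h]

end Vale.Agent.P338
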