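import Vale.Agent.P338.Xfer

/-! Typed functions with cost classes: the primitive rules. -/

namespace Vale.Agent.P338

open Function

/-- Types coded by a fixed positive number of bracketed items. -/
class Enc (α : Type) where
  n : ℕ
  enc : α → List Tk
  pos : 0 < n
  items : ∀ a, Items n (enc a)

export Enc (enc)

/-- Size of a coded value. -/
def sz {α : Type} [Enc α] (a : α) : ℕ := (enc a).length

instance encUnit : Enc Unit := ⟨1, fun _ => [.op, .cl], one_pos, fun _ => Items.one .nil⟩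

instance encBool : Enc Bool :=
  ⟨1, fun b => if b then [.op, .op, .cl, .cl] else [.op, .cl], one_pos, fun b => by
    cases b
    · exact Items.one .nil
    · exact Items.one (Items.one .nil).dyck⟩

open Classical in
noncomputable instance encProp : Enc Prop :=
  ⟨1, fun p => enc (decide p), one_pos, fun _ => encBool.items _⟩

instance encProd {α β : Type} [Enc α] [Enc β] : Enc (α × β) :=
  ⟨Enc.n α + Enc.n β, fun p => enc p.1 ++ enc p.2, Nat.add_pos_left Enc.pos _,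
    fun p => (Enc.items p.1).append (Enc.items p.2)⟩

theorem dyck_flat {α : Type} [Enc α] (l : List α) : Dyck (l.flatMap enc) := by
  induction l with
  | nil => exact .nil
  | cons a l ih => simpa using (Enc.items a).dyck.append ih

instance encList {α : Type} [Enc α] : Enc (List α) :=
  ⟨1, fun l => .op :: l.flatMap enc ++ [.cl], one_pos, fun l => Items.one (dyck_flat l)⟩

instance encNat : Enc ℕ := ⟨1, fun n => enc n.bits, one_pos, fun _ => encList.items _⟩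

instance encInt : Enc ℤ :=
  ⟨2, fun z => enc (z.toNat, (-z).toNat), two_pos, fun z => Enc.items (z.toNat, (-z).toNat)⟩

section
variable {α β γ δ σ ι : Type}

theorem enc_pair [Enc α] [Enc β] (a : α) (b : β) : enc (a, b) = enc a ++ enc b := rfl
theorem enc_prod [Enc α] [Enc β] (p : α × β) : enc p = enc p.1 ++ enc p.2 := rfl
theorem enc_list [Enc α] (l : List α) : enc l = .op :: l.flatMap enc ++ [.cl] := rfl
theorem enc_nat (n : ℕ) : enc n = enc n.bits := rfl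
theorem enc_int (z : ℤ) : enc z = enc (z.toNat, (-z).toNat) := rfl
theorem enc_true : enc true = [.op, .op, .cl, .cl] := rfl
theorem enc_false : enc false = [.op, .cl] := rfl
theorem enc_prop (p : Prop) [Decidable p] : enc p = enc (decide p) := by
  change enc (@decide p (Classical.propDecidable p)) = _
  congr

@[simp] theorem sz_pair [Enc α] [Enc β] (a : α) (b : β) : sz (a, b) = sz a + sz b := by
  simp [sz, enc_pair]
theorem sz_prod [Enc α] [Enc β] (p : α × β) : sz p = sz p.1 + sz p.2 := sz_pair _ _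
@[simp] theorem sz_nil [Enc α] : sz ([] : List α) = 2 := rfl
@[simp] theorem sz_cons [Enc α] (a : α) (l : List α) : sz (a :: l) = sz a + sz l := by
  simp [sz, enc_list]; omega
@[simp] theorem sz_unit (u : Unit) : sz u = 2 := rfl
theorem sz_list [Enc α] (l : List α) : sz l = (l.map sz).sum + 2 := by
  induction l with
  | nil => rfl
  | cons a l ih => simp [ih]; omega
theorem sz_bool (b : Bool) : sz b ≤ 4 := by cases b <;> decide
theorem sz_prop (p : Prop) : sz p ≤ 4 := sz_bool _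
theorem two_le_sz [Enc α] (a : α) : 2 ≤ sz a := by
  have h := Enc.items a
  have h0 : 0 < Enc.n α := Enc.pos
  unfold sz
  generalize Enc.n α = n at h h0
  generalize enc a = w at h
  cases h with
  | nil => omega
  | cons _ _ => simp; omega
theorem length_le_sz [Enc α] (l : List α) : 2 * l.length + 2 ≤ sz l := by
  induction l with
  | nil => simp
  | cons a l ih => have := two_le_sz a; simp; omega
theorem sz_le_of_forall [Enc α] (l : List α) {B : ℕ} (h : ∀ a ∈ l, sz a ≤ B) :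
    sz l ≤ l.length * B + 2 := by
  induction l with
  | nil => simp
  | cons a l ih =>
    have h1 := h a (by simp)
    have h2 := ih (fun a ha => h a (by simp [ha]))
    simp [add_mul]; omega
theorem sz_mem [Enc α] {l : List α} {a : α} (h : a ∈ l) : sz a ≤ sz l := by
  induction l with
  | nil => simp at h
  | cons b l ih =>
    rcases List.mem_cons.1 h with rfl | h
    · simp
    · have := ih h; simp; omega
theorem sz_nat_eq (n : ℕ) : sz n = sz n.bits := rfl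
theorem sz_nat (n : ℕ) : sz n ≤ 4 * n.size + 2 := by
  have := sz_le_of_forall n.bits (B := 4) (fun a _ => sz_bool a)
  rw [Nat.size_eq_bits_len] at this
  rw [sz_nat_eq]; omega
theorem size_le_sz (n : ℕ) : 2 * n.size + 2 ≤ sz n := by
  have := length_le_sz n.bits
  rwa [Nat.size_eq_bits_len] at this
theorem sz_nat_lt {n b : ℕ} (h : n < 2 ^ b) : sz n ≤ 4 * b + 2 := by
  have := sz_nat n
  have := Nat.size_le.2 h
  omega
theorem sz_nat_le (n : ℕ) : sz n ≤ 4 * n + 2 := sz_nat_lt Nat.lt_two_pow_self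
theorem sz_int (z : ℤ) : sz z = sz z.toNat + sz (-z).toNat := sz_pair _ _

/-- A cost class: a domain, and the admissible cost functions on it. -/
structure Cls (α : Type) where
  dom : α → Prop
  mem : (α → ℕ) → Prop
  const : ∀ c, mem (fun _ => c)
  add : ∀ {f g}, mem f → mem g → mem (fun a => f a + g a)
  mono : ∀ {f g}, mem g → (∀ a, dom a → f a ≤ g a) → mem f

theorem Cls.cmul {𝒯 : Cls α} {f : α → ℕ} (h : 𝒯.mem f) (c : ℕ) : 𝒯.mem (fun a => c * f a) := by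
  induction c with
  | zero => simpa using 𝒯.const 0
  | succ c ih => simpa [add_mul] using 𝒯.add ih h

theorem Cls.lin {𝒯 : Cls α} {f g : α → ℕ} (h : 𝒯.mem f) (c d : ℕ)
    (hg : ∀ a, 𝒯.dom a → g a ≤ c * f a + d) : 𝒯.mem g :=
  𝒯.mono (𝒯.add (Cls.cmul h c) (𝒯.const d)) hg

/-- Costs of order at most `τ + 1` on the domain `P`. -/
def big (P : α → Prop) (τ : α → ℕ) : Cls α where
  dom := P
  mem := fun T => ∃ C, ∀ a, P a → T a ≤ C * (τ a + 1)
  const := fun c => ⟨c, fun a _ => Nat.le_mul_of_pos_right _ (by omega)⟩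
  add := fun ⟨C, h⟩ ⟨D, h'⟩ => ⟨C + D, fun a ha => by
    have := h a ha; have := h' a ha; rw [add_mul]; beta_reduce; omega⟩
  mono := fun ⟨C, h⟩ h' => ⟨C, fun a ha => (h' a ha).trans (h a ha)⟩

/-- Costs polynomial in `κ` on the domain `P`. -/
def poly (P : α → Prop) (κ : α → ℕ) : Cls α where
  dom := P
  mem := fun T => ∃ c C, ∀ a, P a → T a ≤ C * (κ a + 1) ^ c
  const := fun c => ⟨0, c, fun a _ => by simp⟩
  add := fun ⟨c, C, h⟩ ⟨d, D, h'⟩ => ⟨c + d, C + D, fun a ha => by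
    have h1 := h a ha
    have h2 := h' a ha
    have h3 : (κ a + 1) ^ c ≤ (κ a + 1) ^ (c + d) := Nat.pow_le_pow_right (by omega) (by omega)
    have h4 : (κ a + 1) ^ d ≤ (κ a + 1) ^ (c + d) := Nat.pow_le_pow_right (by omega) (by omega)
    have h5 := Nat.mul_le_mul_left C h3
    have h6 := Nat.mul_le_mul_left D h4
    rw [add_mul]; beta_reduce; omega⟩
  mono := fun ⟨c, C, h⟩ h' => ⟨c, C, fun a ha => (h' a ha).trans (h a ha)⟩

/-- Restriction of a class to a smaller domain. -/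
def Cls.res (𝒯 : Cls α) (Q : α → Prop) : Cls α where
  dom := fun a => 𝒯.dom a ∧ Q a
  mem := fun T => ∃ T', 𝒯.mem T' ∧ ∀ a, 𝒯.dom a → Q a → T a ≤ T' a
  const := fun c => ⟨_, 𝒯.const c, fun _ _ _ => le_rfl⟩
  add := fun ⟨_, h, g⟩ ⟨_, h', g'⟩ => ⟨_, 𝒯.add h h', fun a ha hq =>
    Nat.add_le_add (g a ha hq) (g' a ha hq)⟩
  mono := fun ⟨T, h, g⟩ h' => ⟨T, h, fun a ha hq => (h' a ⟨ha, hq⟩).trans (g a ha hq)⟩

/-- Linear cost in the size of the argument. -/
abbrev lin (α : Type) [Enc α] : Cls α := big (fun _ => True) sz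

/-- Polynomial cost in the size of the argument. -/
abbrev pt (α : Type) [Enc α] : Cls α := poly (fun _ => True) sz

@[simp] theorem big_dom (P : α → Prop) (τ : α → ℕ) : (big P τ).dom = P := rfl
@[simp] theorem poly_dom (P : α → Prop) (τ : α → ℕ) : (poly P τ).dom = P := rfl
theorem big_mem {P : α → Prop} {τ T : α → ℕ} :
    (big P τ).mem T ↔ ∃ C, ∀ a, P a → T a ≤ C * (τ a + 1) := Iff.rfl
theorem poly_mem {P : α → Prop} {τ T : α → ℕ} :
    (poly P τ).mem T ↔ ∃ c C, ∀ a, P a → T a ≤ C * (τ a + 1) ^ c := Iff.rfl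
theorem big_self (P : α → Prop) (τ : α → ℕ) : (big P τ).mem τ := ⟨1, fun _ _ => by omega⟩
theorem poly_self (P : α → Prop) (τ : α → ℕ) : (poly P τ).mem τ :=
  ⟨1, 1, fun _ _ => by simp⟩
theorem big_of_le {P : α → Prop} {τ T : α → ℕ} (c d : ℕ) (h : ∀ a, P a → T a ≤ c * τ a + d) :
    (big P τ).mem T := Cls.lin (big_self P τ) c d h
theorem Cls.res_mem {𝒯 : Cls α} {Q : α → Prop} {T : α → ℕ} (h : 𝒯.mem T) : (𝒯.res Q).mem T :=
  ⟨T, h, fun _ _ _ => le_rfl⟩

/-- The class pays for the size of the argument. -/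
class Dom (𝒯 : Cls α) [Enc α] : Prop where
  sz : 𝒯.mem sz

/-- The class is closed under products. -/
class Mulc (𝒯 : Cls α) : Prop where
  mul : ∀ {f g}, 𝒯.mem f → 𝒯.mem g → 𝒯.mem (fun a => f a * g a)

instance [Enc α] (P : α → Prop) : Dom (big P sz) := ⟨big_self _ _⟩
instance [Enc α] (P : α → Prop) : Dom (poly P sz) := ⟨poly_self _ _⟩
instance [Enc α] (𝒯 : Cls α) [h : Dom 𝒯] (Q : α → Prop) : Dom (𝒯.res Q) := ⟨Cls.res_mem h.sz⟩
instance (P : α → Prop) (κ : α → ℕ) : Mulc (poly P κ) :=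
  ⟨fun ⟨c, C, h⟩ ⟨d, D, h'⟩ => ⟨c + d, C * D, fun a ha => by
    have := Nat.mul_le_mul (h a ha) (h' a ha)
    rw [pow_add]; linarith⟩⟩
instance (𝒯 : Cls α) [h : Mulc 𝒯] (Q : α → Prop) : Mulc (𝒯.res Q) :=
  ⟨fun ⟨_, h1, g⟩ ⟨_, h2, g'⟩ => ⟨_, h.mul h1 h2, fun a ha hq =>
    Nat.mul_le_mul (g a ha hq) (g' a ha hq)⟩⟩

theorem Cls.pow {𝒯 : Cls α} [h : Mulc 𝒯] {f : α → ℕ} (hf : 𝒯.mem f) (c : ℕ) :
    𝒯.mem (fun a => f a ^ c) := by
  induction c with
  | zero => simpa using 𝒯.const 1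
  | succ c ih => simpa [pow_succ] using h.mul ih hf

/-- Along `h`, the class `𝒯` pays for the class `𝒮`. -/
def Cls.Pays (𝒯 : Cls α) (𝒮 : Cls β) (h : α → β) : Prop :=
  (∀ a, 𝒯.dom a → 𝒮.dom (h a)) ∧ ∀ T, 𝒮.mem T → 𝒯.mem (fun a => T (h a))

theorem Cls.pays_big {𝒯 : Cls α} {P : β → Prop} {τ : β → ℕ} {h : α → β}
    (h1 : ∀ a, 𝒯.dom a → P (h a)) (h2 : 𝒯.mem (fun a => τ (h a))) : 𝒯.Pays (big P τ) h :=
  ⟨h1, fun _ ⟨C, hC⟩ => Cls.lin h2 C C fun a ha => by
    have := hC _ (h1 a ha); rw [mul_add] at this; omega⟩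

theorem Cls.pays_poly {𝒯 : Cls α} {P : β → Prop} {κ : β → ℕ} {h : α → β}
    (h1 : ∀ a, 𝒯.dom a → P (h a)) (h2 : ∀ c, 𝒯.mem (fun a => (κ (h a) + 1) ^ c)) :
    𝒯.Pays (poly P κ) h :=
  ⟨h1, fun _ ⟨c, C, hC⟩ => 𝒯.mono (Cls.cmul (h2 c) C) fun a ha => hC _ (h1 a ha)⟩

theorem Cls.pays_poly' {𝒯 : Cls α} [Mulc 𝒯] {P : β → Prop} {κ : β → ℕ} {h : α → β}
    (h1 : ∀ a, 𝒯.dom a → P (h a)) (h2 : 𝒯.mem (fun a => κ (h a))) :
    𝒯.Pays (poly P κ) h :=
  Cls.pays_poly h1 fun c => Cls.pow (𝒯.add h2 (𝒯.const 1)) c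

theorem Cls.pays_refl (𝒯 : Cls α) : 𝒯.Pays 𝒯 (fun a => a) := ⟨fun _ h => h, fun _ h => h⟩

theorem Cls.pays_res (𝒯 : Cls α) (Q : α → Prop) : (𝒯.res Q).Pays 𝒯 (fun a => a) :=
  ⟨fun _ h => h.1, fun _ h => Cls.res_mem h⟩

theorem Cls.Pays.trans {𝒯 : Cls α} {𝒮 : Cls β} {𝒰 : Cls γ} {h : α → β} {g : β → γ}
    (h1 : 𝒯.Pays 𝒮 h) (h2 : 𝒮.Pays 𝒰 g) : 𝒯.Pays 𝒰 (fun a => g (h a)) :=
  ⟨fun a ha => h2.1 _ (h1.1 a ha), fun T hT => h1.2 _ (h2.2 T hT)⟩

variable [Enc α] [Enc β] [Enc γ] [Enc δ] [Enc σ] [Enc ι]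

/-- `f` is computed on the domain of `𝒯` at a cost in `𝒯`. -/
@[fun_prop]
def Tm (𝒯 : Cls α) (f : α → β) : Prop :=
  ∃ (T : α → ℕ) (p : Prog), 𝒯.mem T ∧ ∀ b a, 𝒯.dom a → Cmp b p (enc a) (enc (f a)) (T a)

theorem Tm.congr {𝒯 : Cls α} {f g : α → β} (h : Tm 𝒯 f) (e : ∀ a, 𝒯.dom a → g a = f a) :
    Tm 𝒯 g := by
  obtain ⟨T, p, hT, hp⟩ := h
  exact ⟨T, p, hT, fun b a ha => e a ha ▸ hp b a ha⟩

theorem Tm.ofEnc' {𝒯 : Cls α} {f : α → β} {g : α → γ} (h : Tm 𝒯 f)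
    (e : ∀ a, 𝒯.dom a → enc (g a) = enc (f a)) : Tm 𝒯 g := by
  obtain ⟨T, p, hT, hp⟩ := h
  exact ⟨T, p, hT, fun b a ha => e a ha ▸ hp b a ha⟩

@[fun_prop] theorem Tm.id {𝒯 : Cls α} : Tm 𝒯 (fun a => a) :=
  ⟨fun _ => 2, skip, 𝒯.const 2, fun _ _ _ _ _ _ _ _ _ => run_skip _ _⟩

theorem Tm.ofEnc {𝒯 : Cls α} {f : α → β} (e : ∀ a, 𝒯.dom a → enc (f a) = enc a) : Tm 𝒯 f :=
  Tm.id.ofEnc' e

theorem Tm.szb {𝒯 : Cls α} [h : Dom 𝒯] {f : α → β} (hf : Tm 𝒯 f) :
    𝒯.mem (fun a => sz (f a)) := by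
  obtain ⟨T, p, hT, hp⟩ := hf
  exact 𝒯.mono (𝒯.add h.sz hT) fun a ha => (hp skip a ha).len_le

/-- General composition. -/
theorem Tm.compP {𝒯 : Cls α} {𝒮 : Cls β} {g : β → γ} {f : α → β} (hg : Tm 𝒮 g) (hf : Tm 𝒯 f)
    (h : 𝒯.Pays 𝒮 f) : Tm 𝒯 (fun a => g (f a)) := by
  obtain ⟨T, p, hT, hp⟩ := hf
  obtain ⟨U, q, hU, hq⟩ := hg
  exact ⟨_, .seq p q, 𝒯.add hT (h.2 U hU), fun b a ha => (hp b a ha).seq (hq b _ (h.1 a ha))⟩

/-- Change of class. -/
theorem Tm.weaken {𝒯 𝒮 : Cls α} {f : α → β} (hf : Tm 𝒮 f) (h : 𝒯.Pays 𝒮 (fun a => a)) :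
    Tm 𝒯 f := hf.compP Tm.id h

theorem Tm.res {𝒯 : Cls α} {f : α → β} (hf : Tm 𝒯 f) (Q : α → Prop) : Tm (𝒯.res Q) f :=
  hf.weaken (𝒯.pays_res Q)

/-- Composition with a function whose cost has a given order. -/
theorem Tm.compB {𝒯 : Cls α} {P : β → Prop} {τ : β → ℕ} {g : β → γ} {f : α → β}
    (hg : Tm (big P τ) g) (hf : Tm 𝒯 f) (h1 : ∀ a, 𝒯.dom a → P (f a))
    (h2 : 𝒯.mem (fun a => τ (f a))) : Tm 𝒯 (fun a => g (f a)) :=
  hg.compP hf (Cls.pays_big h1 h2)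

/-- Composition with a linear time function. -/
@[fun_prop] theorem Tm.comp {𝒯 : Cls α} [Dom 𝒯] {g : β → γ} {f : α → β} (hg : Tm (lin β) g)
    (hf : Tm 𝒯 f) : Tm 𝒯 (fun a => g (f a)) :=
  hg.compB hf (fun _ _ => trivial) hf.szb

/-- Composition with a polynomial time function. -/
theorem Tm.compPt {𝒯 : Cls α} [Dom 𝒯] [Mulc 𝒯] {g : β → γ} {f : α → β} (hg : Tm (pt β) g)
    (hf : Tm 𝒯 f) : Tm 𝒯 (fun a => g (f a)) :=
  hg.compP hf (Cls.pays_poly' (fun _ _ => trivial) hf.szb)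

theorem Tm.first {𝒯 : Cls (α × σ)} {𝒮 : Cls α} {f : α → β} (hf : Tm 𝒮 f)
    (h : 𝒯.Pays 𝒮 Prod.fst) : Tm 𝒯 (fun p => (f p.1, p.2)) := by
  obtain ⟨T, p, hT, hp⟩ := hf
  exact ⟨_, p, h.2 T hT, fun b a ha => (hp b a.1 (h.1 a ha)).frame _⟩

theorem cmp_second {b p : Prog} {n : ℕ} {u w w' : List Tk} {t : ℕ} (hu : Items n u)
    (h : Cmp b p w w' t) : Cmp b (.seq (xferN .m [.x] n) (.seq p (xferN .x [.m] n))) (u ++ w)
      (u ++ w') (18 * u.length + 4 + t) := fun i o m x y z => by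
  have := (mv_mx hu i o (w ++ m) x y z).seq ((h i o m _ y z).seq (mv_xm hu i o (w' ++ m) x y z))
  simp only [List.append_assoc]
  exact this.weaken (by omega)

theorem Tm.second {𝒯 : Cls (α × σ)} {𝒮 : Cls σ} {f : σ → β} (hf : Tm 𝒮 f)
    (h : 𝒯.Pays 𝒮 Prod.snd) (hs : 𝒯.mem (fun p => sz p.1)) : Tm 𝒯 (fun p => (p.1, f p.2)) := by
  obtain ⟨T, p, hT, hp⟩ := hf
  exact ⟨_, _, 𝒯.add (𝒯.add (Cls.cmul hs 18) (𝒯.const 4)) (h.2 T hT),
    fun b a ha => cmp_second (Enc.items a.1) (hp b a.2 (h.1 a ha))⟩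

theorem Tm.swapP {𝒯 : Cls (α × β)} (hs : 𝒯.mem sz) : Tm 𝒯 (fun p => (p.2, p.1)) := by
  refine ⟨fun a => 18 * sz a + 8, .seq (xferN .m [.x] (Enc.n α)) (.seq (xferN .m [.y] (Enc.n β))
    (.seq (xferN .x [.m] (Enc.n α)) (xferN .y [.m] (Enc.n β)))),
    𝒯.add (Cls.cmul hs 18) (𝒯.const 8), fun b a _ i o m x y z => ?_⟩
  have h1 := Enc.items a.1
  have h2 := Enc.items a.2
  have := (mv_mx (b := b) h1 i o (enc a.2 ++ m) x y z).seq ((mv_my h2 i o m _ y z).seq
    ((mv_xm h1 i o m x _ z).seq (mv_ym h2 i o _ x y z)))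
  simp only [enc_prod a, enc_pair, List.append_assoc]
  exact this.weaken (by rw [sz_prod]; unfold sz; omega)

theorem cmp_dup {b : Prog} {n : ℕ} {u : List Tk} (hu : Items n u) :
    Cmp b (.seq (xferN .m [.x, .y] n) (.seq (xferN .x [.m] n) (xferN .y [.m] n))) u (u ++ u)
      (28 * u.length + 6) := fun i o m x y z => by
  have := (mv_mxy (b := b) hu i o m x y z).seq ((mv_xm hu i o m x _ z).seq (mv_ym hu i o _ x y z))
  simp only [List.append_assoc]
  exact this.weaken (by omega)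

theorem Tm.dupP {𝒯 : Cls α} (hs : 𝒯.mem sz) : Tm 𝒯 (fun a => (a, a)) :=
  ⟨_, _, 𝒯.add (Cls.cmul hs 28) (𝒯.const 6), fun _ a _ => cmp_dup (Enc.items a)⟩

theorem Tm.dropP {𝒯 : Cls (α × β)} (hs : 𝒯.mem (fun p => sz p.1)) : Tm 𝒯 (fun p => p.2) :=
  ⟨_, xferN .m [] (Enc.n α), 𝒯.add (Cls.cmul hs 8) (𝒯.const 2), fun _ a _ i o m x y z => by
    simpa only [enc_prod a, List.append_assoc, sz] using mv_drop (Enc.items a.1) i o _ x y z⟩

theorem Tm.pushP {𝒯 : Cls α} (c : β) : Tm 𝒯 (fun a => (c, a)) :=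
  ⟨_, pushW (enc c), 𝒯.const ((enc c).length + 2), fun _ a _ i o m x y z => by
    simpa only [enc_pair, List.append_assoc] using run_pushW _ (enc c) i o _ x y z⟩

/-- Remove a boolean and branch on it. -/
def condP (p q : Prog) : Prog :=
  .seq (.pop .m) (.ite .m .op (.seq (.pop .m) (.seq (.pop .m) (.seq (.pop .m) p)))
    (.seq (.pop .m) q))

theorem cmp_condT {b p q : Prog} {w w' : List Tk} {t : ℕ} (h : Cmp b p w w' t) :
    Cmp b (condP p q) (enc true ++ w) w' (t + 5) := fun i o m x y z => by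
  refine ((Run.pop _ _ _).seq (Run.iteT (by simp [enc_true]) ((Run.pop _ _ _).seq
    ((Run.pop _ _ _).seq ((Run.pop _ _ _).seq (t' := t) ?_))))).weaken (by omega)
  simpa [enc_true] using h i o m x y z

theorem cmp_condF {b p q : Prog} {w w' : List Tk} {t : ℕ} (h : Cmp b q w w' t) :
    Cmp b (condP p q) (enc false ++ w) w' (t + 5) := fun i o m x y z => by
  refine ((Run.pop _ _ _).seq (Run.iteF (by simp [enc_false])
    ((Run.pop _ _ _).seq (t' := t) ?_))).weaken (by omega)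
  simpa [enc_false] using h i o m x y z

theorem Tm.condP {𝒯 : Cls (Bool × σ)} {𝒮 𝒮' : Cls σ} {f g : σ → β} (hf : Tm 𝒮 f)
    (hg : Tm 𝒮' g) (h1 : (𝒯.res (fun p => p.1 = true)).Pays 𝒮 Prod.snd)
    (h2 : (𝒯.res (fun p => p.1 = false)).Pays 𝒮' Prod.snd) :
    Tm 𝒯 (fun p => if p.1 then f p.2 else g p.2) := by
  obtain ⟨T, p, hT, hp⟩ := hf
  obtain ⟨U, q, hU, hq⟩ := hg
  obtain ⟨T', hT', e1⟩ := h1.2 T hT
  obtain ⟨U', hU', e2⟩ := h2.2 U hU
  refine ⟨_, P338.condP p q, 𝒯.add (𝒯.add hT' hU') (𝒯.const 5), fun b a ha => ?_⟩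
  obtain ⟨c, s⟩ := a
  cases c
  · exact (cmp_condF (hq b s (h2.1 _ ⟨ha, rfl⟩))).weaken (by have := e2 _ ha rfl; dsimp only at this ⊢; omega)
  · exact (cmp_condT (hp b s (h1.1 _ ⟨ha, rfl⟩))).weaken (by have := e1 _ ha rfl; dsimp only at this ⊢; omega)

theorem enc_head (a : α) : ∃ v, enc a = .op :: v := (Enc.items a).head Enc.pos

theorem Tm.neP {𝒯 : Cls (List α)} : Tm 𝒯 (fun l => (!l.isEmpty, l)) := by
  refine ⟨fun _ => 10, .seq (.pop .m) (.ite .m .op (pushW (enc true ++ [.op]))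
    (pushW (enc false ++ [.op]))), 𝒯.const 10, fun b l _ i o m x y z => ?_⟩
  cases l with
  | nil =>
    refine ((Run.pop _ _ _).seq (Run.iteF (t := 5) (by simp [enc_list]) ?_)).weaken (by simp)
    refine Run.congr ?_ ?_ le_rfl (s' := st i o ((enc false ++ [.op]) ++ .cl :: m) x y z)
    · simp only [enc_list, List.flatMap_nil, List.cons_append, List.nil_append, st_m,
        List.tail_cons, up_m]
      exact run_pushW b (enc false ++ [.op]) i o (.cl :: m) x y z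
    · simp [enc_list, enc_pair]
  | cons a l =>
    obtain ⟨v, hv⟩ := enc_head a
    refine ((Run.pop _ _ _).seq (Run.iteT (t := 7) (by simp [enc_list, hv]) ?_)).weaken (by simp)
    refine Run.congr ?_ ?_ le_rfl
      (s' := st i o ((enc true ++ [.op]) ++ (enc a ++ (l.flatMap enc ++ .cl :: m))) x y z)
    · have := run_pushW b (enc true ++ [.op]) i o (enc a ++ (l.flatMap enc ++ .cl :: m)) x y z
      simp only [enc_list, List.flatMap_cons, List.cons_append, List.nil_append, st_m,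
        List.tail_cons, up_m, List.append_assoc] at this ⊢
      exact this
    · simp [enc_list, enc_pair]

theorem Tm.consP {𝒯 : Cls (α × List α)} (hs : 𝒯.mem (fun p => sz p.1)) :
    Tm 𝒯 (fun p => p.1 :: p.2) := by
  refine ⟨fun a => 18 * sz a.1 + 6, .seq (xferN .m [.x] (Enc.n α)) (.seq (.pop .m)
    (.seq (xferN .x [.m] (Enc.n α)) (.push .m .op))),
    𝒯.add (Cls.cmul hs 18) (𝒯.const 6), fun b a _ i o m x y z => ?_⟩
  have h1 := Enc.items a.1
  have e1 := mv_mx (b := b) h1 i o (enc a.2 ++ m) x y z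
  have e2 := mv_xm (b := b) h1 i o (a.2.flatMap enc ++ .cl :: m) x y z
  have e3 := Run.pop b .m (st i o (enc a.2 ++ m) (mir (enc a.1) ++ x) y z)
  simp only [enc_list, List.cons_append, st_m, List.tail_cons, up_m, List.append_assoc,
    List.nil_append] at e1 e3
  have := e1.seq (e3.seq (e2.seq (Run.push _ .m .op _)))
  simp only [enc_prod a, enc_list, List.append_assoc, List.cons_append, List.flatMap_cons,
    List.nil_append]
  exact this.congr (by simp) (by unfold sz; omega)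

theorem Tm.popP {𝒯 : Cls (List α)} (d : α) (hs : 𝒯.mem (fun l => sz (l.headD d))) :
    Tm 𝒯 (fun l => (l.headD d, l.tail)) := by
  refine ⟨fun l => 18 * sz (l.headD d) + 8, .seq (.pop .m) (.ite .m .op
    (.seq (xferN .m [.x] (Enc.n α)) (.seq (.push .m .op) (xferN .x [.m] (Enc.n α))))
    (pushW (enc d ++ [.op]))),
    𝒯.add (Cls.cmul hs 18) (𝒯.const 8), fun b l _ i o m x y z => ?_⟩
  cases l with
  | nil =>
    refine ((Run.pop _ _ _).seq (Run.iteF (t := sz d + 3) (by simp [enc_list]) ?_)).weaken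
      (by simp; omega)
    have := run_pushW b (enc d ++ [.op]) i o (.cl :: m) x y z
    simp only [List.length_append, List.append_assoc] at this
    simpa [enc_list, enc_pair, sz] using this
  | cons a l =>
    obtain ⟨v, hv⟩ := enc_head a
    have h1 := Enc.items a
    have e1 := mv_mx (b := b) h1 i o (l.flatMap enc ++ .cl :: m) x y z
    have e2 := mv_xm (b := b) h1 i o (.op :: (l.flatMap enc ++ .cl :: m)) x y z
    have e3 := Run.push b .m .op (st i o (l.flatMap enc ++ .cl :: m) (mir (enc a) ++ x) y z)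
    simp only [st_m, up_m] at e3
    refine ((Run.pop _ _ _).seq (Run.iteT (t := 18 * sz a + 5) (by simp [enc_list, hv])
      ?_)).weaken (by simp; omega)
    simpa [enc_list, enc_pair] using (e1.seq (e3.seq e2)).weaken
      (t' := 18 * sz a + 5) (by unfold sz; omega)

/-- A loop over a list, with a state and one output per round. -/
def mapAcc (step : α × σ → β × σ) : List α → σ → List β × σ
  | [], s => ([], s)
  | a :: l, s => ((step (a, s)).1 :: (mapAcc step l (step (a, s)).2).1,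
      (mapAcc step l (step (a, s)).2).2)

/-- The arguments passed to the loop body. -/
def trace (step : α × σ → β × σ) : List α → σ → List (α × σ)
  | [], _ => []
  | a :: l, s => (a, s) :: trace step l (step (a, s)).2

theorem run_back (b : Prog) {w : List Tk} (hw : Dyck w) : ∀ (i o m x y z : List Tk),
    Run b (.loop .y .op (xferN .y [.m] 1)) (st i o m x (w ++ .sep :: y) z)
      (st i o (mir w ++ m) x (.sep :: y) z) (12 * w.length + 1) := by
  induction hw with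
  | nil => intro i o m x y z; exact Run.loopF (by simp)
  | @cons u v hu _ _ ih =>
    intro i o m x y z
    have e1 := mv_ym (b := b) (Items.one hu).mir i o m x (v ++ .sep :: y) z
    rw [mir_mir] at e1
    have := Run.loopT (by simp) e1 (ih i o _ x y z)
    refine (by simpa using this : Run b _ _ _ _).congr (by simp) ?_
    simp; omega

theorem run_acc {b p : Prog} {step : α × σ → β × σ} {T : α × σ → ℕ} (l : List α) :
    ∀ (s : σ), (∀ q ∈ trace step l s, Cmp b p (enc q) (enc (step q)) (T q)) →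
    ∀ (i o m x y z : List Tk),
    Run b (.loop .x .op (.seq (xferN .x [.y] (Enc.n α)) (.seq (xferN .y [.m] (Enc.n α))
        (.seq p (xferN .m [.y] (Enc.n β))))))
      (st i o (enc s ++ m) (l.flatMap enc ++ .cl :: x) y z)
      (st i o (enc (mapAcc step l s).2 ++ m) (.cl :: x)
        (mir ((mapAcc step l s).1.flatMap enc) ++ y) z)
      (((trace step l s).map T).sum + 22 * (l.flatMap enc).length
        + 9 * ((mapAcc step l s).1.flatMap enc).length + 1) := by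
  induction l with
  | nil => intro s _ i o m x y z; exact (Run.loopF (by simp)).congr (by simp [mapAcc]) (by simp)
  | cons a l ih =>
    intro s h i o m x y z
    obtain ⟨v, hv⟩ := enc_head a
    have h1 := Enc.items a
    have h2 := Enc.items (step (a, s)).1
    have h3 := two_le_sz a
    have e1 := mv_xy (b := b) h1 i o (enc s ++ m) (l.flatMap enc ++ .cl :: x) y z
    have e2 := mv_ym (b := b) h1 i o (enc s ++ m) (l.flatMap enc ++ .cl :: x) y z
    have e3 := h (a, s) (by simp [trace]) i o m (l.flatMap enc ++ .cl :: x) y z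
    have e4 := mv_my (b := b) h2 i o (enc (step (a, s)).2 ++ m) (l.flatMap enc ++ .cl :: x) y z
    rw [enc_pair, enc_prod (step (a, s)), List.append_assoc, List.append_assoc] at e3
    have e5 := ih (step (a, s)).2 (fun q hq => h q (by simp [trace, hq])) i o m x
      (mir (enc (step (a, s)).1) ++ y) z
    have := Run.loopT (by simp [hv]) (e1.seq (e2.seq (e3.seq e4))) e5
    simp only [List.flatMap_cons, List.append_assoc]
    refine this.congr (by simp [mapAcc]) ?_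
    simp only [mapAcc, trace, List.map_cons, List.sum_cons, List.flatMap_cons, List.length_append]
    unfold sz at h3
    omega

theorem Tm.mapAccP {𝒯 : Cls (List α × σ)} {𝒮 : Cls (α × σ)} {step : α × σ → β × σ}
    (hs : Tm 𝒮 step) (h1 : ∀ p, 𝒯.dom p → ∀ q ∈ trace step p.1 p.2, 𝒮.dom q)
    (h2 : ∀ T, 𝒮.mem T → 𝒯.mem (fun p => ((trace step p.1 p.2).map T).sum))
    (h3 : 𝒯.mem (fun p => sz p.1)) (h4 : 𝒯.mem (fun p => sz (mapAcc step p.1 p.2).1)) :
    Tm 𝒯 (fun p => mapAcc step p.1 p.2) := by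
  obtain ⟨T, p, hT, hp⟩ := hs
  refine ⟨_, .seq (xferN .m [.y] 1) (.seq (xferN .y [.x] 1) (.seq (.pop .x) (.seq (.push .y .sep)
    (.seq (.loop .x .op (.seq (xferN .x [.y] (Enc.n α)) (.seq (xferN .y [.m] (Enc.n α))
        (.seq p (xferN .m [.y] (Enc.n β)))))) (.seq (.pop .x) (.seq (.push .m .cl)
    (.seq (.loop .y .op (xferN .y [.m] 1)) (.seq (.pop .y) (.push .m .op))))))))),
    𝒯.add (𝒯.add (𝒯.add (h2 T hT) (Cls.cmul h3 40)) (Cls.cmul h4 21)) (𝒯.const 12),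
    fun b a ha i o m x y z => ?_⟩
  obtain ⟨l, s⟩ := a
  have k1 : Items 1 (enc l) := Enc.items l
  have e1 := mv_my (b := b) k1 i o (enc s ++ m) x y z
  have e2 := mv_yx (b := b) k1 i o (enc s ++ m) x y z
  have e3 := Run.pop b .x (st i o (enc s ++ m) (enc l ++ x) y z)
  have e4 := Run.push b .y .sep (st i o (enc s ++ m) (l.flatMap enc ++ .cl :: x) y z)
  have e5 := run_acc l s (fun q hq => hp b q (h1 _ ha q hq)) i o m x (.sep :: y) z
  have e6 := Run.pop b .x (st i o (enc (mapAcc step l s).2 ++ m) (.cl :: x)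
    (mir ((mapAcc step l s).1.flatMap enc) ++ .sep :: y) z)
  have e7 := Run.push b .m .cl (st i o (enc (mapAcc step l s).2 ++ m) x
    (mir ((mapAcc step l s).1.flatMap enc) ++ .sep :: y) z)
  have e8 := run_back b (dyck_flat (mapAcc step l s).1).mir i o
    (.cl :: (enc (mapAcc step l s).2 ++ m)) x y z
  simp only [st_x, st_y, st_m, up_x, up_y, up_m, List.tail_cons] at e4 e6 e7
  have e3' : Run b (.pop .x) (st i o (enc s ++ m) (enc l ++ x) y z)
      (st i o (enc s ++ m) (l.flatMap enc ++ .cl :: x) y z) 1 := e3.congr (by simp [enc_list]) le_rfl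
  have := e1.seq (e2.seq (e3'.seq (e4.seq (e5.seq (e6.seq (e7.seq (e8.seq
    ((Run.pop _ .y _).seq (Run.push _ .m .op _)))))))))
  rw [enc_pair, List.append_assoc]
  refine this.congr (by simp [enc_prod (mapAcc step l s), enc_list]) ?_
  simp only [sz, enc_list, List.length_cons, List.length_append, mir_length]
  omega

/-! Rules in applied form. -/

@[fun_prop] theorem Tm.pair {𝒯 : Cls α} [h : Dom 𝒯] {f : α → β} {g : α → γ} (hf : Tm 𝒯 f)
    (hg : Tm 𝒯 g) : Tm 𝒯 (fun a => (f a, g a)) := by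
  have hs := hf.szb
  obtain ⟨T, p, hT, hp⟩ := hf
  obtain ⟨U, q, hU, hq⟩ := hg
  exact ⟨_, _, 𝒯.add (𝒯.add (Cls.cmul h.sz 28) (𝒯.const 6))
    (𝒯.add hT (𝒯.add (𝒯.add (Cls.cmul hs 18) (𝒯.const 4)) hU)), fun b a ha =>
    (cmp_dup (Enc.items a)).seq (((hp b a ha).frame _).seq
      (cmp_second (Enc.items (f a)) (hq b a ha)))⟩

theorem lin_snd : Tm (lin (α × β)) (fun p => p.2) :=
  Tm.dropP (big_of_le 1 0 fun p _ => by rw [sz_prod]; omega)

theorem lin_swap : Tm (lin (α × β)) (fun p => (p.2, p.1)) := Tm.swapP (big_self _ _)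

@[fun_prop] theorem Tm.snd {𝒯 : Cls α} [Dom 𝒯] {f : α → β × γ} (hf : Tm 𝒯 f) :
    Tm 𝒯 (fun a => (f a).2) := lin_snd.comp hf

@[fun_prop] theorem Tm.fst {𝒯 : Cls α} [Dom 𝒯] {f : α → β × γ} (hf : Tm 𝒯 f) :
    Tm 𝒯 (fun a => (f a).1) := (lin_swap.comp hf).snd

@[fun_prop] theorem Tm.const {𝒯 : Cls α} [Dom 𝒯] (c : β) : Tm 𝒯 (fun _ => c) :=
  (Tm.pushP c).fst

/-- Sharing of an intermediate value. -/
theorem Tm.let' {𝒯 : Cls α} [Dom 𝒯] {𝒮 : Cls (β × α)} {f : α → β} {g : β × α → γ}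
    (hf : Tm 𝒯 f) (hg : Tm 𝒮 g) (h : 𝒯.Pays 𝒮 (fun a => (f a, a))) :
    Tm 𝒯 (fun a => g (f a, a)) := hg.compP (hf.pair Tm.id) h

theorem Tm.decide {𝒯 : Cls α} {c : α → Prop} [DecidablePred c] (hc : Tm 𝒯 c) :
    Tm 𝒯 (fun a => decide (c a)) := hc.ofEnc' fun _ _ => (enc_prop _).symm

attribute [fun_prop] Tm.decide

/-- Case distinction; each branch only has to work where it is taken. -/
theorem Tm.iteR {𝒯 : Cls α} [Dom 𝒯] {c : α → Prop} [DecidablePred c] {f g : α → β}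
    (hc : Tm 𝒯 c) (hf : Tm (𝒯.res c) f) (hg : Tm (𝒯.res fun a => ¬ c a) g) :
    Tm 𝒯 (fun a => if c a then f a else g a) := by
  let 𝒰 : Cls (Bool × α) :=
    { dom := fun p => 𝒯.dom p.2 ∧ p.1 = Decidable.decide (c p.2)
      mem := fun T => ∃ T', 𝒯.mem T' ∧ ∀ p : Bool × α,
        (𝒯.dom p.2 ∧ p.1 = Decidable.decide (c p.2)) → T p ≤ T' p.2
      const := fun c => ⟨_, 𝒯.const c, fun _ _ => le_rfl⟩
      add := fun ⟨_, h, g⟩ ⟨_, h', g'⟩ => ⟨_, 𝒯.add h h', fun a ha =>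
        Nat.add_le_add (g a ha) (g' a ha)⟩
      mono := fun ⟨T, h, g⟩ h' => ⟨T, h, fun a ha => (h' a ha).trans (g a ha)⟩ }
  have key : Tm 𝒰 (fun p => if p.1 then f p.2 else g p.2) := by
    refine Tm.condP hf hg ⟨fun p hp => ⟨hp.1.1, ?_⟩, fun T ⟨T', h1, h2⟩ => ?_⟩
      ⟨fun p hp => ⟨hp.1.1, ?_⟩, fun T ⟨T', h1, h2⟩ => ?_⟩
    · simpa using hp.1.2.symm.trans hp.2
    · exact ⟨fun p => T' p.2, ⟨T', h1, fun _ _ => le_rfl⟩, fun p hp e =>
        h2 _ hp.1 (by simpa using hp.2.symm.trans e)⟩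
    · simpa using hp.1.2.symm.trans hp.2
    · exact ⟨fun p => T' p.2, ⟨T', h1, fun _ _ => le_rfl⟩, fun p hp e =>
        h2 _ hp.1 (by simpa using hp.2.symm.trans e)⟩
  refine (key.compP (hc.decide.pair Tm.id) ⟨fun a ha => ⟨ha, rfl⟩, fun T ⟨T', h1, h2⟩ =>
    𝒯.mono h1 fun a ha => h2 _ ⟨ha, rfl⟩⟩).congr fun a _ => by simp

@[fun_prop] theorem Tm.ite {𝒯 : Cls α} [Dom 𝒯] {c : α → Prop} [DecidablePred c] {f g : α → β}
    (hc : Tm 𝒯 c) (hf : Tm 𝒯 f) (hg : Tm 𝒯 g) : Tm 𝒯 (fun a => if c a then f a else g a) :=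
  hc.iteR (hf.res _) (hg.res _)

@[fun_prop] theorem Tm.cons {𝒯 : Cls α} [Dom 𝒯] {f : α → β} {g : α → List β} (hf : Tm 𝒯 f)
    (hg : Tm 𝒯 g) : Tm 𝒯 (fun a => f a :: g a) :=
  (Tm.consP (𝒯 := lin (β × List β)) (big_of_le 1 0 fun p _ => by rw [sz_prod]; omega)).comp
    (hf.pair hg)

theorem Tm.mapAcc {𝒯 : Cls ι} [Dom 𝒯] {𝒮 : Cls (α × σ)} {step : α × σ → β × σ}
    {l : ι → List α} {s : ι → σ} (hs : Tm 𝒮 step) (hl : Tm 𝒯 l) (hs0 : Tm 𝒯 s)
    (h1 : ∀ i, 𝒯.dom i → ∀ q ∈ trace step (l i) (s i), 𝒮.dom q)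
    (h2 : ∀ T, 𝒮.mem T → 𝒯.mem (fun i => ((trace step (l i) (s i)).map T).sum))
    (h4 : 𝒯.mem (fun i => sz (mapAcc step (l i) (s i)).1)) :
    Tm 𝒯 (fun i => mapAcc step (l i) (s i)) := by
  let 𝒰 : Cls (List α × σ) :=
    { dom := fun p => ∃ i, 𝒯.dom i ∧ p = (l i, s i)
      mem := fun T => 𝒯.mem (fun i => T (l i, s i))
      const := 𝒯.const
      add := 𝒯.add
      mono := fun h h' => 𝒯.mono h fun i hi => h' _ ⟨i, hi, rfl⟩ }
  have key : Tm 𝒰 (fun p => P338.mapAcc step p.1 p.2) :=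
    Tm.mapAccP hs (by rintro _ ⟨i, hi, rfl⟩; exact h1 i hi) h2 hl.szb h4
  exact key.compP (hl.pair hs0) ⟨fun i hi => ⟨i, hi, rfl⟩, fun _ h => h⟩

/-! Recursion. -/

/-- `f` is computed at a cost in `𝒯` plus the cost of the listed calls of `g`. -/
def TmO (g : γ → δ) (𝒯 : Cls α) (calls : α → List γ) (f : α → β) : Prop :=
  ∃ (T : α → ℕ) (p : Prog), 𝒯.mem T ∧ ∀ b (c : γ → ℕ) a, 𝒯.dom a →
    (∀ x ∈ calls a, Cmp b .call (enc x) (enc (g x)) (c x)) →
    Cmp b p (enc a) (enc (f a)) (T a + ((calls a).map c).sum)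

variable {g : γ → δ}

theorem Tm.toO {𝒯 : Cls α} {f : α → β} (h : Tm 𝒯 f) : TmO g 𝒯 (fun _ => []) f := by
  obtain ⟨T, p, hT, hp⟩ := h
  exact ⟨T, p, hT, fun b _ a ha _ => hp b a ha⟩

theorem TmO.congr {𝒯 : Cls α} {k : α → List γ} {f f' : α → β} (h : TmO g 𝒯 k f)
    (e : ∀ a, 𝒯.dom a → f' a = f a) : TmO g 𝒯 k f' := by
  obtain ⟨T, p, hT, hp⟩ := h
  exact ⟨T, p, hT, fun b c a ha hc => e a ha ▸ hp b c a ha hc⟩

theorem TmO.call {𝒯 : Cls γ} : TmO g 𝒯 (fun x => [x]) g :=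
  ⟨fun _ => 0, .call, 𝒯.const 0, fun _ _ a _ hc => by simpa using hc a (by simp)⟩

theorem TmO.compP {𝒯 : Cls α} {𝒮 : Cls β} {k : α → List γ} {k' : β → List γ} {h : β → σ}
    {f : α → β} (hh : TmO g 𝒮 k' h) (hf : TmO g 𝒯 k f) (hp : 𝒯.Pays 𝒮 f) :
    TmO g 𝒯 (fun a => k a ++ k' (f a)) (fun a => h (f a)) := by
  obtain ⟨T, p, hT, e1⟩ := hf
  obtain ⟨U, q, hU, e2⟩ := hh
  refine ⟨_, .seq p q, 𝒯.add hT (hp.2 U hU), fun b c a ha hc => ?_⟩
  refine ((e1 b c a ha fun x hx => hc x (by simp [hx])).seq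
    (e2 b c _ (hp.1 a ha) fun x hx => hc x (by simp [hx]))).weaken ?_
  simp; omega

/-- Keep the argument next to the result. -/
theorem TmO.keep {𝒯 : Cls α} [h : Dom 𝒯] {k : α → List γ} {f : α → β} (hf : TmO g 𝒯 k f) :
    TmO g 𝒯 k (fun a => (f a, a)) := by
  obtain ⟨T, p, hT, e1⟩ := hf
  exact ⟨_, _, 𝒯.add (𝒯.add (Cls.cmul h.sz 28) (𝒯.const 6)) hT, fun b c a ha hc =>
    ((cmp_dup (Enc.items a)).seq ((e1 b c a ha hc).frame _)).weaken (by unfold sz; omega)⟩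

theorem TmO.ite {𝒯 : Cls α} [h : Dom 𝒯] {c : α → Prop} [DecidablePred c] {k k' : α → List γ}
    {f f' : α → β} (hc : Tm 𝒯 c) (hf : TmO g (𝒯.res c) k f)
    (hf' : TmO g (𝒯.res fun a => ¬ c a) k' f') :
    TmO g 𝒯 (fun a => if c a then k a else k' a) (fun a => if c a then f a else f' a) := by
  obtain ⟨V, r, hV, e0⟩ := hc.decide.pair Tm.id
  obtain ⟨T, p, ⟨T', hT, h1⟩, e1⟩ := hf
  obtain ⟨U, q, ⟨U', hU, h2⟩, e2⟩ := hf'
  refine ⟨_, .seq r (condP p q), 𝒯.add hV (𝒯.add (𝒯.add hT hU) (𝒯.const 5)),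
    fun b cc a ha hc => ?_⟩
  have e3 := e0 b a ha
  by_cases hca : c a
  · simp only [hca, if_true, decide_true] at e3 hc ⊢
    exact (e3.seq (cmp_condT (e1 b cc a ⟨ha, hca⟩ hc))).weaken (by have := h1 a ha hca; omega)
  · simp only [hca, if_false, decide_false] at e3 hc ⊢
    exact (e3.seq (cmp_condF (e2 b cc a ⟨ha, hca⟩ hc))).weaken (by have := h2 a ha hca; omega)

/-- Tying the knot: any solution `U` of the cost recurrence bounds the running time. -/
theorem TmO.fix {𝒯 : Cls γ} {k : γ → List γ} (h : TmO g 𝒯 k g)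
    (hk : ∀ a, 𝒯.dom a → ∀ x ∈ k a, 𝒯.dom x) :
    ∃ T, 𝒯.mem T ∧ ∀ U : γ → ℕ, (∀ a, 𝒯.dom a → T a + ((k a).map U).sum ≤ U a) →
      Tm (big 𝒯.dom U) g := by
  obtain ⟨T, p, hT, e⟩ := h
  refine ⟨_, 𝒯.add hT (𝒯.const 1), fun U hU => ⟨U, .fix p, big_self _ _, ?_⟩⟩
  have key : ∀ n a, U a ≤ n → 𝒯.dom a → Cmp p p (enc a) (enc (g a)) (U a - 1) := by
    intro n
    induction n with
    | zero => intro a h1 ha; have := hU a ha; omega
    | succ n ih =>
      intro a h1 ha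
      have h2 := hU a ha
      refine (e p U a ha fun x hx => ?_).weaken (by omega)
      have h3 : U x ≤ ((k a).map U).sum := List.single_le_sum (by simp) _ (List.mem_map_of_mem hx)
      have h4 := hU x (hk a ha x hx)
      exact fun i o m x' y z => (Run.call (ih x (by omega) (hk a ha x hx) i o m x' y z)).weaken
        (by omega)
  intro b a ha i o m x y z
  have h2 := hU a ha
  exact (Run.fix (key _ a le_rfl ha i o m x y z)).weaken (by omega)

end

end Vale.Agent.P338
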