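import Vale.Agent.P338.CfPure

/-! Array passes in terms of the parameters. -/

set_option linter.unusedSectionVars false

namespace Vale.Agent.P338

variable {ι Θ : Type} [Enc ι] [Enc Θ] {𝒯 : Cls ι} [Dom 𝒯] {c : ι → Cf}

section proj
variable (h : Tm 𝒯 c)
include h
omit [Dom 𝒯] in
theorem Tm.cf_tup : Tm 𝒯 (fun i => (c i).tup) := h.ofEnc' fun _ _ => rfl
theorem Tm.cf_k (k : ℕ) : Tm 𝒯 (fun i => (c i).tup.1.getD k 0) :=
  h.cf_tup.fst.getD (Tm.const k) (Tm.const 0)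
@[fun_prop] theorem Tm.cf_s : Tm 𝒯 (fun i => (c i).s) := h.cf_k 0
@[fun_prop] theorem Tm.cf_w : Tm 𝒯 (fun i => (c i).w) := h.cf_k 1
@[fun_prop] theorem Tm.cf_r1 : Tm 𝒯 (fun i => (c i).r1) := h.cf_k 2
@[fun_prop] theorem Tm.cf_μ : Tm 𝒯 (fun i => (c i).μ) := h.cf_k 3
@[fun_prop] theorem Tm.cf_r2 : Tm 𝒯 (fun i => (c i).r2) := h.cf_k 4
@[fun_prop] theorem Tm.cf_t0 : Tm 𝒯 (fun i => (c i).t0) := h.cf_k 5
@[fun_prop] theorem Tm.cf_a : Tm 𝒯 (fun i => (c i).a) := h.cf_k 6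
@[fun_prop] theorem Tm.cf_e : Tm 𝒯 (fun i => (c i).e) := h.cf_k 7
@[fun_prop] theorem Tm.cf_e' : Tm 𝒯 (fun i => (c i).e') := h.cf_k 8
@[fun_prop] theorem Tm.cf_ρ : Tm 𝒯 (fun i => (c i).ρ) := h.cf_k 9
@[fun_prop] theorem Tm.cf_qs : Tm 𝒯 (fun i => (c i).qs) := h.cf_tup.snd
@[fun_prop] theorem Tm.cf_b : Tm 𝒯 (fun i => (c i).b) := h.cf_w.dbl.add (Tm.const 1)
@[fun_prop] theorem Tm.cf_F : Tm 𝒯 (fun i => (c i).F) := (h.cf_a.add (Tm.const 1)).add h.cf_e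
@[fun_prop] theorem Tm.cf_q {f : ι → ℕ} (hf : Tm 𝒯 f) : Tm 𝒯 (fun i => (c i).q (f i)) :=
  h.cf_qs.getD hf (Tm.const 1)
end proj

theorem Tm.cf_mk {s w r1 μ r2 t0 a e e' ρ : ι → ℕ} {qs : ι → List ℕ}
    (h : Tm 𝒯 fun i => ([s i, w i, r1 i, μ i, r2 i, t0 i, a i, e i, e' i, ρ i], qs i)) :
    Tm 𝒯 (fun i => (⟨s i, w i, r1 i, μ i, r2 i, t0 i, a i, e i, e' i, ρ i, qs i⟩ : Cf)) :=
  h.ofEnc' fun _ _ => rfl

/-- The class computes admissible parameters and pays for every polynomial in `s`. -/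
structure CfT (𝒯 : Cls ι) (c : ι → Cf) : Prop where
  tm : Tm 𝒯 c
  ok : ∀ i, 𝒯.dom i → (c i).ok
  mem : ∀ n, 𝒯.mem fun i => ((c i).s + 1) ^ n

theorem CfT.res (h : CfT 𝒯 c) (Q : ι → Prop) : CfT (𝒯.res Q) c :=
  ⟨h.tm.res Q, fun i hi => h.ok i hi.1, fun n => Cls.res_mem (h.mem n)⟩
theorem CfT.ext {β : Type} [Enc β] (h : CfT 𝒯 c) (G : ι → β → Prop) [Dom (𝒯.ext G)] :
    CfT (𝒯.ext G) (fun p => c p.2) :=
  ⟨h.tm.lift G, fun _ hp => h.ok _ hp.1, fun n => Cls.ext_mem G (h.mem n)⟩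
theorem CfT.mem_le (h : CfT 𝒯 c) {f : ι → ℕ} (C n : ℕ)
    (hf : ∀ i, 𝒯.dom i → f i ≤ C * ((c i).s + 1) ^ n) : 𝒯.mem f := 𝒯.mono (Cls.cmul (h.mem n) C) hf
theorem CfT.mem_s (h : CfT 𝒯 c) : 𝒯.mem (fun i => (c i).s) := h.mem_le 1 1 fun _ _ => by simp
theorem CfT.mem_w (h : CfT 𝒯 c) : 𝒯.mem (fun i => (c i).w) :=
  h.mem_le 1 3 fun i hi => (h.ok i hi).w_le.trans
    ((Nat.pow_le_pow_left (Nat.le_succ _) 3).trans (one_mul _).ge)
theorem CfT.mem_b (h : CfT 𝒯 c) : 𝒯.mem (fun i => (c i).b) := Cls.lin h.mem_w 2 1 fun _ _ => le_rfl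
theorem CfT.mem_m (h : CfT 𝒯 c) : 𝒯.mem (fun i => (c i).m) :=
  𝒯.mono h.mem_s fun i hi => (h.ok i hi).e'_le.2.2.1
theorem CfT.mem_L (h : CfT 𝒯 c) : 𝒯.mem (fun i => 2 ^ (c i).a) :=
  h.mem_le 1 5 fun i hi => (h.ok i hi).a_le.trans
    ((Nat.pow_le_pow_left (Nat.le_succ _) 5).trans (one_mul _).ge)
theorem CfT.mem_q (h : CfT 𝒯 c) (f : ι → ℕ) : 𝒯.mem (fun i => (c i).q (f i)) :=
  𝒯.mono h.mem_L fun i hi => by have := (h.ok i hi).q4 (f i); omega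


/-- The class of costs polynomial in `s` on admissible parameters. -/
abbrev cq : Cls Cf := poly (fun c : Cf => c.ok) (fun c => c.s)

instance : Dom cq := ⟨6, Cf.ok.sz_le.choose, Cf.ok.sz_le.choose_spec⟩

theorem cq_cfT : CfT cq (fun c => c) := ⟨Tm.id, fun _ h => h, fun n => ⟨n, 1, fun _ _ => by simp⟩⟩

omit [Dom 𝒯] in
theorem CfT.via {β : Type} [Enc β] (h : CfT 𝒯 c) {g : Cf → β} (hg : Tm cq g) :
    Tm 𝒯 (fun i => g (c i)) := hg.compP h.tm (Cls.pays_poly h.ok h.mem)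

theorem cq_m : Tm cq (fun c => c.m) :=
  ((Tm.const 289).pow Tm.id.cf_r2 (Cls.mono _ cq_cfT.mem_w fun c hc => by
    have := (Cf.ok.e'_le hc).2.2.2.2.2.1; omega)).mul Tm.id.cf_t0

theorem CfT.R (h : CfT 𝒯 c) : Tm 𝒯 (fun i => (c i).R) := h.tm.cf_s.pow2 h.mem_s
theorem CfT.P (h : CfT 𝒯 c) : Tm 𝒯 (fun i => (c i).P) := h.tm.cf_w.Pm h.mem_w
theorem CfT.m (h : CfT 𝒯 c) : Tm 𝒯 (fun i => (c i).m) := h.via cq_m
theorem CfT.E (h : CfT 𝒯 c) : Tm 𝒯 (fun i => (c i).E) :=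
  h.via (g := fun c => c.E) ((Tm.const Wn).pow (Tm.id.cf_r1.add Tm.id.cf_r2)
    (Cls.mono _ cq_cfT.mem_w fun _ hc => (Cf.ok.e'_le hc).2.2.2.2.2.1))
theorem CfT.M (h : CfT 𝒯 c) : Tm 𝒯 (fun i => (c i).M) := h.via (g := fun c => c.M) Tm.id.cf_qs.prod
theorem CfT.G (h : CfT 𝒯 c) : Tm 𝒯 (fun i => (c i).G) :=
  h.via (g := fun c => c.G) (((Tm.const 3).mul Tm.id.cf_ρ).mul
    (((Tm.const 300).mul (Tm.id.cf_a.add (Tm.const 1))).mul
      (((Tm.id.cf_a.add (Tm.const 2)).mul cq_m).add (Tm.const 1))))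
theorem CfT.RR (h : CfT 𝒯 c) : Tm 𝒯 (fun i => (c i).R * (c i).R) := h.R.shl h.tm.cf_s h.mem_s
theorem CfT.RRR (h : CfT 𝒯 c) : Tm 𝒯 (fun i => (c i).R * (c i).R * (c i).R) :=
  h.RR.shl h.tm.cf_s h.mem_s

theorem CfT.pow_a (h : CfT 𝒯 c) : Tm 𝒯 (fun i => 2 ^ (c i).a) :=
  h.tm.cf_a.pow2 (𝒯.mono h.mem_L fun _ _ => Nat.lt_two_pow_self.le)
theorem CfT.pow_e (h : CfT 𝒯 c) : Tm 𝒯 (fun i => 2 ^ (c i).e) :=
  h.tm.cf_e.pow2 (𝒯.mono h.mem_s fun i hi => by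
    have := (h.ok i hi).e'_le.2.2.2.1; unfold Cf.F at this; omega)
theorem CfT.pow_e' (h : CfT 𝒯 c) : Tm 𝒯 (fun i => 2 ^ (c i).e') :=
  h.tm.cf_e'.pow2 (𝒯.mono h.mem_s fun i hi => by
    have := (h.ok i hi).e'_le; unfold Cf.F at this; omega)

section pol
variable [Mulc 𝒯] (h : CfT 𝒯 c) {f y : ι → ℕ}
include h
theorem CfT.safeY (hy : Tm 𝒯 y) : Tm 𝒯 (fun i => (c i).safeY (y i)) :=
  h.m.allRange h.mem_m fun _ =>
    have h' := h.ext fun i (k : ℕ) => k < (c i).m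
    (((((hy.lift _).shr ((h'.tm.cf_F.mul Tm.id.fst).add (h'.tm.cf_a.add (Tm.const 1)))).low
      h'.tm.cf_e).add h'.pow_e').add (Tm.const 1)).lt h'.pow_e
theorem CfT.safeW (hy : Tm 𝒯 y) : Tm 𝒯 (fun i => (c i).safeW (y i)) :=
  h.m.allRange h.mem_m fun _ =>
    have h' := h.ext fun i (k : ℕ) => k < (c i).m
    have h1 := ((hy.lift _).shr (h'.tm.cf_e'.mul Tm.id.fst)).low h'.tm.cf_e'
    ((Tm.const 1).le h1).and ((h1.add (Tm.const 1)).lt h'.pow_e')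
theorem CfT.validY (hf : Tm 𝒯 f) (hy : Tm 𝒯 y) : Tm 𝒯 (fun i => (c i).validY (f i) (y i)) :=
  (h.safeY hy).and (h.m.allRange h.mem_m fun _ =>
    have h' := h.ext fun i (k : ℕ) => k < (c i).m
    have h1 := h'.tm.cf_q (((hf.lift _).mul h'.m).add Tm.id.fst)
    (((hy.lift _).shr (h'.tm.cf_F.mul Tm.id.fst)).low h'.tm.cf_a).lt
      (((h'.pow_a.div h1).sub (Tm.const 1)).half.dbl.mul h1))
theorem CfT.idem (hf : Tm 𝒯 f) : Tm 𝒯 (fun i => idem (c i).qs (f i)) :=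
  (h.M.div (h.tm.cf_q hf)).mul ((h.tm.cf_q hf).sumRange (h.mem_q f) fun _ =>
    have h' := h.ext fun i (k : ℕ) => k < (c i).q (f i)
    have h1 := h'.tm.cf_q (hf.lift _)
    Tm.ite ((((h'.M.div h1).mul Tm.id.fst).mod h1).eq ((Tm.const 1).mod h1)) Tm.id.fst
      (Tm.const 0))
end pol

/-- Functions of an index, the parameters and a short further argument, in time polynomial in
`s`. -/
abbrev cp (Θ : Type) [Enc Θ] : Cls (ℕ × Cf × Θ) :=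
  poly (fun p => p.2.1.ok ∧ p.1 < 2 ^ p.2.1.b ∧ sz p.2.2 ≤ 100 * (p.2.1.s + 1)) (fun p => p.2.1.s)

instance : Dom (cp Θ) := by
  obtain ⟨C, hC⟩ := Cf.ok.sz_le
  refine ⟨6, C + 114, fun p hp => ?_⟩
  have h1 := hC _ hp.1
  have h2 := sz_nat_lt hp.2.1
  have h3 := hp.2.2
  have h4 := hp.1.w_le.trans (Nat.pow_le_pow_left (Nat.le_succ _) 3)
  have h5 : (p.2.1.s + 1) ^ 3 ≤ (p.2.1.s + 1) ^ 6 := Nat.pow_le_pow_right (by omega) (by omega)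
  have h6 : p.2.1.s + 1 ≤ (p.2.1.s + 1) ^ 6 := Nat.le_self_pow (by omega) _
  rw [sz_prod, sz_prod p.2, add_mul]
  unfold Cf.b at h2
  simp only [Nat.succ_eq_add_one] at h4
  beta_reduce
  omega
theorem cp_cfT : CfT (cp Θ) (fun p => p.2.1) :=
  ⟨Tm.id.snd.fst, fun _ h => h.1, fun n => ⟨n, 1, fun _ _ => by simp⟩⟩

/-- An array argument in the shape given by the parameters; the class pays for exchanges. -/
structure CArr (𝒯 : Cls ι) (c : ι → Cf) (l : ι → List ℕ) : Prop where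
  tc : Tm 𝒯 c
  tl : Tm 𝒯 l
  ok : ∀ i, 𝒯.dom i → (c i).ok
  good : ∀ i, 𝒯.dom i → (c i).Good (l i)
  cost : 𝒯.mem fun i => (l i).length * ((c i).b + 1) * (c i).sw

variable {l l' : ι → List ℕ} {θ : ι → Θ}

theorem succ_pow_le (n s : ℕ) : (s + 1) ^ n ≤ n.factorial * 2 ^ n * 2 ^ s := by
  refine (Nat.pow_succ_le_ascFactorial (s + 1) n).trans ?_
  rw [Nat.ascFactorial_eq_factorial_mul_choose, mul_assoc, ← pow_add, add_comm n]
  exact Nat.mul_le_mul_left _ (Nat.choose_le_two_pow _ _)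

omit [Dom 𝒯] in
theorem CArr.mem_pass (h : CArr 𝒯 c l) : 𝒯.mem fun i => (l i).length * ((c i).b + 1) :=
  𝒯.mono h.cost fun i _ => Nat.le_mul_of_pos_right _ (c i).one_le_sw

omit [Dom 𝒯] in
theorem CArr.mem_len (h : CArr 𝒯 c l) : 𝒯.mem fun i => (l i).length :=
  𝒯.mono h.mem_pass fun _ _ => Nat.le_mul_of_pos_right _ (Nat.succ_pos _)

omit [Dom 𝒯] in
theorem CArr.batch (h : CArr 𝒯 c l) : ∃ A : ι → ℕ, ∀ i, 𝒯.dom i → 0 < A i ∧ Wn ^ (c i).r1 ∣ A i ∧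
    (l i).length = A i * (c i).R * (c i).R * (c i).R ∧
    (l i).length / (c i).R = A i * (c i).R * (c i).R ∧ (c i).R ≤ A i * (c i).R ∧
    A i * (c i).R ≤ A i * (c i).R * (c i).R ∧ A i * (c i).R * (c i).R < 2 ^ (c i).b := by
  choose! A hA using fun i hi => (h.good i hi).1
  refine ⟨A, fun i hi => ?_⟩
  obtain ⟨h1, h2, h3, h4⟩ := hA i hi
  have h5 := (c i).R_pos
  refine ⟨h1, h2, h4, by rw [h4, Nat.mul_div_cancel _ h5], Nat.le_mul_of_pos_left _ h1,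
    Nat.le_mul_of_pos_right _ h5, ?_⟩
  calc _ ≤ (c i).E * (c i).R * (c i).R := by gcongr
    _ ≤ _ := Nat.le_mul_of_pos_right _ h5
    _ < _ := (h.ok i hi).len_lt
    _ ≤ _ := Nat.pow_le_pow_right two_pos (by unfold Cf.b; omega)

theorem CArr.cfT (h : CArr 𝒯 c l) : CfT 𝒯 c := by
  obtain ⟨A, hA⟩ := h.batch
  refine ⟨h.tc, h.ok, fun n => 𝒯.mono (Cls.cmul h.mem_len (n.factorial * 2 ^ n)) fun i hi => ?_⟩
  obtain ⟨-, -, -, h1, h2, h3, -⟩ := hA i hi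
  have h4 := Nat.div_le_self (l i).length (c i).R
  exact (succ_pow_le n _).trans (Nat.mul_le_mul_left _ (show (c i).R ≤ _ by omega))
theorem CArr.arr (h : CArr 𝒯 c l) : ArrOK 𝒯 (fun i => (c i).b) l := by
  refine ⟨h.tl, fun i hi => (h.good i hi).2.mono (c i).P_le, fun i hi => ?_, h.mem_pass⟩
  obtain ⟨A, -, -, h3, h4⟩ := (h.good i hi).1
  calc _ ≤ (c i).E * (c i).R * (c i).R * (c i).R := by rw [h4]; gcongr
    _ < _ := (h.ok i hi).len_lt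
    _ ≤ _ := Nat.pow_le_pow_right two_pos (by unfold Cf.b; omega)
theorem CArr.next (h : CArr 𝒯 c l) (hl : Tm 𝒯 l')
    (h' : ∀ i, 𝒯.dom i → (l' i).length = (l i).length ∧ Bd (c i).P (l' i)) : CArr 𝒯 c l' :=
  ⟨h.tc, hl, h.ok, fun i hi => ⟨(h' i hi).1 ▸ (h.good i hi).1, (h' i hi).2⟩,
    𝒯.mono h.cost fun i hi => by rw [(h' i hi).1]⟩
/-- Polynomial work for each pair of leading digits is free. -/
theorem CArr.mem_poly (h : CArr 𝒯 c l) (n : ℕ) :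
    𝒯.mem fun i => (l i).length / (c i).R * ((c i).s + (c i).b + 1) ^ n := by
  refine 𝒯.mono (Cls.cmul h.mem_len (4 ^ n * ((3 * n).factorial * 2 ^ (3 * n)))) fun i hi => ?_
  have h1 := (h.ok i hi).w_le.trans (Nat.pow_le_pow_left (Nat.le_succ _) 3)
  have h2 : (c i).s + 1 ≤ ((c i).s + 1) ^ 3 := Nat.le_self_pow (by omega) _
  have h3 : (c i).s + (c i).b + 1 ≤ 4 * ((c i).s + 1) ^ 3 := by
    simp only [Nat.succ_eq_add_one] at h1
    unfold Cf.b; omega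
  have h4 := Nat.pow_le_pow_left h3 n
  rw [mul_pow, ← pow_mul] at h4
  have h5 := h4.trans (Nat.mul_le_mul_left _ (succ_pow_le (3 * n) _))
  calc _ ≤ (l i).length / (c i).R * (4 ^ n * ((3 * n).factorial * 2 ^ (3 * n) * (c i).R)) :=
        Nat.mul_le_mul_left _ h5
    _ = 4 ^ n * ((3 * n).factorial * 2 ^ (3 * n)) * ((l i).length / (c i).R * (c i).R) := by ring
    _ ≤ _ := Nat.mul_le_mul_left _ (Nat.div_mul_le_self _ _)
theorem CArr.swapG (h : CArr 𝒯 c l) {A B C : ι → ℕ} (hB : Tm 𝒯 B) (hC : Tm 𝒯 C)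
    (hl : ∀ i, 𝒯.dom i → (l i).length = A i * (c i).R * B i * (c i).R * C i ∧ 0 < A i ∧ 0 < B i ∧
      0 < C i ∧ Wn ^ (c i).r1 ∣ A i) : CArr 𝒯 c (fun i => swap (c i).R (B i) (C i) (l i)) :=
  h.next (Tm.swap (A := A) h.arr h.tc.cf_b h.cfT.R hB hC h.tc.cf_r1 h.tc.cf_μ
    (fun i hi => have k := h.ok i hi
      ⟨(hl i hi).1, (hl i hi).2.1, (c i).R_pos, (hl i hi).2.2.1, (hl i hi).2.2.2.1,
        (hl i hi).2.2.2.2, k.d0, k.mu2, k.mu_lo, k.mu_hi, k.mu_b⟩) h.cost)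
    fun i hi => ⟨length_swap _ _ _ _, bd_swap (h.good i hi).2 (c i).P_pos⟩
theorem CArr.swapYW (h : CArr 𝒯 c l) : CArr 𝒯 c (fun i => swap (c i).R (c i).R 1 (l i)) := by
  obtain ⟨A, hA⟩ := h.batch
  exact h.swapG (A := A) h.cfT.R (Tm.const 1) fun i hi =>
    ⟨by rw [(hA i hi).2.2.1, mul_one], (hA i hi).1, (c i).R_pos, one_pos, (hA i hi).2.1⟩
theorem CArr.swapYX (h : CArr 𝒯 c l) : CArr 𝒯 c (fun i => swap (c i).R 1 (c i).R (l i)) := by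
  obtain ⟨A, hA⟩ := h.batch
  exact h.swapG (A := A) (Tm.const 1) h.cfT.R fun i hi =>
    ⟨by rw [(hA i hi).2.2.1, mul_one], (hA i hi).1, one_pos, (c i).R_pos, (hA i hi).2.1⟩
theorem CArr.swapXW (h : CArr 𝒯 c l) : CArr 𝒯 c (fun i => swap (c i).R 1 1 (l i)) := by
  obtain ⟨A, hA⟩ := h.batch
  exact h.swapG (A := fun i => A i * (c i).R) (Tm.const 1) (Tm.const 1) fun i hi =>
    ⟨by rw [(hA i hi).2.2.1, mul_one, mul_one], Nat.mul_pos (hA i hi).1 (c i).R_pos, one_pos,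
      one_pos, (hA i hi).2.1.mul_right _⟩

section
variable (h : CArr 𝒯 c l) (hθ : Tm 𝒯 θ) (hs : ∀ i, 𝒯.dom i → sz (θ i) ≤ 100 * ((c i).s + 1))
  {g : ℕ × Cf × Θ → ℕ} (hg : Tm (cp Θ) g)
include h hθ hs hg
theorem CArr.shearG {A Mo C : ι → ℕ} (hM : Tm 𝒯 Mo) (hC : Tm 𝒯 C)
    (hl : ∀ i, 𝒯.dom i → (l i).length = A i * (c i).R * C i ∧ 0 < A i ∧ 0 < Mo i ∧
      Mo i ≤ (c i).R ∧ 0 < C i)
    (hA : ∀ i, 𝒯.dom i → A i ≤ (l i).length / (c i).R ∧ A i ≤ 2 ^ (c i).b) :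
    CArr 𝒯 c (fun i => shear (c i).R (Mo i) (C i) (fun u => g (u, c i, θ i)) (l i)) :=
  h.next (Tm.shear (A := A) (k := fun i => (c i).s) hg h.arr (h.tc.pair hθ) h.cfT.R hM hC hl
    (fun i hi _ hu => ⟨⟨h.ok i hi, hu.trans_le (hA i hi).2, hs i hi⟩, le_rfl⟩)
    fun n => 𝒯.mono (h.mem_poly n) fun i hi => Nat.mul_le_mul_right _ (hA i hi).1)
    fun i hi => ⟨(length_dg _ (c i).R_pos (hl i hi).2.2.2.2 (hl i hi).1).trans (hl i hi).1.symm,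
      bd_dg _ (h.good i hi).2 (c i).P_pos⟩
theorem CArr.shearW :
    CArr 𝒯 c (fun i => shear (c i).R (c i).R 1 (fun u => g (u, c i, θ i)) (l i)) := by
  obtain ⟨A, hA⟩ := h.batch
  refine h.shearG hθ hs hg (A := fun i => A i * (c i).R * (c i).R) h.cfT.R (Tm.const 1)
    (fun i hi => ?_) fun i hi => ?_ <;> obtain ⟨h1, -, h2, h3, h4, h5, h6⟩ := hA i hi
  · have := (c i).R_pos
    exact ⟨by rw [h2, mul_one], by omega, this, le_rfl, one_pos⟩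
  · omega
theorem CArr.shearX :
    CArr 𝒯 c (fun i => shear (c i).R (c i).M (c i).R (fun u => g (u, c i, θ i)) (l i)) := by
  obtain ⟨A, hA⟩ := h.batch
  refine h.shearG hθ hs hg (A := fun i => A i * (c i).R) h.cfT.M h.cfT.R
    (fun i hi => ?_) fun i hi => ?_ <;> obtain ⟨h1, -, h2, h3, h4, h5, h6⟩ := hA i hi
  · have := (c i).R_pos
    have := (h.ok i hi).mr
    exact ⟨h2, by omega, (h.ok i hi).M_pos, by omega, by omega⟩
  · omega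
theorem CArr.upper : CArr 𝒯 c (fun i => upper (c i).R (fun u => g (u, c i, θ i)) (l i)) :=
  (h.swapYW.shearW hθ hs hg).swapYW
end

theorem maskD_eq {A R C : ℕ} (p : ℕ → Prop) [DecidablePred p] {l : List ℕ} (hR : 0 < R)
    (hC : 0 < C) (h : l.length = A * R * C) :
    maskD R C p l = tab l.length fun i => if p (i / C % R) then gt l i else 0 := by
  have h1 := length_dg (R' := R) (fun _ v => if p v then some v else none) hR hC h
  rw [dg, length_tab] at h1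
  rw [maskD, dg, h1, h]
  congr 1
  funext i
  split_ifs
  · rw [Option.elim_some, Nat.div_add_mod', Nat.div_add_mod']
  · rfl

theorem CArr.maskG (h : CArr 𝒯 c l) {p : Cf → ℕ → Prop} [∀ c, DecidablePred (p c)]
    (hp : Tm (cp Unit) fun q => p q.2.1 q.1) {A C : ι → ℕ} (hC : Tm 𝒯 C)
    (hl : ∀ i, 𝒯.dom i → (l i).length = A i * (c i).R * C i ∧ 0 < A i ∧ 0 < (c i).R ∧ 0 < C i) :
    CArr 𝒯 c (fun i => tab (l i).length fun n =>
      if p (c i) (n / C i % (c i).R) then gt (l i) n else 0) := by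
  obtain ⟨A', hA⟩ := h.batch
  refine h.next ((Tm.maskD (A := A) (k := fun i => (c i).s) hp h.arr (h.tc.pair (Tm.const ()))
    h.cfT.R hC hl (fun i hi v hv => ⟨⟨h.ok i hi, ?_, ?_⟩, le_rfl⟩) fun n =>
      𝒯.mono (h.mem_poly n) fun i hi => Nat.mul_le_mul_right _ ?_).congr
        fun i hi => (maskD_eq _ (hl i hi).2.2.1 (hl i hi).2.2.2 (hl i hi).1).symm)
    fun i hi => ⟨length_tab _ _, bd_tab fun n _ => ?_⟩
  · have := hA i hi
    dsimp only; omega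
  · dsimp only; rw [sz_unit]; omega
  · have := hA i hi
    omega
  · split_ifs
    exacts [(h.good i hi).2.gt (c i).P_pos n, (c i).P_pos]

/-- Zero at the indices that are not safe. -/
theorem CArr.clean (h : CArr 𝒯 c l) :
    CArr 𝒯 c (fun i => tab (l i).length fun n => if (c i).Safe n then gt (l i) n else 0) := by
  obtain ⟨A, hA⟩ := h.batch
  have h1 := h.maskG (p := Cf.safeY) (cp_cfT.safeY Tm.id.fst) (A := A) h.cfT.RR fun i hi =>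
    ⟨by rw [(hA i hi).2.2.1, mul_assoc], (hA i hi).1, (c i).R_pos,
      Nat.mul_pos (c i).R_pos (c i).R_pos⟩
  have h2 := h1.maskG (p := Cf.safeW) (cp_cfT.safeW Tm.id.fst)
    (A := fun i => A i * (c i).R * (c i).R) (Tm.const 1) fun i hi =>
    ⟨by rw [length_tab, (hA i hi).2.2.1, mul_one],
      Nat.mul_pos (Nat.mul_pos (hA i hi).1 (c i).R_pos) (c i).R_pos, (c i).R_pos, one_pos⟩
  refine h.next (h2.tl.congr fun i _ => ?_) fun i hi => ⟨length_tab _ _, bd_tab fun n _ => ?_⟩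
  · rw [length_tab]
    refine List.map_congr_left fun n hn => ?_
    rw [gt_tab _ (List.mem_range.1 hn), Nat.div_one, ← Nat.div_div_eq_div_mul]
    by_cases k1 : (c i).safeY (n / (c i).R / (c i).R % (c i).R) <;>
      by_cases k2 : (c i).safeW (n % (c i).R) <;> simp [Cf.Safe, k1, k2]
  · split_ifs
    exacts [(h.good i hi).2.gt (c i).P_pos n, (c i).P_pos]

end Vale.Agent.P338
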