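import Vale.Agent.P338.Conf

/-! Consequences of admissibility. -/

namespace Vale.Agent.P338

namespace CfAux

open Finset

theorem xor_fld (i : ℕ) {p u v : ℕ} (h : p < u ∨ u + v ≤ p) :
    (i ^^^ 2 ^ p) / 2 ^ u % 2 ^ v = i / 2 ^ u % 2 ^ v := Nat.eq_of_testBit_eq fun k => by
  simp only [Nat.testBit_mod_two_pow, Nat.testBit_div_two_pow, Nat.testBit_xor,
    Nat.testBit_two_pow]
  by_cases hk : k < v
  · have : p ≠ k + u := by omega
    simp [this]
  · simp [hk]

theorem xor_div (i : ℕ) {p u : ℕ} (h : p < u) : (i ^^^ 2 ^ p) / 2 ^ u = i / 2 ^ u :=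
  Nat.eq_of_testBit_eq fun k => by
    have : p ≠ k + u := by omega
    simp [Nat.testBit_div_two_pow, Nat.testBit_xor, this]

theorem sub_fld (i : ℕ) {s u v : ℕ} (h : u + v ≤ s) :
    i / 2 ^ s / 2 ^ s % 2 ^ s / 2 ^ u % 2 ^ v = i / 2 ^ (2 * s + u) % 2 ^ v :=
  Nat.eq_of_testBit_eq fun k => by
    simp only [Nat.testBit_mod_two_pow, Nat.testBit_div_two_pow]
    by_cases hk : k < v
    · have h1 : k + u < s := by omega
      have h2 : k + u + s + s = k + (2 * s + u) := by omega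
      simp [h1, h2]
    · simp [hk]

theorem add_eq_xor {x p : ℕ} (h : x < 2 ^ p) : x + 2 ^ p = x ^^^ 2 ^ p :=
  Nat.eq_of_testBit_eq fun k => by
    rw [Nat.testBit_xor, Nat.testBit_two_pow, add_comm]
    rcases lt_trichotomy k p with hk | rfl | hk
    · simp [Nat.testBit_two_pow_add_gt hk, hk.ne']
    · simp [Nat.testBit_two_pow_add_eq]
    · have h1 : 2 ^ (p + 1) ≤ 2 ^ k := Nat.pow_le_pow_right two_pos hk
      rw [Nat.testBit_lt_two_pow (by rw [pow_succ] at h1; omega),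
        Nat.testBit_lt_two_pow (by rw [pow_succ] at h1; omega)]
      simp [hk.ne]

theorem card_fld {s u v k n : ℕ} (B : ℕ → Prop) [DecidablePred B] (h : u + v ≤ s)
    (hB : ((range (2 ^ v)).filter B).card ≤ k) (hk : n * k ≤ 2 ^ v) :
    n * ((range (2 ^ s)).filter fun y => B (y / 2 ^ u % 2 ^ v)).card ≤ 2 ^ s := by
  obtain ⟨d, rfl⟩ := Nat.exists_eq_add_of_le h
  have h1 := card_le_card_of_injOn (s := (range (2 ^ (u + v + d))).filter
    fun y => B (y / 2 ^ u % 2 ^ v)) (t := ((range (2 ^ v)).filter B) ×ˢ range (2 ^ u) ×ˢ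
      range (2 ^ d)) (fun y => (y / 2 ^ u % 2 ^ v, y % 2 ^ u, y / 2 ^ u / 2 ^ v))
    (fun y hy => by
      simp only [coe_filter, mem_range, Set.mem_ofPred_eq, coe_product, Set.mem_prod, coe_range,
        Set.mem_Iio] at hy ⊢
      refine ⟨⟨Nat.mod_lt _ (by positivity), hy.2⟩, Nat.mod_lt _ (by positivity), ?_⟩
      rw [Nat.div_div_eq_div_mul, Nat.div_lt_iff_lt_mul (by positivity), ← pow_add, ← pow_add,
        add_comm]
      exact hy.1)
    (fun y _ y' _ hy => by
      simp only [Prod.mk.injEq] at hy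
      rw [← Nat.div_add_mod y (2 ^ u), ← Nat.div_add_mod (y / 2 ^ u) (2 ^ v), hy.1, hy.2.1, hy.2.2,
        Nat.div_add_mod, Nat.div_add_mod])
  rw [card_product, card_product, card_range, card_range] at h1
  calc _ ≤ n * (k * (2 ^ u * 2 ^ d)) :=
        Nat.mul_le_mul_left _ (h1.trans (Nat.mul_le_mul_right _ hB))
    _ ≤ 2 ^ v * (2 ^ u * 2 ^ d) := by rw [← mul_assoc]; exact Nat.mul_le_mul_right _ hk
    _ = _ := by ring

theorem card_ge {N a k : ℕ} (B : ℕ → Prop) [DecidablePred B] (h : ∀ x, B x → a ≤ x)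
    (hk : N ≤ a + k) : ((range N).filter B).card ≤ k := by
  refine (card_le_card (t := Ico a N) fun x hx => ?_).trans (by rw [Nat.card_Ico]; omega)
  rw [mem_filter, mem_range] at hx
  exact mem_Ico.2 ⟨h x hx.2, hx.1⟩

theorem union_bound {R m : ℕ} (p : ℕ → Prop) [DecidablePred p] (bad : ℕ → Finset ℕ) (hm : 0 < m)
    (h : ∀ y < R, ¬ p y → ∃ f < m, y ∈ bad f) (hb : ∀ f < m, 2 * m * (bad f).card ≤ R) :
    R ≤ 2 * Nat.count p R := by
  have h1 := card_filter_add_card_filter_not (s := range R) p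
  have h2 : ((range R).filter fun y => ¬ p y).card ≤ ∑ f ∈ range m, (bad f).card :=
    (card_le_card fun y hy => by
      rw [mem_filter, mem_range] at hy
      obtain ⟨f, h1, h2⟩ := h y hy.1 hy.2
      exact mem_biUnion.2 ⟨f, mem_range.2 h1, h2⟩).trans card_biUnion_le
  have h3 : m * (2 * ∑ f ∈ range m, (bad f).card) ≤ m * R := by
    rw [← mul_assoc, mul_comm m 2, mul_sum]
    simpa using sum_le_card_nsmul (range m) _ R fun f hf => hb f (mem_range.1 hf)
  have h4 := Nat.le_of_mul_le_mul_left h3 hm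
  have h5 : Nat.count p R = ((range R).filter p).card := Nat.count_eq_card_filter_range _ _
  rw [card_range] at h1
  omega

theorem le_nseg (a : ℕ) {q : ℕ} (hq : 0 < q) : 2 ^ a ≤ nseg a q * q + 3 * q := by
  have h1 := Nat.lt_div_mul_add (a := 2 ^ a) hq
  have h2 : 2 ^ a / q ≤ nseg a q + 2 := by unfold nseg; omega
  have h3 := Nat.mul_le_mul_right q h2
  rw [add_mul] at h3
  omega

end CfAux

open CfAux

namespace Cf
variable {c : Cf}

theorem R_pos (c : Cf) : 0 < c.R := by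
  unfold R; positivity
theorem P_pos (c : Cf) : 0 < c.P := by
  exact Nat.succ_pos _
theorem E_pos (c : Cf) : 0 < c.E := by
  unfold E Wn; positivity
theorem E_eq (c : Cf) : c.E = 2 ^ (30 * (c.r1 + c.r2)) := by
  rw [E, Wn, ← pow_mul]
theorem P_le (c : Cf) : c.P ≤ 2 ^ c.b := Pm_le _
theorem ok.q_pos (h : c.ok) (f : ℕ) : 0 < c.q f := by
  exact CrtAux.getD_pos (fun q hq => (h.odd q hq).pos) f
theorem ok.q_odd (h : c.ok) (f : ℕ) : Odd (c.q f) := by
  unfold q
  by_cases hf : f < c.qs.length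
  · rw [List.getD_eq_getElem _ _ hf]
    exact h.odd _ (List.getElem_mem hf)
  · rw [List.getD_eq_default _ _ (by omega)]
    exact odd_one
theorem ok.q4 (h : c.ok) (f : ℕ) : 4 * c.q f ≤ 2 ^ c.a := by
  have := h.m_pos
  exact (Nat.mul_le_mul_right _ (by omega)).trans (h.qa f)
theorem ok.pos (h : c.ok) : ∀ q ∈ c.qs, 0 < q := by
  exact fun q hq => (h.odd q hq).pos
theorem ok.M_pos (h : c.ok) : 0 < c.M := by
  exact List.prod_pos h.pos
theorem ok.e'_le (h : c.ok) : c.e' ≤ c.e ∧ c.e' * c.m ≤ c.s ∧ c.m ≤ c.s ∧ c.F ≤ c.s ∧ c.t0 ≤ c.s ∧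
    c.r1 + c.r2 ≤ c.w ∧ c.s ≤ c.w ∧ 0 < c.s := by
  have h0 := h.m_pos
  have h1 : c.e' ≤ c.e := (Nat.pow_le_pow_iff_right one_lt_two).1
    ((Nat.le_succ _).trans ((Nat.le_mul_of_pos_left _ (by omega)).trans h.ee))
  have h2 : c.e + 1 ≤ c.F := by unfold F; omega
  have h3 := h.fm
  have h4 : c.m ≤ c.F * c.m := Nat.le_mul_of_pos_left _ (by omega)
  have h5 : c.F ≤ c.F * c.m := Nat.le_mul_of_pos_right _ h0
  have h6 : c.t0 ≤ c.m := Nat.le_mul_of_pos_left _ (by positivity)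
  have h7 := h.w_eq
  have h8 := h.lg
  exact ⟨h1, (Nat.mul_le_mul_right _ (by omega)).trans h3, by omega, by omega, by omega, by omega,
    by omega, by omega⟩
theorem ok.len_lt (h : c.ok) : c.E * c.R * c.R * c.R < 2 ^ c.w := by
  have h7 := h.w_eq
  have h8 := h.lg
  rw [E_eq, R, ← pow_add, ← pow_add, ← pow_add]
  exact Nat.pow_lt_pow_right one_lt_two (by omega)
theorem ok.sz_le : ∃ C, ∀ c : Cf, c.ok → sz c ≤ C * (c.s + 1) ^ 6 := by
  refine ⟨100, fun c h => ?_⟩
  obtain ⟨a1, -, -, a4, a5, a6, a7, a8⟩ := h.e'_le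
  have b1 : c.μ < 2 ^ (c.s + 2) := by
    have h1 := h.mu_hi
    have h2 : c.μ ≤ c.μ ^ 289 ^ c.r1 := Nat.le_self_pow (by positivity) _
    have h3 := c.R_pos
    rw [R] at h1 h3
    rw [pow_add]
    omega
  have b2 := sz_le_of_forall c.qs (B := 4 * c.s ^ 5 + 2) fun x hx => by
    obtain ⟨f, hf, rfl⟩ := List.getElem_of_mem hx
    have h1 := h.q4 f
    have h2 := h.a_le
    rw [q, List.getD_eq_getElem _ _ hf] at h1
    exact (sz_nat_le _).trans (by omega)
  have b3 := Nat.mul_le_mul_right (4 * c.s ^ 5 + 2) h.len_le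
  have b4 : c.w ≤ (c.s + 1) ^ 6 := h.w_le.trans ((Nat.pow_le_pow_left (Nat.le_succ _) _).trans
    (Nat.pow_le_pow_right (Nat.succ_pos _) (by norm_num)))
  have b5 : c.s ^ 6 ≤ (c.s + 1) ^ 6 := Nat.pow_le_pow_left (Nat.le_succ _) _
  have b6 : c.s * (4 * c.s ^ 5 + 2) = 4 * c.s ^ 6 + 2 * c.s := by ring
  have b7 := h.rho_le
  have b8 : c.F = c.a + 1 + c.e := rfl
  have e : sz c = sz c.tup := rfl
  have := sz_nat_lt b1
  have := sz_nat_le c.s
  have := sz_nat_le c.w
  have := sz_nat_le c.r1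
  have := sz_nat_le c.r2
  have := sz_nat_le c.t0
  have := sz_nat_le c.a
  have := sz_nat_le c.e
  have := sz_nat_le c.e'
  have := sz_nat_le c.ρ
  simp only [e, tup, sz_pair, sz_cons, sz_nil]
  omega
theorem pos_inj (c : Cf) (j : ℕ) : Function.Injective (c.pos j) := by
  intro f g hfg
  unfold pos at hfg
  exact Nat.eq_of_mul_eq_mul_left (show 0 < c.F by unfold F; omega) (by omega)
theorem one_le_sw (c : Cf) : 1 ≤ c.sw := by
  exact Nat.mul_pos (Nat.succ_pos _) (Nat.succ_pos _)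
theorem sw_le_gc (c : Cf) : c.sw ≤ c.gc := by
  exact ((Nat.le_mul_of_pos_left _ (Nat.succ_pos _)).trans (Nat.le_add_left _ _)).trans
    (Nat.le_mul_of_pos_left _ (Nat.succ_pos _))
theorem Full.good {l : List ℕ} (h : c.Full l) : c.Good l := by
  exact ⟨⟨c.E, c.E_pos, pow_dvd_pow _ (Nat.le_add_right _ _), le_rfl, h.1⟩, h.2⟩
/-- Flipping low bits of fields keeps indices safe and inside their cube. -/
theorem ok.safe_bit (h : c.ok) {j f : ℕ} (hj : j ≤ c.a) (hf : f < c.m) (i : ℕ) :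
    (c.Safe (i ^^^ 2 ^ c.pos j f) ↔ c.Safe i) ∧
      (i ^^^ 2 ^ c.pos j f) / c.R % c.R = i / c.R % c.R ∧
      (i ^^^ 2 ^ c.pos j f) / (c.R * c.R * c.R) = i / (c.R * c.R * c.R) := by
  have hF : c.F = c.a + 1 + c.e := rfl
  have a1 : ∀ {f g}, f < g → c.F * f + c.F ≤ c.F * g := fun hfg => Nat.mul_le_mul_left _ hfg
  have a2 := a1 hf
  have a3 := h.fm
  unfold Safe safeY Cf.pos R
  refine ⟨and_congr (forall₂_congr fun g hg => ?_) ?_, xor_fld i (by omega), ?_⟩
  · have a4 := a1 hg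
    rw [sub_fld _ (by omega), sub_fld _ (by omega), xor_fld]
    rcases lt_trichotomy f g with h1 | rfl | h1
    · have := a1 h1
      omega
    · omega
    · have := a1 h1
      omega
  · have := xor_fld i (p := 2 * c.s + c.F * f + j) (u := 0) (v := c.s) (by omega)
    simp only [pow_zero, Nat.div_one] at this
    rw [this]
  · rw [← pow_add, ← pow_add]
    exact xor_div i (by omega)
theorem ok.safe_cmask (h : c.ok) {j f0 f1 t : ℕ} (hj : j ≤ c.a) (hf : f1 + t ≤ c.m) (fl : Bool)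
    (i : ℕ) : (c.Safe (i ^^^ cmask (c.pos j) f0 f1 t fl i) ↔ c.Safe i) ∧
      (i ^^^ cmask (c.pos j) f0 f1 t fl i) / (c.R * c.R * c.R) = i / (c.R * c.R * c.R) := by
  have hF : c.F = c.a + 1 + c.e := rfl
  have key : ∀ n ≤ t, ∀ x, x = ∑ k ∈ Finset.range n,
      (if fl = true ∨ i.testBit (c.pos j (f0 + k)) = true then 2 ^ c.pos j (f1 + k) else 0) →
      x < 2 ^ c.pos j (f1 + n) ∧ (c.Safe (i ^^^ x) ↔ c.Safe i) ∧
        (i ^^^ x) / (c.R * c.R * c.R) = i / (c.R * c.R * c.R) := by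
    intro n
    induction n with
    | zero => rintro - _ rfl; simp
    | succ n ih =>
      rintro hn _ rfl
      obtain ⟨h1, h2, h3⟩ := ih (by omega) _ rfl
      have h4 : 2 ^ (c.pos j (f1 + n) + 1) ≤ 2 ^ c.pos j (f1 + (n + 1)) :=
        Nat.pow_le_pow_right two_pos (by unfold Cf.pos; rw [← add_assoc f1, mul_add_one]; omega)
      rw [pow_succ] at h4
      rw [Finset.sum_range_succ]
      split_ifs
      · obtain ⟨h5, -, h6⟩ := h.safe_bit hj (show f1 + n < c.m by omega) (i ^^^ _)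
        refine ⟨by omega, ?_⟩
        rw [add_eq_xor h1, ← Nat.xor_assoc]
        exact ⟨h5.trans h2, h6.trans h3⟩
      · rw [add_zero]
        exact ⟨by omega, h2, h3⟩
  exact (key t le_rfl _ rfl).2
theorem ok.fld_eq (h : c.ok) {f : ℕ} (hf : f < c.m) (i : ℕ) :
    fld (2 * c.s) c.F c.a f i = i / c.R / c.R % c.R / 2 ^ (c.F * f) % 2 ^ (c.a + 1) := by
  have a1 : c.F * f + c.F ≤ c.F * c.m := Nat.mul_le_mul_left _ hf
  have a2 := h.fm
  have hF : c.F = c.a + 1 + c.e := rfl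
  exact (sub_fld i (by omega)).symm
theorem ok.count_valid (h : c.ok) (r : ℕ) : c.M ≤ Nat.count (c.validY r) c.R := by
  have hF : c.F = c.a + 1 + c.e := rfl
  have := h.mr
  have := union_bound (R := c.R) (c.validY r) (fun f => ((Finset.range (2 ^ c.s)).filter fun y =>
      ¬ (y / 2 ^ (c.F * f + (c.a + 1)) % 2 ^ c.e + 2 ^ c.e' + 1 < 2 ^ c.e)) ∪
    ((Finset.range (2 ^ c.s)).filter fun y => ¬ (y / 2 ^ (c.F * f) % 2 ^ c.a <
      nseg c.a (c.q (r * c.m + f)) * c.q (r * c.m + f)))) h.m_pos (fun y hy hp => by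
      by_contra hc
      simp only [not_exists, not_and, Finset.mem_union, Finset.mem_filter, Finset.mem_range,
        not_or, not_not] at hc
      exact hp ⟨fun f hf => (hc f hf).1 hy, fun f hf => (hc f hf).2 hy⟩) fun f hf => by
    have a1 : c.F * f + c.F ≤ c.F * c.m := Nat.mul_le_mul_left _ hf
    have a2 := h.fm
    have b1 := card_fld (s := c.s) (u := c.F * f + (c.a + 1))
      (fun x => ¬ (x + 2 ^ c.e' + 1 < 2 ^ c.e)) (by omega)
      (card_ge (a := 2 ^ c.e - (2 ^ c.e' + 1)) _ (fun x hx => by omega) (by omega)) h.ee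
    have b2 := card_fld (s := c.s) (u := c.F * f) (v := c.a) (n := 4 * c.m)
      (fun x => ¬ (x < nseg c.a (c.q (r * c.m + f)) * c.q (r * c.m + f))) (by omega)
      (card_ge _ (fun x hx => not_lt.1 hx) (le_nseg _ (h.q_pos _)))
      (le_of_eq_of_le (by ring) (h.qa _))
    refine (Nat.mul_le_mul_left _ (Finset.card_union_le _ _)).trans ?_
    rw [mul_assoc] at b1 b2
    rw [mul_add, mul_assoc, mul_assoc, R]
    omega
  omega
theorem ok.count_safeW (h : c.ok) : c.M ≤ Nat.count c.safeW c.R := by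
  have := h.mr
  have := union_bound (R := c.R) c.safeW (fun f => (Finset.range (2 ^ c.s)).filter fun x =>
      ¬ (1 ≤ x / 2 ^ (c.e' * f) % 2 ^ c.e' ∧ x / 2 ^ (c.e' * f) % 2 ^ c.e' + 1 < 2 ^ c.e'))
    h.m_pos (fun y hy hp => by
      by_contra hc
      simp only [not_exists, not_and (a := _ < c.m), not_and (a := y < _), Finset.mem_filter,
        Finset.mem_range, not_not] at hc
      exact hp fun f hf => hc f hf hy) fun f hf =>
    card_fld (k := 2) (fun x => ¬ (1 ≤ x ∧ x + 1 < 2 ^ c.e'))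
      ((Nat.mul_le_mul_left _ hf).trans h.e'_le.2.1)
      ((Finset.card_le_card (t := {0, 2 ^ c.e' - 1}) fun x hx => by
        simp only [Finset.mem_filter, Finset.mem_range, Finset.mem_insert, Finset.mem_singleton]
          at hx ⊢
        omega).trans Finset.card_le_two) (le_of_eq_of_le (by ring) h.ee')
  omega

end Cf

theorem length_upper {A R : ℕ} (f : ℕ → ℕ) {l : List ℕ} (hR : 0 < R)
    (h : l.length = A * R * R * R) : (upper R f l).length = l.length := by
  rw [upper, length_swap, shear, length_dg (A := A * R * R) _ hR one_pos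
    (by rw [length_swap, h, mul_one]), h, mul_one]
theorem bd_upper {B R : ℕ} (f : ℕ → ℕ) {l : List ℕ} (h : Bd B l) (hB : 0 < B) :
    Bd B (upper R f l) := by
  exact bd_swap (bd_dg _ (bd_swap h hB) hB) hB
theorem gt_upper {A R : ℕ} (f : ℕ → ℕ) {l : List ℕ} (h : l.length = A * R * R * R) {a y x z : ℕ}
    (ha : a < A) (hy : y < R) (hx : x < R) (hz : z < R) :
    gt (upper R f l) (((a * R + y) * R + x) * R + z) =
      gt l (((a * R + (y + f ((a * R + z) * R + x)) % R) * R + x) * R + z) := by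
  have hR : 0 < R := by omega
  have h1 : (swap R R 1 l).length = A * R * R * R * 1 := by rw [length_swap, h, mul_one]
  have e1 := gt_swap (length_dg (R' := R) (fun u v => some (if v < R then (v + f u) % R else v))
    hR one_pos h1) ha hy hx hz one_pos
  have e2 := gt_dg (fun u v => some (if v < R then (v + f u) % R else v)) hR h1
    (idx_lt (idx_lt ha hz) hx) hy one_pos
  have e3 := gt_swap (l := l) (by rw [h, mul_one]) ha hz hx
    (Nat.mod_lt (y + f ((a * R + z) * R + x)) hR) one_pos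
  simp only [mul_one, add_zero, Option.elim, if_pos hy] at e1 e2 e3
  exact e1.trans (e2.trans e3)

end Vale.Agent.P338
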