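import Vale.Agent.P338.CircK

/-! The circuit computes a block diagonal Fourier transform of order `q` on both banks. -/

namespace Vale.Agent.P338

open Finset

theorem cc_length_fft (a : ℕ) : (fft a).length = 4 * a := by
  unfold fft
  rw [List.length_flatten, List.map_map]
  have : (List.length ∘ fun j => hgate j 0 ++ [((2, j, 0) : Code)]) = fun _ => 4 := by
    funext j; simp [hgate]
  rw [this]
  simp [mul_comm]

theorem cc_length_ifft (a : ℕ) : (ifft a).length = 4 * a := by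
  unfold ifft
  rw [List.length_flatten, List.map_map]
  have : (List.length ∘ fun j => ((2, j, 1) : Code) :: hgate j 1) = fun _ => 4 := by
    funext j; simp [hgate]
  rw [this]
  simp [mul_comm]

theorem cc_length_sh1 (a d : ℕ) : (sh1 a d).length = 13 := by
  unfold sh1
  split_ifs <;> simp [hgate]

theorem length_circ (a : ℕ) : (circ a).length ≤ 300 * (a + 1) := by
  simp only [circ, mswap, kshear, cshear, List.length_append, List.length_cons, List.length_nil,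
    cc_length_fft, cc_length_ifft, cc_length_sh1]
  omega

/-- admissible codes -/
def ccOk (a : ℕ) (c : Code) : Prop := c.1 ≤ 7 ∧ c.2.1 ≤ a + 3 ∧ c.2.2 ≤ 2 ∧ (c.1 = 0 → c.2.1 ≤ a)

theorem cc_hgate {a j h : ℕ} (hj : j ≤ a) (hh : h ≤ 1) : ∀ c ∈ hgate j h, ccOk a c := by
  intro c hc
  simp only [hgate, List.mem_cons, List.not_mem_nil, or_false] at hc
  rcases hc with rfl | rfl | rfl <;> simp only [ccOk] <;> omega

theorem cc_fft (a : ℕ) : ∀ c ∈ fft a, ccOk a c := by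
  intro c hc
  simp only [fft, List.mem_flatten, List.mem_map, List.mem_reverse, List.mem_range] at hc
  obtain ⟨l, ⟨j, hj, rfl⟩, hc⟩ := hc
  rw [List.mem_append] at hc
  rcases hc with hc | hc
  · exact cc_hgate hj.le (by omega) c hc
  · rw [List.mem_singleton] at hc
    subst hc
    simp only [ccOk]; omega

theorem cc_ifft (a : ℕ) : ∀ c ∈ ifft a, ccOk a c := by
  intro c hc
  simp only [ifft, List.mem_flatten, List.mem_map, List.mem_range] at hc
  obtain ⟨l, ⟨j, hj, rfl⟩, hc⟩ := hc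
  rw [List.mem_cons] at hc
  rcases hc with hc | hc
  · subst hc
    simp only [ccOk]; omega
  · exact cc_hgate hj.le (by omega) c hc

theorem cc_sh1 (a d : ℕ) : ∀ c ∈ sh1 a d, ccOk a c := by
  intro c hc
  have h0 := cc_hgate (a := a) (j := a) (h := 0) le_rfl (by omega) c
  unfold sh1 at hc
  split_ifs at hc <;>
  · simp only [List.mem_append, List.mem_cons, List.not_mem_nil, or_false] at hc
    rcases hc with (((rfl | h) | (rfl | h)) | (rfl | h)) | rfl <;>
      first | exact h0 h | (simp only [ccOk]; omega)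

theorem cc_cshear {a d α : ℕ} (hd : d ≤ 1) (hα : α ≤ 1) : ∀ c ∈ cshear a d α, ccOk a c := by
  intro c hc
  simp only [cshear, List.mem_append, List.mem_cons, List.not_mem_nil, or_false] at hc
  rcases hc with (((rfl | h) | (rfl | h)) | (rfl | h)) | rfl
  · simp only [ccOk]; omega
  · exact cc_fft a c h
  · simp only [ccOk]; omega
  · exact cc_sh1 a d c h
  · simp only [ccOk]; omega
  · exact cc_ifft a c h
  · simp only [ccOk]; omega

theorem cc_kshear {a d : ℕ} (hd : d ≤ 1) : ∀ c ∈ kshear a d, ccOk a c := by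
  intro c hc
  rw [kshear, List.mem_append] at hc
  rcases hc with h | h
  · exact cc_cshear hd (by omega) c h
  · exact cc_cshear hd (by omega) c h

theorem cc_mswap (a : ℕ) : ∀ c ∈ mswap a, ccOk a c := by
  intro c hc
  simp only [mswap, List.mem_append] at hc
  rcases hc with (h | h) | h <;> exact cc_kshear (by omega) c h

theorem mem_circ {a : ℕ} {c : Code} (h : c ∈ circ a) : c.1 ≤ 7 ∧ c.2.1 ≤ a + 3 ∧ c.2.2 ≤ 2 ∧
    (c.1 = 0 → c.2.1 ≤ a) := by
  change ccOk a c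
  simp only [circ, List.mem_append, List.mem_cons, List.not_mem_nil, or_false] at h
  rcases h with ((rfl | rfl | h) | (rfl | h)) | rfl
  · simp only [ccOk]; omega
  · simp only [ccOk]; omega
  · exact cc_mswap a c h
  · simp only [ccOk]; omega
  · exact cc_mswap a c h
  · simp only [ccOk]; omega

theorem cc_norm_rt (n : ℤ) (N : ℕ) : ‖rt n N‖ = 1 := by
  have : 2 * Real.pi * Complex.I * (n : ℂ) / (N : ℂ)
      = ((2 * Real.pi * (n : ℝ) / (N : ℝ) : ℝ) : ℂ) * Complex.I := by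
    push_cast; ring
  rw [rt, this, Complex.norm_exp_ofReal_mul_I]

theorem cc_rt_add (m n : ℤ) (N : ℕ) : rt (m + n) N = rt m N * rt n N := by
  unfold rt
  rw [← Complex.exp_add]
  congr 1
  push_cast; ring

theorem cc_rt_zero (N : ℕ) : rt 0 N = 1 := by simp [rt]

theorem cc_rt_eq_one {N : ℕ} (hN : 0 < N) (n : ℤ) : rt n N = 1 ↔ (N : ℤ) ∣ n := by
  have hN' : (N : ℂ) ≠ 0 := by exact_mod_cast hN.ne'
  have hpi : (2 * Real.pi * Complex.I : ℂ) ≠ 0 := Complex.two_pi_I_ne_zero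
  rw [rt, Complex.exp_eq_one_iff]
  constructor
  · rintro ⟨k, hk⟩
    refine ⟨k, ?_⟩
    rw [div_eq_iff hN'] at hk
    have h2 : (2 * Real.pi * Complex.I : ℂ) * (n : ℂ)
        = (2 * Real.pi * Complex.I : ℂ) * ((N : ℂ) * k) := by rw [hk]; ring
    have h3 := mul_left_cancel₀ hpi h2
    exact_mod_cast h3
  · rintro ⟨k, rfl⟩
    refine ⟨k, ?_⟩
    push_cast
    field_simp

theorem cc_rt_congr {N : ℕ} (hN : 0 < N) {m n : ℤ} (h : (N : ℤ) ∣ m - n) : rt m N = rt n N := by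
  have : m = n + (m - n) := by ring
  rw [this, cc_rt_add, (cc_rt_eq_one hN _).2 h, mul_one]

theorem cc_rt_pow (k : ℤ) (N t : ℕ) : rt (t * k) N = rt k N ^ t := by
  induction t with
  | zero => simp [cc_rt_zero]
  | succ t ih =>
    have : ((t + 1 : ℕ) : ℤ) * k = t * k + k := by push_cast; ring
    rw [this, cc_rt_add, ih, pow_succ]

theorem cc_orth {N : ℕ} (hN : 0 < N) (k : ℤ) :
    ∑ t ∈ range N, rt (t * k) N = if (N : ℤ) ∣ k then (N : ℂ) else 0 := by
  simp only [cc_rt_pow]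
  split_ifs with h
  · rw [(cc_rt_eq_one hN k).2 h]; simp
  · have h1 : rt k N ≠ 1 := fun hh => h ((cc_rt_eq_one hN k).1 hh)
    rw [geom_sum_eq h1, ← cc_rt_pow, (cc_rt_eq_one hN _).2 (Dvd.intro _ rfl)]
    simp

theorem cc_shift {N : ℕ} (f : ℤ → ℂ) (hf : ∀ n, f (n + N) = f n) (c : ℤ) :
    ∑ t ∈ range N, f (t + c) = ∑ t ∈ range N, f t := by
  have step : ∀ c : ℤ, ∑ t ∈ range N, f (t + (c + 1)) = ∑ t ∈ range N, f (t + c) := by
    intro c
    have h1 := Finset.sum_range_succ (fun t : ℕ => f (t + c)) N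
    have h2 := Finset.sum_range_succ' (fun t : ℕ => f (t + c)) N
    have h3 : f ((N : ℤ) + c) = f (((0 : ℕ) : ℤ) + c) := by
      rw [add_comm, hf]; simp
    have h4 : ∑ t ∈ range N, f (((t + 1 : ℕ) : ℤ) + c) = ∑ t ∈ range N, f (t + (c + 1)) :=
      Finset.sum_congr rfl (fun t _ => by congr 1; push_cast; ring)
    rw [h2, h3, h4] at h1
    exact add_right_cancel h1
  induction c using Int.induction_on with
  | zero => simp
  | succ i ih => rw [step, ih]
  | pred i ih =>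
    rw [← step]
    have : -(i : ℤ) - 1 + 1 = -i := by ring
    rw [this, ih]

theorem norm_dval {a q : ℕ} (hq : 0 < q) (h : 4 * q ≤ 2 ^ a) (fl : Bool) (c : Code) (t : ℕ) :
    ‖dval a q fl c t‖ ≤ 2 ^ a := by
  have hq1 : (1 : ℝ) ≤ q := by exact_mod_cast hq
  have h4 : 4 * (q : ℝ) ≤ 2 ^ a := by exact_mod_cast h
  have hI : ‖(1 : ℂ) - Complex.I‖ ≤ 2 := by
    refine (norm_sub_le _ _).trans ?_
    simp only [norm_one, Complex.norm_I]; norm_num
  have hone : ∀ z : ℂ, ‖z‖ ≤ 3 → ‖z‖ ≤ 2 ^ a := fun z hz => by linarith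
  unfold dval
  by_cases h1 : c.1 = 1
  · rw [if_pos h1, norm_mul]
    have a1 : ‖(if t.testBit c.2.1 then Complex.I else 1 : ℂ)‖ = 1 := by split_ifs <;> simp
    rw [a1, one_mul]
    refine hone _ ?_
    split_ifs
    · simp
    · rw [norm_div]; simp only [Complex.norm_ofNat]; linarith
    · rw [norm_div]; simp only [Complex.norm_ofNat]; linarith
  rw [if_neg h1]
  by_cases h2 : c.1 = 2
  · rw [if_pos h2]
    refine hone _ ?_
    by_cases hb : t.testBit c.2.1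
    · rw [if_pos hb, cc_norm_rt]; norm_num
    · rw [if_neg hb]; simp
  rw [if_neg h2]
  by_cases h3 : c.1 = 3
  · rw [if_pos h3]
    refine hone _ ?_
    split_ifs <;> simp <;> norm_num
  rw [if_neg h3]
  by_cases h5 : c.1 = 4
  · rw [if_pos h5]
    refine hone _ ?_
    split_ifs <;> simp
  rw [if_neg h5]
  by_cases h6 : c.1 = 5
  · rw [if_pos h6]
    split_ifs
    · have := (norm_eig (a := a) hq c.2.1 c.2.2 (rev a (t % 2 ^ a))).2
      linarith
    · exact hone _ (by simp)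
  rw [if_neg h6]
  by_cases h7 : c.1 = 6
  · rw [if_pos h7]
    refine hone _ ?_
    split_ifs
    · have := (norm_eig (a := a) hq c.2.1 c.2.2 (rev a (t % 2 ^ a))).1
      rw [norm_inv]
      have := inv_le_one_of_one_le₀ this
      linarith
    · simp
  rw [if_neg h7]
  by_cases h8 : c.2.1 = 0
  · rw [if_pos h8]
    refine hone _ ?_
    split_ifs
    · simp
    · rw [cc_norm_rt]; norm_num
  rw [if_neg h8]
  by_cases h9 : c.2.1 = 1
  · rw [if_pos h9, chirp, cc_norm_rt]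
    linarith
  rw [if_neg h9, norm_mul, norm_mul, norm_neg]
  have a1 : ‖∑ r ∈ range q, chirpI q r‖ ≤ q := by
    refine (norm_sum_le _ _).trans ?_
    simp [chirpI, cc_norm_rt]
  have a2 : ‖(if fl then 1 / (q : ℂ) else 1)‖ ≤ 1 := by
    split_ifs
    · rw [norm_div, norm_one, Complex.norm_natCast]
      exact (div_le_one (by linarith)).2 hq1
    · simp
  have a3 : ‖(if t / 2 ^ a = 0 then rt (((t % 2 ^ a % q : ℕ) : ℤ) ^ 2) q else 1)‖ = 1 := by
    split_ifs
    · exact cc_norm_rt _ _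
    · simp
  rw [a3, mul_one]
  have := mul_le_mul a1 a2 (norm_nonneg _) (by linarith)
  linarith

theorem cc_half {q : ℕ} (hq : Odd q) : 2 * (((q + 1) / 2 : ℕ) : ℤ) = q + 1 := by
  obtain ⟨k, rfl⟩ := hq
  have : (2 * k + 1 + 1) / 2 = k + 1 := by omega
  rw [this]; push_cast; ring

theorem cc_dvd_iff {q s r : ℕ} (hs : s < q) (hr : r < q) : (q : ℤ) ∣ (s : ℤ) - r ↔ s = r := by
  constructor
  · intro h
    have := Int.eq_zero_of_abs_lt_dvd h (by rw [abs_lt]; constructor <;> omega)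
    omega
  · rintro rfl; simp

theorem cc_AiA {q : ℕ} (hq : Odd q) {s r : ℕ} (hs : s < q) (hr : r < q) :
    ∑ t ∈ range q, chirpI q ((s : ℤ) - t) * chirp q ((t : ℤ) - r) = if s = r then (q : ℂ) else 0 := by
  have hq0 : 0 < q := hq.pos
  have h2 := cc_half hq
  set k : ℤ := (((q + 1) / 2 : ℕ) : ℤ) with hk
  have e : ∀ t : ℕ, chirpI q ((s : ℤ) - t) * chirp q ((t : ℤ) - r)
      = rt (k * ((r : ℤ) ^ 2 - (s : ℤ) ^ 2)) q * rt (t * ((s : ℤ) - r)) q := by
    intro t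
    rw [chirpI, chirp, ← cc_rt_add, ← cc_rt_add]
    refine cc_rt_congr hq0 ⟨t * ((s : ℤ) - r), ?_⟩
    rw [← hk]
    linear_combination (t * ((s : ℤ) - r)) * h2
  simp only [e, ← Finset.mul_sum]
  rw [cc_orth hq0]
  simp only [cc_dvd_iff hs hr]
  split_ifs with h
  · subst h; simp [cc_rt_zero]
  · simp

theorem cc_AAi {q : ℕ} (hq : Odd q) {s r : ℕ} (hs : s < q) (hr : r < q) :
    ∑ t ∈ range q, chirp q ((s : ℤ) - t) * chirpI q ((t : ℤ) - r) = if s = r then (q : ℂ) else 0 := by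
  have h := cc_AiA hq hr hs
  have e : ∀ t : ℕ, chirp q ((s : ℤ) - t) * chirpI q ((t : ℤ) - r)
      = chirpI q ((r : ℤ) - t) * chirp q ((t : ℤ) - s) := by
    intro t
    rw [mul_comm]
    unfold chirp chirpI
    congr 2 <;> ring
  simp only [e, h, eq_comm]

theorem cc_chirp_per {q : ℕ} (hq : 0 < q) (n : ℤ) : chirp q (n + q) = chirp q n := by
  unfold chirp
  refine cc_rt_congr hq ⟨(((q + 1) / 2 : ℕ) : ℤ) * (2 * n + q), ?_⟩
  ring

theorem cc_chirpI_per {q : ℕ} (hq : 0 < q) (n : ℤ) : chirpI q (n + q) = chirpI q n := by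
  unfold chirpI
  refine cc_rt_congr hq ⟨-(((q + 1) / 2 : ℕ) : ℤ) * (2 * n + q), ?_⟩
  ring

theorem cc_gauss {q : ℕ} (hq : Odd q) :
    (∑ r ∈ range q, chirpI q r) * (∑ t ∈ range q, chirp q t) = q := by
  have hq0 : 0 < q := hq.pos
  have h1 : ∑ r ∈ range q, ∑ t ∈ range q, chirp q ((r : ℤ) - t) * chirpI q ((t : ℤ) - (0 : ℕ))
      = q := by
    rw [Finset.sum_congr rfl (fun r hr => cc_AAi hq (Finset.mem_range.1 hr) hq0)]
    rw [Finset.sum_ite_eq', if_pos (Finset.mem_range.2 hq0)]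
  rw [Finset.sum_comm] at h1
  rw [← h1, Finset.sum_mul]
  refine Finset.sum_congr rfl (fun t _ => ?_)
  rw [← Finset.sum_mul, mul_comm]
  congr 1
  · rw [← cc_shift (chirp q) (cc_chirp_per hq0) (-(t : ℤ))]
    exact Finset.sum_congr rfl (fun r _ => by rw [sub_eq_add_neg])

theorem cc_AiDA {q : ℕ} (hq : Odd q) (s r : ℕ) :
    ∑ t ∈ range q, chirpI q ((s : ℤ) - t) * chirp q t * chirp q ((t : ℤ) - r)
      = (∑ t ∈ range q, chirp q t) * (rt (-(s : ℤ) ^ 2) q * rt ((s * r : ℕ) : ℤ) q) := by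
  have hq0 : 0 < q := hq.pos
  have h2 := cc_half hq
  rw [← cc_shift (chirp q) (cc_chirp_per hq0) ((s : ℤ) - r), Finset.sum_mul]
  refine Finset.sum_congr rfl (fun t _ => ?_)
  unfold chirp chirpI
  simp only [← cc_rt_add]
  refine cc_rt_congr hq0 ⟨(s : ℤ) * r - (s : ℤ) ^ 2, ?_⟩
  push_cast at h2 ⊢
  linear_combination ((s : ℤ) * r - (s : ℤ) ^ 2) * h2

theorem cc_ADAi {q : ℕ} (hq : Odd q) (s r : ℕ) :
    ∑ t ∈ range q, chirp q ((s : ℤ) - t) * chirp q t * chirpI q ((t : ℤ) - r)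
      = (∑ t ∈ range q, chirp q t) * (rt ((s * r : ℕ) : ℤ) q * rt (-(r : ℤ) ^ 2) q) := by
  have hq0 : 0 < q := hq.pos
  have h2 := cc_half hq
  rw [← cc_shift (chirp q) (cc_chirp_per hq0) ((r : ℤ) - s), Finset.sum_mul]
  refine Finset.sum_congr rfl (fun t _ => ?_)
  unfold chirp chirpI
  simp only [← cc_rt_add]
  refine cc_rt_congr hq0 ⟨(s : ℤ) * r - (r : ℤ) ^ 2, ?_⟩
  push_cast at h2 ⊢
  linear_combination ((s : ℤ) * r - (r : ℤ) ^ 2) * h2

theorem cc_delta {q : ℕ} {s : ℕ} (hs : s < q) (x : ℕ → ℂ) :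
    ∑ r ∈ range q, (if s = r then (q : ℂ) else 0) * x r = q * x s := by
  simp only [ite_mul, zero_mul]
  rw [Finset.sum_ite_eq, if_pos (Finset.mem_range.2 hs)]

theorem cc_AiA_app {q : ℕ} (hq : Odd q) {s : ℕ} (hs : s < q) (x : ℕ → ℂ) :
    ∑ r ∈ range q, ∑ u ∈ range q, chirpI q ((s : ℤ) - r) * chirp q ((r : ℤ) - u) * x u
      = q * x s := by
  rw [Finset.sum_comm, ← cc_delta hs x]
  refine Finset.sum_congr rfl (fun u hu => ?_)
  rw [← Finset.sum_mul, cc_AiA hq hs (Finset.mem_range.1 hu)]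

theorem cc_AAi_app {q : ℕ} (hq : Odd q) {s : ℕ} (hs : s < q) (x : ℕ → ℂ) :
    ∑ r ∈ range q, ∑ u ∈ range q, chirp q ((s : ℤ) - r) * chirpI q ((r : ℤ) - u) * x u
      = q * x s := by
  rw [Finset.sum_comm, ← cc_delta hs x]
  refine Finset.sum_congr rfl (fun u hu => ?_)
  rw [← Finset.sum_mul, cc_AAi hq hs (Finset.mem_range.1 hu)]

theorem cc_l40 (a q : ℕ) (fl : Bool) (w : ℕ → ℂ) (t : ℕ) :
    lact a q fl (4, 0, 0) w t = (if t % 2 ^ a < nseg a q * q then 1 else 0) * w t := by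
  simp [lact, dval]

theorem cc_l70 (a q : ℕ) (fl : Bool) (w : ℕ → ℂ) (t : ℕ) :
    lact a q fl (7, 0, 0) w t
      = (if t / 2 ^ a = 0 then 1 else rt (((t % 2 ^ a % q : ℕ) : ℤ) ^ 2) q) * w t := rfl

theorem cc_l71 (a q : ℕ) (fl : Bool) (w : ℕ → ℂ) (t : ℕ) :
    lact a q fl (7, 1, 0) w t = chirp q ((t % 2 ^ a % q : ℕ) : ℤ) * w t := rfl

theorem cc_l72 (a q : ℕ) (fl : Bool) (w : ℕ → ℂ) (t : ℕ) :
    lact a q fl (7, 2, 0) w t
      = -(∑ r ∈ range q, chirpI q r) * (if fl then 1 / (q : ℂ) else 1) *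
        (if t / 2 ^ a = 0 then rt (((t % 2 ^ a % q : ℕ) : ℤ) ^ 2) q else 1) * w t := rfl

theorem cc_mswap_spec {a q : ℕ} (hq : Odd q) (h : 4 * q ≤ 2 ^ a) (fl : Bool) (v : ℕ → ℂ)
    {τ s : ℕ} (hτ : τ < nseg a q) (hs : s < q) :
    (mswap a).foldl (fun v c => lact a q fl c v) v (0 * 2 ^ a + τ * q + s) =
      -(1 / (q : ℂ)) * ∑ r ∈ range q, chirpI q ((s : ℤ) - r) * v (1 * 2 ^ a + τ * q + r) ∧
    (mswap a).foldl (fun v c => lact a q fl c v) v (1 * 2 ^ a + τ * q + s) =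
      ∑ r ∈ range q, chirp q ((s : ℤ) - r) * v (0 * 2 ^ a + τ * q + r) := by
  have hq0 : 0 < q := hq.pos
  have hqc : (q : ℂ) ≠ 0 := by exact_mod_cast hq0.ne'
  rw [mswap, List.foldl_append, List.foldl_append]
  set v1 := (kshear a 1).foldl (fun v c => lact a q fl c v) v with hv1
  set v2 := (kshear a 0).foldl (fun v c => lact a q fl c v) v1 with hv2
  have k1 : ∀ δ, kern q 1 δ = chirp q δ := fun δ => by simp [kern]
  have k0 : ∀ δ, kern q 0 δ = -(1 / (q : ℂ)) * chirpI q δ := fun δ => by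
    simp only [kern]; rw [if_neg (by omega)]; ring
  have a1 : ∀ s < q, v1 (1 * 2 ^ a + τ * q + s) = v (1 * 2 ^ a + τ * q + s) +
      ∑ r ∈ range q, chirp q ((s : ℤ) - r) * v (0 * 2 ^ a + τ * q + r) := fun s hs => by
    have := (kshear_spec hq0 h fl v (d := 1) (by omega) hτ hs).1
    simp only [k1] at this
    exact this
  have a0 : ∀ s < q, v1 (0 * 2 ^ a + τ * q + s) = v (0 * 2 ^ a + τ * q + s) := fun s hs =>
    (kshear_spec hq0 h fl v (d := 1) (by omega) hτ hs).2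
  have b1 : ∀ s < q, v2 (1 * 2 ^ a + τ * q + s) = v1 (1 * 2 ^ a + τ * q + s) := fun s hs =>
    (kshear_spec hq0 h fl v1 (d := 0) (by omega) hτ hs).2
  have b0 : ∀ s < q, v2 (0 * 2 ^ a + τ * q + s) =
      -(1 / (q : ℂ)) * ∑ r ∈ range q, chirpI q ((s : ℤ) - r) * v (1 * 2 ^ a + τ * q + r) :=
    fun s hs => by
    have := (kshear_spec hq0 h fl v1 (d := 0) (by omega) hτ hs).1
    simp only [k0] at this
    rw [hv2, this, a0 s hs]
    have e1 : ∑ r ∈ range q, -(1 / (q : ℂ)) * chirpI q ((s : ℤ) - r) *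
          v1 ((1 - 0) * 2 ^ a + τ * q + r)
        = -(1 / (q : ℂ)) * (∑ r ∈ range q, chirpI q ((s : ℤ) - r) * v (1 * 2 ^ a + τ * q + r)
          + ∑ r ∈ range q, ∑ u ∈ range q, chirpI q ((s : ℤ) - r) * chirp q ((r : ℤ) - u) *
            v (0 * 2 ^ a + τ * q + u)) := by
      rw [← Finset.sum_add_distrib, Finset.mul_sum]
      refine Finset.sum_congr rfl (fun r hr => ?_)
      rw [Nat.sub_zero, a1 r (Finset.mem_range.1 hr)]
      simp only [mul_assoc, ← Finset.mul_sum]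
      ring
    rw [e1, cc_AiA_app hq hs (fun u => v (0 * 2 ^ a + τ * q + u))]
    field_simp
    ring
  constructor
  · rw [← b0 s hs]
    exact (kshear_spec hq0 h fl v2 (d := 1) (by omega) hτ hs).2
  · have := (kshear_spec hq0 h fl v2 (d := 1) (by omega) hτ hs).1
    simp only [k1] at this
    rw [this, b1 s hs, a1 s hs]
    have e1 : ∑ r ∈ range q, chirp q ((s : ℤ) - r) * v2 ((1 - 1) * 2 ^ a + τ * q + r)
        = -(1 / (q : ℂ)) * ∑ r ∈ range q, ∑ u ∈ range q,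
            chirp q ((s : ℤ) - r) * chirpI q ((r : ℤ) - u) * v (1 * 2 ^ a + τ * q + u) := by
      rw [Finset.mul_sum]
      refine Finset.sum_congr rfl (fun r hr => ?_)
      rw [Nat.sub_self, b0 r (Finset.mem_range.1 hr)]
      simp only [mul_assoc, ← Finset.mul_sum]
      ring
    rw [e1, cc_AAi_app hq hs (fun u => v (1 * 2 ^ a + τ * q + u))]
    field_simp
    ring

theorem cc_idx {a q β τ s : ℕ} (hq : 0 < q) (h : 4 * q ≤ 2 ^ a) (hτ : τ < nseg a q)
    (hs : s < q) :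
    (β * 2 ^ a + τ * q + s) / 2 ^ a = β ∧ (β * 2 ^ a + τ * q + s) % 2 ^ a = τ * q + s ∧
      τ * q + s < nseg a q * q ∧ (τ * q + s) % q = s := by
  have h1 := (nseg_le hq h).1
  have h2 : τ * q + s < nseg a q * q := by
    have : (τ + 1) * q ≤ nseg a q * q := Nat.mul_le_mul_right q hτ
    rw [Nat.add_mul] at this
    omega
  have h3 : τ * q + s < 2 ^ a := by
    rw [Nat.add_mul] at h1
    omega
  refine ⟨?_, ?_, h2, ?_⟩
  · rw [add_assoc, add_comm, Nat.add_mul_div_right _ _ (Nat.two_pow_pos a),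
      Nat.div_eq_of_lt h3, zero_add]
  · rw [add_assoc, add_comm, Nat.add_mul_mod_self_right, Nat.mod_eq_of_lt h3]
  · rw [add_comm, Nat.add_mul_mod_self_right, Nat.mod_eq_of_lt hs]

theorem circ_spec {a q : ℕ} (hq : Odd q) (h : 4 * q ≤ 2 ^ a) (fl : Bool) (v : ℕ → ℂ) {β τ s : ℕ}
    (hβ : β < 2) (hτ : τ < nseg a q) (hs : s < q) :
    (circ a).foldl (fun v c => lact a q fl c v) v (β * 2 ^ a + τ * q + s) =
      (if fl then 1 / (q : ℂ) else 1) *
        ∑ r ∈ range q, rt ((s * r : ℕ) : ℤ) q * v (β * 2 ^ a + τ * q + r) := by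
  have hq0 : 0 < q := hq.pos
  have hqc : (q : ℂ) ≠ 0 := by exact_mod_cast hq0.ne'
  have hcirc : circ a = [(4, 0, 0), (7, 0, 0)] ++ mswap a ++ [(7, 1, 0)] ++ mswap a
      ++ [(7, 2, 0)] := by
    simp [circ]
  rw [hcirc]
  simp only [List.foldl_append, List.foldl_cons, List.foldl_nil]
  set w1 := lact a q fl (7, 0, 0) (lact a q fl (4, 0, 0) v) with hw1
  set w2 := (mswap a).foldl (fun v c => lact a q fl c v) w1 with hw2
  set w3 := lact a q fl (7, 1, 0) w2 with hw3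
  set w4 := (mswap a).foldl (fun v c => lact a q fl c v) w3 with hw4
  set κ : ℂ := if fl then 1 / (q : ℂ) else 1 with hκ
  set G : ℂ := ∑ r ∈ range q, chirpI q r with hG
  set γ : ℂ := ∑ r ∈ range q, chirp q r with hγ
  have hg : G * γ = q := cc_gauss hq
  have a0 : ∀ s < q, w1 (0 * 2 ^ a + τ * q + s) = v (0 * 2 ^ a + τ * q + s) := fun s hs => by
    obtain ⟨i1, i2, i3, _⟩ := cc_idx (β := 0) hq0 h hτ hs
    rw [hw1, cc_l70, cc_l40, i1, i2, if_pos rfl, if_pos i3, one_mul, one_mul]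
  have a1 : ∀ s < q, w1 (1 * 2 ^ a + τ * q + s)
      = rt ((s : ℤ) ^ 2) q * v (1 * 2 ^ a + τ * q + s) := fun s hs => by
    obtain ⟨i1, i2, i3, i4⟩ := cc_idx (β := 1) hq0 h hτ hs
    rw [hw1, cc_l70, cc_l40, i1, i2, i4, if_neg one_ne_zero, if_pos i3, one_mul]
  have c0 : ∀ β s, s < q → w3 (β * 2 ^ a + τ * q + s)
      = chirp q s * w2 (β * 2 ^ a + τ * q + s) := fun β s hs => by
    obtain ⟨_, i2, _, i4⟩ := cc_idx (β := β) hq0 h hτ hs
    rw [hw3, cc_l71, i2, i4]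
  obtain ⟨i1, i2, _, i4⟩ := cc_idx (β := β) hq0 h hτ hs
  have e0 : lact a q fl (7, 2, 0) w4 (β * 2 ^ a + τ * q + s)
      = -G * κ * (if β = 0 then rt ((s : ℤ) ^ 2) q else 1) * w4 (β * 2 ^ a + τ * q + s) := by
    rw [cc_l72, i1, i2, i4]
  rw [e0]
  have hrt : ∀ n : ℤ, rt n q * rt (-n) q = 1 := fun n => by
    rw [← cc_rt_add, add_neg_cancel, cc_rt_zero]
  have hβ' : β = 0 ∨ β = 1 := by omega
  rcases hβ' with rfl | rfl
  · rw [if_pos rfl, hw4, (cc_mswap_spec hq h fl w3 hτ hs).1]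
    have e1 : ∑ r ∈ range q, chirpI q ((s : ℤ) - r) * w3 (1 * 2 ^ a + τ * q + r)
        = ∑ r ∈ range q, ∑ u ∈ range q, chirpI q ((s : ℤ) - r) * chirp q r *
            chirp q ((r : ℤ) - u) * v (0 * 2 ^ a + τ * q + u) := by
      refine Finset.sum_congr rfl (fun r hr => ?_)
      rw [c0 1 r (Finset.mem_range.1 hr), hw2,
        (cc_mswap_spec hq h fl w1 hτ (Finset.mem_range.1 hr)).2, ← mul_assoc, Finset.mul_sum]
      refine Finset.sum_congr rfl (fun u hu => ?_)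
      rw [a0 u (Finset.mem_range.1 hu)]
      ring
    rw [e1, Finset.sum_comm]
    simp only [← Finset.sum_mul, cc_AiDA hq, ← hγ]
    simp only [mul_assoc, ← Finset.mul_sum]
    have := hrt ((s : ℤ) ^ 2)
    generalize ∑ i ∈ range q, rt ((s * i : ℕ) : ℤ) q * v (0 * 2 ^ a + τ * q + i) = S
    field_simp
    linear_combination (κ * S * rt ((s : ℤ) ^ 2) q * rt (-(s : ℤ) ^ 2) q) * hg + κ * S * q * this
  · rw [if_neg (by omega), hw4, (cc_mswap_spec hq h fl w3 hτ hs).2]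
    have e1 : ∑ r ∈ range q, chirp q ((s : ℤ) - r) * w3 (0 * 2 ^ a + τ * q + r)
        = -(1 / (q : ℂ)) * ∑ r ∈ range q, ∑ u ∈ range q, chirp q ((s : ℤ) - r) * chirp q r *
            chirpI q ((r : ℤ) - u) * (rt ((u : ℤ) ^ 2) q * v (1 * 2 ^ a + τ * q + u)) := by
      rw [Finset.mul_sum]
      refine Finset.sum_congr rfl (fun r hr => ?_)
      rw [c0 0 r (Finset.mem_range.1 hr), hw2,
        (cc_mswap_spec hq h fl w1 hτ (Finset.mem_range.1 hr)).1,
        Finset.sum_congr rfl (fun u hu => by rw [a1 u (Finset.mem_range.1 hu)])]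
      simp only [mul_assoc, ← Finset.mul_sum]
      ring
    rw [e1, Finset.sum_comm]
    simp only [← Finset.sum_mul, cc_ADAi hq, ← hγ]
    have e2 : ∑ u ∈ range q, γ * (rt ((s * u : ℕ) : ℤ) q * rt (-(u : ℤ) ^ 2) q) *
          (rt ((u : ℤ) ^ 2) q * v (1 * 2 ^ a + τ * q + u))
        = γ * ∑ u ∈ range q, rt ((s * u : ℕ) : ℤ) q * v (1 * 2 ^ a + τ * q + u) := by
      rw [Finset.mul_sum]
      refine Finset.sum_congr rfl (fun u _ => ?_)
      have := hrt ((u : ℤ) ^ 2)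
      linear_combination (γ * rt ((s * u : ℕ) : ℤ) q * v (1 * 2 ^ a + τ * q + u)) * this
    rw [e2]
    generalize ∑ i ∈ range q, rt ((s * i : ℕ) : ℤ) q * v (1 * 2 ^ a + τ * q + i) = S
    field_simp
    linear_combination (κ * S) * hg

end Vale.Agent.P338
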