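import Vale.Agent.P338.Gate

/-! The circuit run on one field of `a + 1` index bits: a bank bit and `2 ^ a` positions. -/

namespace Vale.Agent.P338

open Finset

/-- Layers: kind `0` is the gate on bit `c.2.1`, the other kinds are diagonal. -/
abbrev Code : Type := ℕ × ℕ × ℕ

/-- Even number of segments of length `q`, leaving room for one more. -/
def nseg (a q : ℕ) : ℕ := 2 * ((2 ^ a / q - 1) / 2)

/-- Bit reversal. -/
def rev (a p : ℕ) : ℕ := ∑ j ∈ range a, if p.testBit j then 2 ^ (a - 1 - j) else 0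

/-- The chirp. -/
noncomputable def chirp (q : ℕ) (d : ℤ) : ℂ := rt (((q + 1) / 2 : ℕ) * d ^ 2) q

/-- The inverse chirp. -/
noncomputable def chirpI (q : ℕ) (d : ℤ) : ℂ := rt (-(((q + 1) / 2 : ℕ) * d ^ 2)) q

/-- Convolution kernels of the two kinds of shears. -/
noncomputable def kern (q d : ℕ) (δ : ℤ) : ℂ := if d = 1 then chirp q δ else - chirpI q δ / q

/-- Shifted eigenvalues of the circulant matrices. -/
noncomputable def eig (a q d α ξ : ℕ) : ℂ :=
  (∑ n ∈ range (2 * q - 1), kern q d ((n : ℤ) - (q - 1 : ℕ)) *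
      rt (ξ * ((n : ℤ) - (q - 1 : ℕ))) (2 ^ a)
    + if α = 0 then (2 * q + 2 : ℂ) else -(2 * q + 2 : ℂ)) / 2

/-- Entries of the diagonal layers at the index `t = bank * 2 ^ a + position`. -/
noncomputable def dval (a q : ℕ) (fl : Bool) (c : Code) (t : ℕ) : ℂ :=
  if c.1 = 1 then (if t.testBit c.2.1 then Complex.I else 1) *
    (if c.2.2 = 0 then 1 else if c.2.2 = 1 then (1 - Complex.I) / 2 else (1 - Complex.I) / 4)
  else if c.1 = 2 then
    (if t.testBit c.2.1 then
      rt (if c.2.2 = 0 then ((t % 2 ^ c.2.1 : ℕ) : ℤ) else -((t % 2 ^ c.2.1 : ℕ) : ℤ))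
        (2 ^ (c.2.1 + 1)) else 1)
  else if c.1 = 3 then
    (if t / 2 ^ a = 0 then (if c.2.1 = 3 then 1 / 8 else 1)
    else if c.2.1 = 0 then -5 / 3 else if c.2.1 = 1 then -2 else if c.2.1 = 2 then 3 else -1 / 10)
  else if c.1 = 4 then
    (if t % 2 ^ a < nseg a q * q then (if c.2.1 = 1 ∧ t % 2 ^ a / q % 2 = 1 then -1 else 1) else 0)
  else if c.1 = 5 then
    (if t / 2 ^ a = c.2.1 then eig a q c.2.1 c.2.2 (rev a (t % 2 ^ a)) else 1)
  else if c.1 = 6 then
    (if t / 2 ^ a = c.2.1 then (eig a q c.2.1 c.2.2 (rev a (t % 2 ^ a)))⁻¹ else 1)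
  else if c.2.1 = 0 then
    (if t / 2 ^ a = 0 then 1 else rt (((t % 2 ^ a % q : ℕ) : ℤ) ^ 2) q)
  else if c.2.1 = 1 then chirp q ((t % 2 ^ a % q : ℕ) : ℤ)
  else -(∑ r ∈ range q, chirpI q r) * (if fl then 1 / (q : ℂ) else 1) *
    (if t / 2 ^ a = 0 then rt (((t % 2 ^ a % q : ℕ) : ℤ) ^ 2) q else 1)

/-- The Hadamard gate (`h = 0`) or its inverse (`h = 1`) on bit `j`. -/
def hgate (j h : ℕ) : List Code := [(1, j, 0), (0, j, 0), (1, j, 1 + h)]

/-- Decimation in frequency. -/
def fft (a : ℕ) : List Code :=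
  ((List.range a).reverse.map fun j => hgate j 0 ++ [(2, j, 0)]).flatten

/-- Its inverse. -/
def ifft (a : ℕ) : List Code := ((List.range a).map fun j => (2, j, 1) :: hgate j 1).flatten

/-- Add the other bank to bank `d`. -/
def sh1 (a d : ℕ) : List Code :=
  if d = 1 then (3, 0, 0) :: hgate a 0 ++ (3, 1, 0) :: hgate a 0 ++ (3, 2, 0) :: hgate a 0 ++
    [(3, 3, 0)]
  else (3, 3, 0) :: hgate a 0 ++ (3, 2, 0) :: hgate a 0 ++ (3, 1, 0) :: hgate a 0 ++ [(3, 0, 0)]

/-- Shear by a circulant matrix conjugated by signs. -/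
def cshear (a d α : ℕ) : List Code :=
  (4, α, 0) :: fft a ++ (6, d, α) :: sh1 a d ++ (5, d, α) :: ifft a ++ [(4, α, 0)]

/-- Shear by the block diagonal chirp matrix. -/
def kshear (a d : ℕ) : List Code := cshear a d 0 ++ cshear a d 1

/-- Three shears. -/
def mswap (a : ℕ) : List Code := kshear a 1 ++ kshear a 0 ++ kshear a 1

/-- The whole circuit. -/
def circ (a : ℕ) : List Code :=
  (4, 0, 0) :: (7, 0, 0) :: mswap a ++ (7, 1, 0) :: mswap a ++ [(7, 2, 0)]

/-- Action of a layer on one field. -/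
noncomputable def lact (a q : ℕ) (fl : Bool) (c : Code) (v : ℕ → ℂ) : ℕ → ℂ :=
  if c.1 = 0 then gate1 Complex.I (2 ^ c.2.1) v else fun t => dval a q fl c t * v t

/-- The low `a + 1` bits of field `f` of the index `i`; the fields have `F` bits and start at
bit `base`. -/
def fld (base F a f i : ℕ) : ℕ := i / 2 ^ (base + F * f) % 2 ^ (a + 1)

/-- Action of a layer on the fields `0, …, m - 1` at once. -/
noncomputable def lactM (base F a m : ℕ) (q : ℕ → ℕ) (fl : Bool) (c : Code) (v : ℕ → ℂ) :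
    ℕ → ℂ :=
  if c.1 = 0 then gall Complex.I 1 (fun f => base + F * f + c.2.1) 0 m v
  else fun i => (∏ f ∈ range m, dval a (q f) fl c (fld base F a f i)) * v i

/-- The residue stored in field `f`. -/
def res (base F a f q i : ℕ) : ℕ := fld base F a f i % 2 ^ a % q

/-- The transform of order `q` along the residue of field `f`. -/
noncomputable def dftF (base F a f q : ℕ) (fl : Bool) (v : ℕ → ℂ) : ℕ → ℂ := fun i =>
  (if fl then 1 / (q : ℂ) else 1) * ∑ r ∈ range q, rt ((res base F a f q i * r : ℕ) : ℤ) q *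
    v (i + r * 2 ^ (base + F * f) - res base F a f q i * 2 ^ (base + F * f))

end Vale.Agent.P338
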