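import Vale.Agent.P338.CircDefs

/-! The shear by the block diagonal chirp matrix. -/

namespace Vale.Agent.P338

open Finset

namespace CircK

theorem rt_add (m n : ℤ) (N : ℕ) : rt (m + n) N = rt m N * rt n N := by
  unfold rt
  rw [← Complex.exp_add]
  congr 1
  push_cast
  ring

theorem rt_zero (N : ℕ) : rt 0 N = 1 := by simp [rt]

theorem norm_rt (n : ℤ) (N : ℕ) : ‖rt n N‖ = 1 := by
  have : rt n N = Complex.exp (((2 * Real.pi * n / N : ℝ) : ℂ) * Complex.I) := by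
    unfold rt
    congr 1
    push_cast
    ring
  rw [this, Complex.norm_exp_ofReal_mul_I]

theorem rt_two (m : ℤ) (n : ℕ) : rt (2 * m) (2 ^ (n + 1)) = rt m (2 ^ n) := by
  unfold rt
  congr 1
  push_cast
  field_simp
  ring

theorem rt_full (m : ℤ) (n : ℕ) : rt (2 ^ n * m) (2 ^ n) = 1 := by
  rw [← Complex.exp_int_mul_two_pi_mul_I m]
  unfold rt
  congr 1
  push_cast
  field_simp

theorem rt_half (n : ℕ) : rt (2 ^ n) (2 ^ (n + 1)) = -1 := by
  rw [← Complex.exp_pi_mul_I]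
  unfold rt
  congr 1
  push_cast
  field_simp
  ring

theorem rt_half' (n : ℕ) : rt (-2 ^ n) (2 ^ (n + 1)) = -1 := by
  have h := rt_add (2 ^ n) (-2 ^ n) (2 ^ (n + 1))
  rw [add_neg_cancel, rt_zero, rt_half] at h
  linear_combination h

theorem bit_lo (hi : ℕ) {j p : ℕ} (hp : p < 2 ^ j) : (2 * hi * 2 ^ j + p).testBit j = false := by
  rw [mul_comm _ (2 ^ j), Nat.testBit_two_pow_mul_add _ hp]
  simp

theorem bit_hi (hi : ℕ) {j p : ℕ} (hp : p < 2 ^ j) :
    ((2 * hi + 1) * 2 ^ j + p).testBit j = true := by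
  rw [mul_comm _ (2 ^ j), Nat.testBit_two_pow_mul_add _ hp]
  simp

theorem xor_lo (hi : ℕ) {j p : ℕ} (hp : p < 2 ^ j) :
    (2 * hi * 2 ^ j + p) ^^^ 2 ^ j = (2 * hi + 1) * 2 ^ j + p := by
  refine Nat.eq_of_testBit_eq fun k => ?_
  rw [Nat.testBit_xor, mul_comm _ (2 ^ j), mul_comm _ (2 ^ j), Nat.testBit_two_pow_mul_add _ hp,
    Nat.testBit_two_pow_mul_add _ hp, Nat.testBit_two_pow]
  by_cases h : k < j
  · simp [h, h.ne']
  · rw [if_neg h, if_neg h]
    obtain ⟨m, rfl⟩ := Nat.exists_eq_add_of_le (not_lt.1 h)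
    rw [Nat.add_sub_cancel_left]
    cases m with
    | zero => simp
    | succ m =>
      rw [Nat.testBit_succ, Nat.testBit_succ, show 2 * hi / 2 = hi by omega,
        show (2 * hi + 1) / 2 = hi by omega]
      simp

theorem xor_hi (hi : ℕ) {j p : ℕ} (hp : p < 2 ^ j) :
    ((2 * hi + 1) * 2 ^ j + p) ^^^ 2 ^ j = 2 * hi * 2 ^ j + p := by
  rw [← xor_lo hi hp, Nat.xor_xor_cancel_right]

theorem rev_lo {n p : ℕ} (hp : p < 2 ^ n) : rev (n + 1) p = 2 * rev n p := by
  unfold rev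
  rw [sum_range_succ, Nat.testBit_lt_two_pow hp, mul_sum]
  simp only [Bool.false_eq_true, if_false, add_zero]
  refine sum_congr rfl fun j hj => ?_
  have := mem_range.1 hj
  split_ifs
  · rw [← pow_succ']; congr 1; omega
  · rfl

theorem rev_hi {n p : ℕ} (hp : p < 2 ^ n) : rev (n + 1) (2 ^ n + p) = 2 * rev n p + 1 := by
  unfold rev
  have h1 := bit_hi 0 hp
  simp only [mul_zero, zero_add, one_mul] at h1
  rw [sum_range_succ, h1, mul_sum]
  simp only [if_true, Nat.add_sub_cancel, Nat.sub_self, pow_zero]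
  congr 1
  refine sum_congr rfl fun j hj => ?_
  have := mem_range.1 hj
  rw [Nat.testBit_two_pow_add_gt this]
  split_ifs
  · rw [← pow_succ']; congr 1; omega
  · rfl

theorem sum_two (n : ℕ) (f : ℕ → ℂ) :
    ∑ p ∈ range (2 ^ (n + 1)), f p = ∑ p ∈ range (2 ^ n), (f p + f (2 ^ n + p)) := by
  rw [pow_succ, mul_two, sum_range_add, sum_add_distrib]

theorem orth (n : ℕ) (k : ℤ) :
    ∑ p ∈ range (2 ^ n), rt (rev n p * k) (2 ^ n) = if (2 : ℤ) ^ n ∣ k then 2 ^ n else 0 := by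
  induction n with
  | zero => simp [rev, rt_zero]
  | succ n ih =>
    have e : ∑ p ∈ range (2 ^ (n + 1)), rt (rev (n + 1) p * k) (2 ^ (n + 1)) =
        (∑ p ∈ range (2 ^ n), rt (rev n p * k) (2 ^ n)) * (1 + rt k (2 ^ (n + 1))) := by
      rw [sum_two, sum_mul]
      refine sum_congr rfl fun p hp => ?_
      rw [rev_lo (mem_range.1 hp), rev_hi (mem_range.1 hp)]
      push_cast
      rw [add_mul, rt_add, mul_assoc, rt_two, one_mul]
      ring
    rw [e, ih]
    by_cases h1 : (2 : ℤ) ^ (n + 1) ∣ k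
    · rw [if_pos h1, if_pos ((pow_dvd_pow 2 n.le_succ).trans h1)]
      obtain ⟨m, rfl⟩ := h1
      rw [rt_full]; ring
    · rw [if_neg h1]
      split_ifs with h2
      · obtain ⟨m, rfl⟩ := h2
        rcases Int.even_or_odd' m with ⟨l, rfl | rfl⟩
        · exact absurd ⟨l, by ring⟩ h1
        · rw [show (2 : ℤ) ^ n * (2 * l + 1) = 2 ^ (n + 1) * l + 2 ^ n by ring, rt_add, rt_full,
            rt_half]
          ring
      · rw [zero_mul]

/-- Running a list of layers. -/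
noncomputable def run (a q : ℕ) (fl : Bool) (L : List Code) (v : ℕ → ℂ) : ℕ → ℂ :=
  L.foldl (fun v c => lact a q fl c v) v

section

variable (a q : ℕ) (fl : Bool)

theorem run_nil (v : ℕ → ℂ) : run a q fl [] v = v := rfl

theorem run_cons (c : Code) (L : List Code) (v : ℕ → ℂ) :
    run a q fl (c :: L) v = run a q fl L (lact a q fl c v) := rfl

theorem run_append (L L' : List Code) (v : ℕ → ℂ) :
    run a q fl (L ++ L') v = run a q fl L' (run a q fl L v) := List.foldl_append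

theorem lact0 (j h : ℕ) (v : ℕ → ℂ) (t : ℕ) : lact a q fl (0, j, h) v t =
    (1 + Complex.I) * v t + (1 - Complex.I) * v (t ^^^ 2 ^ j) := rfl

theorem lact1 (j h : ℕ) (v : ℕ → ℂ) (t : ℕ) : lact a q fl (1, j, h) v t =
    (if t.testBit j then Complex.I else 1) *
      (if h = 0 then 1 else if h = 1 then (1 - Complex.I) / 2 else (1 - Complex.I) / 4) * v t := rfl

theorem lact2 (j h : ℕ) (v : ℕ → ℂ) (t : ℕ) : lact a q fl (2, j, h) v t =
    (if t.testBit j then rt (if h = 0 then ((t % 2 ^ j : ℕ) : ℤ) else -((t % 2 ^ j : ℕ) : ℤ))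
      (2 ^ (j + 1)) else 1) * v t := rfl

theorem lact3 (j h : ℕ) (v : ℕ → ℂ) (t : ℕ) : lact a q fl (3, j, h) v t =
    (if t / 2 ^ a = 0 then (if j = 3 then 1 / 8 else 1)
    else if j = 0 then -5 / 3 else if j = 1 then -2 else if j = 2 then 3 else -1 / 10) * v t := rfl

theorem lact4 (j h : ℕ) (v : ℕ → ℂ) (t : ℕ) : lact a q fl (4, j, h) v t =
    (if t % 2 ^ a < nseg a q * q then (if j = 1 ∧ t % 2 ^ a / q % 2 = 1 then -1 else 1) else 0)
      * v t := rfl

theorem lact5 (j h : ℕ) (v : ℕ → ℂ) (t : ℕ) : lact a q fl (5, j, h) v t =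
    (if t / 2 ^ a = j then eig a q j h (rev a (t % 2 ^ a)) else 1) * v t := rfl

theorem lact6 (j h : ℕ) (v : ℕ → ℂ) (t : ℕ) : lact a q fl (6, j, h) v t =
    (if t / 2 ^ a = j then (eig a q j h (rev a (t % 2 ^ a)))⁻¹ else 1) * v t := rfl

theorem hgate0_lo (v : ℕ → ℂ) (hi : ℕ) {j p : ℕ} (hp : p < 2 ^ j) :
    run a q fl (hgate j 0) v (2 * hi * 2 ^ j + p) =
      v (2 * hi * 2 ^ j + p) + v ((2 * hi + 1) * 2 ^ j + p) := by
  simp only [hgate, run_cons, run_nil, lact1, lact0, xor_lo hi hp, bit_lo hi hp, bit_hi hi hp]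
  norm_num
  linear_combination (-(v (2 * hi * 2 ^ j + p) + v ((2 * hi + 1) * 2 ^ j + p)) / 2 +
    (Complex.I - 1) / 2 * v ((2 * hi + 1) * 2 ^ j + p)) * Complex.I_sq

theorem hgate0_hi (v : ℕ → ℂ) (hi : ℕ) {j p : ℕ} (hp : p < 2 ^ j) :
    run a q fl (hgate j 0) v ((2 * hi + 1) * 2 ^ j + p) =
      v (2 * hi * 2 ^ j + p) - v ((2 * hi + 1) * 2 ^ j + p) := by
  simp only [hgate, run_cons, run_nil, lact1, lact0, xor_hi hi hp, bit_lo hi hp, bit_hi hi hp]
  norm_num
  linear_combination ((Complex.I - 2) / 2 * v (2 * hi * 2 ^ j + p) +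
    (2 - Complex.I ^ 2) / 2 * v ((2 * hi + 1) * 2 ^ j + p)) * Complex.I_sq

theorem hgate1 (v : ℕ → ℂ) (j t : ℕ) :
    run a q fl (hgate j 1) v t = 1 / 2 * run a q fl (hgate j 0) v t := by
  simp only [hgate, run_cons, run_nil, lact1]
  norm_num
  ring

theorem fft_succ (n : ℕ) : fft (n + 1) = hgate n 0 ++ (2, n, 0) :: fft n := by
  simp [fft, List.range_succ]

theorem ifft_succ (n : ℕ) : ifft (n + 1) = ifft n ++ (2, n, 1) :: hgate n 1 := by
  simp [ifft, List.range_succ]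

theorem mod_lo (hi : ℕ) {j p : ℕ} (hp : p < 2 ^ j) : (hi * 2 ^ j + p) % 2 ^ j = p := by
  rw [Nat.mul_add_mod_of_lt hp]

theorem div_lo (hi : ℕ) {j p : ℕ} (hp : p < 2 ^ j) : (hi * 2 ^ j + p) / 2 ^ j = hi := by
  rw [add_comm, Nat.add_mul_div_right _ _ (by positivity), Nat.div_eq_of_lt hp, zero_add]

theorem split_top {n p : ℕ} (hp : p < 2 ^ (n + 1)) :
    p < 2 ^ n ∨ ∃ p', p' < 2 ^ n ∧ p = 2 ^ n + p' := by
  rcases lt_or_ge p (2 ^ n) with h | h
  · exact Or.inl h
  · exact Or.inr ⟨p - 2 ^ n, by rw [pow_succ] at hp; omega, by omega⟩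

theorem idx_lo (hi n p : ℕ) : hi * 2 ^ (n + 1) + p = 2 * hi * 2 ^ n + p := by ring

theorem idx_hi (hi n p : ℕ) : hi * 2 ^ (n + 1) + (2 ^ n + p) = (2 * hi + 1) * 2 ^ n + p := by ring

theorem fft_gen (n : ℕ) : ∀ (v : ℕ → ℂ) (hi p : ℕ), p < 2 ^ n →
    run a q fl (fft n) v (hi * 2 ^ n + p) =
      ∑ s ∈ range (2 ^ n), rt (rev n p * s) (2 ^ n) * v (hi * 2 ^ n + s) := by
  induction n with
  | zero =>
    intro v hi p hp
    obtain rfl : p = 0 := by omega
    simp [fft, run_nil, rt_zero]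
  | succ n ih =>
    intro v hi p hp
    rw [fft_succ, run_append, run_cons, sum_two]
    rcases split_top hp with h | ⟨p', h, rfl⟩
    · rw [idx_lo, ih _ _ _ h, rev_lo h]
      refine sum_congr rfl fun s hs => ?_
      have hs' := mem_range.1 hs
      rw [lact2, bit_lo hi hs', hgate0_lo a q fl v hi hs', idx_hi, idx_lo]
      push_cast
      rw [mul_add (2 * (rev n p : ℤ)), rt_add, mul_assoc 2 _ (s : ℤ), rt_two,
        show 2 * (rev n p : ℤ) * 2 ^ n = 2 ^ (n + 1) * rev n p by ring, rt_full]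
      ring
    · rw [idx_hi, ih _ _ _ h, rev_hi h]
      refine sum_congr rfl fun s hs => ?_
      have hs' := mem_range.1 hs
      rw [lact2, bit_hi hi hs', hgate0_hi a q fl v hi hs', mod_lo _ hs', idx_hi, idx_lo]
      push_cast
      rw [show (2 * (rev n p' : ℤ) + 1) * (2 ^ n + s) =
          2 ^ (n + 1) * rev n p' + (2 ^ n + (2 * (rev n p' * s) + s)) by ring,
        show (2 * (rev n p' : ℤ) + 1) * s = 2 * (rev n p' * s) + s by ring]
      simp only [rt_add, rt_two, rt_full, rt_half, if_true]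
      ring

theorem ifft_gen (n : ℕ) : ∀ (v : ℕ → ℂ) (hi s : ℕ), s < 2 ^ n →
    run a q fl (ifft n) v (hi * 2 ^ n + s) = (1 / 2 ^ n) *
      ∑ p ∈ range (2 ^ n), rt (-(rev n p * s)) (2 ^ n) * v (hi * 2 ^ n + p) := by
  induction n with
  | zero =>
    intro v hi p hp
    obtain rfl : p = 0 := by omega
    simp [ifft, run_nil, rt_zero]
  | succ n ih =>
    intro v hi s hs
    rw [ifft_succ, run_append, run_cons, sum_two, hgate1]
    rcases split_top hs with h | ⟨s', h, rfl⟩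
    · rw [idx_lo, hgate0_lo a q fl _ hi h, lact2, lact2, bit_lo hi h, bit_hi hi h, mod_lo _ h,
        mod_lo _ h, ih _ _ _ h, ih _ _ _ h]
      simp only [Bool.false_eq_true, if_false, if_true, one_ne_zero, one_mul, mul_sum,
        ← sum_add_distrib]
      refine sum_congr rfl fun p hp => ?_
      have hp' := mem_range.1 hp
      rw [rev_lo hp', rev_hi hp', idx_hi, idx_lo]
      push_cast
      rw [show -((2 * (rev n p : ℤ) + 1) * s) = 2 * (-(rev n p * s)) + -s by ring,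
        show -(2 * (rev n p : ℤ) * s) = 2 * (-(rev n p * s)) by ring]
      simp only [rt_add, rt_two]
      ring
    · rw [idx_hi, hgate0_hi a q fl _ hi h, lact2, lact2, bit_lo hi h, bit_hi hi h, mod_lo _ h,
        mod_lo _ h, ih _ _ _ h, ih _ _ _ h]
      simp only [Bool.false_eq_true, if_false, if_true, one_ne_zero, one_mul, mul_sum,
        ← sum_sub_distrib]
      refine sum_congr rfl fun p hp => ?_
      have hp' := mem_range.1 hp
      rw [rev_lo hp', rev_hi hp', idx_hi, idx_lo]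
      push_cast
      rw [show -((2 * (rev n p : ℤ) + 1) * (2 ^ n + s')) =
          2 ^ (n + 1) * (-rev n p) + (-2 ^ n + (2 * (-(rev n p * s')) + -s')) by ring,
        show -(2 * (rev n p : ℤ) * (2 ^ n + s')) =
          2 ^ (n + 1) * (-rev n p) + 2 * (-(rev n p * s')) by ring]
      simp only [rt_add, rt_two, rt_full, rt_half']
      ring

theorem h_lo (v : ℕ → ℂ) {p : ℕ} (hp : p < 2 ^ a) :
    run a q fl (hgate a 0) v p = v p + v (2 ^ a + p) := by
  simpa using hgate0_lo a q fl v 0 hp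

theorem h_hi (v : ℕ → ℂ) {p : ℕ} (hp : p < 2 ^ a) :
    run a q fl (hgate a 0) v (2 ^ a + p) = v p - v (2 ^ a + p) := by
  simpa using hgate0_hi a q fl v 0 hp

theorem sh1_gen (v : ℕ → ℂ) {d p : ℕ} (hd : d < 2) (hp : p < 2 ^ a) :
    run a q fl (sh1 a d) v (d * 2 ^ a + p) = v (d * 2 ^ a + p) + v ((1 - d) * 2 ^ a + p) ∧
    run a q fl (sh1 a d) v ((1 - d) * 2 ^ a + p) = v ((1 - d) * 2 ^ a + p) := by
  have d0 : p / 2 ^ a = 0 := Nat.div_eq_of_lt hp
  have d1 : (2 ^ a + p) / 2 ^ a = 1 := by simpa using div_lo 1 hp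
  interval_cases d
  · simp only [sh1, zero_ne_one, if_false, List.cons_append, List.append_assoc, run_cons,
      run_append, run_nil, zero_mul, zero_add, Nat.sub_zero, one_mul, lact3, h_lo a q fl _ hp,
      h_hi a q fl _ hp, d0, d1]
    norm_num
    constructor <;> ring
  · simp only [sh1, if_true, List.cons_append, List.append_assoc, run_cons,
      run_append, run_nil, zero_mul, zero_add, Nat.sub_self, one_mul, lact3, h_lo a q fl _ hp,
      h_hi a q fl _ hp, d0, d1]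
    norm_num
    constructor <;> ring

end

theorem norm_kern {q : ℕ} (hq : 0 < q) (d : ℕ) (δ : ℤ) : ‖kern q d δ‖ ≤ 1 := by
  unfold kern chirp chirpI
  split_ifs
  · rw [norm_rt]
  · rw [norm_div, norm_neg, norm_rt, Complex.norm_natCast, div_le_one (by exact_mod_cast hq)]
    exact_mod_cast hq

end CircK

open CircK

theorem nseg_le {a q : ℕ} (hq : 0 < q) (h : 4 * q ≤ 2 ^ a) :
    (nseg a q + 1) * q ≤ 2 ^ a ∧ 2 ^ a < (nseg a q + 3) * q := by
  have h1 : 4 ≤ 2 ^ a / q := (Nat.le_div_iff_mul_le hq).2 h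
  have h2 : 2 ^ a / q * q ≤ 2 ^ a := Nat.div_mul_le_self _ _
  have h3 : 2 ^ a < (2 ^ a / q + 1) * q := by
    rw [mul_comm]; exact Nat.lt_mul_div_succ _ hq
  unfold nseg
  exact ⟨le_trans (Nat.mul_le_mul_right _ (by omega)) h2,
    lt_of_lt_of_le h3 (Nat.mul_le_mul_right _ (by omega))⟩

theorem norm_eig {a q : ℕ} (hq : 0 < q) (d α ξ : ℕ) :
    1 ≤ ‖eig a q d α ξ‖ ∧ ‖eig a q d α ξ‖ ≤ 2 * q + 1 := by
  unfold eig
  obtain ⟨S, hS⟩ : ∃ S, S = ∑ n ∈ range (2 * q - 1), kern q d ((n : ℤ) - (q - 1 : ℕ)) *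
      rt (ξ * ((n : ℤ) - (q - 1 : ℕ))) (2 ^ a) := ⟨_, rfl⟩
  obtain ⟨L, hL⟩ : ∃ L, L = if α = 0 then (2 * q + 2 : ℂ) else -(2 * q + 2 : ℂ) := ⟨_, rfl⟩
  rw [← hS, ← hL]
  have h1 : ‖S‖ ≤ 2 * q := by
    rw [hS]
    refine (norm_sum_le _ _).trans ((sum_le_card_nsmul _ _ 1 fun n _ => ?_).trans ?_)
    · rw [norm_mul, norm_rt, mul_one]; exact norm_kern hq _ _
    · rw [card_range, nsmul_one]; exact_mod_cast Nat.sub_le _ _
  have h2 : ‖L‖ = 2 * q + 2 := by
    have : ‖(2 * q + 2 : ℂ)‖ = 2 * q + 2 := by exact_mod_cast Complex.norm_natCast (2 * q + 2)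
    rw [hL]
    split_ifs
    · exact this
    · rw [norm_neg, this]
  have h3 := norm_add_le S L
  have h4 := norm_sub_le (S + L) S
  rw [add_sub_cancel_left] at h4
  rw [norm_div, Complex.norm_ofNat]
  constructor <;> linarith

theorem fft_spec (a q : ℕ) (fl : Bool) (v : ℕ → ℂ) {β p : ℕ} (hβ : β < 2) (hp : p < 2 ^ a) :
    (fft a).foldl (fun v c => lact a q fl c v) v (β * 2 ^ a + p) =
      ∑ s ∈ range (2 ^ a), rt ((rev a p * s : ℕ) : ℤ) (2 ^ a) * v (β * 2 ^ a + s) := by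
  have _ := hβ
  simp only [Nat.cast_mul]
  exact fft_gen a q fl a v β p hp

theorem ifft_spec (a q : ℕ) (fl : Bool) (v : ℕ → ℂ) {β s : ℕ} (hβ : β < 2) (hs : s < 2 ^ a) :
    (ifft a).foldl (fun v c => lact a q fl c v) v (β * 2 ^ a + s) = (1 / 2 ^ a) *
      ∑ p ∈ range (2 ^ a), rt (-((rev a p * s : ℕ) : ℤ)) (2 ^ a) * v (β * 2 ^ a + p) := by
  have _ := hβ
  simp only [Nat.cast_mul]
  exact ifft_gen a q fl a v β s hs

theorem sh1_spec (a q : ℕ) (fl : Bool) (v : ℕ → ℂ) {d p : ℕ} (hd : d < 2) (hp : p < 2 ^ a) :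
    (sh1 a d).foldl (fun v c => lact a q fl c v) v (d * 2 ^ a + p) =
      v (d * 2 ^ a + p) + v ((1 - d) * 2 ^ a + p) ∧
    (sh1 a d).foldl (fun v c => lact a q fl c v) v ((1 - d) * 2 ^ a + p) =
      v ((1 - d) * 2 ^ a + p) :=
  sh1_gen a q fl v hd hp

namespace CircK

/-- The signs. -/
noncomputable def sg (a q α x : ℕ) : ℂ :=
  if x < nseg a q * q then (if α = 1 ∧ x / q % 2 = 1 then -1 else 1) else 0

/-- The circulant kernel. -/
noncomputable def ck (a q d s s' : ℕ) : ℂ :=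
  ∑ n ∈ range (2 * q - 1), if (2 : ℤ) ^ a ∣ (n : ℤ) - (q - 1 : ℕ) - s + s' then
    kern q d ((n : ℤ) - (q - 1 : ℕ)) else 0

theorem inv_sum (a : ℕ) (w : ℕ → ℂ) {s : ℕ} (hs : s < 2 ^ a) :
    (1 / 2 ^ a) * ∑ p ∈ range (2 ^ a), rt (-(rev a p * s)) (2 ^ a) *
      ∑ s' ∈ range (2 ^ a), rt (rev a p * s') (2 ^ a) * w s' = w s := by
  have e : ∑ p ∈ range (2 ^ a), rt (-(rev a p * s)) (2 ^ a) *
      ∑ s' ∈ range (2 ^ a), rt (rev a p * s') (2 ^ a) * w s' =
      ∑ s' ∈ range (2 ^ a), (∑ p ∈ range (2 ^ a), rt (rev a p * (s' - s)) (2 ^ a)) * w s' := by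
    simp only [mul_sum, sum_mul]
    rw [sum_comm]
    refine sum_congr rfl fun s' _ => sum_congr rfl fun p _ => ?_
    rw [← mul_assoc, ← rt_add]
    congr 2; ring
  rw [e, sum_eq_single s]
  · rw [orth, sub_self, if_pos (dvd_zero _)]; field_simp
  · intro s' hs' hne
    rw [orth, if_neg, zero_mul]
    intro hdvd
    have h1 : (s' : ℤ) < 2 ^ a := by exact_mod_cast mem_range.1 hs'
    have h2 : (s : ℤ) < 2 ^ a := by exact_mod_cast hs
    have := Int.eq_zero_of_abs_lt_dvd hdvd (by rw [abs_lt]; constructor <;> omega)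
    omega
  · intro h; exact absurd (mem_range.2 hs) h

theorem eig_sum (a q d α : ℕ) (w : ℕ → ℂ) {s : ℕ} (hs : s < 2 ^ a) :
    (1 / 2 ^ a) * ∑ p ∈ range (2 ^ a), rt (-(rev a p * s)) (2 ^ a) * (eig a q d α (rev a p) *
      ∑ s' ∈ range (2 ^ a), rt (rev a p * s') (2 ^ a) * w s') =
    (∑ s' ∈ range (2 ^ a), ck a q d s s' * w s' +
      (if α = 0 then (2 * q + 2 : ℂ) else -(2 * q + 2 : ℂ)) * w s) / 2 := by
  obtain ⟨L, hL⟩ : ∃ L, L = if α = 0 then (2 * q + 2 : ℂ) else -(2 * q + 2 : ℂ) := ⟨_, rfl⟩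
  have e1 : ∀ s' : ℕ, ck a q d s s' = (1 / 2 ^ a) * ∑ p ∈ range (2 ^ a),
      rt (-(rev a p * s)) (2 ^ a) * ((∑ n ∈ range (2 * q - 1), kern q d ((n : ℤ) - (q - 1 : ℕ)) *
        rt (rev a p * ((n : ℤ) - (q - 1 : ℕ))) (2 ^ a)) * rt (rev a p * s') (2 ^ a)) := by
    intro s'
    simp only [mul_sum, sum_mul]
    rw [sum_comm, ck]
    refine sum_congr rfl fun n _ => ?_
    have h := orth a ((n : ℤ) - (q - 1 : ℕ) - s + s')
    have e2 : ∀ p : ℕ, 1 / 2 ^ a * (rt (-(rev a p * s)) (2 ^ a) *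
        (kern q d ((n : ℤ) - (q - 1 : ℕ)) * rt (rev a p * ((n : ℤ) - (q - 1 : ℕ))) (2 ^ a) *
          rt (rev a p * s') (2 ^ a))) = 1 / 2 ^ a * kern q d ((n : ℤ) - (q - 1 : ℕ)) *
          rt (rev a p * ((n : ℤ) - (q - 1 : ℕ) - s + s')) (2 ^ a) := by
      intro p
      rw [show (rev a p : ℤ) * ((n : ℤ) - (q - 1 : ℕ) - s + s') =
        -(rev a p * s) + (rev a p * ((n : ℤ) - (q - 1 : ℕ)) + rev a p * s') by ring,
        rt_add, rt_add]
      ring
    simp only [e2]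
    rw [← mul_sum, h]
    split_ifs
    · field_simp
    · rw [mul_zero]
  rw [← inv_sum a w hs]
  simp only [e1, eig]
  rw [← hL]
  obtain ⟨K, hK⟩ : ∃ K : ℕ → ℂ, ∀ p, K p = ∑ n ∈ range (2 * q - 1),
      kern q d ((n : ℤ) - (q - 1 : ℕ)) * rt (rev a p * ((n : ℤ) - (q - 1 : ℕ))) (2 ^ a) :=
    ⟨_, fun _ => rfl⟩
  simp only [← hK]
  simp only [mul_sum, sum_mul]
  rw [sum_comm (s := range (2 ^ a)) (f := fun s' p => 1 / 2 ^ a * (rt (-(rev a p * s)) (2 ^ a) *
    (K p * rt (rev a p * s') (2 ^ a))) * w s'), ← sum_add_distrib, sum_div]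
  refine sum_congr rfl fun p _ => ?_
  rw [← sum_add_distrib, sum_div]
  refine sum_congr rfl fun s' _ => ?_
  ring

theorem cshear_gen {a q : ℕ} (hq : 0 < q) (fl : Bool) (v : ℕ → ℂ) {d : ℕ} (hd : d < 2) (α : ℕ)
    {s : ℕ} (hs : s < 2 ^ a) :
    run a q fl (cshear a d α) v (d * 2 ^ a + s) = sg a q α s * (sg a q α s * v (d * 2 ^ a + s) +
      (∑ s' ∈ range (2 ^ a), ck a q d s s' * (sg a q α s' * v ((1 - d) * 2 ^ a + s')) +
        (if α = 0 then (2 * q + 2 : ℂ) else -(2 * q + 2 : ℂ)) *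
          (sg a q α s * v ((1 - d) * 2 ^ a + s))) / 2) ∧
    run a q fl (cshear a d α) v ((1 - d) * 2 ^ a + s) =
      sg a q α s * (sg a q α s * v ((1 - d) * 2 ^ a + s)) := by
  have hne : 1 - d ≠ d := by omega
  have l4 : ∀ (u : ℕ → ℂ) (β x : ℕ), x < 2 ^ a →
      lact a q fl (4, α, 0) u (β * 2 ^ a + x) = sg a q α x * u (β * 2 ^ a + x) := by
    intro u β x hx
    rw [lact4, mod_lo _ hx, sg]
  have ff : ∀ (β p : ℕ), p < 2 ^ a → run a q fl (fft a) (lact a q fl (4, α, 0) v) (β * 2 ^ a + p)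
      = ∑ s' ∈ range (2 ^ a), rt (rev a p * s') (2 ^ a) * (sg a q α s' * v (β * 2 ^ a + s')) := by
    intro β p hp
    rw [fft_gen a q fl a _ β p hp]
    exact sum_congr rfl fun s' hs' => by rw [l4 _ _ _ (mem_range.1 hs')]
  simp only [cshear, List.cons_append, List.append_assoc, run_cons, run_append, run_nil]
  rw [l4 _ _ _ hs, l4 _ _ _ hs, ifft_gen a q fl a _ _ _ hs, ifft_gen a q fl a _ _ _ hs]
  constructor
  · congr 1
    rw [← eig_sum a q d α _ hs, ← inv_sum a (fun s' => sg a q α s' * v (d * 2 ^ a + s')) hs,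
      ← mul_add, ← sum_add_distrib]
    congr 1
    refine sum_congr rfl fun p hp => ?_
    have hp' := mem_range.1 hp
    have h0 : eig a q d α (rev a p) ≠ 0 := by
      intro h0
      have := (norm_eig (a := a) hq d α (rev a p)).1
      rw [h0, norm_zero] at this
      linarith
    rw [lact5, (sh1_gen a q fl _ hd hp').1, lact6, lact6, div_lo _ hp', div_lo _ hp', mod_lo _ hp',
      if_pos rfl, if_pos rfl, if_neg hne, ff _ _ hp', ff _ _ hp', ← mul_add]
    congr 1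
    field_simp
  · congr 1
    rw [← inv_sum a (fun s' => sg a q α s' * v ((1 - d) * 2 ^ a + s')) hs]
    congr 1
    refine sum_congr rfl fun p hp => ?_
    have hp' := mem_range.1 hp
    rw [lact5, (sh1_gen a q fl _ hd hp').2, lact6, div_lo _ hp', if_neg hne, if_neg hne,
      ff _ _ hp', one_mul, one_mul]

theorem ck_same {a q : ℕ} (h : 4 * q ≤ 2 ^ a) (d x : ℕ) {s r : ℕ} (hs : s < q) (hr : r < q) :
    ck a q d (x + s) (x + r) = kern q d ((s : ℤ) - r) := by
  have h' : 4 * (q : ℤ) ≤ 2 ^ a := by exact_mod_cast h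
  unfold ck
  rw [sum_eq_single (s + (q - 1) - r)]
  · rw [if_pos ⟨0, by omega⟩]
    congr 1
    omega
  · intro n hn hne
    have hn' := mem_range.1 hn
    rw [if_neg]
    intro hdvd
    have := Int.eq_zero_of_abs_lt_dvd hdvd (by rw [abs_lt]; constructor <;> omega)
    omega
  · intro hn
    exact absurd (mem_range.2 (by omega)) hn

theorem ck_far {a q : ℕ} (d : ℕ) {s s' : ℕ} (hs : s + q ≤ 2 ^ a) (hs' : s' + q ≤ 2 ^ a)
    (hfar : s + q ≤ s' ∨ s' + q ≤ s) : ck a q d s s' = 0 := by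
  have h1 : (s : ℤ) + q ≤ 2 ^ a := by exact_mod_cast hs
  have h2 : (s' : ℤ) + q ≤ 2 ^ a := by exact_mod_cast hs'
  refine sum_eq_zero fun n hn => ?_
  have hn' := mem_range.1 hn
  rw [if_neg]
  intro hdvd
  have := Int.eq_zero_of_abs_lt_dvd hdvd (by rw [abs_lt]; constructor <;> omega)
  omega

end CircK

theorem kshear_spec {a q : ℕ} (hq : 0 < q) (h : 4 * q ≤ 2 ^ a) (fl : Bool) (v : ℕ → ℂ)
    {d τ s : ℕ} (hd : d < 2) (hτ : τ < nseg a q) (hs : s < q) :
    (kshear a d).foldl (fun v c => lact a q fl c v) v (d * 2 ^ a + τ * q + s) =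
      v (d * 2 ^ a + τ * q + s) +
        ∑ r ∈ range q, kern q d ((s : ℤ) - r) * v ((1 - d) * 2 ^ a + τ * q + r) ∧
    (kshear a d).foldl (fun v c => lact a q fl c v) v ((1 - d) * 2 ^ a + τ * q + s) =
      v ((1 - d) * 2 ^ a + τ * q + s) := by
  have hN := (nseg_le hq h).1
  rw [add_mul, one_mul] at hN
  have hval : ∀ r, r < q → τ * q + r < nseg a q * q := fun r hr =>
    lt_of_lt_of_le (by rw [Nat.succ_mul]; omega) (Nat.mul_le_mul_right q hτ)
  have hdiv : ∀ r, r < q → (τ * q + r) / q = τ := fun r hr => by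
    rw [add_comm, Nat.add_mul_div_right _ _ hq, Nat.div_eq_of_lt hr, zero_add]
  have hx := hval s hs
  have hx' : τ * q + s < 2 ^ a := by omega
  have g0 : sg a q 0 (τ * q + s) = 1 := by simp [sg, hx]
  have g1 : sg a q 1 (τ * q + s) * sg a q 1 (τ * q + s) = 1 := by
    rw [sg, if_pos hx]; split_ifs <;> norm_num
  change run a q fl _ v _ = _ ∧ run a q fl _ v _ = _
  simp only [add_assoc]
  rw [kshear, run_append, (cshear_gen hq fl _ hd 1 hx').1, (cshear_gen hq fl _ hd 1 hx').2,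
    (cshear_gen hq fl _ hd 0 hx').1, (cshear_gen hq fl _ hd 0 hx').2, g0]
  refine ⟨?_, by linear_combination v ((1 - d) * 2 ^ a + (τ * q + s)) * g1⟩
  have key : ∑ r ∈ range q, kern q d ((s : ℤ) - r) * v ((1 - d) * 2 ^ a + (τ * q + r)) =
      ∑ s' ∈ range (2 ^ a), (ck a q d (τ * q + s) s' * (sg a q 0 s' * v ((1 - d) * 2 ^ a + s')) +
        sg a q 1 (τ * q + s) * (ck a q d (τ * q + s) s' * (sg a q 1 s' *
          run a q fl (cshear a d 0) v ((1 - d) * 2 ^ a + s')))) / 2 := by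
    refine sum_of_injOn (fun r => τ * q + r) (fun r _ r' _ hr => by simpa using hr)
      (fun r hr => ?_) (fun s' hs' hn => ?_) (fun r hr => ?_)
    · have := hval r (by simpa using hr)
      simp only [coe_range, Set.mem_Iio]
      omega
    · rw [(cshear_gen hq fl _ hd 0 (mem_range.1 hs')).2]
      by_cases hv : s' < nseg a q * q
      · have hne : s' / q ≠ τ := by
          intro he
          refine hn ⟨s' % q, by simpa using Nat.mod_lt _ hq, ?_⟩
          rw [← he]; exact Nat.div_add_mod' s' q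
        by_cases hpar : s' / q % 2 = τ % 2
        · have b1 := Nat.div_add_mod' s' q
          have b2 := Nat.mod_lt s' hq
          rw [ck_far d (by omega) (by omega)]
          · simp
          · rcases lt_or_gt_of_ne hne with hlt | hlt
            · have := Nat.mul_le_mul_right q (show s' / q + 2 ≤ τ by omega)
              rw [add_mul] at this
              omega
            · have := Nat.mul_le_mul_right q (show τ + 2 ≤ s' / q by omega)
              rw [add_mul] at this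
              omega
        · simp only [sg, hv, hx, hdiv s hs, if_true, zero_ne_one, false_and, if_false, true_and]
          split_ifs <;> first | omega | ring
      · simp [sg, hv]
    · have hr' := mem_range.1 hr
      have hv := hval r hr'
      rw [(cshear_gen hq fl _ hd 0 (by omega)).2, ck_same h d _ hs hr']
      simp only [sg, hv, hx, hdiv s hs, hdiv r hr', if_true, zero_ne_one, false_and, if_false,
        true_and]
      split_ifs <;> ring
  rw [key, ← sum_div, sum_add_distrib, ← mul_sum]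
  simp only [if_true, one_ne_zero, if_false]
  linear_combination (v (d * 2 ^ a + (τ * q + s)) +
    (∑ s' ∈ range (2 ^ a), ck a q d (τ * q + s) s' * (sg a q 0 s' * v ((1 - d) * 2 ^ a + s'))) / 2)
    * g1

end Vale.Agent.P338
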