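import Vale.Agent.P338.Calc

/-! Programs are run by multitape Turing machines. -/

namespace Vale.Agent.P338

open Function

namespace Compile

/-- Flat instructions on seven stacks; the last stack holds return labels. -/
inductive Ins (Λ : Type) : Type
  | push : Fin 7 → Sym (Bool ⊕ Λ) → Λ → Ins Λ
  | pop : Fin 7 → Λ → Ins Λ
  | br : Fin 7 → Sym (Bool ⊕ Λ) → Λ → Λ → Ins Λ
  | ret : Ins Λ
  | halt : Ins Λ

/-- Act on one tape only. -/
def one {W : Type} (sc : Fin 7 → Sym W) (j : Fin 7) (a : Sym W) (mv : Move) :
    Fin 7 → Sym W × Move := fun i => if i = j then (a, mv) else (sc i, .stay)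

/-- The label coded by a symbol. -/
def lab {Λ : Type} (d : Λ) : Sym (Bool ⊕ Λ) → Λ
  | .work (.inr r) => r
  | _ => d

open Classical in
/-- The transition function. -/
noncomputable def delta {Λ : Type} (M : Λ → Ins Λ) (l0 : Λ) :
    Option (Λ × Bool) → (Fin 7 → Sym (Bool ⊕ Λ)) →
      Option (Option (Λ × Bool) × (Fin 7 → Sym (Bool ⊕ Λ) × Move))
  | none, sc =>
    if sc 0 = .blank then some (some (l0, false), one sc 0 (sc 0) .left)
    else some (none, one sc 0 (sc 0) .right)
  | some (l, false), sc =>
    match M l with
    | .push j _ _ => some (some (l, true), one sc j (sc j) (if sc j = .blank then .stay else .right))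
    | .pop j n => some (some (n, false), one sc j .blank .left)
    | .br j a l1 l2 => some (some (if sc j = a then l1 else l2, false), one sc j (sc j) .stay)
    | .ret => some (some (lab l (sc 6), false), one sc 6 .blank .left)
    | .halt => none
  | some (l, true), sc =>
    match M l with
    | .push j a n => some (some (n, false), one sc j a .stay)
    | _ => none

/-- The machine of a flat program. -/
noncomputable def mach {Λ : Type} [Finite Λ] (M : Λ → Ins Λ) (l0 : Λ) : TM where
  W := Bool ⊕ Λ
  Q := Option (Λ × Bool)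
  finW := inferInstance
  finQ := inferInstance
  k := 6
  out := (1 : Fin 7)
  start := none
  δ := delta M l0

section
variable {Λ : Type} [Finite Λ] {M : Λ → Ins Λ} {l0 : Λ}

/-- Configurations of the machine of a flat program. -/
def cfg (M : Λ → Ins Λ) (l0 : Λ) (q : Option (Λ × Bool)) (T : Fin 7 → ℕ → Sym (Bool ⊕ Λ))
    (H : Fin 7 → ℕ) : Cfg (mach M l0) := ⟨q, T, H⟩

theorem step_one {q q' : Option (Λ × Bool)} {T : Fin 7 → ℕ → Sym (Bool ⊕ Λ)} {H : Fin 7 → ℕ}
    {j : Fin 7} {a : Sym (Bool ⊕ Λ)} {mv : Move}
    (h : delta M l0 q (fun i => T i (H i)) = some (q', one (fun i => T i (H i)) j a mv)) :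
    (cfg M l0 q T H).step =
      cfg M l0 q' (update T j (update (T j) (H j) a)) (update H j (mv.apply (H j))) := by
  have h' : (mach M l0).δ (cfg M l0 q T H).q (cfg M l0 q T H).scan
      = some (q', one (fun i => T i (H i)) j a mv) := h
  unfold Cfg.step
  rw [h']
  have e1 : (fun i : Fin 7 => update (T i) (H i) (one (fun i => T i (H i)) j a mv i).1)
      = update T j (update (T j) (H j) a) := by
    funext i
    by_cases e : i = j
    · subst e; simp [one]
    · simp [one, e]
  have e2 : (fun i : Fin 7 => (one (fun i => T i (H i)) j a mv i).2.apply (H i))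
      = update H j (mv.apply (H j)) := by
    funext i
    by_cases e : i = j
    · subst e; simp [one]
    · simp [one, e, Move.apply]
  rw [← e1, ← e2]
  rfl

theorem written_scan {W : Type} (l : List (Sym W)) :
    written l.reverse (l.length - 1) = l.headD .blank := by
  cases l with
  | nil => simp [written]
  | cons a l => simp [written, List.getD_eq_getElem?_getD]

theorem written_push {W : Type} (l : List (Sym W)) (a : Sym W) :
    update (written l.reverse) l.length a = written (a :: l).reverse := by
  funext i
  by_cases e : i = l.length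
  · subst e; simp [written, List.getD_eq_getElem?_getD]
  · rw [update_of_ne e]
    simp only [written, List.getD_eq_getElem?_getD, List.reverse_cons]
    rcases lt_or_gt_of_ne e with h | h
    · rw [List.getElem?_append_left (by simpa using h)]
    · rw [List.getElem?_eq_none (by simp; omega), List.getElem?_eq_none (by simp; omega)]

theorem written_pop {W : Type} (l : List (Sym W)) :
    update (written l.reverse) (l.length - 1) .blank = written l.tail.reverse := by
  cases l with
  | nil =>
    funext i
    by_cases e : i = 0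
    · subst e; simp [written]
    · simp [written, update_of_ne e]
  | cons a l =>
    rw [← written_push]
    simp only [List.length_cons, Nat.add_sub_cancel, update_idem, List.tail_cons]
    rw [update_eq_self_iff]
    simp [written, List.getD_eq_getElem?_getD]

/-- The configuration that represents a label and seven stacks. -/
def rep (M : Λ → Ins Λ) (l0 : Λ) (l : Λ) (S : Fin 7 → List (Sym (Bool ⊕ Λ))) : Cfg (mach M l0) :=
  cfg M l0 (some (l, false)) (fun j => written (S j).reverse) (fun j => (S j).length - 1)

theorem upd_tape (S : Fin 7 → List (Sym (Bool ⊕ Λ))) (j : Fin 7) (w : List (Sym (Bool ⊕ Λ))) :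
    update (fun i => written (S i).reverse) j (written w.reverse)
      = fun i => written (update S j w i).reverse := by
  funext i
  by_cases e : i = j
  · subst e; simp
  · simp [e]

theorem upd_head (S : Fin 7 → List (Sym (Bool ⊕ Λ))) (j : Fin 7) (w : List (Sym (Bool ⊕ Λ))) :
    update (fun i => (S i).length - 1) j (w.length - 1) = fun i => (update S j w i).length - 1 := by
  funext i
  by_cases e : i = j
  · subst e; simp
  · simp [e]

theorem rep_pop {l n : Λ} {j : Fin 7} (h : M l = .pop j n) (S : Fin 7 → List (Sym (Bool ⊕ Λ))) :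
    (rep M l0 l S).step = rep M l0 n (update S j (S j).tail) := by
  unfold rep
  rw [step_one (q' := some (n, false)) (j := j) (a := .blank) (mv := .left) (by simp [delta, h]),
    written_pop, upd_tape, ← upd_head]
  simp [Move.apply]

theorem rep_ret {l r : Λ} (h : M l = .ret) (S : Fin 7 → List (Sym (Bool ⊕ Λ)))
    {R : List (Sym (Bool ⊕ Λ))} (hS : S 6 = .work (.inr r) :: R) :
    (rep M l0 l S).step = rep M l0 r (update S 6 R) := by
  unfold rep
  have e : written (S 6).reverse ((S 6).length - 1) = .work (.inr r) := by
    rw [written_scan, hS]; rfl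
  have e2 : R = (S 6).tail := by rw [hS]; rfl
  rw [step_one (q' := some (r, false)) (j := 6) (a := .blank) (mv := .left)
      (by simp only [delta, h, e, lab]),
    written_pop, upd_tape, ← upd_head, e2]
  simp [Move.apply]

open Classical in
theorem rep_br {l l1 l2 : Λ} {j : Fin 7} {a : Sym (Bool ⊕ Λ)} (h : M l = .br j a l1 l2)
    (S : Fin 7 → List (Sym (Bool ⊕ Λ))) :
    (rep M l0 l S).step = rep M l0 (if (S j).headD .blank = a then l1 else l2) S := by
  unfold rep
  rw [step_one (q' := some (if (S j).headD .blank = a then l1 else l2, false)) (j := j)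
      (a := written (S j).reverse ((S j).length - 1)) (mv := .stay)
      (by simp only [delta, h, written_scan])]
  simp [Move.apply]

theorem rep_push {l n : Λ} {j : Fin 7} {a : Sym (Bool ⊕ Λ)} (h : M l = .push j a n)
    (S : Fin 7 → List (Sym (Bool ⊕ Λ))) (hS : ∀ c ∈ S j, c ≠ .blank) :
    (rep M l0 l S).step.step = rep M l0 n (update S j (a :: S j)) := by
  classical
  unfold rep
  have e : (if written (S j).reverse ((S j).length - 1) = Sym.blank then Move.stay
      else Move.right).apply ((S j).length - 1) = (S j).length := by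
    rw [written_scan]
    cases hj : S j with
    | nil => simp [Move.apply]
    | cons c w =>
      have : c ≠ .blank := hS c (by simp [hj])
      simp [Move.apply, this]
  rw [step_one (q' := some (l, true)) (j := j)
      (a := written (S j).reverse ((S j).length - 1))
      (mv := if written (S j).reverse ((S j).length - 1) = Sym.blank then .stay else .right)
      (by simp only [delta, h]), e,
    step_one (q' := some (n, false)) (j := j) (a := a) (mv := .stay) (by simp only [delta, h])]
  simp only [update_eq_self, update_self, update_idem, Move.apply]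
  rw [written_push, upd_tape, ← upd_head]
  simp

theorem rep_halt {l : Λ} (h : M l = .halt) (S : Fin 7 → List (Sym (Bool ⊕ Λ))) :
    (rep M l0 l S).Halted := by
  change delta M l0 (some (l, false)) _ = none
  simp only [delta, h]

theorem init_run (w : List (Sym (Bool ⊕ Λ))) (hw : ∀ c ∈ w, c ≠ .blank) (n : ℕ)
    (hn : n ≤ w.length) :
    Cfg.step^[n] ((mach M l0).init w) =
      cfg M l0 none (fun j => if j = 0 then written w else fun _ => .blank)
        (update (fun _ => 0) 0 n) := by
  induction n with
  | zero =>
    rw [update_eq_self_iff.2 rfl]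
    rfl
  | succ n ih =>
    rw [iterate_succ_apply', ih (by omega)]
    have hc : written w n ≠ .blank := by
      have hlt : n < w.length := by omega
      simp only [written, List.getD_eq_getElem?_getD, List.getElem?_eq_getElem hlt, Option.getD_some]
      exact hw _ (List.getElem_mem hlt)
    rw [step_one (q' := none) (j := 0) (a := written w n) (mv := .right)
      (by simp [delta, hc])]
    simp [Move.apply, update_eq_self_iff.2]

theorem init_done (w : List (Sym (Bool ⊕ Λ))) (hw : ∀ c ∈ w, c ≠ .blank) :
    Cfg.step^[w.length + 1] ((mach M l0).init w) =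
      rep M l0 l0 (fun j => if j = 0 then w.reverse else []) := by
  rw [iterate_succ_apply', init_run w hw _ le_rfl]
  have hc : written w w.length = .blank := by simp [written]
  rw [step_one (q' := some (l0, false)) (j := 0) (a := written w w.length) (mv := .left)
    (by simp [delta, hc])]
  unfold rep
  congr 1
  · funext j
    by_cases e : j = 0
    · subst e; simp
    · funext i; simp [e, written]
  · funext j
    by_cases e : j = 0
    · subst e; simp [Move.apply]
    · simp [e]

end

/-- Labels. -/
@[reducible] def Lab : Prog → Type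
  | .push _ _ => Unit
  | .pop _ => Unit
  | .seq p q => Lab p ⊕ Lab q
  | .ite _ _ p q => Option (Lab p ⊕ Lab q)
  | .loop _ _ p => Option (Lab p)
  | .call => Unit
  | .fix p => Option (Option (Lab p))

theorem labFin : (p : Prog) → Finite (Lab p)
  | .push _ _ => inferInstanceAs (Finite Unit)
  | .pop _ => inferInstanceAs (Finite Unit)
  | .seq p q =>
    haveI := labFin p; haveI := labFin q; inferInstanceAs (Finite (Lab p ⊕ Lab q))
  | .ite _ _ p q =>
    haveI := labFin p; haveI := labFin q; inferInstanceAs (Finite (Option (Lab p ⊕ Lab q)))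
  | .loop _ _ p => haveI := labFin p; inferInstanceAs (Finite (Option (Lab p)))
  | .call => inferInstanceAs (Finite Unit)
  | .fix p => haveI := labFin p; inferInstanceAs (Finite (Option (Option (Lab p))))

/-- Entry label. -/
def start : (p : Prog) → Lab p
  | .push _ _ => ()
  | .pop _ => ()
  | .seq p _ => Sum.inl (start p)
  | .ite _ _ _ _ => none
  | .loop _ _ _ => none
  | .call => ()
  | .fix _ => none

/-- The tape of a stack. -/
def idx : K → Fin 7
  | .i => 0
  | .o => 1
  | .m => 2
  | .x => 3
  | .y => 4
  | .z => 5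

/-- The translation. -/
def code {Λ : Type} : Λ → (p : Prog) → (Lab p → Λ) → Λ → Lab p → Ins Λ
  | _, .push k a, _, e, _ => .push (idx k) a.sym e
  | _, .pop k, _, e, _ => .pop (idx k) e
  | lb, .seq p q, ι, _, .inl x => code lb p (fun y => ι (.inl y)) (ι (.inr (start q))) x
  | lb, .seq _ q, ι, e, .inr x => code lb q (fun y => ι (.inr y)) e x
  | _, .ite k a p q, ι, _, none =>
    .br (idx k) a.sym (ι (some (.inl (start p)))) (ι (some (.inr (start q))))
  | lb, .ite _ _ p _, ι, e, some (.inl x) => code lb p (fun y => ι (some (.inl y))) e x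
  | lb, .ite _ _ _ q, ι, e, some (.inr x) => code lb q (fun y => ι (some (.inr y))) e x
  | _, .loop k a p, ι, e, none => .br (idx k) a.sym (ι (some (start p))) e
  | lb, .loop _ _ p, ι, _, some x => code lb p (fun y => ι (some y)) (ι none) x
  | lb, .call, _, e, _ => .push 6 (.work (.inr e)) lb
  | _, .fix p, ι, e, none => .push 6 (.work (.inr e)) (ι (some (some (start p))))
  | _, .fix _, _, _, some none => .ret
  | _, .fix p, ι, _, some (some x) =>
    code (ι (some (some (start p)))) p (fun y => ι (some (some y))) (ι (some none)) x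

/-- The seven stacks. -/
def mk {Λ : Type} (s : St) (R : List Λ) : Fin 7 → List (Sym (Bool ⊕ Λ)) :=
  ![(s .i).map Tk.sym, (s .o).map Tk.sym, (s .m).map Tk.sym, (s .x).map Tk.sym, (s .y).map Tk.sym,
    (s .z).map Tk.sym, R.map fun r => .work (.inr r)]

section
variable {Λ : Type}

theorem mk_idx (s : St) (R : List Λ) (k : K) : mk s R (idx k) = (s k).map Tk.sym := by
  cases k <;> rfl

theorem mk_six (s : St) (R : List Λ) : mk s R 6 = R.map fun r => .work (.inr r) := rfl

theorem mk_upd (s : St) (R : List Λ) (k : K) (l : List Tk) :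
    update (mk s R) (idx k) (l.map Tk.sym) = mk (update s k l) R := by
  funext j
  fin_cases j <;> cases k <;> simp [mk, idx]

theorem mk_upd_six (s : St) (R R' : List Λ) :
    update (mk s R) 6 (R'.map fun r => .work (.inr r)) = mk s R' := by
  funext j
  fin_cases j <;> simp [mk]

theorem sym_ne (a : Tk) : (a.sym : Sym (Bool ⊕ Λ)) ≠ .blank := by
  cases a <;> simp [Tk.sym]

theorem sym_inj {a c : Tk} (h : (a.sym : Sym (Bool ⊕ Λ)) = c.sym) : a = c := by
  cases a <;> cases c <;> simp_all [Tk.sym]

theorem head_iff (l : List Tk) (a : Tk) :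
    (l.map (Tk.sym : Tk → Sym (Bool ⊕ Λ))).headD .blank = a.sym ↔ l.head? = some a := by
  cases l with
  | nil => simpa using (sym_ne a).symm
  | cons c l =>
    simp only [List.map_cons, List.headD_cons, List.head?_cons, Option.some.injEq]
    exact ⟨sym_inj, fun h => h ▸ rfl⟩

/-- The code of `p` is part of the flat program `M`. -/
def Emb (M : Λ → Ins Λ) (lb : Λ) (p : Prog) (ι : Lab p → Λ) (e : Λ) : Prop :=
  ∀ x, M (ι x) = code lb p ι e x

/-- The label `lb` is the entry of the code of the body `b`, which ends with a return. -/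
def Body (M : Λ → Ins Λ) (b : Prog) (lb : Λ) : Prop :=
  ∃ (ι : Lab b → Λ) (r : Λ), lb = ι (start b) ∧ Emb M lb b ι r ∧ M r = .ret

variable [Finite Λ] {M : Λ → Ins Λ} {l0 : Λ}

theorem sim_call {l g r e : Λ} {s s' : St} {R : List Λ} {n : ℕ}
    (h1 : M l = .push 6 (.work (.inr e)) g) (h2 : M r = .ret)
    (h : Cfg.step^[n] (rep M l0 g (mk s (e :: R))) = rep M l0 r (mk s' (e :: R))) :
    Cfg.step^[n + 3] (rep M l0 l (mk s R)) = rep M l0 e (mk s' R) := by
  have e1 := rep_push (l0 := l0) h1 (mk s R) (by simp [mk_six])
  have e2 := rep_ret (l0 := l0) h2 (mk s' (e :: R)) (r := e) (R := R.map fun r => .work (.inr r)) rfl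
  have e3 := mk_upd_six s R (e :: R)
  rw [mk_upd_six] at e2
  rw [mk_six, ← List.map_cons (f := fun r : Λ => (Sym.work (.inr r) : Sym (Bool ⊕ Λ))), e3] at e1
  rw [show n + 3 = n + 1 + 1 + 1 by rfl, iterate_succ_apply', iterate_succ_apply,
    iterate_succ_apply, e1, h, e2]

theorem sim {b p : Prog} {s s' : St} {t : ℕ} (h : Run b p s s' t) :
    ∀ (lb : Λ) (ι : Lab p → Λ) (e : Λ) (R : List Λ), Body M b lb → Emb M lb p ι e →
      ∃ n ≤ 3 * t, Cfg.step^[n] (rep M l0 (ι (start p)) (mk s R)) = rep M l0 e (mk s' R) := by
  induction h with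
  | push b k a s =>
    intro lb ι e R _ he
    refine ⟨2, by omega, ?_⟩
    have := rep_push (l0 := l0) (he ()) (mk s R) (by
      rw [mk_idx]
      intro c hc
      obtain ⟨a, _, rfl⟩ := List.mem_map.1 hc
      exact sym_ne a)
    rw [mk_idx, ← List.map_cons, mk_upd] at this
    exact this
  | pop b k s =>
    intro lb ι e R _ he
    refine ⟨1, by omega, ?_⟩
    have := rep_pop (l0 := l0) (he ()) (mk s R)
    rw [mk_idx, ← List.map_tail, mk_upd] at this
    exact this
  | @seq b p q s s' s'' t t' _ _ ih1 ih2 =>
    intro lb ι e R hb he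
    obtain ⟨n1, h1, e1⟩ := ih1 lb (fun y => ι (.inl y)) (ι (.inr (start q))) R hb
      (fun x => he (.inl x))
    obtain ⟨n2, h2, e2⟩ := ih2 lb (fun y => ι (.inr y)) e R hb (fun x => he (.inr x))
    refine ⟨n2 + n1, by omega, ?_⟩
    rw [iterate_add_apply]
    exact (congrArg _ e1).trans e2
  | @iteT b p q k a s s' t hk _ ih =>
    intro lb ι e R hb he
    obtain ⟨n1, h1, e1⟩ := ih lb (fun y => ι (some (.inl y))) e R hb (fun x => he (some (.inl x)))
    refine ⟨n1 + 1, by omega, ?_⟩
    have := rep_br (l0 := l0) (he none) (mk s R)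
    rw [mk_idx, if_pos ((head_iff _ _).2 hk)] at this
    rw [iterate_succ_apply]
    exact (congrArg _ this).trans e1
  | @iteF b p q k a s s' t hk _ ih =>
    intro lb ι e R hb he
    obtain ⟨n1, h1, e1⟩ := ih lb (fun y => ι (some (.inr y))) e R hb (fun x => he (some (.inr x)))
    refine ⟨n1 + 1, by omega, ?_⟩
    have := rep_br (l0 := l0) (he none) (mk s R)
    rw [mk_idx, if_neg (fun h => hk ((head_iff _ _).1 h))] at this
    rw [iterate_succ_apply]
    exact (congrArg _ this).trans e1
  | @loopF b p k a s hk =>
    intro lb ι e R hb he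
    refine ⟨1, by omega, ?_⟩
    have := rep_br (l0 := l0) (he none) (mk s R)
    rw [mk_idx, if_neg (fun h => hk ((head_iff _ _).1 h))] at this
    exact this
  | @loopT b p k a s s' s'' t t' hk _ _ ih1 ih2 =>
    intro lb ι e R hb he
    obtain ⟨n1, h1, e1⟩ := ih1 lb (fun y => ι (some y)) (ι none) R hb (fun x => he (some x))
    obtain ⟨n2, h2, e2⟩ := ih2 lb ι e R hb he
    refine ⟨n2 + n1 + 1, by omega, ?_⟩
    have := rep_br (l0 := l0) (he none) (mk s R)
    rw [mk_idx, if_pos ((head_iff _ _).2 hk)] at this
    rw [iterate_succ_apply, iterate_add_apply]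
    exact (congrArg _ ((congrArg _ this).trans e1)).trans e2
  | @call b s s' t _ ih =>
    intro lb ι e R hb he
    obtain ⟨ι', r, h1, h2, h3⟩ := hb
    obtain ⟨n1, h4, e1⟩ := ih lb ι' r (e :: R) ⟨ι', r, h1, h2, h3⟩ h2
    rw [← h1] at e1
    exact ⟨n1 + 3, by omega, sim_call (he ()) h3 e1⟩
  | @fix b p s s' t _ ih =>
    intro lb ι e R _ he
    have h2 : Emb M (ι (some (some (start p)))) p (fun y => ι (some (some y))) (ι (some none)) :=
      fun x => he (some (some x))
    obtain ⟨n1, h4, e1⟩ := ih (ι (some (some (start p)))) (fun y => ι (some (some y)))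
      (ι (some none)) (e :: R) ⟨_, _, rfl, h2, he (some none)⟩ h2
    exact ⟨n1 + 3, by omega, sim_call (he none) (he (some none)) e1⟩
  | weaken _ ht ih =>
    intro lb ι e R hb he
    obtain ⟨n, h1, e1⟩ := ih lb ι e R hb he
    exact ⟨n, by omega, e1⟩

end

/-- The flat program of `p`. -/
def top (p : Prog) : Option (Lab (.fix p)) → Ins (Option (Lab (.fix p)))
  | none => .halt
  | some x => code none (.fix p) some none x

theorem top_emb (p : Prog) (lb : Option (Lab (.fix p))) : Emb (top p) lb (.fix p) some none := by
  rintro (_ | _ | x) <;> rfl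

theorem top_body (p : Prog) : Body (top p) p (some (some (some (start p)))) :=
  ⟨fun y => some (some (some y)), some (some none), rfl, fun _ => rfl, rfl⟩

/-- One round of the input loop. -/
def rdBody : Prog :=
  .ite .i (.bit true) (.seq (.pop .i) (pushW (enc true)))
    (.ite .i (.bit false) (.seq (.pop .i) (pushW (enc false))) (.pop .z))

theorem run_rd (b : Prog) (l : List Bool) (r : List Tk) (hr : ∀ c, r.head? ≠ some (.bit c))
    (o x y : List Tk) : ∀ m : List Tk,
    Run b (.loop .z .op rdBody) (st (l.map Tk.bit ++ r) o m x y [.op])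
      (st r o (l.reverse.flatMap enc ++ m) x y []) (9 * l.length + 5) := by
  induction l with
  | nil =>
    intro m
    have e1 : Run b rdBody (st r o m x y [.op]) (st r o m x y []) 3 :=
      (Run.iteF (by simpa using hr true) (Run.iteF (by simpa using hr false)
        (Run.pop _ _ _))).congr (by simp) le_rfl
    exact (Run.loopT (by simp) e1 (Run.loopF (by simp))).congr (by simp) (by simp)
  | cons c l ih =>
    intro m
    have e1 : Run b rdBody (st (.bit c :: (l.map Tk.bit ++ r)) o m x y [.op])
        (st (l.map Tk.bit ++ r) o (enc c ++ m) x y [.op]) 8 := by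
      have e2 := Run.pop b .i (st (.bit c :: (l.map Tk.bit ++ r)) o m x y [.op])
      simp only [st_i, List.tail_cons, up_i] at e2
      have e3 := e2.seq (run_pushW b (enc c) (l.map Tk.bit ++ r) o m x y [.op])
      cases c
      · exact (Run.iteF (by simp) (Run.iteT (by simp) e3)).weaken (by simp [enc_false])
      · exact (Run.iteT (by simp) e3).weaken (by simp [enc_true])
    refine (Run.loopT (by simp) e1 (ih (enc c ++ m))).congr (by simp) ?_
    simp only [List.length_cons]
    omega

/-- Read a string of bits from the input stack. -/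
def rdList : Prog :=
  .seq (.push .m .cl) (.seq (.push .z .op) (.seq (.loop .z .op rdBody) (.push .m .op)))

theorem run_rdList (b : Prog) (l : List Bool) (r : List Tk) (hr : ∀ c, r.head? ≠ some (.bit c))
    (o m x y : List Tk) :
    Run b rdList (st ((l.map Tk.bit).reverse ++ r) o m x y [])
      (st r o (enc l ++ m) x y []) (9 * l.length + 8) := by
  have e1 := Run.push b .m .cl (st ((l.map Tk.bit).reverse ++ r) o m x y [])
  have e2 := Run.push b .z .op (st ((l.map Tk.bit).reverse ++ r) o (.cl :: m) x y [])
  have e3 := run_rd b l.reverse r hr o x y (.cl :: m)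
  simp only [st_m, up_m, st_z, up_z] at e1 e2
  rw [List.map_reverse] at e3
  refine (e1.seq (e2.seq (e3.seq (Run.push b .m .op _)))).congr (by simp [enc_list]) ?_
  simp only [List.length_reverse]
  omega

/-- One round of the output loop. -/
def wrBody : Prog :=
  .seq (.pop .m) (.ite .m .op (.seq (.pop .m) (.seq (.pop .m) (.seq (.pop .m)
    (.push .o (.bit true))))) (.seq (.pop .m) (.push .o (.bit false))))

theorem run_wr (b : Prog) (l : List Bool) (i x y z : List Tk) : ∀ o : List Tk,
    Run b (.loop .m .op wrBody) (st i o (l.flatMap enc ++ [.cl]) x y z)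
      (st i ((l.map Tk.bit).reverse ++ o) [.cl] x y z) (7 * l.length + 1) := by
  induction l with
  | nil => intro o; exact (Run.loopF (by simp)).congr (by simp) (by simp)
  | cons c l ih =>
    intro o
    have e1 : Run b wrBody (st i o (enc c ++ (l.flatMap enc ++ [.cl])) x y z)
        (st i (.bit c :: o) (l.flatMap enc ++ [.cl]) x y z) 6 := by
      cases c
      · exact ((Run.pop _ _ _).seq (Run.iteF (by simp [enc_false]) ((Run.pop _ _ _).seq
          (Run.push _ _ _ _)))).congr (by simp [enc_false]) (by omega)
      · exact ((Run.pop _ _ _).seq (Run.iteT (by simp [enc_true]) ((Run.pop _ _ _).seq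
          ((Run.pop _ _ _).seq ((Run.pop _ _ _).seq (Run.push _ _ _ _)))))).congr
          (by simp [enc_true]) (by omega)
    have e2 := Run.loopT (k := .m) (a := .op) (by cases c <;> simp [enc_true, enc_false]) e1
      (ih (.bit c :: o))
    rw [List.flatMap_cons, List.append_assoc]
    refine e2.congr (by simp) ?_
    simp only [List.length_cons]
    omega

end Compile

open Compile in
theorem exists_TM (p : Prog) : ∃ (A : TM) (c : ℕ), ∀ (x y z : List Bool) (s' : St) (t : ℕ),
    Run p p (st (x.map Tk.bit ++ Tk.sep :: y.map Tk.bit).reverse [] [] [] [] []) s' t →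
    s' .o = (z.map Tk.bit).reverse →
    ∃ t' ≤ c * (t + x.length + y.length + 1), (A.after (inputWord x y) t').Halted ∧
      (A.after (inputWord x y) t').tape A.out = written (z.map Sym.bit) := by
  haveI := labFin (.fix p)
  refine ⟨mach (top p) (some (start (.fix p))), 5, fun x y z s' t h ho => ?_⟩
  obtain ⟨n, hn, e⟩ := sim (M := top p) (l0 := some (start (.fix p))) (Run.fix (b := p) h) _ some none
    [] (top_body p) (top_emb p _)
  have hw : ∀ c ∈ (inputWord x y : List (Sym (Bool ⊕ Option (Lab (.fix p))))), c ≠ .blank := by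
    intro c hc
    simp only [inputWord, List.mem_append, List.mem_map, List.mem_cons] at hc
    rcases hc with ⟨_, _, rfl⟩ | rfl | ⟨_, _, rfl⟩ <;> simp
  have e0 := init_done (M := top p) (l0 := some (start (.fix p))) (inputWord x y) hw
  have e1 : (fun j : Fin 7 => if j = 0 then (inputWord x y).reverse else [])
      = mk (Λ := Option (Lab (.fix p)))
        (st (x.map Tk.bit ++ Tk.sep :: y.map Tk.bit).reverse [] [] [] [] []) [] := by
    funext j
    fin_cases j <;> simp [mk, inputWord, Tk.sym, Function.comp_def]
  rw [e1] at e0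
  have hl : (inputWord x y : List (Sym (Bool ⊕ Option (Lab (.fix p))))).length
      = x.length + y.length + 1 := by
    simp [inputWord]; omega
  have e2 : (mach (top p) (some (start (.fix p)))).after (inputWord x y)
      (n + (x.length + y.length + 1 + 1)) = rep (top p) (some (start (.fix p))) none (mk s' []) := by
    rw [hl] at e0
    unfold TM.after
    rw [iterate_add_apply]
    exact (congrArg _ e0).trans e
  refine ⟨n + (x.length + y.length + 1 + 1), by omega, ?_, ?_⟩
  · rw [e2]; exact rep_halt rfl _
  · rw [e2]
    change written ((s' .o).map Tk.sym).reverse = _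
    rw [ho, List.map_reverse, List.reverse_reverse, List.map_map]
    rfl

open Compile in
theorem Tm.machine {𝒯 : Cls (List Bool × List Bool)} {f : List Bool × List Bool → List Bool}
    (h : Tm 𝒯 f) : ∃ (A : TM) (T : List Bool × List Bool → ℕ) (c : ℕ), 𝒯.mem T ∧
      ∀ x y, 𝒯.dom (x, y) → ∃ t ≤ c * (T (x, y) + x.length + y.length + 1),
        (A.after (inputWord x y) t).Halted ∧
        (A.after (inputWord x y) t).tape A.out = written ((f (x, y)).map Sym.bit) := by
  obtain ⟨T, p, hT, hp⟩ := h
  obtain ⟨A, c, hA⟩ := exists_TM (.seq rdList (.seq (.pop .i) (.seq rdList (.seq p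
    (.seq (.pop .m) (.loop .m .op wrBody))))))
  refine ⟨A, T, c * 40, hT, fun x y hxy => ?_⟩
  set P : Prog := .seq rdList (.seq (.pop .i) (.seq rdList (.seq p
    (.seq (.pop .m) (.loop .m .op wrBody))))) with hP
  have e1 := run_rdList P y (.sep :: (x.map Tk.bit).reverse) (by simp) [] [] [] []
  have e2 := Run.pop P .i (st (.sep :: (x.map Tk.bit).reverse) [] (enc y ++ []) [] [] [])
  have e3 := run_rdList P x [] (by simp) [] (enc y ++ []) [] []
  have e4 := hp P (x, y) hxy [] [] [] [] [] []
  have e5 := Run.pop P .m (st [] [] (enc (f (x, y)) ++ []) [] [] [])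
  have e6 := run_wr P (f (x, y)) [] [] [] [] []
  simp only [st_i, List.tail_cons, up_i, List.append_nil] at e1 e2 e3 e4 e5 e6
  rw [enc_pair] at e4
  have e5' : Run P (.pop .m) (st [] [] (enc (f (x, y))) [] [] [])
      (st [] [] ((f (x, y)).flatMap enc ++ [.cl]) [] [] []) 1 := e5.congr (by simp [enc_list]) le_rfl
  have e7 := e1.seq (e2.seq (e3.seq (e4.seq (e5'.seq e6))))
  obtain ⟨t', ht', h1⟩ := hA x y (f (x, y)) _ _ (by simpa using e7) rfl
  refine ⟨t', ht'.trans ?_, h1⟩
  rw [mul_assoc]
  apply Nat.mul_le_mul_left
  have k1 := (hp P (x, y) hxy).len_le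
  have k2 := length_le_sz (f (x, y))
  have k3 := sz_le_of_forall x (B := 4) (fun a _ => sz_bool a)
  have k4 := sz_le_of_forall y (B := 4) (fun a _ => sz_bool a)
  have k5 := sz_pair x y
  unfold sz at k2 k3 k4 k5
  omega

end Vale.Agent.P338
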