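import Vale.Agent.P338.Gate

/-! The Fourier transform modulo a product of coprime numbers, one factor at a time. -/

namespace Vale.Agent.P338

open Finset

/-- The number that is one modulo factor `f` and zero modulo the others. -/
def idem (qs : List ℕ) (f : ℕ) : ℕ :=
  qs.prod / qs.getD f 1 * ∑ t ∈ range (qs.getD f 1),
    if qs.prod / qs.getD f 1 * t % qs.getD f 1 = 1 % qs.getD f 1 then t else 0

/-- The index that agrees with `r` modulo factor `f` and with `ξ` modulo the others. -/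
def crtj (qs : List ℕ) (f ξ r : ℕ) : ℕ :=
  (ξ + (qs.getD f 1 + r - ξ % qs.getD f 1) * idem qs f) % qs.prod

/-- The transform along factor `f`. -/
noncomputable def dft1 (qs : List ℕ) (fl : Bool) (f : ℕ) (v : ℕ → ℂ) : ℕ → ℂ := fun ξ =>
  (if fl then 1 / (qs.getD f 1 : ℂ) else 1) *
    ∑ r ∈ range (qs.getD f 1), rt ((ξ % qs.getD f 1 * r : ℕ) : ℤ) (qs.getD f 1) * v (crtj qs f ξ r)

/-- The character. -/
noncomputable def psi (qs : List ℕ) (z : ℤ) : ℂ := (qs.map fun q => rt z q).prod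

/-- The whole transform. -/
noncomputable def dft (qs : List ℕ) (fl : Bool) (v : ℕ → ℂ) : ℕ → ℂ := fun ξ =>
  (if fl then 1 / (qs.prod : ℂ) else 1) * ∑ j ∈ range qs.prod, psi qs ((ξ * j : ℕ) : ℤ) * v j

namespace CrtAux

theorem rt_add (a b : ℤ) (N : ℕ) : rt (a + b) N = rt a N * rt b N := by
  unfold rt
  rw [← Complex.exp_add]
  congr 1
  push_cast
  ring

theorem rt_zero (N : ℕ) : rt 0 N = 1 := by
  simp [rt]

theorem rt_mul_self (a : ℤ) {N : ℕ} (hN : 0 < N) : rt (N * a) N = 1 := by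
  unfold rt
  have h : (N : ℂ) ≠ 0 := by exact_mod_cast hN.ne'
  have : 2 * Real.pi * Complex.I * ((N * a : ℤ) : ℂ) / (N : ℂ) =
      a * (2 * Real.pi * Complex.I) := by
    push_cast
    field_simp
  rw [this]
  exact Complex.exp_int_mul_two_pi_mul_I a

theorem rt_one (a : ℤ) : rt a 1 = 1 := by
  simpa using rt_mul_self a (N := 1) one_pos

theorem rt_congr {a b : ℤ} {N : ℕ} (hN : 0 < N) (h : a ≡ b [ZMOD N]) : rt a N = rt b N := by
  obtain ⟨c, hc⟩ := h.dvd
  have : b = a + N * c := by linear_combination hc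
  rw [this, rt_add, rt_mul_self c hN, mul_one]

theorem rt_congr_nat {a b : ℕ} {N : ℕ} (hN : 0 < N) (h : a ≡ b [MOD N]) :
    rt (a : ℤ) N = rt (b : ℤ) N :=
  rt_congr hN (Int.natCast_modEq_iff.2 h)

theorem rt_conj (a : ℤ) (N : ℕ) : (starRingEnd ℂ) (rt a N) = rt (-a) N := by
  unfold rt
  rw [← Complex.exp_conj]
  congr 1
  simp only [map_div₀, map_mul, Complex.conj_ofReal, Complex.conj_I, map_natCast, map_intCast,
    map_ofNat]
  push_cast
  ring

theorem dvd_of_rt_eq_one {a : ℤ} {N : ℕ} (hN : 0 < N) (h : rt a N = 1) : (N : ℤ) ∣ a := by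
  unfold rt at h
  obtain ⟨n, hn⟩ := Complex.exp_eq_one_iff.1 h
  have hN' : (N : ℂ) ≠ 0 := by exact_mod_cast hN.ne'
  have hpi : (2 * Real.pi * Complex.I : ℂ) ≠ 0 := Complex.two_pi_I_ne_zero
  have h2 : (a : ℂ) = N * n := by
    have h3 : (2 * Real.pi * Complex.I : ℂ) * a = (2 * Real.pi * Complex.I : ℂ) * (N * n) := by
      have := (div_eq_iff hN').1 hn
      linear_combination this
    exact mul_left_cancel₀ hpi h3
  exact ⟨n, by exact_mod_cast h2⟩

theorem map_prod_eq {M : Type} [CommMonoid M] (g : ℕ → M) (h1 : g 1 = 1) :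
    ∀ (qs : List ℕ) (n : ℕ), qs.length ≤ n →
      (qs.map g).prod = ∏ f ∈ range n, g (qs.getD f 1)
  | [], n, _ => by simp [h1]
  | q :: qs, 0, h => by simp at h
  | q :: qs, n + 1, h => by
    rw [Finset.prod_range_succ', List.map_cons, List.prod_cons,
      map_prod_eq g h1 qs n (by simpa using h), mul_comm]
    simp

theorem prod_eq (qs : List ℕ) {n : ℕ} (h : qs.length ≤ n) :
    qs.prod = ∏ f ∈ range n, qs.getD f 1 := by
  simpa using map_prod_eq (fun x : ℕ => x) rfl qs n h

theorem psi_eq (qs : List ℕ) {n : ℕ} (h : qs.length ≤ n) (z : ℤ) :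
    psi qs z = ∏ f ∈ range n, rt z (qs.getD f 1) :=
  map_prod_eq (fun q => rt z q) (rt_one z) qs n h

theorem getD_pos {qs : List ℕ} (hp : ∀ q ∈ qs, 0 < q) (f : ℕ) : 0 < qs.getD f 1 := by
  by_cases h : f < qs.length
  · rw [List.getD_eq_getElem _ _ h]
    exact hp _ (List.getElem_mem h)
  · rw [List.getD_eq_default _ _ (by omega)]
    exact one_pos

theorem getD_coprime {qs : List ℕ} (hc : qs.Pairwise Nat.Coprime) {f g : ℕ} (h : f ≠ g) :
    Nat.Coprime (qs.getD f 1) (qs.getD g 1) := by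
  by_cases hf : f < qs.length
  · by_cases hg : g < qs.length
    · rw [List.getD_eq_getElem _ _ hf, List.getD_eq_getElem _ _ hg]
      rcases lt_or_gt_of_ne h with h1 | h1
      · exact List.pairwise_iff_getElem.1 hc f g hf hg h1
      · exact (List.pairwise_iff_getElem.1 hc g f hg hf h1).symm
    · rw [List.getD_eq_default (n := g) _ _ (by omega)]
      exact Nat.coprime_one_right _
  · rw [List.getD_eq_default (n := f) _ _ (by omega)]
    exact Nat.coprime_one_left _

theorem prod_pos {qs : List ℕ} (hp : ∀ q ∈ qs, 0 < q) : 0 < qs.prod :=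
  List.prod_pos hp

/-- The cofactor of factor `f`. -/
theorem div_eq {qs : List ℕ} (hp : ∀ q ∈ qs, 0 < q) {f n : ℕ} (h : qs.length ≤ n) (hf : f < n) :
    qs.prod / qs.getD f 1 = ∏ g ∈ (range n).erase f, qs.getD g 1 := by
  rw [prod_eq qs h, ← Finset.mul_prod_erase _ _ (Finset.mem_range.2 hf),
    Nat.mul_div_cancel_left _ (getD_pos hp f)]

theorem getD_dvd (qs : List ℕ) (f : ℕ) : qs.getD f 1 ∣ qs.prod := by
  rw [prod_eq qs (n := qs.length + f + 1) (by omega)]
  exact Finset.dvd_prod_of_mem (fun f => qs.getD f 1) (Finset.mem_range.2 (by omega))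

theorem div_coprime {qs : List ℕ} (hc : qs.Pairwise Nat.Coprime) (hp : ∀ q ∈ qs, 0 < q) (f : ℕ) :
    Nat.Coprime (qs.prod / qs.getD f 1) (qs.getD f 1) := by
  rw [div_eq hp (n := qs.length + f + 1) (by omega) (by omega)]
  refine Nat.Coprime.prod_left fun g hg => getD_coprime hc (Finset.ne_of_mem_erase hg)

theorem dvd_div {qs : List ℕ} (hp : ∀ q ∈ qs, 0 < q) {f g : ℕ} (h : f ≠ g) :
    qs.getD g 1 ∣ qs.prod / qs.getD f 1 := by
  rw [div_eq hp (n := qs.length + f + g + 1) (by omega) (by omega)]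
  exact Finset.dvd_prod_of_mem (fun f => qs.getD f 1)
    (Finset.mem_erase.2 ⟨h.symm, Finset.mem_range.2 (by omega)⟩)

/-- The inverse picked out by the sum in `idem`. -/
theorem exists_inv {a q : ℕ} (hq : 0 < q) (h : Nat.Coprime a q) :
    ∃ t, t < q ∧ a * t ≡ 1 [MOD q] ∧
      (∑ s ∈ range q, if a * s % q = 1 % q then s else 0) = t := by
  obtain ⟨t0, ht0⟩ : ∃ t, a * t ≡ 1 [MOD q] := by
    obtain ⟨b, hb⟩ := Nat.exists_mul_mod_eq_of_coprime 1 h hq.ne'
    exact ⟨b, hb.2⟩
  have ht : a * (t0 % q) ≡ 1 [MOD q] := ((Nat.mod_modEq t0 q).mul_left a).trans ht0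
  refine ⟨t0 % q, Nat.mod_lt _ hq, ht, ?_⟩
  rw [Finset.sum_eq_single (t0 % q)]
  · exact if_pos ht
  · intro s hs hne
    refine if_neg fun h1 => hne ?_
    have h2 : a * s ≡ a * (t0 % q) [MOD q] := Nat.ModEq.trans h1 ht.symm
    have h3 : s ≡ t0 % q [MOD q] := Nat.ModEq.cancel_left_of_coprime h.symm h2
    exact Nat.ModEq.eq_of_lt_of_lt h3 (Finset.mem_range.1 hs) (Nat.mod_lt _ hq)
  · intro h1
    exact absurd (Finset.mem_range.2 (Nat.mod_lt _ hq)) h1

end CrtAux

open CrtAux

variable {qs : List ℕ} (hc : qs.Pairwise Nat.Coprime) (hp : ∀ q ∈ qs, 0 < q)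
include hc hp

theorem idem_self (f : ℕ) : idem qs f ≡ 1 [MOD qs.getD f 1] := by
  obtain ⟨t, -, ht, hs⟩ := exists_inv (getD_pos hp f) (div_coprime hc hp f)
  unfold idem
  rw [hs]
  exact ht

theorem idem_other {f g : ℕ} (h : f ≠ g) : idem qs f ≡ 0 [MOD qs.getD g 1] := by
  have _ := hc
  exact (Nat.modEq_zero_iff_dvd).2 (Dvd.dvd.mul_right (dvd_div hp h) _)

theorem idem_le (f : ℕ) : idem qs f ≤ qs.prod := by
  obtain ⟨t, ht, -, hs⟩ := exists_inv (getD_pos hp f) (div_coprime hc hp f)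
  unfold idem
  rw [hs]
  exact (Nat.mul_le_mul_left _ ht.le).trans (Nat.div_mul_le_self _ _)

theorem crt_modEq {x y : ℕ} (h : ∀ f, x ≡ y [MOD qs.getD f 1]) : x ≡ y [MOD qs.prod] := by
  have _ := hp
  rw [Nat.modEq_list_prod_iff hc]
  intro i
  have := h i
  rwa [List.getD_eq_getElem _ _ i.2] at this

theorem crt_unique {x y : ℕ} (hx : x < qs.prod) (hy : y < qs.prod)
    (h : ∀ f, x ≡ y [MOD qs.getD f 1]) : x = y :=
  Nat.ModEq.eq_of_lt_of_lt (crt_modEq hc hp h) hx hy

theorem crtj_spec (f ξ : ℕ) {r : ℕ} (hr : r < qs.getD f 1) : crtj qs f ξ r < qs.prod ∧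
    crtj qs f ξ r % qs.getD f 1 = r ∧ ∀ g, g ≠ f → crtj qs f ξ r ≡ ξ [MOD qs.getD g 1] := by
  have hm : ∀ g, crtj qs f ξ r ≡ ξ + (qs.getD f 1 + r - ξ % qs.getD f 1) * idem qs f
      [MOD qs.getD g 1] := fun g => (Nat.mod_modEq _ _).of_dvd (getD_dvd qs g)
  refine ⟨Nat.mod_lt _ (prod_pos hp), ?_, fun g hg => ?_⟩
  · have h1 := (hm f).trans ((Nat.ModEq.refl ξ).add
      ((Nat.ModEq.refl _).mul (idem_self hc hp f)))
    have hlt := Nat.mod_lt ξ (getD_pos hp f)
    have h2 : ξ + (qs.getD f 1 + r - ξ % qs.getD f 1) * 1 =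
        r + qs.getD f 1 * (ξ / qs.getD f 1 + 1) := by
      have := Nat.mod_add_div ξ (qs.getD f 1)
      rw [mul_add]
      omega
    rw [h2] at h1
    have h3 : crtj qs f ξ r % qs.getD f 1 =
        (r + qs.getD f 1 * (ξ / qs.getD f 1 + 1)) % qs.getD f 1 := h1
    rw [h3, Nat.add_mul_mod_self_left, Nat.mod_eq_of_lt hr]
  · have h1 := (hm g).trans ((Nat.ModEq.refl ξ).add
      ((Nat.ModEq.refl _).mul (idem_other hc hp hg.symm)))
    simpa using h1

open Classical in
theorem dft1_inv (fl : Bool) (v : ℕ → ℂ) (n : ℕ) : ∀ ξ, ξ < qs.prod →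
    (List.range n).foldl (fun v f => dft1 qs fl f v) v ξ =
      (if fl then 1 / ((∏ f ∈ range n, qs.getD f 1 : ℕ) : ℂ) else 1) *
        ∑ j ∈ range qs.prod, if (∀ g, n ≤ g → j ≡ ξ [MOD qs.getD g 1]) then
          (∏ f ∈ range n, rt ((ξ * j : ℕ) : ℤ) (qs.getD f 1)) * v j else 0 := by
  induction n with
  | zero =>
    intro ξ hξ
    rw [Finset.sum_eq_single ξ]
    · rw [if_pos (fun g _ => Nat.ModEq.refl ξ)]
      simp
    · intro j hj hne
      exact if_neg fun h => hne (crt_unique hc hp (Finset.mem_range.1 hj) hξ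
        fun g => h g (Nat.zero_le g))
    · intro h
      exact absurd (Finset.mem_range.2 hξ) h
  | succ n ih =>
    intro ξ hξ
    rw [List.range_succ, List.foldl_append, List.foldl_cons, List.foldl_nil]
    have hq := getD_pos hp n
    have key : ∀ r ∈ range (qs.getD n 1),
        rt ((ξ % qs.getD n 1 * r : ℕ) : ℤ) (qs.getD n 1) *
          (List.range n).foldl (fun v f => dft1 qs fl f v) v (crtj qs n ξ r) =
        (if fl then 1 / ((∏ f ∈ range n, qs.getD f 1 : ℕ) : ℂ) else 1) *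
          ∑ j ∈ range qs.prod, if j % qs.getD n 1 = r then
            (if (∀ g, n + 1 ≤ g → j ≡ ξ [MOD qs.getD g 1]) then
              (∏ f ∈ range (n + 1), rt ((ξ * j : ℕ) : ℤ) (qs.getD f 1)) * v j else 0) else 0 := by
      intro r hr
      obtain ⟨h1, h2, h3⟩ := crtj_spec hc hp n ξ (Finset.mem_range.1 hr)
      rw [ih _ h1, mul_left_comm, Finset.mul_sum]
      congr 1
      refine Finset.sum_congr rfl fun j _ => ?_
      by_cases ha : j % qs.getD n 1 = r
      · rw [if_pos ha]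
        by_cases hb : ∀ g, n + 1 ≤ g → j ≡ ξ [MOD qs.getD g 1]
        · rw [if_pos hb, if_pos, Finset.prod_range_succ]
          · have e1 : rt ((ξ % qs.getD n 1 * r : ℕ) : ℤ) (qs.getD n 1) =
                rt ((ξ * j : ℕ) : ℤ) (qs.getD n 1) := by
              refine rt_congr_nat hq ((Nat.mod_modEq _ _).mul ?_)
              rw [← ha]
              exact Nat.mod_modEq _ _
            have e2 : ∏ f ∈ range n, rt ((crtj qs n ξ r * j : ℕ) : ℤ) (qs.getD f 1) =
                ∏ f ∈ range n, rt ((ξ * j : ℕ) : ℤ) (qs.getD f 1) := by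
              refine Finset.prod_congr rfl fun f hf => ?_
              exact rt_congr_nat (getD_pos hp f)
                ((h3 f (Finset.mem_range.1 hf).ne).mul_right j)
            rw [e1, e2]
            ring
          · intro g hg
            rcases hg.eq_or_lt with rfl | hg'
            · exact ha.trans h2.symm
            · exact (hb g hg').trans (h3 g hg'.ne').symm
        · rw [if_neg hb, if_neg, mul_zero]
          intro h
          exact hb fun g hg => (h g (by omega)).trans (h3 g (by omega))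
      · rw [if_neg ha, if_neg, mul_zero]
        intro h
        exact ha (Eq.trans (h n le_rfl) h2)
    show (if fl then 1 / (qs.getD n 1 : ℂ) else 1) * ∑ r ∈ range (qs.getD n 1),
      rt ((ξ % qs.getD n 1 * r : ℕ) : ℤ) (qs.getD n 1) *
        (List.range n).foldl (fun v f => dft1 qs fl f v) v (crtj qs n ξ r) = _
    rw [Finset.sum_congr rfl key, ← Finset.mul_sum, Finset.sum_comm, ← mul_assoc]
    congr 1
    · cases fl
      · simp
      · simp only [if_true, Finset.prod_range_succ]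
        push_cast
        rw [one_div_mul_one_div, mul_comm]
    · refine Finset.sum_congr rfl fun j _ => ?_
      rw [Finset.sum_ite_eq, if_pos (Finset.mem_range.2 (Nat.mod_lt _ hq))]

theorem dft1_all {n : ℕ} (hn : qs.length ≤ n) (fl : Bool) (v : ℕ → ℂ) {ξ : ℕ} (hξ : ξ < qs.prod) :
    (List.range n).foldl (fun v f => dft1 qs fl f v) v ξ = dft qs fl v ξ := by
  rw [dft1_inv hc hp fl v n ξ hξ, ← prod_eq qs hn]
  unfold dft
  congr 1
  refine Finset.sum_congr rfl fun j _ => ?_
  rw [if_pos, psi_eq qs hn]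
  intro g hg
  rw [List.getD_eq_default _ _ (by omega)]
  exact Nat.modEq_one

omit hc hp in
theorem psi_add (a b : ℤ) : psi qs (a + b) = psi qs a * psi qs b := by
  simp only [psi_eq qs le_rfl, rt_add, Finset.prod_mul_distrib]

omit hc hp in
theorem psi_zero : psi qs 0 = 1 := by
  simp only [psi_eq qs le_rfl, rt_zero, Finset.prod_const_one]

omit hc hp in
theorem psi_conj (a : ℤ) : (starRingEnd ℂ) (psi qs a) = psi qs (-a) := by
  simp only [psi_eq qs le_rfl, map_prod, rt_conj]

omit hc hp in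
theorem psi_nat_mul (k : ℕ) (a : ℤ) : psi qs (k * a) = psi qs a ^ k := by
  induction k with
  | zero => simp [psi_zero]
  | succ k ih =>
    rw [pow_succ, ← ih, ← psi_add]
    congr 1
    push_cast
    ring

omit hc in
theorem psi_of_dvd {a : ℤ} (h : (qs.prod : ℤ) ∣ a) : psi qs a = 1 := by
  rw [psi_eq qs le_rfl]
  refine Finset.prod_eq_one fun f _ => ?_
  obtain ⟨c, hc⟩ := (Int.natCast_dvd_natCast.2 (getD_dvd qs f)).trans h
  rw [hc]
  exact rt_mul_self c (getD_pos hp f)

theorem dvd_of_psi {a : ℤ} (h : psi qs a = 1) : (qs.prod : ℤ) ∣ a := by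
  have h1 : ∀ f, ((qs.getD f 1 : ℕ) : ℤ) ∣ a := by
    intro f
    have h2 : psi qs (idem qs f * a) = 1 := by rw [psi_nat_mul, h, one_pow]
    rw [psi_eq qs (n := qs.length + f + 1) (by omega),
      Finset.prod_eq_single f] at h2
    · refine dvd_of_rt_eq_one (getD_pos hp f) ?_
      rw [← h2]
      refine rt_congr (getD_pos hp f) ?_
      have := (Int.natCast_modEq_iff.2 (idem_self hc hp f)).mul_right a
      simpa using this.symm
    · intro g _ hg
      rw [← rt_zero (qs.getD g 1)]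
      refine rt_congr (getD_pos hp g) ?_
      have := (Int.natCast_modEq_iff.2 (idem_other hc hp hg.symm)).mul_right a
      simpa using this
    · intro h3
      exact absurd (Finset.mem_range.2 (by omega)) h3
  have h2 : a.natAbs ≡ 0 [MOD qs.prod] := crt_modEq hc hp fun f =>
    (Nat.modEq_zero_iff_dvd).2 (Int.natCast_dvd.1 (h1 f))
  exact Int.natCast_dvd.2 ((Nat.modEq_zero_iff_dvd).1 h2)

/-- Orthogonality. -/
theorem psi_sum (a : ℤ) : ∑ x ∈ range qs.prod, psi qs (x * a) =
    if (qs.prod : ℤ) ∣ a then (qs.prod : ℂ) else 0 := by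
  simp only [psi_nat_mul]
  split_ifs with h
  · simp [psi_of_dvd hp h]
  · have h1 : psi qs a ≠ 1 := fun h1 => h (dvd_of_psi hc hp h1)
    rw [geom_sum_eq h1, ← psi_nat_mul, psi_of_dvd hp (Dvd.intro _ rfl), sub_self, zero_div]

/-- One variable of the convolution theorem. -/
theorem conv_one (G : ℕ → ℕ → ℂ) (j : ℕ) :
    dft qs true (fun x => ∑ a ∈ range qs.prod, ∑ b ∈ range qs.prod,
      psi qs (-((x * a : ℕ) : ℤ)) * psi qs (-((x * b : ℕ) : ℤ)) * G a b) j =
    ∑ a ∈ range qs.prod, G a ((j + qs.prod - a) % qs.prod) := by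
  have hM := prod_pos hp
  have hM' : (qs.prod : ℂ) ≠ 0 := by exact_mod_cast hM.ne'
  unfold dft
  simp only [if_true]
  have e1 : ∑ x ∈ range qs.prod, psi qs ((j * x : ℕ) : ℤ) *
      ∑ a ∈ range qs.prod, ∑ b ∈ range qs.prod,
        psi qs (-((x * a : ℕ) : ℤ)) * psi qs (-((x * b : ℕ) : ℤ)) * G a b =
      ∑ a ∈ range qs.prod, ∑ b ∈ range qs.prod,
        (∑ x ∈ range qs.prod, psi qs (x * ((j : ℤ) - a - b))) * G a b := by
    simp only [Finset.mul_sum, Finset.sum_mul]
    rw [Finset.sum_comm]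
    refine Finset.sum_congr rfl fun a _ => ?_
    rw [Finset.sum_comm]
    refine Finset.sum_congr rfl fun b _ => Finset.sum_congr rfl fun x _ => ?_
    rw [← mul_assoc, ← psi_add, ← psi_add]
    congr 2
    push_cast
    ring
  rw [e1, Finset.mul_sum]
  refine Finset.sum_congr rfl fun a ha => ?_
  have ha' := Finset.mem_range.1 ha
  have hcond : ∀ b : ℕ, (qs.prod : ℤ) ∣ (j : ℤ) - a - b ↔ b ≡ j + qs.prod - a [MOD qs.prod] := by
    intro b
    rw [Nat.modEq_iff_dvd]
    have : ((j + qs.prod - a : ℕ) : ℤ) - b = (j : ℤ) - a - b + qs.prod := by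
      rw [Nat.cast_sub (by omega)]
      push_cast
      ring
    rw [this]
    exact (dvd_add_left (dvd_refl _)).symm
  rw [Finset.sum_eq_single ((j + qs.prod - a) % qs.prod)]
  · rw [psi_sum hc hp, if_pos ((hcond _).2 (Nat.mod_modEq _ _))]
    field_simp
  · intro b hb hne
    rw [psi_sum hc hp, if_neg, zero_mul]
    intro h
    refine hne ?_
    have h2 : b % qs.prod = (j + qs.prod - a) % qs.prod := (hcond b).1 h
    rwa [Nat.mod_eq_of_lt (Finset.mem_range.1 hb)] at h2
  · intro h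
    exact absurd (Finset.mem_range.2 (Nat.mod_lt _ hM)) h

omit hc hp in
theorem dft_sum (fl : Bool) {ι : Type} (s : Finset ι) (c : ι → ℂ) (v : ι → ℕ → ℂ) (j : ℕ) :
    dft qs fl (fun x => ∑ i ∈ s, c i * v i x) j = ∑ i ∈ s, c i * dft qs fl (v i) j := by
  unfold dft
  simp only [Finset.mul_sum]
  rw [Finset.sum_comm]
  refine Finset.sum_congr rfl fun i _ => Finset.sum_congr rfl fun x _ => ?_
  ring

omit hc hp in
theorem conj_dft (v : ℕ → ℂ) (x : ℕ) : (starRingEnd ℂ) (dft qs false v x) =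
    ∑ a ∈ range qs.prod, psi qs (-((x * a : ℕ) : ℤ)) * (starRingEnd ℂ) (v a) := by
  unfold dft
  simp only [Bool.false_eq_true, if_false, one_mul, map_sum, map_mul, psi_conj]

/-- One variable, with parameters. -/
theorem conv_step (U V : ℕ → ℂ) (j : ℕ) (_hj : j < qs.prod) :
    dft qs true (fun x => (starRingEnd ℂ) (dft qs false U x * dft qs false V x)) j =
    ∑ a ∈ range qs.prod, (starRingEnd ℂ) (U a * V ((j + qs.prod - a) % qs.prod)) := by
  rw [← conv_one hc hp (fun a b => (starRingEnd ℂ) (U a * V b)) j]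
  congr 1
  funext x
  rw [map_mul, conj_dft, conj_dft, Finset.sum_mul_sum]
  refine Finset.sum_congr rfl fun a _ => Finset.sum_congr rfl fun b _ => ?_
  rw [map_mul]
  ring

omit hc hp in
theorem dft_comm (F : ℕ → ℕ → ℂ) (fl fl' : Bool) (x y : ℕ) :
    dft qs fl (fun a => dft qs fl' (fun b => F a b) y) x =
      dft qs fl' (fun b => dft qs fl (fun a => F a b) x) y := by
  unfold dft
  simp only [Finset.mul_sum]
  rw [Finset.sum_comm]
  refine Finset.sum_congr rfl fun i _ => Finset.sum_congr rfl fun x _ => ?_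
  ring

omit hc hp in
theorem dft_sum' (fl : Bool) (s : Finset ℕ) (v : ℕ → ℕ → ℂ) (j : ℕ) :
    dft qs fl (fun x => ∑ i ∈ s, v i x) j = ∑ i ∈ s, dft qs fl (v i) j := by
  simpa using dft_sum fl s (fun _ => 1) v j

/-- Convolution theorem in three variables, with the inverse transform replaced by conjugation. -/
theorem dft_conv (X Y : ℕ → ℕ → ℕ → ℝ) {j1 j2 j3 : ℕ} (h1 : j1 < qs.prod) (h2 : j2 < qs.prod)
    (h3 : j3 < qs.prod) :
    dft qs true (fun y => dft qs true (fun w => dft qs true (fun x => (starRingEnd ℂ)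
      (dft qs false (fun y' => dft qs false (fun w' => dft qs false
          (fun x' => (X y' x' w' : ℂ)) x) w) y *
        dft qs false (fun y' => dft qs false (fun w' => dft qs false
          (fun x' => (Y y' x' w' : ℂ)) x) w) y)) j2) j3) j1 =
      ∑ a1 ∈ range qs.prod, ∑ a2 ∈ range qs.prod, ∑ a3 ∈ range qs.prod, (X a1 a2 a3 : ℂ) *
        (Y ((j1 + qs.prod - a1) % qs.prod) ((j2 + qs.prod - a2) % qs.prod)
          ((j3 + qs.prod - a3) % qs.prod) : ℂ) := by
  -- move the transform in `y` inside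
  rw [dft_comm]
  have e1 : ∀ w, dft qs true (fun y => dft qs true (fun x => (starRingEnd ℂ)
      (dft qs false (fun y' => dft qs false (fun w' => dft qs false
          (fun x' => (X y' x' w' : ℂ)) x) w) y *
        dft qs false (fun y' => dft qs false (fun w' => dft qs false
          (fun x' => (Y y' x' w' : ℂ)) x) w) y)) j2) j1 =
      ∑ a1 ∈ range qs.prod, dft qs true (fun x => (starRingEnd ℂ)
        (dft qs false (fun w' => dft qs false (fun x' => (X a1 x' w' : ℂ)) x) w *
        dft qs false (fun w' => dft qs false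
          (fun x' => (Y ((j1 + qs.prod - a1) % qs.prod) x' w' : ℂ)) x) w)) j2 := by
    intro w
    rw [dft_comm, ← dft_sum']
    congr 1
    funext x
    exact conv_step hc hp _ _ j1 h1
  simp only [e1]
  rw [dft_sum']
  refine Finset.sum_congr rfl fun a1 _ => ?_
  rw [dft_comm]
  have e2 : ∀ x, dft qs true (fun w => (starRingEnd ℂ)
        (dft qs false (fun w' => dft qs false (fun x' => (X a1 x' w' : ℂ)) x) w *
        dft qs false (fun w' => dft qs false
          (fun x' => (Y ((j1 + qs.prod - a1) % qs.prod) x' w' : ℂ)) x) w)) j3 =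
      ∑ a3 ∈ range qs.prod, (starRingEnd ℂ)
        (dft qs false (fun x' => (X a1 x' a3 : ℂ)) x *
        dft qs false (fun x' => (Y ((j1 + qs.prod - a1) % qs.prod) x'
          ((j3 + qs.prod - a3) % qs.prod) : ℂ)) x) := fun x => conv_step hc hp _ _ j3 h3
  simp only [e2]
  rw [dft_sum', Finset.sum_comm]
  refine Finset.sum_congr rfl fun a3 _ => ?_
  rw [conv_step hc hp _ _ j2 h2]
  refine Finset.sum_congr rfl fun a2 _ => ?_
  rw [map_mul, Complex.conj_ofReal, Complex.conj_ofReal]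

end Vale.Agent.P338
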