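import Vale.Agent.P338.Kara
import Vale.Agent.P338.Gate

/-! Gaussian integers stored as residues modulo `2 ^ (2 w) + 1`. -/

namespace Vale.Agent.P338

/-- The modulus. -/
def Pm (w : ℕ) : ℕ := 2 ^ (2 * w) + 1

instance (w : ℕ) : NeZero (Pm w) := ⟨Nat.succ_ne_zero _⟩

/-- The square root of minus one. -/
def im (w : ℕ) : ZMod (Pm w) := 2 ^ w

/-- One half. -/
def hm (w : ℕ) : ZMod (Pm w) := ((2 ^ (2 * w) / 2 + 1 : ℕ) : ZMod (Pm w))

theorem im_sq (w : ℕ) : im w * im w = -1 := by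
  have h : ((2 ^ (2 * w) + 1 : ℕ) : ZMod (Pm w)) = 0 := ZMod.natCast_self _
  rw [eq_neg_iff_add_eq_zero, ← h, im, ← pow_add, ← two_mul]
  push_cast; rfl

theorem two_dvd_pow {w : ℕ} (hw : 0 < w) : 2 ^ w / 2 * 2 = 2 ^ w :=
  Nat.div_mul_cancel (dvd_pow_self 2 hw.ne')

theorem two_hm {w : ℕ} (hw : 0 < w) : 2 * hm w = 1 := by
  have h : 2 * (2 ^ (2 * w) / 2 + 1) = Pm w + 1 := by
    have := two_dvd_pow (w := 2 * w) (by omega)
    unfold Pm
    omega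
  rw [hm, ← Nat.cast_ofNat, ← Nat.cast_mul, h]
  simp

/-- Reduction of Gaussian integers. -/
def phi (w : ℕ) : GaussianInt →+* ZMod (Pm w) := Zsqrtd.lift ⟨im w, by simpa using im_sq w⟩

/-- The word `z` holds a Gaussian integer within `2 ^ η` of `c`, and `c` is at most `2 ^ β`. -/
def Near (w z : ℕ) (c : ℂ) (β η : ℕ) : Prop :=
  ‖c‖ ≤ 2 ^ β ∧ ∃ u : GaussianInt, (z : ZMod (Pm w)) = phi w u ∧ ‖(u : ℂ) - c‖ ≤ 2 ^ η

theorem Near.mono {w z : ℕ} {c : ℂ} {β η β' η' : ℕ} (h : Near w z c β η) (h1 : β ≤ β')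
    (h2 : η ≤ η') : Near w z c β' η' :=
  ⟨h.1.trans (pow_le_pow_right₀ one_le_two h1), h.2.imp fun _ hu =>
    ⟨hu.1, hu.2.trans (pow_le_pow_right₀ one_le_two h2)⟩⟩

theorem near_nat (w z : ℕ) {β : ℕ} (h : z ≤ 2 ^ β) (η : ℕ) : Near w z (z : ℂ) β η :=
  ⟨by rw [Complex.norm_natCast]; exact_mod_cast h, z, by simp, by simp⟩

/-- Sum. -/
def addW (w x y : ℕ) : ℕ := (x + y) % Pm w
/-- Difference. -/
def subW (w x y : ℕ) : ℕ := (x + (Pm w - y)) % Pm w
/-- Half. -/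
def halfW (w x : ℕ) : ℕ := if x % 2 = 0 then x / 2 else (x + Pm w) / 2
/-- Product with a power of two. -/
def shlW (w t x : ℕ) : ℕ := x * 2 ^ t % Pm w

theorem addW_lt (w x y : ℕ) : addW w x y < Pm w := Nat.mod_lt _ (Nat.succ_pos _)
theorem subW_lt (w x y : ℕ) : subW w x y < Pm w := Nat.mod_lt _ (Nat.succ_pos _)
theorem shlW_lt (w t x : ℕ) : shlW w t x < Pm w := Nat.mod_lt _ (Nat.succ_pos _)
theorem halfW_lt {w x : ℕ} (h : x < Pm w) : halfW w x < Pm w := by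
  unfold halfW; split_ifs <;> omega
theorem addW_cast (w x y : ℕ) : (addW w x y : ZMod (Pm w)) = x + y := by simp [addW]
theorem subW_cast {w y : ℕ} (x : ℕ) (h : y < Pm w) : (subW w x y : ZMod (Pm w)) = x - y := by
  simp [subW, Nat.cast_sub h.le, sub_eq_add_neg]
theorem shlW_cast (w t x : ℕ) : (shlW w t x : ZMod (Pm w)) = x * 2 ^ t := by simp [shlW]
theorem halfW_cast {w : ℕ} (hw : 0 < w) (x : ℕ) : (halfW w x : ZMod (Pm w)) = hm w * x := by
  have h : 2 * halfW w x = x ∨ 2 * halfW w x = x + Pm w := by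
    have := two_dvd_pow (w := 2 * w) (by omega)
    unfold halfW Pm
    split_ifs <;> omega
  have h2 : (x : ZMod (Pm w)) = 2 * halfW w x := by
    rcases h with h | h <;> simpa using (congrArg (Nat.cast : ℕ → ZMod (Pm w)) h).symm
  rw [h2, ← mul_assoc, mul_comm (hm w), two_hm hw, one_mul]
theorem Pm_le (w : ℕ) : Pm w ≤ 2 ^ (2 * w + 1) := by
  have : 1 ≤ 2 ^ (2 * w) := Nat.one_le_two_pow
  rw [Pm, pow_succ]
  omega

theorem Near.add {w x y : ℕ} {c d : ℂ} {β η : ℕ} (h : Near w x c β η) (h' : Near w y d β η) :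
    Near w (addW w x y) (c + d) (β + 1) (η + 1) := by
  obtain ⟨h1, u, h2, h3⟩ := h
  obtain ⟨h4, v, h5, h6⟩ := h'
  refine ⟨(norm_add_le _ _).trans (by rw [pow_succ]; linarith), u + v,
    by rw [addW_cast, h2, h5, map_add], ?_⟩
  rw [map_add, add_sub_add_comm]
  exact (norm_add_le _ _).trans (by rw [pow_succ]; linarith)

/-- A sum of at most `2 ^ n` terms. -/
theorem near_foldl_addW {w n β η : ℕ} (L : List (ℕ × ℂ)) (hL : L.length ≤ 2 ^ n)
    (h : ∀ p ∈ L, Near w p.1 p.2 β η) :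
    Near w (L.foldl (fun s p => addW w s p.1) 0) (L.map Prod.snd).sum (β + n) (η + n) := by
  have key : ∀ s : ℕ, ‖(L.map Prod.snd).sum‖ ≤ 2 ^ β * L.length ∧ ∃ u : GaussianInt,
      ((L.foldl (fun s p => addW w s p.1) s : ℕ) : ZMod (Pm w)) = s + phi w u ∧
        ‖(u : ℂ) - (L.map Prod.snd).sum‖ ≤ 2 ^ η * L.length := by
    clear hL
    induction L with
    | nil => exact fun s => ⟨by simp, 0, by simp, by simp⟩
    | cons p L ih =>
      intro s
      obtain ⟨h1, u, h2, h3⟩ := h p (by simp)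
      obtain ⟨h4, v, h5, h6⟩ := ih (fun q hq => h q (by simp [hq])) (addW w s p.1)
      simp only [List.map_cons, List.sum_cons, List.foldl_cons, List.length_cons]
      push_cast
      refine ⟨(norm_add_le _ _).trans (by linarith), u + v,
        by rw [h5, addW_cast, h2, map_add, add_assoc], ?_⟩
      rw [map_add, add_sub_add_comm]
      exact (norm_add_le _ _).trans (by linarith)
  obtain ⟨h1, u, h2, h3⟩ := key 0
  have h4 : (L.length : ℝ) ≤ 2 ^ n := by exact_mod_cast hL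
  exact ⟨h1.trans (by rw [pow_add]; gcongr), u, by simpa using h2,
    h3.trans (by rw [pow_add]; gcongr)⟩

theorem phi_mk (w : ℕ) (a b : ℤ) : phi w ⟨a, b⟩ = a + b * 2 ^ w := rfl

theorem norm_gate {a b : ℂ} {B : ℝ} (ha : ‖a‖ ≤ B) (hb : ‖b‖ ≤ B) :
    ‖(1 + Complex.I) * a + (1 - Complex.I) * b‖ ≤ B * 2 ^ 2 := by
  have h1 : ‖1 + Complex.I‖ ≤ 2 := (norm_add_le _ _).trans (by norm_num)
  have h2 : ‖1 - Complex.I‖ ≤ 2 := (norm_sub_le _ _).trans (by norm_num)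
  have h3 := mul_le_mul h1 ha (norm_nonneg _) zero_le_two
  have h4 := mul_le_mul h2 hb (norm_nonneg _) zero_le_two
  refine (norm_add_le _ _).trans ?_
  rw [norm_mul, norm_mul]
  linarith

/-- The gate on a family of bits, computed exactly modulo the modulus. -/
theorem near_gall {w β η : ℕ} (S : ℕ → Prop) (pos : ℕ → ℕ) (m : ℕ)
    (hS : ∀ f < m, ∀ i, S i → S (i ^^^ 2 ^ pos f)) (z : ℕ → ℕ) (v : ℕ → ℂ)
    (h : ∀ i, S i → Near w (z i) (v i) β η) {i : ℕ} (hi : S i) :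
    Near w (gall (im w) 1 pos 0 m (fun i => (z i : ZMod (Pm w))) i).val
      (gall Complex.I 1 pos 0 m v i) (β + 2 * m) (η + 2 * m) := by
  have key : ∀ L : List ℕ, (∀ f ∈ L, f < m) → ∀ i, S i →
      ‖L.foldr (fun n v => (1 : ℂ) • gate1 Complex.I (2 ^ pos (0 + n)) v) v i‖ ≤
        2 ^ (β + 2 * L.length) ∧ ∃ u : GaussianInt,
      L.foldr (fun n v => (1 : ZMod (Pm w)) • gate1 (im w) (2 ^ pos (0 + n)) v)
        (fun i => (z i : ZMod (Pm w))) i = phi w u ∧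
      ‖(u : ℂ) - L.foldr (fun n v => (1 : ℂ) • gate1 Complex.I (2 ^ pos (0 + n)) v) v i‖ ≤
        2 ^ (η + 2 * L.length) := by
    intro L hL
    induction L with
    | nil => exact h
    | cons f L ih =>
      intro i hi
      obtain ⟨h1, u, h2, h3⟩ := ih (fun g hg => hL g (by simp [hg])) i hi
      obtain ⟨h4, u', h5, h6⟩ := ih (fun g hg => hL g (by simp [hg])) _
        (hS f (hL f (by simp)) i hi)
      have e1 : phi w ⟨0, 1⟩ = im w := by simp [phi_mk, im]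
      have e2 : ((⟨0, 1⟩ : GaussianInt) : ℂ) = Complex.I := by simp [GaussianInt.toComplex_def']
      rw [List.foldr_cons, List.foldr_cons, List.length_cons, mul_add, ← add_assoc, ← add_assoc,
        mul_one, pow_add _ (β + _) 2, pow_add _ (η + _) 2, one_smul, one_smul, gate1, gate1,
        zero_add f]
      refine ⟨norm_gate h1 h4, (1 + ⟨0, 1⟩) * u + (1 - ⟨0, 1⟩) * u', ?_, ?_⟩
      · rw [h2, h5, map_add, map_mul, map_mul, map_add, map_sub, map_one, e1]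
      · refine le_trans (le_of_eq (congrArg _ ?_)) (norm_gate h3 h6)
        rw [map_add, map_mul, map_mul, map_add, map_sub, map_one, e2]
        ring
  have := key (List.range m) (fun f hf => List.mem_range.1 hf) i hi
  rw [List.length_range] at this
  rw [Near, ZMod.natCast_zmod_val]
  exact this

theorem gall_half {k : Type} [CommRing k] (ι h : k) (hh : 2 * h = 1) (pos : ℕ → ℕ) (f0 m : ℕ)
    (v : ℕ → k) : gall ι h pos f0 m (fun i => v i * 2 ^ m) = gall ι 1 pos f0 m v := by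
  have key : ∀ L : List ℕ,
      L.foldr (fun n v => h • gate1 ι (2 ^ pos (f0 + n)) v) (fun i => v i * 2 ^ m) =
      fun i => h ^ L.length * 2 ^ m *
        L.foldr (fun n v => (1 : k) • gate1 ι (2 ^ pos (f0 + n)) v) v i := by
    intro L
    induction L with
    | nil => funext i; simp [mul_comm]
    | cons f L ih =>
      funext i
      rw [List.foldr_cons, ih]
      simp only [List.foldr_cons, List.length_cons, Pi.smul_apply, smul_eq_mul, gate1]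
      ring
  rw [gall, key, List.length_range, ← mul_pow, mul_comm h, hh, one_pow]
  funext i
  rw [one_mul, gall]

theorem eq_of_cast {w a b : ℕ} (ha : a < Pm w) (hb : b < Pm w) (h : (a : ZMod (Pm w)) = b) :
    a = b := by
  rwa [ZMod.natCast_eq_natCast_iff', Nat.mod_eq_of_lt ha, Nat.mod_eq_of_lt hb] at h

/-- The offset making both parts nonnegative. -/
def offW (w : ℕ) : ℕ := 2 ^ w / 2 + 2 ^ w / 2 * 2 ^ w

/-- The small Gaussian integer held by a word. -/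
def decW (w z : ℕ) : ℤ × ℤ :=
  ((addW w z (offW w) % 2 ^ w : ℕ) - (2 ^ w / 2 : ℕ),
    (addW w z (offW w) / 2 ^ w : ℕ) - (2 ^ w / 2 : ℕ))

/-- The word holding a small Gaussian integer. -/
def encW (w : ℕ) (p : ℤ × ℤ) : ℕ :=
  subW w ((p.1 + (2 ^ w / 2 : ℕ)).toNat % 2 ^ w + (p.2 + (2 ^ w / 2 : ℕ)).toNat % 2 ^ w * 2 ^ w)
    (offW w)

/-- Division by a power of two, rounded toward zero. -/
def rndZ (σ : ℕ) (z : ℤ) : ℤ := (z.toNat / 2 ^ σ : ℕ) - ((-z).toNat / 2 ^ σ : ℕ)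

/-- The rounded product. -/
def prodW (σ : ℕ) (p q : ℤ × ℤ) : ℤ × ℤ :=
  (rndZ σ (p.1 * q.1 - p.2 * q.2), rndZ σ (p.1 * q.2 + p.2 * q.1))

/-- The complex number of a pair. -/
noncomputable def toC (p : ℤ × ℤ) : ℂ := (p.1 : ℂ) + (p.2 : ℂ) * Complex.I

theorem pack_lt (w : ℕ) {a b : ℕ} (ha : a < 2 ^ w) (hb : b < 2 ^ w) : a + b * 2 ^ w < Pm w := by
  have := Nat.mul_le_mul_right (2 ^ w) (Nat.succ_le_of_lt hb)
  rw [Nat.succ_mul] at this
  rw [Pm, two_mul, pow_add]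
  omega

theorem offW_lt (w : ℕ) : offW w < Pm w :=
  pack_lt w (Nat.div_lt_self (by positivity) one_lt_two)
    (Nat.div_lt_self (by positivity) one_lt_two)

theorem decW_lt (w z : ℕ) :
    (decW w z).1.natAbs < 2 ^ (2 * w + 1) ∧ (decW w z).2.natAbs < 2 ^ (2 * w + 1) := by
  have h1 := (addW_lt w z (offW w)).trans_le (Pm_le w)
  have h2 := Nat.mod_le (addW w z (offW w)) (2 ^ w)
  have h3 := Nat.div_le_self (addW w z (offW w)) (2 ^ w)
  have h4 : 2 ^ w < 2 ^ (2 * w + 1) := Nat.pow_lt_pow_right one_lt_two (by omega)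
  have h5 := (Nat.div_le_self (2 ^ w) 2).trans_lt h4
  simp only [decW]
  generalize addW w z (offW w) % 2 ^ w = a at *
  generalize addW w z (offW w) / 2 ^ w = b at *
  generalize 2 ^ w / 2 = h at *
  generalize 2 ^ (2 * w + 1) = N at *
  omega

theorem parts_lt {w : ℕ} (hw : 0 < w) {p : ℤ × ℤ} (hp : ‖toC p‖ < 2 ^ w / 2) :
    ∃ a b : ℕ, a < 2 ^ w ∧ b < 2 ^ w ∧ p.1 + (2 ^ w / 2 : ℕ) = a ∧ p.2 + (2 ^ w / 2 : ℕ) = b := by
  have h0 := two_dvd_pow hw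
  have h1 : ((2 ^ w / 2 : ℕ) : ℝ) = 2 ^ w / 2 := by
    rw [eq_div_iff two_ne_zero]
    exact_mod_cast h0
  have h2 := (Complex.abs_re_le_norm _).trans_lt hp
  have h3 := (Complex.abs_im_le_norm _).trans_lt hp
  rw [← h1] at h2 h3
  simp only [toC, Complex.add_re, Complex.add_im, Complex.mul_re, Complex.mul_im, Complex.I_re,
    Complex.I_im, Complex.intCast_re, Complex.intCast_im, mul_zero, mul_one, add_zero, zero_add,
    sub_zero] at h2 h3
  generalize 2 ^ w / 2 = h at *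
  have h4 : |p.1| < h := by exact_mod_cast h2
  have h5 : |p.2| < h := by exact_mod_cast h3
  rw [abs_lt] at h4 h5
  refine ⟨(p.1 + h).toNat, (p.2 + h).toNat, ?_⟩
  omega

theorem pack_cast {w a b : ℕ} {p : ℤ × ℤ} (h1 : p.1 + (2 ^ w / 2 : ℕ) = a)
    (h2 : p.2 + (2 ^ w / 2 : ℕ) = b) :
    ((a + b * 2 ^ w : ℕ) : ZMod (Pm w)) = phi w ⟨p.1, p.2⟩ + offW w := by
  have h3 := congrArg (Int.cast : ℤ → ZMod (Pm w)) h1
  have h4 := congrArg (Int.cast : ℤ → ZMod (Pm w)) h2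
  rw [Int.cast_add, Int.cast_natCast, Int.cast_natCast] at h3 h4
  rw [phi_mk, offW, Nat.cast_add, Nat.cast_add, Nat.cast_mul, Nat.cast_mul, ← h3, ← h4,
    Nat.cast_pow, Nat.cast_ofNat]
  ring

theorem Near.decW {w z : ℕ} {c : ℂ} {β η : ℕ} (h : Near w z c β η) (h1 : η ≤ β)
    (h2 : β + 3 ≤ w) : ‖toC (decW w z) - c‖ ≤ 2 ^ η ∧ ‖toC (decW w z)‖ ≤ 2 * 2 ^ β := by
  obtain ⟨h3, u, h4, h5⟩ := h
  have e : (u : ℂ) = toC (u.re, u.im) := GaussianInt.toComplex_def u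
  have h6 : ‖(u : ℂ)‖ ≤ 2 * 2 ^ β := by
    have h7 := norm_sub_norm_le (u : ℂ) c
    have h8 : (2 : ℝ) ^ η ≤ 2 ^ β := pow_le_pow_right₀ one_le_two h1
    linarith
  have h7 : (2 : ℝ) ^ (β + 3) ≤ 2 ^ w := pow_le_pow_right₀ one_le_two h2
  have h8 : (0 : ℝ) < 2 ^ β := by positivity
  rw [pow_add] at h7
  obtain ⟨a, b, ha, hb, e1, e2⟩ := parts_lt (w := w) (by omega) (p := (u.re, u.im))
    (by rw [← e]; linarith)
  have e3 : addW w z (offW w) = a + b * 2 ^ w :=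
    eq_of_cast (addW_lt _ _ _) (pack_lt w ha hb) (by rw [addW_cast, pack_cast e1 e2, h4])
  have e4 : P338.decW w z = (u.re, u.im) := by
    rw [P338.decW, e3, Nat.add_mul_mod_self_right, Nat.mod_eq_of_lt ha,
      Nat.add_mul_div_right _ _ (by positivity), Nat.div_eq_of_lt ha, zero_add, ← e1, ← e2]
    simp
  rw [e4, ← e]
  exact ⟨h5, h6⟩

theorem near_encW {w : ℕ} (hw : 0 < w) {p : ℤ × ℤ} (hp : ‖toC p‖ < 2 ^ w / 2) {c : ℂ} {β η : ℕ}
    (hc : ‖c‖ ≤ 2 ^ β) (h : ‖toC p - c‖ ≤ 2 ^ η) : Near w (encW w p) c β η := by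
  obtain ⟨a, b, ha, hb, e1, e2⟩ := parts_lt hw hp
  refine ⟨hc, ⟨p.1, p.2⟩, ?_, by rwa [GaussianInt.toComplex_def']⟩
  rw [encW, subW_cast _ (offW_lt w), e1, e2, Int.toNat_natCast, Int.toNat_natCast,
    Nat.mod_eq_of_lt ha, Nat.mod_eq_of_lt hb, pack_cast e1 e2, add_sub_cancel_right]

theorem rndZ_near (σ : ℕ) (z : ℤ) : |(rndZ σ z : ℝ) - z / 2 ^ σ| ≤ 1 := by
  have key : ∀ n : ℕ, |((n / 2 ^ σ : ℕ) : ℝ) - n / 2 ^ σ| ≤ 1 := fun n => by
    have h1 := Nat.cast_div_le (α := ℝ) (m := n) (n := 2 ^ σ)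
    have h2 : (n : ℝ) ≤ ((n / 2 ^ σ : ℕ) + 1) * 2 ^ σ := by
      exact_mod_cast (Nat.lt_div_mul_add (a := n) (b := 2 ^ σ) (by positivity)).le.trans_eq
        (Nat.succ_mul _ _).symm
    rw [← div_le_iff₀ (by positivity)] at h2
    push_cast at h1
    rw [abs_le]
    constructor <;> linarith
  obtain ⟨n, rfl | rfl⟩ := z.eq_nat_or_neg
  · simpa [rndZ, -Int.natCast_ediv] using key n
  · rw [← abs_neg]
    simpa [rndZ, -Int.natCast_ediv, neg_div, sub_eq_add_neg, add_comm]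
      using key n

theorem prodW_near (σ : ℕ) (p q : ℤ × ℤ) : ‖toC (prodW σ p q) - toC p * toC q / 2 ^ σ‖ ≤ 2 := by
  have e : toC (prodW σ p q) - toC p * toC q / 2 ^ σ =
      ((rndZ σ (p.1 * q.1 - p.2 * q.2) - (p.1 * q.1 - p.2 * q.2 : ℤ) / 2 ^ σ : ℝ) : ℂ) +
      ((rndZ σ (p.1 * q.2 + p.2 * q.1) - (p.1 * q.2 + p.2 * q.1 : ℤ) / 2 ^ σ : ℝ) : ℂ) *
        Complex.I := by
    simp only [toC, prodW]
    push_cast
    linear_combination (-(p.2 * q.2) / 2 ^ σ : ℂ) * Complex.I_mul_I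
  rw [e]
  refine (norm_add_le _ _).trans ?_
  rw [norm_mul, Complex.norm_I, mul_one, Complex.norm_real, Complex.norm_real]
  exact (add_le_add (rndZ_near _ _) (rndZ_near _ _)).trans_eq one_add_one_eq_two

theorem Tm.prodW {ι : Type} [Enc ι] {𝒯 : Cls ι} [Dom 𝒯] {σ b : ι → ℕ} {p q : ι → ℤ × ℤ}
    (hσ : Tm 𝒯 σ) (hp : Tm 𝒯 p) (hq : Tm 𝒯 q)
    (h1 : ∀ i, 𝒯.dom i → (p i).1.natAbs < 2 ^ b i ∧ (p i).2.natAbs < 2 ^ b i)
    (h2 : ∀ i, 𝒯.dom i → (q i).1.natAbs < 2 ^ b i ∧ (q i).2.natAbs < 2 ^ b i)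
    (hb : 𝒯.mem (fun i => kc (b i))) : Tm 𝒯 (fun i => prodW (σ i) (p i) (q i)) :=
  have a := (hp.fst.kzmul hq.fst (fun i hi => ⟨(h1 i hi).1, (h2 i hi).1⟩) hb).zsub
    (hp.snd.kzmul hq.snd (fun i hi => ⟨(h1 i hi).2, (h2 i hi).2⟩) hb)
  have c := (hp.fst.kzmul hq.snd (fun i hi => ⟨(h1 i hi).1, (h2 i hi).2⟩) hb).zadd
    (hp.snd.kzmul hq.fst (fun i hi => ⟨(h1 i hi).2, (h2 i hi).1⟩) hb)
  ((a.toNat.shr hσ).zdiff (a.negPart.shr hσ)).pair ((c.toNat.shr hσ).zdiff (c.negPart.shr hσ))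

theorem toC_conj (p : ℤ × ℤ) : toC (p.1, -p.2) = (starRingEnd ℂ) (toC p) := by simp [toC]

section
variable {ι : Type} [Enc ι] {𝒯 : Cls ι} [Dom 𝒯] {w t x y : ι → ℕ} (hw : Tm 𝒯 w) (hm : 𝒯.mem w)
include hw hm

theorem Tm.Pm : Tm 𝒯 (fun i => Pm (w i)) :=
  (hw.dbl.pow2 (Cls.cmul hm 2)).add (Tm.const 1)
theorem Tm.modP (hx : Tm 𝒯 x) (h : ∀ i, 𝒯.dom i → x i < 2 * P338.Pm (w i)) :
    Tm 𝒯 (fun i => x i % P338.Pm (w i)) :=
  ((hx.lt (hw.Pm hm)).ite hx (hx.sub (hw.Pm hm))).congr fun i hi => by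
    have := h i hi
    split_ifs with h1
    · exact Nat.mod_eq_of_lt h1
    · rw [Nat.mod_eq_sub_mod (not_lt.1 h1), Nat.mod_eq_of_lt (by omega)]
theorem Tm.addW (hx : Tm 𝒯 x) (hy : Tm 𝒯 y)
    (h : ∀ i, 𝒯.dom i → x i < P338.Pm (w i) ∧ y i < P338.Pm (w i)) :
    Tm 𝒯 (fun i => addW (w i) (x i) (y i)) :=
  hw.modP hm (hx.add hy) fun i hi => by have := h i hi; omega
theorem Tm.subW (hx : Tm 𝒯 x) (hy : Tm 𝒯 y)
    (h : ∀ i, 𝒯.dom i → x i < P338.Pm (w i) ∧ y i < P338.Pm (w i)) :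
    Tm 𝒯 (fun i => subW (w i) (x i) (y i)) :=
  hw.modP hm (hx.add ((hw.Pm hm).sub hy)) fun i hi => by have := h i hi; omega
theorem Tm.halfW (hx : Tm 𝒯 x) : Tm 𝒯 (fun i => halfW (w i) (x i)) :=
  hx.par.isZero.ite hx.half (hx.add (hw.Pm hm)).half
theorem Tm.shlW (ht : Tm 𝒯 t) (hx : Tm 𝒯 x)
    (h : ∀ i, 𝒯.dom i → x i < P338.Pm (w i) ∧ t i ≤ 2 * w i) :
    Tm 𝒯 (fun i => shlW (w i) (t i) (x i)) := by
  have h1 := hx.shl ht (𝒯.mono (Cls.cmul hm 2) fun i hi => (h i hi).2)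
  have h2 : ∀ i, 𝒯.dom i → x i * 2 ^ t i / 2 ^ (2 * w i) < P338.Pm (w i) := fun i hi =>
    lt_of_le_of_lt (Nat.div_le_of_le_mul (by
      rw [mul_comm]
      exact Nat.mul_le_mul_right _ (Nat.pow_le_pow_right two_pos (h i hi).2))) (h i hi).1
  refine (hw.subW hm (h1.low hw.dbl) (h1.shr hw.dbl) fun i hi =>
    ⟨(Nat.mod_lt _ (by positivity)).trans (Nat.lt_succ_self _), h2 i hi⟩).congr fun i hi => ?_
  refine eq_of_cast (shlW_lt _ _ _) (subW_lt _ _ _) ?_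
  have h3 := congrArg (Nat.cast : ℕ → ZMod (P338.Pm (w i)))
    (Nat.mod_add_div (x i * 2 ^ t i) (2 ^ (2 * w i)))
  have h4 := im_sq (w i)
  rw [subW_cast _ (h2 i hi), shlW_cast]
  rw [im, ← pow_add, ← two_mul] at h4
  rw [Nat.cast_add, Nat.cast_mul, Nat.cast_mul, Nat.cast_pow, Nat.cast_pow, Nat.cast_ofNat,
    h4] at h3
  rw [← h3]
  ring
theorem Tm.offW : Tm 𝒯 (fun i => offW (w i)) :=
  (hw.pow2 hm).half.add ((hw.pow2 hm).half.shl hw hm)
theorem Tm.decW (hx : Tm 𝒯 x) (h : ∀ i, 𝒯.dom i → x i < P338.Pm (w i)) :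
    Tm 𝒯 (fun i => decW (w i) (x i)) :=
  have h1 := hw.addW hm hx (hw.offW hm) fun i hi => ⟨h i hi, offW_lt _⟩
  ((h1.low hw).zdiff (hw.pow2 hm).half).pair ((h1.shr hw).zdiff (hw.pow2 hm).half)
theorem Tm.encW {p : ι → ℤ × ℤ} (hp : Tm 𝒯 p) : Tm 𝒯 (fun i => encW (w i) (p i)) :=
  have h1 := (hw.pow2 hm).half.natCast
  hw.subW hm (((hp.fst.zadd h1).toNat.low hw).add (((hp.snd.zadd h1).toNat.low hw).shl hw hm))
    (hw.offW hm) fun _ _ => ⟨pack_lt _ (Nat.mod_lt _ (by positivity))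
      (Nat.mod_lt _ (by positivity)), offW_lt _⟩

end

/-- Fixed point products and the final rounding. -/
theorem exists_mulW : ∃ (mulW : ℕ → ℤ × ℤ → ℕ → ℕ) (cmulW : ℕ → ℕ → ℕ → ℕ → ℕ)
    (outW : ℕ → ℕ → ℕ → ℕ),
    (∀ w d z, mulW w d z < Pm w) ∧ (∀ w σ x y, cmulW w σ x y < Pm w) ∧
    (∀ w σ z, outW w σ z < Pm w) ∧
    (∀ (w z : ℕ) (d : ℤ × ℤ) (c δ : ℂ) (β η g : ℕ), z < Pm w → Near w z c β η → 2 ≤ η → η ≤ β →
      β + g + 4 ≤ w → ‖δ‖ ≤ 2 ^ g → ‖((d.1 : ℂ) + (d.2 : ℂ) * Complex.I) - 2 ^ w * δ‖ ≤ 3 →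
      Near w (mulW w d z) (δ * c) (β + g) (η + g + 1)) ∧
    (∀ (w σ x y : ℕ) (c d : ℂ) (β η β' η' : ℕ), x < Pm w → y < Pm w → Near w x c β η →
      Near w y d β η → η ≤ β → β + 3 ≤ w → 2 * β ≤ β' + σ → β' + 4 ≤ w → β + η + 3 ≤ η' + σ →
      2 ≤ η' → Near w (cmulW w σ x y) ((starRingEnd ℂ) (c * d) / 2 ^ σ) β' η') ∧
    (∀ (w σ z c β η : ℕ), z < Pm w → Near w z (2 ^ σ * (c : ℂ)) β η → η ≤ β → β + 3 ≤ w →
      η + 2 ≤ σ → outW w σ z = c) ∧
    ∀ {ι : Type} [Enc ι] {𝒯 : Cls ι} [Dom 𝒯] {w σ x y : ι → ℕ} {d : ι → ℤ × ℤ}, Tm 𝒯 w →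
      Tm 𝒯 σ → Tm 𝒯 x → Tm 𝒯 y → Tm 𝒯 d → (∀ i, 𝒯.dom i → x i < Pm (w i) ∧ y i < Pm (w i) ∧
        σ i ≤ w i ∧ (d i).1.natAbs < 2 ^ (2 * w i + 1) ∧ (d i).2.natAbs < 2 ^ (2 * w i + 1)) →
      𝒯.mem (fun i => kc (2 * w i + 1)) →
      Tm 𝒯 (fun i => mulW (w i) (d i) (x i)) ∧ Tm 𝒯 (fun i => cmulW (w i) (σ i) (x i) (y i)) ∧
        Tm 𝒯 (fun i => outW (w i) (σ i) (x i)) := by
  refine ⟨fun w d z => encW w (prodW w d (decW w z)),
    fun w σ x y => encW w ((prodW σ (decW w x) (decW w y)).1, -(prodW σ (decW w x) (decW w y)).2),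
    fun w σ z => ((decW w z).1 + (2 ^ σ / 2 : ℕ)).toNat / 2 ^ σ % 2 ^ w,
    fun _ _ _ => subW_lt _ _ _, fun _ _ _ _ => subW_lt _ _ _,
    fun w _ _ => (Nat.mod_lt _ (by positivity)).trans (Nat.lt_succ_of_le
      (Nat.pow_le_pow_right two_pos (by omega))), ?_, ?_, ?_, ?_⟩
  · intro w z d c δ β η g _ h h1 h2 h3 h4 h5
    obtain ⟨h6, h7⟩ := h.decW h2 (by omega)
    have h8 := prodW_near w d (decW w z)
    have hc : ‖δ * c‖ ≤ 2 ^ (β + g) := by
      rw [norm_mul, pow_add, mul_comm]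
      exact mul_le_mul h.1 h4 (norm_nonneg _) (by positivity)
    have b1 : (2 : ℝ) ^ (β + 4) ≤ 2 ^ w := pow_le_pow_right₀ one_le_two (by omega)
    have b2 : (2 : ℝ) ^ (β + g + 4) ≤ 2 ^ w := pow_le_pow_right₀ one_le_two h3
    have b3 : (2 : ℝ) ^ 2 ≤ 2 ^ (η + g) := pow_le_pow_right₀ one_le_two (by omega)
    have b4 : (2 : ℝ) ^ (η + g) ≤ 2 ^ (β + g) := pow_le_pow_right₀ one_le_two (by omega)
    rw [pow_add _ _ 4] at b1 b2
    have h9 : ‖toC (prodW w d (decW w z)) - δ * c‖ ≤ 2 ^ (η + g + 1) := by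
      have e : toC (prodW w d (decW w z)) - δ * c =
          (toC (prodW w d (decW w z)) - toC d * toC (decW w z) / 2 ^ w) +
          ((toC d - 2 ^ w * δ) * toC (decW w z) / 2 ^ w + (toC (decW w z) - c) * δ) := by
        field_simp
        ring
      have g1 : ‖(toC d - 2 ^ w * δ) * toC (decW w z) / 2 ^ w‖ ≤ 1 := by
        rw [norm_div, norm_mul, norm_pow, Complex.norm_two, div_le_one (by positivity)]
        have := mul_le_mul h5 h7 (norm_nonneg _) (by norm_num)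
        have : (0 : ℝ) < 2 ^ β := by positivity
        unfold toC
        unfold toC at *
        linarith
      have g2 : ‖(toC (decW w z) - c) * δ‖ ≤ 2 ^ (η + g) := by
        rw [norm_mul, pow_add]
        exact mul_le_mul h6 h4 (norm_nonneg _) (by positivity)
      rw [e, pow_succ]
      refine (norm_add_le_of_le h8 (norm_add_le_of_le g1 g2)).trans ?_
      linarith
    refine near_encW (by omega) ?_ hc h9
    have := norm_sub_norm_le (toC (prodW w d (decW w z))) (δ * c)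
    rw [pow_succ] at h9
    linarith
  · intro w σ x y c d β η β' η' _ _ hx hy h1 h2 h3 h4 h5 h6
    obtain ⟨x1, x2⟩ := hx.decW h1 h2
    obtain ⟨y1, y2⟩ := hy.decW h1 h2
    have h8 := prodW_near σ (decW w x) (decW w y)
    have b1 : (2 : ℝ) ^ (β + β) ≤ 2 ^ (β' + σ) := pow_le_pow_right₀ one_le_two (by omega)
    have b2 : (2 : ℝ) ^ (β' + 4) ≤ 2 ^ w := pow_le_pow_right₀ one_le_two h4
    have b3 : (2 : ℝ) ^ (β + η + 3) ≤ 2 ^ (η' + σ) := pow_le_pow_right₀ one_le_two h5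
    have b4 : (2 : ℝ) ^ 2 ≤ 2 ^ η' := pow_le_pow_right₀ one_le_two h6
    have b5 : (1 : ℝ) ≤ 2 ^ β' := one_le_pow₀ one_le_two
    simp only [pow_add] at b1 b2 b3
    have e : (starRingEnd ℂ) (c * d) / 2 ^ σ = (starRingEnd ℂ) (c * d / 2 ^ σ) := by
      rw [map_div₀, map_pow, map_ofNat]
    refine near_encW (by omega) ?_ ?_ ?_
    · have g1 : ‖toC (decW w x) * toC (decW w y) / 2 ^ σ‖ ≤ 4 * 2 ^ β' := by
        rw [norm_div, norm_mul, norm_pow, Complex.norm_two, div_le_iff₀ (by positivity)]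
        have := mul_le_mul x2 y2 (norm_nonneg _) (by positivity)
        linarith
      have := norm_sub_norm_le (toC (prodW σ (decW w x) (decW w y)))
        (toC (decW w x) * toC (decW w y) / 2 ^ σ)
      rw [toC_conj, Complex.norm_conj]
      linarith
    · rw [e, Complex.norm_conj, norm_div, norm_mul, norm_pow, Complex.norm_two,
        div_le_iff₀ (by positivity)]
      exact (mul_le_mul hx.1 hy.1 (norm_nonneg _) (by positivity)).trans b1
    · have e' : toC (prodW σ (decW w x) (decW w y)) - c * d / 2 ^ σ =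
          (toC (prodW σ (decW w x) (decW w y)) - toC (decW w x) * toC (decW w y) / 2 ^ σ) +
          ((toC (decW w x) - c) * toC (decW w y) + c * (toC (decW w y) - d)) / 2 ^ σ := by
        ring
      have g1 : ‖((toC (decW w x) - c) * toC (decW w y) + c * (toC (decW w y) - d)) / 2 ^ σ‖ ≤
          2 ^ η' / 2 := by
        rw [norm_div, norm_pow, Complex.norm_two, div_le_iff₀ (by positivity)]
        refine (norm_add_le _ _).trans ?_
        rw [norm_mul, norm_mul]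
        have := mul_le_mul x1 y2 (norm_nonneg _) (by positivity)
        have := mul_le_mul hx.1 y1 (norm_nonneg _) (by positivity)
        have : (0 : ℝ) < 2 ^ β * 2 ^ η := by positivity
        linarith
      rw [toC_conj, e, ← map_sub, Complex.norm_conj, e']
      refine (norm_add_le_of_le h8 g1).trans ?_
      linarith
  · intro w σ z c β η _ h h1 h2 h3
    have h4 := (Complex.abs_re_le_norm _).trans (h.decW h1 h2).1
    have h5 := h.1
    have e : (2 ^ σ * (c : ℂ)) = ((2 ^ σ * c : ℕ) : ℂ) := by push_cast; rfl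
    rw [e] at h4 h5
    rw [Complex.norm_natCast] at h5
    simp only [toC, Complex.sub_re, Complex.add_re, Complex.mul_re, Complex.I_re, Complex.I_im,
      Complex.intCast_re, Complex.intCast_im, Complex.natCast_re, mul_zero, mul_one, add_zero,
      sub_zero] at h4
    have h6 : |(decW w z).1 - (2 ^ σ * c : ℕ)| ≤ (2 ^ η : ℕ) := by exact_mod_cast h4
    have h7 : 2 ^ σ * c ≤ 2 ^ β := by exact_mod_cast h5
    have h8 : 2 ^ (η + 2) ≤ 2 ^ σ := Nat.pow_le_pow_right two_pos h3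
    have h9 : 2 ^ β < 2 ^ w := Nat.pow_lt_pow_right one_lt_two (by omega)
    have h10 : c ≤ 2 ^ σ * c := Nat.le_mul_of_pos_left _ (by positivity)
    have h11 : 0 < 2 ^ η := by positivity
    rw [abs_le] at h6
    rw [pow_add] at h8
    have : ((decW w z).1 + (2 ^ σ / 2 : ℕ)).toNat / 2 ^ σ = c := by
      refine Nat.div_eq_of_lt_le ?_ ?_
      · rw [mul_comm]
        omega
      · rw [add_mul, mul_comm]
        omega
    beta_reduce
    rw [this, Nat.mod_eq_of_lt (by omega)]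
  · intro ι _ 𝒯 _ w σ x y d hw hσ hx hy hd h hk
    have hm : 𝒯.mem w := 𝒯.mono hk fun i _ => le_trans (by omega) (le_kc _)
    have dx := hw.decW hm hx fun i hi => (h i hi).1
    have dy := hw.decW hm hy fun i hi => (h i hi).2.1
    have pxy := hσ.prodW dx dy (fun _ _ => decW_lt _ _) (fun _ _ => decW_lt _ _) hk
    exact ⟨hw.encW hm (hw.prodW hd dx (fun i hi => (h i hi).2.2.2) (fun _ _ => decW_lt _ _) hk),
      hw.encW hm (pxy.fst.pair pxy.snd.zneg), ((dx.fst.zadd (hσ.pow2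
        (𝒯.mono hm fun i hi => (h i hi).2.2.1)).half.natCast).toNat.shr hσ).low hw⟩

end Vale.Agent.P338
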