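import Vale.Agent.P338.Swap
import Vale.Agent.P338.Word
import Vale.Agent.P338.Crt
import Vale.Agent.P338.CircDefs

/-! The parameters of the algorithm. -/

namespace Vale.Agent.P338

/-- Parameters. -/
structure Cf : Type where
  s : ℕ
  w : ℕ
  r1 : ℕ
  μ : ℕ
  r2 : ℕ
  t0 : ℕ
  a : ℕ
  e : ℕ
  e' : ℕ
  ρ : ℕ
  qs : List ℕ

namespace Cf

variable (c : Cf)

/-- The parameters as a pair of lists. -/
def tup : List ℕ × List ℕ := ([c.s, c.w, c.r1, c.μ, c.r2, c.t0, c.a, c.e, c.e', c.ρ], c.qs)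

instance : Enc Cf := ⟨2, fun c => enc c.tup, two_pos, fun c => Enc.items c.tup⟩

/-- Range of an index digit. -/
def R : ℕ := 2 ^ c.s
/-- Modulus of the words. -/
def P : ℕ := Pm c.w
/-- Bits of a word. -/
def b : ℕ := 2 * c.w + 1
/-- Number of fields. -/
def m : ℕ := 289 ^ c.r2 * c.t0
/-- Bits of a field. -/
def F : ℕ := c.a + 1 + c.e
/-- Size of the batch. -/
def E : ℕ := Wn ^ (c.r1 + c.r2)
/-- Length of the cyclic convolutions. -/
def M : ℕ := c.qs.prod
/-- The factors of `M`. -/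
def q (f : ℕ) : ℕ := c.qs.getD f 1
/-- Position of bit `j` of field `f` in the flat index. -/
def pos (j f : ℕ) : ℕ := 2 * c.s + c.F * f + j
/-- Growth exponent of one run of the circuit. -/
def T : ℕ := 300 * (c.a + 1) * ((c.a + 2) * c.m + 1)
/-- Growth exponent of a transform in three variables; also the size of the input digits. -/
def G : ℕ := 3 * c.ρ * c.T
/-- Passes of an exchange. -/
def sw : ℕ := swc c.r1 c.μ
/-- Passes of a gate layer. -/
def gc : ℕ := (Nn ^ c.r2 / Wn ^ c.r2 + 1) * (c.t0 + 1 + (c.r2 + 1) * c.sw)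
/-- Cost per word of one run of the circuit. -/
def rc : ℕ := (c.a + 1) * ((c.b + 1) * c.gc + kc c.b)
/-- Cost per word of the whole algorithm. -/
def tc : ℕ := (c.ρ + 1) * c.rc + c.E * c.E * (c.b + 1) + c.E * kc c.b

/-- The spacers of the fields are not too large. -/
def safeY (y : ℕ) : Prop := ∀ f < c.m, y / 2 ^ (c.F * f + (c.a + 1)) % 2 ^ c.e + 2 ^ c.e' + 1 < 2 ^ c.e
/-- The subfields of the last digit are not extreme. -/
def safeW (x : ℕ) : Prop :=
  ∀ f < c.m, 1 ≤ x / 2 ^ (c.e' * f) % 2 ^ c.e' ∧ x / 2 ^ (c.e' * f) % 2 ^ c.e' + 1 < 2 ^ c.e'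
/-- Safe flat indices. -/
def Safe (i : ℕ) : Prop := c.safeY (i / c.R / c.R % c.R) ∧ c.safeW (i % c.R)
/-- All fields hold a position inside a segment, in round `r`. -/
def validY (r y : ℕ) : Prop := c.safeY y ∧
  ∀ f < c.m, y / 2 ^ (c.F * f) % 2 ^ c.a < nseg c.a (c.q (r * c.m + f)) * c.q (r * c.m + f)

instance : DecidablePred c.safeY := fun _ => by unfold safeY; infer_instance
instance : DecidablePred c.safeW := fun _ => by unfold safeW; infer_instance
instance : DecidablePred c.Safe := fun _ => by unfold Safe; infer_instance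
instance (r : ℕ) : DecidablePred (c.validY r) := fun _ => by unfold validY; infer_instance

/-- Admissible parameters. -/
structure ok : Prop where
  d0 : D0 ∣ c.μ + 1
  mu2 : 2 ≤ c.μ
  mu_lo : c.R ≤ c.μ ^ 289 ^ c.r1
  mu_hi : c.μ ^ 289 ^ c.r1 ≤ 2 * c.R
  mu_b : c.b + 2 ≤ Nat.log 2 c.μ ^ 2
  m_pos : 0 < c.m
  fm : c.F * c.m ≤ c.s
  ee : 4 * c.m * (2 ^ c.e' + 1) ≤ 2 ^ c.e
  ee' : 4 * c.m ≤ 2 ^ c.e'
  qa : ∀ f, 12 * c.m * c.q f ≤ 2 ^ c.a
  cop : c.qs.Pairwise Nat.Coprime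
  odd : ∀ q ∈ c.qs, Odd q
  len : c.qs.length ≤ c.ρ * c.m
  mr : 2 * c.M ≤ c.R
  rm : c.R ≤ 6 * c.M
  w_eq : c.w = 12 * c.G
  w_le : c.w ≤ c.s ^ 3
  a_le : 2 ^ c.a ≤ c.s ^ 5
  rho_pos : 0 < c.ρ
  rho_le : c.ρ ≤ c.s
  len_le : c.qs.length ≤ c.s
  lg : 3 * c.s + 30 * (c.r1 + c.r2) + 8 ≤ c.G

/-- Arrays made of whole cubes, with a batch that the exchange can use. -/
def Good (l : List ℕ) : Prop :=
  (∃ A, 0 < A ∧ Wn ^ c.r1 ∣ A ∧ A ≤ c.E ∧ l.length = A * c.R * c.R * c.R) ∧ Bd c.P l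

/-- Arrays of full length. -/
def Full (l : List ℕ) : Prop := l.length = c.E * c.R * c.R * c.R ∧ Bd c.P l

/-- The array approximates `v` at the indices whose three digits are below `M`. -/
def Std (l : List ℕ) (v : ℕ → ℕ → ℕ → ℕ → ℂ) (β η : ℕ) : Prop :=
  c.Full l ∧ ∀ e < c.E, ∀ y < c.M, ∀ x < c.M, ∀ z < c.M,
    Near c.w (gt l (((e * c.R + y) * c.R + x) * c.R + z)) (v e y x z) β η

end Cf

/-- Rotation of the digit `y` in the index `(a, y, x, z)` by an amount depending on the number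
`(a, z, x)`. -/
def upper (R : ℕ) (f : ℕ → ℕ) (l : List ℕ) : List ℕ := swap R R 1 (shear R R 1 f (swap R R 1 l))

/-- The gate on bit `j` of the fields `f0, …, f0 + t - 1`, at safe indices. -/
def gten (c : Cf) (j f0 t : ℕ) (l : List ℕ) : List ℕ :=
  tab l.length fun i => if c.Safe i then
    (gall (im c.w) (hm c.w) (c.pos j) f0 t (fun i => (gt l i : ZMod (Pm c.w))) i).val else 0

end Vale.Agent.P338
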