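import Vale.Agent.P338.Word
import Vale.Agent.P338.Arr

/-! Entrywise word operations on arrays, and the product along the batch index. -/

namespace Vale.Agent.P338

open Finset

theorem cv_gt_zip (f : ℕ → ℕ → ℕ) {l l' : List ℕ} {i : ℕ} (h : i < l.length) (h' : i < l'.length) :
    gt (List.zipWith f l l') i = f (gt l i) (gt l' i) := by
  rw [gt_eq h, gt_eq h', gt_eq (by simp [h, h']), List.getElem_zipWith]

theorem cv_bd_zip {B : ℕ} {f : ℕ → ℕ → ℕ} (h : ∀ x y, f x y < B) (l l' : List ℕ) :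
    Bd B (List.zipWith f l l') := fun x hx => by
  obtain ⟨i, hi, rfl⟩ := List.getElem_of_mem hx
  rw [List.getElem_zipWith]
  exact h _ _

theorem cv_gt_map (f : ℕ → ℕ) {l : List ℕ} {i : ℕ} (h : i < l.length) :
    gt (l.map f) i = f (gt l i) := by
  rw [gt_eq h, gt_eq (by simpa using h), List.getElem_map]

theorem cv_bd_map {B : ℕ} {f : ℕ → ℕ} (h : ∀ x, f x < B) (l : List ℕ) : Bd B (l.map f) :=
  fun x hx => by
    obtain ⟨y, -, rfl⟩ := List.mem_map.1 hx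
    exact h y

theorem cv_fold (w n : ℕ) (T : ℕ → List ℕ) (L : List ℕ) (hT : ∀ d ∈ L, (T d).length = n) :
    ∀ s : List ℕ, s.length = n → Bd (Pm w) s →
      (L.foldl (fun s d => List.zipWith (addW w) s (T d)) s).length = n ∧
      Bd (Pm w) (L.foldl (fun s d => List.zipWith (addW w) s (T d)) s) ∧ ∀ i < n,
      gt (L.foldl (fun s d => List.zipWith (addW w) s (T d)) s) i =
        L.foldl (fun s d => addW w s (gt (T d) i)) (gt s i) := by
  induction L with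
  | nil => exact fun s h1 h2 => ⟨h1, h2, fun _ _ => rfl⟩
  | cons d L ih =>
    intro s h1 _
    have h3 := hT d (by simp)
    obtain ⟨e1, e2, e3⟩ := ih (fun d hd => hT d (by simp [hd])) (List.zipWith (addW w) s (T d))
      (by simp [h1, h3]) (cv_bd_zip (addW_lt w) _ _)
    refine ⟨e1, e2, fun i hi => ?_⟩
    rw [List.foldl_cons, e3 i hi, List.foldl_cons, cv_gt_zip _ (h1 ▸ hi) (h3 ▸ hi)]

/-- The term number `d` of the product along the batch index. -/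
def cvT (f : ℕ → ℕ → ℕ) (N E : ℕ) (X Y : List ℕ) (d : ℕ) : List ℕ :=
  List.zipWith f (List.replicate E (piece N d X)).flatten (List.replicate (d * N) 0 ++ Y)

/-- The product along the batch index. -/
def cvP (w : ℕ) (f : ℕ → ℕ → ℕ) (N E : ℕ) (X Y : List ℕ) : List ℕ :=
  (List.range E).foldl (fun s d => List.zipWith (addW w) s (cvT f N E X Y d)) (X.map fun _ => 0)

theorem cvT_rep {N E d : ℕ} {X : List ℕ} (hX : X.length = E * N) (hd : d < E) :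
    (List.replicate E (piece N d X)).flatten.length = E * N := by
  rw [length_flatten_of (n := N) _ fun x hx => by
    rw [List.eq_of_mem_replicate hx, length_piece hX hd], List.length_replicate]

theorem length_cvT (f : ℕ → ℕ → ℕ) {N E d : ℕ} {X Y : List ℕ} (hX : X.length = E * N)
    (hY : Y.length = E * N) (hd : d < E) : (cvT f N E X Y d).length = E * N := by
  rw [cvT, List.length_zipWith, cvT_rep hX hd, List.length_append, hY]
  omega

theorem gt_cvT (f : ℕ → ℕ → ℕ) {N E d e i : ℕ} {X Y : List ℕ} (hX : X.length = E * N)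
    (hY : Y.length = E * N) (hd : d < E) (he : e < E) (hi : i < N) :
    gt (cvT f N E X Y d) (e * N + i) =
      f (gt X (d * N + i)) (if d ≤ e then gt Y ((e - d) * N + i) else 0) := by
  have h1 := idx_lt he hi
  rw [cvT, cv_gt_zip _ (by rwa [cvT_rep hX hd]) (by rw [List.length_append, hY]; omega),
    gt_flatten _ (fun x hx => by rw [List.eq_of_mem_replicate hx, length_piece hX hd]) _ hi,
    List.getD_replicate _ he, gt_piece _ hi]
  refine congrArg _ ?_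
  split_ifs with h
  · obtain ⟨k, rfl⟩ := Nat.exists_eq_add_of_le h
    simp only [gt, List.getD_eq_getElem?_getD]
    rw [List.getElem?_append_right (by rw [List.length_replicate, add_mul]; omega),
      List.length_replicate, Nat.add_sub_cancel_left, add_mul, add_assoc, Nat.add_sub_cancel_left]
  · have h2 := idx_lt (not_le.1 h) hi
    simp only [gt, List.getD_eq_getElem?_getD]
    rw [List.getElem?_append_left (by rwa [List.length_replicate])]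
    simp [h2]

theorem cvP_spec {w n β η N E : ℕ} (f : ℕ → ℕ → ℕ) {X Y : List ℕ} (hX : X.length = E * N)
    (hY : Y.length = E * N) (hE : E ≤ 2 ^ n) :
    (cvP w f N E X Y).length = E * N ∧ Bd (Pm w) (cvP w f N E X Y) ∧
      ∀ e < E, ∀ i < N, ∀ v : ℕ → ℂ, (∀ d < E, Near w (f (gt X (d * N + i))
        (if d ≤ e then gt Y ((e - d) * N + i) else 0)) (v d) β η) →
        Near w (gt (cvP w f N E X Y) (e * N + i)) (∑ d ∈ range E, v d) (β + n) (η + n) := by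
  obtain ⟨h1, h2, h3⟩ := cv_fold w (E * N) (cvT f N E X Y) (List.range E)
    (fun d hd => length_cvT f hX hY (List.mem_range.1 hd)) (X.map fun _ => 0) (by simpa using hX)
    (cv_bd_map (fun _ => Nat.succ_pos _) _)
  refine ⟨h1, h2, fun e he i hi v hv => ?_⟩
  have h4 := near_foldl_addW (w := w) (n := n) (β := β) (η := η)
    ((List.range E).map fun d => (gt (cvT f N E X Y d) (e * N + i), v d)) (by simpa using hE)
    fun p hp => by
      obtain ⟨d, hd, rfl⟩ := List.mem_map.1 hp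
      rw [gt_cvT f hX hY (List.mem_range.1 hd) he hi]
      exact hv d (List.mem_range.1 hd)
  rw [List.foldl_map, List.map_map] at h4
  rw [cvP, h3 _ (idx_lt he hi), cv_gt_map _ (hX ▸ idx_lt he hi)]
  exact h4

/-- The class of operations on two words. -/
abbrev cvW : Cls ((ℕ × ℕ) × ℕ × ℕ) :=
  big (fun p => p.1.1 < Pm p.2.1 ∧ p.1.2 < Pm p.2.1 ∧ p.2.2 ≤ p.2.1) (fun p => kc (2 * p.2.1 + 1))

instance : Dom cvW := ⟨big_of_le 12 8 fun ⟨⟨x, y⟩, w, σ⟩ ⟨h1, h2, h3⟩ => by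
  have e1 := sz_nat_lt (h1.trans_le (Pm_le _))
  have e2 := sz_nat_lt (h2.trans_le (Pm_le _))
  have e3 := sz_nat_le w
  have e4 := sz_nat_le σ
  have e5 := le_kc (2 * w + 1)
  simp only [sz_pair] at *
  omega⟩

theorem cvW_mem : cvW.mem fun p => p.2.1 :=
  big_of_le 1 0 fun p _ => by have := le_kc (2 * p.2.1 + 1); omega

variable {ι : Type} [Enc ι] {𝒯 : Cls ι} [Dom 𝒯]

theorem cv_zipT {g : ℕ → ℕ → ℕ → ℕ → ℕ} (hg : Tm cvW fun p => g p.2.1 p.2.2 p.1.1 p.1.2)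
    {w σ : ι → ℕ} {l l' : ι → List ℕ} (hw : Tm 𝒯 w) (hσ : Tm 𝒯 σ) (hl : Tm 𝒯 l) (hl' : Tm 𝒯 l')
    (h : ∀ i, 𝒯.dom i → σ i ≤ w i ∧ Bd (Pm (w i)) (l i) ∧ Bd (Pm (w i)) (l' i))
    (hm : 𝒯.mem fun i => (l i).length * kc (2 * w i + 1)) :
    Tm 𝒯 fun i => List.zipWith (g (w i) (σ i)) (l i) (l' i) :=
  Tm.zipWithU (g := fun e : ℕ × ℕ => g e.1 e.2) hg hl hl' (hw.pair hσ)
    (fun i hi x hx y hy => ⟨⟨(h i hi).2.1 x hx, (h i hi).2.2 y hy, (h i hi).1⟩, le_rfl⟩) hm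

theorem cv_mapT {g : ℕ → ℕ → ℕ → ℕ} (hg : Tm cvW fun p => g p.2.1 p.2.2 p.1.1)
    {w σ : ι → ℕ} {l : ι → List ℕ} (hw : Tm 𝒯 w) (hσ : Tm 𝒯 σ) (hl : Tm 𝒯 l)
    (h : ∀ i, 𝒯.dom i → σ i ≤ w i ∧ Bd (Pm (w i)) (l i))
    (hm : 𝒯.mem fun i => (l i).length * kc (2 * w i + 1)) :
    Tm 𝒯 fun i => (l i).map (g (w i) (σ i)) :=
  (cv_zipT (g := fun w σ x _ => g w σ x) hg hw hσ hl hl
    (fun i hi => ⟨(h i hi).1, (h i hi).2, (h i hi).2⟩) hm).congr fun _ _ => by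
      rw [List.zipWith_self]

theorem cvW_add : Tm cvW fun p => addW p.2.1 p.1.1 p.1.2 :=
  Tm.addW (by fun_prop) cvW_mem (by fun_prop) (by fun_prop) fun _ h => ⟨h.1, h.2.1⟩

theorem cvW_shl : Tm cvW fun p => shlW p.2.1 p.2.2 p.1.1 :=
  Tm.shlW (by fun_prop) cvW_mem (by fun_prop) (by fun_prop) fun _ h => ⟨h.1, by have := h.2.2; omega⟩

/-- The class of one step of the product. -/
abbrev cvS : Cls (ℕ × List ℕ × (ℕ × ℕ) × (ℕ × ℕ) × List ℕ × List ℕ) :=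
  big (fun ⟨d, s, ⟨w, σ⟩, ⟨N, E⟩, X, Y⟩ => σ ≤ w ∧ d < E ∧ 0 < N ∧ E * N < 2 ^ w ∧
      s.length = E * N ∧ X.length = E * N ∧ Y.length = E * N ∧
      Bd (Pm w) s ∧ Bd (Pm w) X ∧ Bd (Pm w) Y)
    (fun p => p.2.1.length * kc (2 * p.2.2.1.1 + 1))

theorem cv_sz {w n : ℕ} {l : List ℕ} (h : Bd (Pm w) l) (hn : l.length ≤ n) :
    sz l ≤ 6 * (n * kc (2 * w + 1)) + 2 := by
  have h1 := (h.mono (Pm_le w)).sz_le
  have h2 := le_kc (2 * w + 1)
  have h3 : l.length * (4 * (2 * w + 1) + 2) ≤ n * (6 * kc (2 * w + 1)) :=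
    Nat.mul_le_mul hn (by omega)
  linarith

instance : Dom cvS := ⟨big_of_le 28 16 fun ⟨d, s, ⟨w, σ⟩, ⟨N, E⟩, X, Y⟩
    ⟨h1, h2, h3, h4, h5, h6, h7, h8, h9, h10⟩ => by
  have e1 := cv_sz h8 h5.le
  have e2 := cv_sz h9 h6.le
  have e3 := cv_sz h10 h7.le
  have e4 := sz_nat_le w
  have e5 := sz_nat_le σ
  have e6 : E ≤ E * N := Nat.le_mul_of_pos_right _ h3
  have e7 : N ≤ E * N := Nat.le_mul_of_pos_left _ (by omega)
  have e8 := sz_nat_lt (e6.trans_lt h4)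
  have e9 := sz_nat_lt (e7.trans_lt h4)
  have e10 := sz_nat_lt (h2.trans (e6.trans_lt h4))
  have e11 := le_kc (2 * w + 1)
  have e12 : kc (2 * w + 1) ≤ E * N * kc (2 * w + 1) := Nat.le_mul_of_pos_left _ (by omega)
  simp only [sz_pair, h5]
  omega⟩

theorem cvS_step {g : ℕ → ℕ → ℕ → ℕ → ℕ} (hg : Tm cvW fun p => g p.2.1 p.2.2 p.1.1 p.1.2)
    (hb : ∀ w σ x y, g w σ x y < Pm w) : Tm cvS fun p => List.zipWith (addW p.2.2.1.1) p.2.1
      (cvT (g p.2.2.1.1 p.2.2.1.2) p.2.2.2.1.1 p.2.2.2.1.2 p.2.2.2.2.1 p.2.2.2.2.2 p.1) := by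
  have hdN : Tm cvS fun p => p.1 * p.2.2.2.1.1 := by
    refine Tm.kmul (b := fun p => 2 * p.2.2.1.1 + 1) (by fun_prop) (by fun_prop) ?_
      (big_of_le 1 0 ?_)
    · rintro ⟨d, s, ⟨w, σ⟩, ⟨N, E⟩, X, Y⟩ ⟨h1, h2, h3, h4, -⟩
      have e6 : E ≤ E * N := Nat.le_mul_of_pos_right _ h3
      have e7 : N ≤ E * N := Nat.le_mul_of_pos_left _ (by omega)
      have e8 : 2 ^ w ≤ 2 ^ (2 * w + 1) := Nat.pow_le_pow_right two_pos (by omega)
      constructor <;> dsimp only <;> omega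
    · rintro ⟨d, s, ⟨w, σ⟩, ⟨N, E⟩, X, Y⟩ ⟨h1, h2, h3, h4, h5, -⟩
      rw [one_mul, add_zero]
      exact Nat.le_mul_of_pos_left _ (h5 ▸ Nat.mul_pos (by omega) h3)
  have h1 : Tm cvS fun p => (List.replicate p.2.2.2.1.2
      (piece p.2.2.2.1.1 p.1 p.2.2.2.2.1)).flatten := by
    refine (Tm.replicate (by fun_prop) (Tm.take (by fun_prop) (Tm.drop hdN (by fun_prop)))
      (big_of_le 8 0 ?_)).flatten
    rintro ⟨d, s, ⟨w, σ⟩, ⟨N, E⟩, X, Y⟩ ⟨h1, h2, h3, h4, h5, h6, h7, h8, h9, h10⟩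
    have e1 := Nat.mul_le_mul_left E (cv_sz (bd_piece (n := N) (w := d) h9) (length_piece h6 h2).le)
    have e2 : E * 1 ≤ E * (N * kc (2 * w + 1)) := Nat.mul_le_mul_left _
      (Nat.mul_pos h3 (by have := le_kc (2 * w + 1); omega))
    dsimp only [piece] at *
    rw [h5]
    linarith
  have h2 : Tm cvS fun p => List.replicate (p.1 * p.2.2.2.1.1) 0 ++ p.2.2.2.2.2 := by
    refine (Tm.replicate hdN (Tm.const 0) (big_of_le 2 0 ?_)).append (by fun_prop)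
    rintro ⟨d, s, ⟨w, σ⟩, ⟨N, E⟩, X, Y⟩ ⟨h1, h2, h3, h4, h5, -⟩
    have e1 : d * N * 1 ≤ E * N * kc (2 * w + 1) := Nat.mul_le_mul (Nat.mul_le_mul_right _ h2.le)
      (by have := le_kc (2 * w + 1); omega)
    have e2 : sz (0 : ℕ) = 2 := rfl
    dsimp only
    rw [h5, e2]
    omega
  refine cv_zipT (g := fun w _ => addW w) (σ := fun p => p.2.2.1.2) cvW_add (by fun_prop)
    (by fun_prop) (by fun_prop) (cv_zipT hg (by fun_prop) (by fun_prop) h1 h2 ?_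
      (big_of_le 1 0 ?_)) ?_ (big_self _ _)
  · rintro ⟨d, s, ⟨w, σ⟩, ⟨N, E⟩, X, Y⟩ ⟨h1, h2, h3, h4, h5, h6, h7, h8, h9, h10⟩
    refine ⟨h1, fun x hx => ?_, fun x hx => ?_⟩
    · obtain ⟨y, hy, hx⟩ := List.mem_flatten.1 hx
      exact bd_piece h9 x (List.eq_of_mem_replicate hy ▸ hx)
    · rcases List.mem_append.1 hx with hx | hx
      · rw [List.eq_of_mem_replicate hx]; exact Nat.succ_pos _
      · exact h10 x hx
  · rintro ⟨d, s, ⟨w, σ⟩, ⟨N, E⟩, X, Y⟩ ⟨h1, h2, h3, h4, h5, h6, -⟩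
    dsimp only
    rw [cvT_rep h6 h2, h5]
    omega
  · rintro ⟨d, s, ⟨w, σ⟩, ⟨N, E⟩, X, Y⟩ ⟨h1, h2, h3, h4, h5, h6, h7, h8, -⟩
    exact ⟨h1, h8, cv_bd_zip (hb _ _) _ _⟩

theorem cvP_tm {g : ℕ → ℕ → ℕ → ℕ → ℕ} (hg : Tm cvW fun p => g p.2.1 p.2.2 p.1.1 p.1.2)
    (hb : ∀ w σ x y, g w σ x y < Pm w) {w σ N E : ι → ℕ} {X Y : ι → List ℕ} (hw : Tm 𝒯 w)
    (hσ : Tm 𝒯 σ) (hN : Tm 𝒯 N) (hE : Tm 𝒯 E) (hE' : Tm 𝒯 fun i => List.range (E i)) (hX : Tm 𝒯 X)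
    (hY : Tm 𝒯 Y) (h : ∀ i, 𝒯.dom i → σ i ≤ w i ∧ 0 < N i ∧ E i * N i < 2 ^ w i ∧
      (X i).length = E i * N i ∧ (Y i).length = E i * N i ∧ Bd (Pm (w i)) (X i) ∧
      Bd (Pm (w i)) (Y i))
    (hm : 𝒯.mem fun i => E i * (E i * N i * kc (2 * w i + 1))) :
    Tm 𝒯 fun i => cvP (w i) (g (w i) (σ i)) (N i) (E i) (X i) (Y i) := by
  refine (Tm.foldlU (cvS_step hg hb) hE' (Tm.map0 (g := fun _ => 0) (Tm.const 0) hX)
    ((hw.pair hσ).pair ((hN.pair hE).pair (hX.pair hY)))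
    (fun i s => s.length = E i * N i ∧ Bd (Pm (w i)) s)
    (c := fun i => E i * N i * kc (2 * w i + 1)) (fun i hi => ?_) (fun i hi d hd s hs => ?_)
    (by simpa using hm)).congr fun _ _ => rfl
  · exact ⟨by simpa using (h i hi).2.2.2.1, cv_bd_map (fun _ => Nat.succ_pos _) _⟩
  · obtain ⟨h1, h2, h3, h4, h5, h6, h7⟩ := h i hi
    have hd := List.mem_range.1 hd
    refine ⟨⟨h1, hd, h2, h3, hs.1, h4, h5, hs.2, h6, h7⟩, by rw [hs.1], ?_,
      cv_bd_zip (addW_lt _) _ _⟩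
    rw [List.length_zipWith, length_cvT _ h4 h5 hd, hs.1, min_self]

end Vale.Agent.P338
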