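import Vale.Agent.P338.Round
import Vale.Agent.P338.ConvB

/-! Exact convolution of arrays of small naturals. -/

namespace Vale.Agent.P338

open Finset

/-- The transform in three variables. -/
noncomputable def cvD (qs : List ℕ) (fl : Bool) (v : ℕ → ℕ → ℕ → ℂ) (y x z : ℕ) : ℂ :=
  dft qs fl (fun y' => dft qs fl (fun z' => dft qs fl (fun x' => v y' x' z') x) z) y

theorem cvD_sum (qs : List ℕ) (fl : Bool) (s : Finset ℕ) (a : ℕ → ℂ) (v : ℕ → ℕ → ℕ → ℕ → ℂ)
    (y x z : ℕ) : cvD qs fl (fun y x z => ∑ i ∈ s, a i * v i y x z) y x z =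
      ∑ i ∈ s, a i * cvD qs fl (v i) y x z := by
  simp only [cvD, dft_sum]

theorem cvD_smul (qs : List ℕ) (fl : Bool) (a : ℂ) (v : ℕ → ℕ → ℕ → ℂ) (y x z : ℕ) :
    cvD qs fl (fun y x z => a * v y x z) y x z = a * cvD qs fl v y x z := by
  simpa using cvD_sum qs fl {0} (fun _ => a) (fun _ => v) y x z

/-- All rounds. -/
def cvR (rd : Cf → ℕ → Bool → List ℕ → List ℕ) (c : Cf) (fl : Bool) (l : List ℕ) : List ℕ :=
  (List.range c.ρ).foldl (fun y r => rd c r fl y) l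

/-- All rounds in the three directions. -/
def cvTr (rd : Cf → ℕ → Bool → List ℕ → List ℕ) (c : Cf) (fl : Bool) (l : List ℕ) : List ℕ :=
  swap c.R 1 c.R (cvR rd c fl (swap c.R 1 c.R (swap c.R 1 1 (cvR rd c fl (swap c.R 1 1
    (cvR rd c fl l))))))

section pure
variable {c : Cf} {l : List ℕ} {v v' : ℕ → ℕ → ℕ → ℕ → ℂ} {β η : ℕ}

theorem cv_full_swap (h : c.Full l) (B C : ℕ) : c.Full (swap c.R B C l) :=
  ⟨(length_swap _ _ _ _).trans h.1, bd_swap h.2 c.P_pos⟩

theorem cv_congr (h : c.Std l v β η)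
    (e : ∀ e < c.E, ∀ y < c.M, ∀ x < c.M, ∀ z < c.M, v' e y x z = v e y x z) : c.Std l v' β η :=
  ⟨h.1, fun a ha y hy x hx z hz => e a ha y hy x hx z hz ▸ h.2 a ha y hy x hx z hz⟩

theorem cv_swapXW (hc : c.ok) (h : c.Std l v β η) :
    c.Std (swap c.R 1 1 l) (fun e y x z => v e y z x) β η := by
  refine ⟨cv_full_swap h.1 _ _, fun e he y hy x hx z hz => ?_⟩
  have := hc.mr
  have h1 := gt_swap (A := c.E * c.R) (R := c.R) (B := 1) (C := 1) (l := l) (by simp [h.1.1])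
    (idx_lt he (by omega : y < c.R)) (by omega : x < c.R) one_pos (by omega : z < c.R) one_pos
  simp only [mul_one, add_zero] at h1
  rw [h1]
  exact h.2 e he y hy z hz x hx

theorem cv_swapYX (hc : c.ok) (h : c.Std l v β η) :
    c.Std (swap c.R 1 c.R l) (fun e y x z => v e x y z) β η := by
  refine ⟨cv_full_swap h.1 _ _, fun e he y hy x hx z hz => ?_⟩
  have := hc.mr
  have h1 := gt_swap (A := c.E) (R := c.R) (B := 1) (C := c.R) (l := l) (by simp [h.1.1])
    he (by omega : y < c.R) one_pos (by omega : x < c.R) (by omega : z < c.R)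
  simp only [mul_one, add_zero] at h1
  rw [h1]
  exact h.2 e he x hx y hy z hz

variable {rd : Cf → ℕ → Bool → List ℕ → List ℕ}
  (hrd : ∀ (c : Cf) (r : ℕ) (fl : Bool) (l : List ℕ), c.ok → r < c.ρ → c.Full l →
    c.Full (rd c r fl l) ∧ ∀ (v : ℕ → ℕ → ℕ → ℕ → ℂ) (β η : ℕ), 2 ≤ η → η ≤ β →
    β + c.T + 4 ≤ c.w → c.Std l v β η →
    c.Std (rd c r fl l) (fun e y x z => (List.range c.m).foldl
      (fun u f => dft1 c.qs fl (r * c.m + f) u) (fun x => v e y x z) x) (β + c.T) (η + c.T))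
include hrd

theorem cvR_std (hc : c.ok) (fl : Bool) (h : c.Std l v β η) (h1 : 2 ≤ η) (h2 : η ≤ β)
    (h3 : β + c.ρ * c.T + 4 ≤ c.w) : c.Std (cvR rd c fl l)
      (fun e y x z => dft c.qs fl (fun x => v e y x z) x) (β + c.ρ * c.T) (η + c.ρ * c.T) := by
  have key : ∀ n ≤ c.ρ, c.Std ((List.range n).foldl (fun y r => rd c r fl y) l)
      (fun e y x z => (List.range (n * c.m)).foldl (fun u f => dft1 c.qs fl f u)
        (fun x => v e y x z) x) (β + n * c.T) (η + n * c.T) := by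
    intro n
    induction n with
    | zero => intro _; simpa using h
    | succ n ih =>
      intro hn
      have h4 := ih (by omega)
      have h5 : (n + 1) * c.T ≤ c.ρ * c.T := Nat.mul_le_mul_right _ hn
      rw [add_mul, one_mul] at h5
      have h6 := (hrd c n fl _ hc hn h4.1).2 _ _ _ (by omega) (by omega) (by omega) h4
      rw [List.range_succ, List.foldl_append, add_mul, add_mul, one_mul, one_mul, List.range_add,
        ← add_assoc, ← add_assoc]
      simp only [List.foldl_append, List.foldl_map]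
      exact h6
  exact cv_congr (key _ le_rfl) fun e _ y _ x hx z _ =>
    (dft1_all hc.cop hc.pos hc.len fl _ hx).symm

theorem cvR_full (hc : c.ok) (fl : Bool) (h : c.Full l) : c.Full (cvR rd c fl l) :=
  List.foldlRecOn _ _ h fun _ hy r hr => (hrd c r fl _ hc (List.mem_range.1 hr) hy).1

theorem cvTr_std (hc : c.ok) (fl : Bool) (h : c.Std l v β η) (h1 : 2 ≤ η) (h2 : η ≤ β)
    (h3 : β + c.G + 4 ≤ c.w) :
    c.Std (cvTr rd c fl l) (fun e => cvD c.qs fl (v e)) (β + c.G) (η + c.G) := by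
  have hG : c.G = c.ρ * c.T + c.ρ * c.T + c.ρ * c.T := by rw [Cf.G]; ring
  have e1 := cv_swapXW hc (cvR_std hrd hc fl h h1 h2 (by omega))
  have e2 := cv_swapYX hc (cv_swapXW hc (cvR_std hrd hc fl e1 (by omega) (by omega) (by omega)))
  have e3 := cv_swapYX hc (cvR_std hrd hc fl e2 (by omega) (by omega) (by omega))
  rw [hG, ← add_assoc, ← add_assoc, ← add_assoc, ← add_assoc]
  exact e3

theorem cvTr_full (hc : c.ok) (fl : Bool) (h : c.Full l) : c.Full (cvTr rd c fl l) :=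
  cv_full_swap (cvR_full hrd hc fl (cv_full_swap (cv_full_swap (cvR_full hrd hc fl
    (cv_full_swap (cvR_full hrd hc fl h) _ _)) _ _) _ _)) _ _

omit hrd in
theorem cv_start (hc : c.ok) (h1 : l.length = c.E * c.R * c.R * c.R) (h2 : Bd (2 ^ c.G) l) :
    c.Std (l.map (shlW c.w (5 * c.G))) (fun e y x z => 2 ^ (5 * c.G) *
      (((gt l (((e * c.R + y) * c.R + x) * c.R + z) : ℕ) : ℝ) : ℂ)) (6 * c.G) 2 := by
  refine ⟨⟨by simpa using h1, cv_bd_map (shlW_lt _ _) _⟩, fun e he y hy x hx z hz => ?_⟩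
  have := hc.mr
  beta_reduce
  rw [cv_gt_map _ (h1 ▸ idx_lt (idx_lt (idx_lt he (by omega)) (by omega)) (by omega))]
  have h3 := h2.gt (by positivity) (((e * c.R + y) * c.R + x) * c.R + z)
  generalize gt l _ = a at h3 ⊢
  have h4 : a * 2 ^ (5 * c.G) ≤ 2 ^ (6 * c.G) := by
    rw [show 6 * c.G = c.G + 5 * c.G by ring, pow_add]
    exact Nat.mul_le_mul_right _ h3.le
  have h5 := near_nat c.w _ h4 2
  rw [shlW, Nat.mod_eq_of_lt (b := Pm c.w) (h4.trans_lt (Nat.lt_succ_of_le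
    (Nat.pow_le_pow_right two_pos (by rw [hc.w_eq]; omega))))]
  push_cast at h5 ⊢
  rwa [mul_comm (2 ^ _ : ℂ)]

end pure

theorem cv_sq (s : ℕ) : (s + 1) ^ 2 ≤ 4 * 2 ^ s := by
  induction s with
  | zero => norm_num
  | succ s ih => have := s.lt_two_pow_self; rw [pow_succ 2]; nlinarith

theorem cv_szc : ∃ C, ∀ (c : Cf) (l : List ℕ), c.ok → c.Full l → sz c ≤ C * l.length := by
  obtain ⟨C, h⟩ := Cf.ok.sz_le
  refine ⟨C * 64, fun c l hc hl => (h c hc).trans ?_⟩
  have h1 := Nat.pow_le_pow_left (cv_sq c.s) 3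
  have h2 : c.R * c.R * c.R ≤ c.E * (c.R * c.R * c.R) := Nat.le_mul_of_pos_left _ c.E_pos
  rw [mul_assoc, hl.1]
  refine Nat.mul_le_mul_left _ ?_
  rw [← pow_mul, mul_pow, show 2 ^ c.s = c.R from rfl, show 2 * 3 = 6 from rfl] at h1
  linarith

theorem cv_rc (c : Cf) : (c.b + 1) * c.sw ≤ c.rc ∧ kc c.b ≤ c.rc := by
  have h1 := Nat.mul_le_mul_left (c.b + 1) c.sw_le_gc
  have h2 : (c.b + 1) * c.gc + kc c.b ≤ c.rc := Nat.le_mul_of_pos_left _ (Nat.succ_pos _)
  omega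

/-- The class of one round. -/
abbrev cvC : Cls (ℕ × List ℕ × Cf × Bool) :=
  big (fun p => p.2.2.1.ok ∧ p.1 < p.2.2.1.ρ ∧ p.2.2.1.Full p.2.1)
    (fun p => p.2.1.length * p.2.2.1.rc)

instance : Dom cvC := by
  obtain ⟨C, hC⟩ := cv_szc
  refine ⟨big_of_le (C + 10) 8 fun ⟨r, l, c, fl⟩ ⟨h1, h2, h3⟩ => ?_⟩
  dsimp only at *
  have e0 := (cv_rc c).2
  have e1 := le_kc c.b
  have e2 := hC c l h1 h3
  have e3 := cv_sz (w := c.w) h3.2 le_rfl
  have e4 := sz_nat_le r
  have e5 := sz_bool fl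
  have e6 := h1.rho_le
  have e7 := h1.e'_le
  have e8 : 0 < l.length := by
    rw [h3.1]; have := c.E_pos; have := c.R_pos; positivity
  have e9 : c.b = 2 * c.w + 1 := rfl
  have e10 : l.length * kc c.b ≤ l.length * c.rc := Nat.mul_le_mul_left _ e0
  have e11 : C * l.length ≤ C * (l.length * c.rc) :=
    Nat.mul_le_mul_left _ (Nat.le_mul_of_pos_right _ (by omega))
  have e12 : c.rc ≤ l.length * c.rc := Nat.le_mul_of_pos_left _ e8
  rw [← e9] at e3
  simp only [sz_pair, add_mul]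
  omega

section tm
variable {rd : Cf → ℕ → Bool → List ℕ → List ℕ}
  (hrd : ∀ (c : Cf) (r : ℕ) (fl : Bool) (l : List ℕ), c.ok → r < c.ρ → c.Full l →
    c.Full (rd c r fl l) ∧ ∀ (v : ℕ → ℕ → ℕ → ℕ → ℂ) (β η : ℕ), 2 ≤ η → η ≤ β →
    β + c.T + 4 ≤ c.w → c.Std l v β η →
    c.Std (rd c r fl l) (fun e y x z => (List.range c.m).foldl
      (fun u f => dft1 c.qs fl (r * c.m + f) u) (fun x => v e y x z) x) (β + c.T) (η + c.T))
  (hT : Tm cvC fun p => rd p.2.2.1 p.1 p.2.2.2 p.2.1)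
  {ι : Type} [Enc ι] {𝒯 : Cls ι} [Dom 𝒯] {c : ι → Cf} {l : ι → List ℕ} (hc : Tm 𝒯 c)
  (hl : Tm 𝒯 l) (h : ∀ i, 𝒯.dom i → (c i).ok ∧ (c i).Full (l i))
  (hm : 𝒯.mem fun i => (c i).E * (c i).R * (c i).R * (c i).R * (c i).tc)
include hc hl h hm

theorem cv_arr : CArr 𝒯 c l :=
  ⟨hc, hl, fun i hi => (h i hi).1, fun i hi => (h i hi).2.good, 𝒯.mono hm fun i hi => by
    rw [(h i hi).2.1, mul_assoc]
    refine Nat.mul_le_mul_left _ ((cv_rc _).1.trans ?_)
    rw [Cf.tc, add_mul, one_mul]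
    omega⟩

include hrd hT

theorem cvR_tm (fl : Bool) : Tm 𝒯 fun i => cvR rd (c i) fl (l i) := by
  have h1 := (cv_arr hc hl h hm).cfT
  refine (Tm.foldlU hT (hc.cf_ρ.range (h1.mem_le 1 2 fun i hi => ?_)) hl (hc.pair (Tm.const fl))
    (fun i y => (c i).Full y) (c := fun i => (c i).E * (c i).R * (c i).R * (c i).R * (c i).rc)
    (fun i hi => (h i hi).2) (fun i hi r hr y hy => ?_) (𝒯.mono hm fun i hi => ?_)).congr
    fun _ _ => rfl
  · have h2 := (h i hi).1.rho_le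
    have h3 : (c i).ρ.size ≤ (c i).ρ := Nat.size_le.2 Nat.lt_two_pow_self
    nlinarith
  · have hr := List.mem_range.1 hr
    exact ⟨⟨(h i hi).1, hr, hy⟩, by rw [← hy.1], (hrd _ _ _ _ (h i hi).1 hr hy).1⟩
  · rw [List.length_range, mul_left_comm]
    refine Nat.mul_le_mul_left _ ?_
    rw [Cf.tc, add_mul]
    omega

theorem cvTr_tm (fl : Bool) : Tm 𝒯 fun i => cvTr rd (c i) fl (l i) := by
  have f1 := fun i hi => And.intro (h i hi).1 (cvR_full hrd (h i hi).1 fl (h i hi).2)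
  have f2 := fun i hi => And.intro (h i hi).1 (cv_full_swap (f1 i hi).2 1 1)
  have f3 := fun i hi => And.intro (h i hi).1 (cvR_full hrd (h i hi).1 fl (f2 i hi).2)
  have f4 := fun i hi => And.intro (h i hi).1
    (cv_full_swap (cv_full_swap (f3 i hi).2 1 1) 1 (c i).R)
  have f5 := fun i hi => And.intro (h i hi).1 (cvR_full hrd (h i hi).1 fl (f4 i hi).2)
  have t2 := (cv_arr hc (cvR_tm hrd hT hc hl h hm fl) f1 hm).swapXW.tl
  have t4 := (cv_arr hc (cvR_tm hrd hT hc t2 f2 hm fl) f3 hm).swapXW.swapYX.tl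
  exact (cv_arr hc (cvR_tm hrd hT hc t4 f4 hm fl) f5 hm).swapYX.tl

end tm

theorem exists_conv : ∃ cv : Cf → List ℕ → List ℕ → List ℕ,
    (∀ (c : Cf) (l l' : List ℕ), c.ok → l.length = c.E * c.R * c.R * c.R →
      l'.length = c.E * c.R * c.R * c.R → Bd (2 ^ c.G) l → Bd (2 ^ c.G) l' →
      c.Full (cv c l l') ∧ ∀ e < c.E, ∀ y < c.M, ∀ x < c.M, ∀ z < c.M,
        gt (cv c l l') (((e * c.R + y) * c.R + x) * c.R + z) =
          ∑ e' ∈ range (e + 1), ∑ a1 ∈ range c.M, ∑ a2 ∈ range c.M, ∑ a3 ∈ range c.M,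
            gt l (((e' * c.R + a1) * c.R + a2) * c.R + a3) *
            gt l' ((((e - e') * c.R + (y + c.M - a1) % c.M) * c.R + (x + c.M - a2) % c.M) * c.R
              + (z + c.M - a3) % c.M)) ∧
    ∀ {ι : Type} [Enc ι] {𝒯 : Cls ι} [Dom 𝒯] {c : ι → Cf} {l l' : ι → List ℕ},
      Tm 𝒯 c → Tm 𝒯 l → Tm 𝒯 l' →
      (∀ i, 𝒯.dom i → (c i).ok ∧ (l i).length = (c i).E * (c i).R * (c i).R * (c i).R ∧
        (l' i).length = (c i).E * (c i).R * (c i).R * (c i).R ∧ Bd (2 ^ (c i).G) (l i) ∧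
        Bd (2 ^ (c i).G) (l' i)) →
      𝒯.mem (fun i => (l i).length * (c i).tc) → Tm 𝒯 (fun i => cv (c i) (l i) (l' i)) := by
  obtain ⟨rd, hrd, hrT⟩ := exists_round
  obtain ⟨_, cm, out, -, hcm, hout, -, ncm, nout, hT⟩ := exists_mulW
  have hN : ∀ c : Cf, c.E * c.R * c.R * c.R = c.E * (c.R * c.R * c.R) := fun c => by ring
  have hP : ∀ (c : Cf) (X Y : List ℕ), c.Full X → c.Full Y →
      c.Full (cvP c.w (cm c.w (5 * c.G)) (c.R * c.R * c.R) c.E X Y) := fun c X Y hX hY => by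
    have := cvP_spec (w := c.w) (β := 0) (η := 0) (cm c.w (5 * c.G)) (hX.1.trans (hN c))
      (hY.1.trans (hN c)) c.E_eq.le
    exact ⟨this.1.trans (hN c).symm, this.2.1⟩
  refine ⟨fun c l l' => (cvTr rd c true (cvP c.w (cm c.w (5 * c.G)) (c.R * c.R * c.R) c.E
    (cvTr rd c false (l.map (shlW c.w (5 * c.G)))) (cvTr rd c false
      (l'.map (shlW c.w (5 * c.G)))))).map (out c.w (5 * c.G)),
    fun c l l' hc h1 h2 h3 h4 => ?_, fun {ι} _ {𝒯} _ {c l l'} hc hl hl' h hm => ?_⟩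
  · have hw := hc.w_eq
    have hg := hc.lg
    have hR := hc.mr
    have hX := cvTr_std hrd hc false (cv_start hc h1 h3) le_rfl (by omega) (by omega)
    have hY := cvTr_std hrd hc false (cv_start hc h2 h4) le_rfl (by omega) (by omega)
    simp only [Cf.Std, cvD_smul] at hX hY
    beta_reduce
    generalize cvTr rd c false (l.map _) = X at hX ⊢
    generalize cvTr rd c false (l'.map _) = Y at hY ⊢
    have hZ : c.Std (cvP c.w (cm c.w (5 * c.G)) (c.R * c.R * c.R) c.E X Y)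
        (fun e y x z => ∑ d ∈ range (e + 1), 2 ^ (5 * c.G) * (starRingEnd ℂ)
          (cvD c.qs false (fun y x z =>
            (((gt l (((d * c.R + y) * c.R + x) * c.R + z) : ℕ) : ℝ) : ℂ)) y x z *
          cvD c.qs false (fun y x z =>
            (((gt l' ((((e - d) * c.R + y) * c.R + x) * c.R + z) : ℕ) : ℝ) : ℂ)) y x z))
        (9 * c.G + 30 * (c.r1 + c.r2)) (3 * c.G + 5 + 30 * (c.r1 + c.r2)) := by
      refine ⟨hP c X Y hX.1 hY.1, fun e he y hy x hx z hz => ?_⟩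
      have ei : ∀ e, ((e * c.R + y) * c.R + x) * c.R + z =
          e * (c.R * c.R * c.R) + ((y * c.R + x) * c.R + z) := fun e => by ring
      beta_reduce
      rw [← Finset.sum_subset_zero_on_sdiff (s₂ := range c.E) (range_subset_range.2 he)
        (g := fun d => if d ≤ e then _ else 0) (fun d hd => if_neg (by simp at hd; omega))
        (fun d hd => (if_pos (by simp at hd; omega)).symm) |>.symm, ei]
      refine (cvP_spec _ (hX.1.1.trans (hN c)) (hY.1.1.trans (hN c)) c.E_eq.le).2.2 e he _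
        (idx_lt (idx_lt (by omega) (by omega)) (by omega)) _ fun d hd => ?_
      simp only [← ei]
      have k1 := hX.2 d hd y hy x hx z hz
      have k2 := hX.1.2.gt c.P_pos (((d * c.R + y) * c.R + x) * c.R + z)
      split_ifs with hde
      · have k3 := ncm _ (5 * c.G) _ _ _ _ _ _ (9 * c.G) (3 * c.G + 5) k2
          (hY.1.2.gt c.P_pos _) k1 (hY.2 (e - d) (by omega) y hy x hx z hz) (by omega) (by omega)
          (by omega) (by omega) (by omega) (by omega)
        refine Eq.mp (congrArg (Near _ _ · _ _) ?_) k3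
        simp only [map_mul, map_pow, map_ofNat]
        field_simp
      · have k3 := ncm _ (5 * c.G) _ _ _ _ _ _ (9 * c.G) (3 * c.G + 5) k2
          (Nat.succ_pos _) k1 (near_nat _ 0 (Nat.zero_le _) _) (by omega) (by omega)
          (by omega) (by omega) (by omega) (by omega)
        simpa using k3
    have hO := cvTr_std hrd hc true hZ (by omega) (by omega) (by omega)
    refine ⟨⟨by simpa using hO.1.1, cv_bd_map (hout _ _) _⟩, fun e he y hy x hx z hz => ?_⟩
    rw [cv_gt_map _ (hO.1.1 ▸ idx_lt (idx_lt (idx_lt he (by omega)) (by omega)) (by omega))]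
    refine nout _ _ _ _ _ _ (hO.1.2.gt c.P_pos _)
      (Eq.mp (congrArg (Near _ _ · _ _) ?_) (hO.2 e he y hy x hx z hz)) (by omega) (by omega)
      (by omega)
    beta_reduce
    rw [cvD_sum, Nat.cast_sum, Finset.mul_sum]
    refine Finset.sum_congr rfl fun d _ => congrArg _ ?_
    refine (dft_conv hc.cop hc.pos _ _ hy hx hz).trans ?_
    push_cast
    rfl
  · have hm' : 𝒯.mem fun i => (c i).E * (c i).R * (c i).R * (c i).R * (c i).tc :=
      𝒯.mono hm fun i hi => by rw [(h i hi).2.1]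
    have hk : ∀ {X : ι → List ℕ}, (∀ i, 𝒯.dom i → (X i).length =
        (c i).E * (c i).R * (c i).R * (c i).R) →
        𝒯.mem fun i => (X i).length * kc (2 * (c i).w + 1) := fun hX => 𝒯.mono hm' fun i hi => by
      rw [hX i hi]
      refine Nat.mul_le_mul_left _ ((cv_rc _).2.trans ?_)
      rw [Cf.tc, add_mul, one_mul]
      omega
    have hb : ∀ i, 𝒯.dom i → 5 * (c i).G ≤ (c i).w ∧ 2 ^ (c i).G ≤ Pm (c i).w := fun i hi => by
      have := (h i hi).1.w_eq
      exact ⟨by omega, Nat.le_succ_of_le (Nat.pow_le_pow_right two_pos (by omega))⟩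
    have hA := cv_arr hc hl (fun i hi => ⟨(h i hi).1, (h i hi).2.1,
      (h i hi).2.2.2.1.mono (hb i hi).2⟩) hm'
    have hσ := hA.cfT.G.cmul 5
    have hW := hT (𝒯 := cvW) (w := fun p => p.2.1) (σ := fun p => p.2.2) (x := fun p => p.1.1)
      (y := fun p => p.1.2) (d := fun _ => (0, 0)) (by fun_prop) (by fun_prop) (by fun_prop)
      (by fun_prop) (Tm.const _) (fun p hp => ⟨hp.1, hp.2.1, hp.2.2, by simp, by simp⟩)
      (big_self _ _)
    have hr : Tm cvC fun p => rd p.2.2.1 p.1 p.2.2.2 p.2.1 :=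
      hrT (by fun_prop) (by fun_prop) (by fun_prop) (by fun_prop) (fun _ h => h) (big_self _ _)
    have f1 := fun i hi => (cv_start (h i hi).1 (h i hi).2.1 (h i hi).2.2.2.1).1
    have f2 := fun i hi => (cv_start (h i hi).1 (h i hi).2.2.1 (h i hi).2.2.2.2).1
    have g1 := fun i hi => cvTr_full hrd (h i hi).1 false (f1 i hi)
    have g2 := fun i hi => cvTr_full hrd (h i hi).1 false (f2 i hi)
    have g3 := fun i hi => hP _ _ _ (g1 i hi) (g2 i hi)
    have g4 := fun i hi => cvTr_full hrd (h i hi).1 true (g3 i hi)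
    have t1 := cvTr_tm hrd hr hc (cv_mapT cvW_shl hc.cf_w hσ hl (fun i hi => ⟨(hb i hi).1,
      (h i hi).2.2.2.1.mono (hb i hi).2⟩) (hk fun i hi => (h i hi).2.1))
      (fun i hi => ⟨(h i hi).1, f1 i hi⟩) hm' false
    have t2 := cvTr_tm hrd hr hc (cv_mapT cvW_shl hc.cf_w hσ hl' (fun i hi => ⟨(hb i hi).1,
      (h i hi).2.2.2.2.mono (hb i hi).2⟩) (hk fun i hi => (h i hi).2.2.1))
      (fun i hi => ⟨(h i hi).1, f2 i hi⟩) hm' false
    have t3 := cvP_tm hW.2.1 hcm hc.cf_w hσ hA.cfT.RRR hA.cfT.E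
      (hA.arr.range hA.cfT.E fun i hi => by
        rw [(h i hi).2.1, hN]
        exact Nat.le_mul_of_pos_right _ (by have := (c i).R_pos; positivity)) t1 t2
      (fun i hi => ⟨(hb i hi).1, by have := (c i).R_pos; positivity, hN _ ▸ (h i hi).1.len_lt,
        (g1 i hi).1.trans (hN _), (g2 i hi).1.trans (hN _), (g1 i hi).2, (g2 i hi).2⟩)
      (𝒯.mono hm' fun i _ => by
        rw [← hN, mul_left_comm]
        exact Nat.mul_le_mul_left _ (Nat.le_add_left _ _))
    exact cv_mapT hW.2.2 hc.cf_w hσ (cvTr_tm hrd hr hc t3 (fun i hi => ⟨(h i hi).1, g3 i hi⟩)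
      hm' true) (fun i hi => ⟨(hb i hi).1, (g4 i hi).2⟩) (hk fun i hi => (g4 i hi).1)

end Vale.Agent.P338
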