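import Mathlib

/-! Deterministic multitape Turing machines with one-way infinite tapes, and the running time of
machines that multiply integers. -/

namespace Vale.Agent.P338

/-- Tape symbols: the blank, the two bits, the separator, and further work symbols. -/
inductive Sym (W : Type) : Type
  | blank : Sym W
  | bit : Bool → Sym W
  | sep : Sym W
  | work : W → Sym W

/-- Head moves. -/
inductive Move : Type
  | left : Move
  | stay : Move
  | right : Move

/-- New head position; a left move on the leftmost cell leaves the head there. -/
def Move.apply : Move → ℕ → ℕ
  | .left, i => i - 1
  | .stay, i => i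
  | .right, i => i + 1

/-- A deterministic machine with `k + 1` tapes, finitely many states and a finite alphabet.
The transition function reads the state and the scanned symbols; `none` means that the machine
halts, otherwise it gives the new state and, for every tape, the symbol written and the move. -/
structure TM : Type 1 where
  W : Type
  Q : Type
  finW : Finite W
  finQ : Finite Q
  k : ℕ
  out : Fin (k + 1)
  start : Q
  δ : Q → (Fin (k + 1) → Sym W) → Option (Q × (Fin (k + 1) → Sym W × Move))

/-- Configurations: state, tape contents, head positions. -/
structure Cfg (A : TM) : Type where
  q : A.Q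
  tape : Fin (A.k + 1) → ℕ → Sym A.W
  head : Fin (A.k + 1) → ℕ

/-- The symbols under the heads. -/
def Cfg.scan {A : TM} (c : Cfg A) : Fin (A.k + 1) → Sym A.W := fun j => c.tape j (c.head j)

/-- The machine has halted. -/
def Cfg.Halted {A : TM} (c : Cfg A) : Prop := A.δ c.q c.scan = none

/-- One step; a halted configuration does not change. -/
def Cfg.step {A : TM} (c : Cfg A) : Cfg A :=
  match A.δ c.q c.scan with
  | none => c
  | some r =>
    { q := r.1
      tape := fun j => Function.update (c.tape j) (c.head j) (r.2 j).1
      head := fun j => (r.2 j).2.apply (c.head j) }

/-- A word written from the leftmost cell on, followed by blanks. -/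
def written {W : Type} (w : List (Sym W)) : ℕ → Sym W := fun i => w.getD i Sym.blank

/-- Initial configuration: the word on the first tape, all other tapes blank, all heads on the
leftmost cell. -/
def TM.init (A : TM) (w : List (Sym A.W)) : Cfg A :=
  { q := A.start
    tape := fun j => if j = 0 then written w else fun _ => Sym.blank
    head := fun _ => 0 }

/-- The configuration after `t` steps on the input `w`. -/
def TM.after (A : TM) (w : List (Sym A.W)) (t : ℕ) : Cfg A := Cfg.step^[t] (A.init w)

/-- The input word: `x`, the separator, `y`. -/
def inputWord {W : Type} (x y : List Bool) : List (Sym W) :=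
  x.map Sym.bit ++ Sym.sep :: y.map Sym.bit

/-- Value of a binary string, leftmost bit most significant. -/
def val (x : List Bool) : ℕ := x.foldl (fun a b => 2 * a + b.toNat) 0

/-- Binary representation of `z` padded on the left to length `k`. -/
def bin (k z : ℕ) : List Bool := List.ofFn fun i : Fin k => z.testBit (k - 1 - i)

/-- The machine multiplies: on every input with two strings of the same length `n ≥ 1` it halts,
and the output tape then holds exactly the `2 n` bits of the product. -/
def TM.Multiplies (A : TM) : Prop :=
  ∀ n, 1 ≤ n → ∀ x y : List Bool, x.length = n → y.length = n →
    ∃ t, (A.after (inputWord x y) t).Halted ∧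
      (A.after (inputWord x y) t).tape A.out = written ((bin (2 * n) (val x * val y)).map Sym.bit)

/-- Number of steps until the machine halts on the input `w`. -/
noncomputable def TM.time (A : TM) (w : List (Sym A.W)) : ℕ := sInf {t | (A.after w t).Halted}

/-- Worst-case running time over pairs of strings of length `n`. -/
noncomputable def TM.T (A : TM) (n : ℕ) : ℕ :=
  Finset.univ.sup fun p : (Fin n → Bool) × (Fin n → Bool) =>
    A.time (inputWord (List.ofFn p.1) (List.ofFn p.2))

end Vale.Agent.P338
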