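import Mathlib

/-! Numbers cut into fields of `F` bits. -/

namespace Vale.Agent.P338

open Finset

/-- The number with the fields `d f`, `f < m`. -/
def pk (F m : ℕ) (d : ℕ → ℕ) : ℕ := ∑ f ∈ range m, d f * 2 ^ (F * f)

/-- Field `f` of `y`. -/
def fdg (F y f : ℕ) : ℕ := y / 2 ^ (F * f) % 2 ^ F

variable {F m s y y' : ℕ} {d d' : ℕ → ℕ}

theorem fdg_lt (F y f : ℕ) : fdg F y f < 2 ^ F := Nat.mod_lt _ (Nat.two_pow_pos F)

theorem pk_succ (F m : ℕ) (d : ℕ → ℕ) : pk F (m + 1) d = pk F m d + d m * 2 ^ (F * m) :=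
  sum_range_succ _ _

theorem pk_congr (h : ∀ f < m, d f = d' f) : pk F m d = pk F m d' :=
  sum_congr rfl fun f hf => by rw [h f (mem_range.1 hf)]

theorem pk_add (F m : ℕ) (d d' : ℕ → ℕ) :
    pk F m d + pk F m d' = pk F m fun f => d f + d' f := by
  simp only [pk, add_mul, sum_add_distrib]

theorem pk_lt (h : ∀ f < m, d f < 2 ^ F) : pk F m d < 2 ^ (F * m) := by
  induction m with
  | zero => simp [pk]
  | succ m ih =>
    have h1 := ih fun f hf => h f (by omega)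
    have h2 : (d m + 1) * 2 ^ (F * m) ≤ 2 ^ F * 2 ^ (F * m) :=
      Nat.mul_le_mul_right _ (h m (by omega))
    rw [pk_succ, mul_add F, mul_one, pow_add, mul_comm (2 ^ (F * m))]
    rw [add_mul] at h2
    omega

theorem eq_pk (F m y : ℕ) : y = y / 2 ^ (F * m) * 2 ^ (F * m) + pk F m (fdg F y) := by
  induction m with
  | zero => simp [pk]
  | succ m ih =>
    have h := Nat.div_add_mod (y / 2 ^ (F * m)) (2 ^ F)
    rw [pk_succ, mul_add F, mul_one, pow_add, ← Nat.div_div_eq_div_mul, fdg]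
    generalize y / 2 ^ (F * m) / 2 ^ F = u at *
    generalize y / 2 ^ (F * m) % 2 ^ F = v at *
    rw [← h] at ih
    linarith

theorem top_pk (t : ℕ) (h : ∀ f < m, d f < 2 ^ F) :
    (t * 2 ^ (F * m) + pk F m d) / 2 ^ (F * m) = t := by
  rw [mul_comm, Nat.mul_add_div (Nat.two_pow_pos _), Nat.div_eq_of_lt (pk_lt h), add_zero]

theorem fdg_pk (t : ℕ) (h : ∀ f < m, d f < 2 ^ F) {f : ℕ} (hf : f < m) :
    fdg F (t * 2 ^ (F * m) + pk F m d) f = d f := by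
  induction m generalizing t with
  | zero => omega
  | succ m ih =>
    have e : t * 2 ^ (F * (m + 1)) + pk F (m + 1) d =
        (t * 2 ^ F + d m) * 2 ^ (F * m) + pk F m d := by
      rw [pk_succ, mul_add F, mul_one, pow_add]; ring
    have h' : ∀ f < m, d f < 2 ^ F := fun f hf => h f (by omega)
    rw [e]
    rcases Nat.lt_succ_iff_lt_or_eq.1 hf with h1 | rfl
    · exact ih _ h' h1
    · rw [fdg, top_pk _ h', mul_comm, Nat.mul_add_mod, Nat.mod_eq_of_lt (h f hf)]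

theorem fdg_pk0 (h : ∀ f < m, d f < 2 ^ F) {f : ℕ} (hf : f < m) : fdg F (pk F m d) f = d f := by
  simpa using fdg_pk 0 h hf

theorem ext_fdg (h : y / 2 ^ (F * m) = y' / 2 ^ (F * m)) (h' : ∀ f < m, fdg F y f = fdg F y' f) :
    y = y' := by
  have h1 := eq_pk F m y
  rw [h, pk_congr h'] at h1
  exact h1.trans (eq_pk F m y').symm

theorem lt_of_top (hs : F * m ≤ s) (h : y' / 2 ^ (F * m) = y / 2 ^ (F * m)) (hy : y < 2 ^ s) :
    y' < 2 ^ s := by
  obtain ⟨k, rfl⟩ := Nat.exists_eq_add_of_le hs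
  rw [pow_add, mul_comm, ← Nat.div_lt_iff_lt_mul (Nat.two_pow_pos _)] at hy ⊢
  rwa [h]

theorem add_pk (h : ∀ f < m, fdg F y f + d f < 2 ^ F) :
    (y + pk F m d) / 2 ^ (F * m) = y / 2 ^ (F * m) ∧
      ∀ f < m, fdg F (y + pk F m d) f = fdg F y f + d f := by
  have e : y + pk F m d = y / 2 ^ (F * m) * 2 ^ (F * m) + pk F m fun f => fdg F y f + d f := by
    rw [← pk_add, ← add_assoc, ← eq_pk]
  rw [e]
  exact ⟨top_pk _ h, fun f hf => fdg_pk _ h hf⟩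

theorem sub_pk (h : ∀ f < m, d f ≤ fdg F y f) : pk F m d ≤ y ∧
    (y - pk F m d) / 2 ^ (F * m) = y / 2 ^ (F * m) ∧
      ∀ f < m, fdg F (y - pk F m d) f = fdg F y f - d f := by
  have e : y = y / 2 ^ (F * m) * 2 ^ (F * m) + (pk F m fun f => fdg F y f - d f) + pk F m d := by
    rw [add_assoc, pk_add, pk_congr (d' := fdg F y) fun f hf => Nat.sub_add_cancel (h f hf),
      ← eq_pk]
  have e' : y - pk F m d =
      y / 2 ^ (F * m) * 2 ^ (F * m) + pk F m fun f => fdg F y f - d f := by omega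
  have h' : ∀ f < m, fdg F y f - d f < 2 ^ F := fun f _ =>
    (Nat.sub_le _ _).trans_lt (fdg_lt F y f)
  refine ⟨by omega, ?_⟩
  rw [e']
  exact ⟨top_pk _ h', fun f hf => fdg_pk _ h' hf⟩

theorem fdg_xor (F y y' f : ℕ) : fdg F (y ^^^ y') f = fdg F y f ^^^ fdg F y' f := by
  rw [fdg, Nat.xor_div_two_pow, Nat.xor_mod_two_pow]; rfl

theorem xor_pk (h : ∀ f < m, d f < 2 ^ F) :
    (y ^^^ pk F m d) / 2 ^ (F * m) = y / 2 ^ (F * m) ∧
      ∀ f < m, fdg F (y ^^^ pk F m d) f = fdg F y f ^^^ d f :=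
  ⟨by rw [Nat.xor_div_two_pow, Nat.div_eq_of_lt (pk_lt h), Nat.xor_zero],
    fun f hf => by rw [fdg_xor, fdg_pk0 h hf]⟩

theorem testBit_fdg (y f : ℕ) {j : ℕ} (hj : j < F) :
    (fdg F y f).testBit j = y.testBit (F * f + j) := by
  simp [fdg, Nat.testBit_mod_two_pow, Nat.testBit_div_two_pow, hj, add_comm]

theorem fdg_div (y f a e : ℕ) :
    fdg (a + e) y f / 2 ^ a = y / 2 ^ ((a + e) * f + a) % 2 ^ e := by
  rw [fdg, pow_add, Nat.mod_mul_right_div_self, Nat.div_div_eq_div_mul, ← pow_add]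

theorem fdg_mod (y f : ℕ) {a : ℕ} (h : a ≤ F) : fdg F y f % 2 ^ a = y / 2 ^ (F * f) % 2 ^ a :=
  Nat.mod_mod_of_dvd _ (pow_dvd_pow 2 h)

/-- Addition and subtraction modulo `2 ^ s` that stay inside the fields. -/
theorem addm_pk (hs : F * m ≤ s) (hy : y < 2 ^ s) (h : ∀ f < m, fdg F y f + d f < 2 ^ F) :
    ∃ y', (y + pk F m d) % 2 ^ s = y' ∧ y' < 2 ^ s ∧ y' / 2 ^ (F * m) = y / 2 ^ (F * m) ∧
      ∀ f < m, fdg F y' f = fdg F y f + d f := by
  obtain ⟨h1, h2⟩ := add_pk h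
  have h3 := lt_of_top hs h1 hy
  exact ⟨_, Nat.mod_eq_of_lt h3, h3, h1, h2⟩

theorem subm_pk (hy : y < 2 ^ s) (h : ∀ f < m, d f ≤ fdg F y f) :
    ∃ y', (y + (2 ^ s - pk F m d)) % 2 ^ s = y' ∧ y' < 2 ^ s ∧
      y' / 2 ^ (F * m) = y / 2 ^ (F * m) ∧ ∀ f < m, fdg F y' f = fdg F y f - d f := by
  obtain ⟨h0, h1, h2⟩ := sub_pk h
  refine ⟨y - pk F m d, ?_, by omega, h1, h2⟩
  rw [show y + (2 ^ s - pk F m d) = y - pk F m d + 2 ^ s by omega, Nat.add_mod_right,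
    Nat.mod_eq_of_lt (by omega)]

end Vale.Agent.P338
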