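import Vale.Agent.P344.Rank
import Vale.Agent.P338.Gate

/-! The group of masks, its group algebra acting on arrays, and quadratic phases modulo four. -/

namespace Vale.Agent.P338.Lab2Aux

open Vale.Agent.P344 (F2 f2_cases f2_add_self vec_add_self mat_add_self Rk)
open Finset Matrix

set_option linter.unusedSectionVars false

/-- Natural numbers with the exclusive or as addition. -/
@[ext] structure XN : Type where
  val : ℕ

instance : Add XN := ⟨fun a b => ⟨a.val ^^^ b.val⟩⟩
instance : Zero XN := ⟨⟨0⟩⟩
instance : Neg XN := ⟨fun a => a⟩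

instance : AddCommGroup XN where
  add_assoc := fun a b c => XN.ext (Nat.xor_assoc _ _ _)
  zero_add := fun a => XN.ext (Nat.zero_xor _)
  add_zero := fun a => XN.ext (Nat.xor_zero _)
  add_comm := fun a b => XN.ext (Nat.xor_comm _ _)
  neg_add_cancel := fun a => XN.ext (Nat.xor_self _)
  nsmul := nsmulRec
  zsmul := zsmulRec

theorem XN.add_val (a b : XN) : (a + b).val = a.val ^^^ b.val := rfl
theorem XN.zero_val : (0 : XN).val = 0 := rfl
theorem XN.add_self (a : XN) : a + a = 0 := XN.ext (Nat.xor_self _)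

instance : Module F2 XN := AddCommGroup.zmodModule fun x => by rw [two_nsmul, XN.add_self]

/-- The mask of one bit. -/
def bit (j : ℕ) : XN := ⟨2 ^ j⟩

/-- One bit of a mask. -/
def tb (j : ℕ) : XN →+ F2 where
  toFun := fun x => if x.val.testBit j = true then 1 else 0
  map_zero' := by simp [XN.zero_val]
  map_add' := fun x y => by
    rw [XN.add_val, Nat.testBit_xor]
    cases x.val.testBit j <;> cases y.val.testBit j <;> decide

theorem tb_apply (j : ℕ) (x : XN) : tb j x = if x.val.testBit j = true then 1 else 0 := rfl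

theorem tb_smul (j : ℕ) (c : F2) (x : XN) : tb j (c • x) = c * tb j x := by
  rcases f2_cases c with rfl | rfl <;> simp

theorem tb_bit (j i : ℕ) : tb j (bit i) = if i = j then 1 else 0 := by
  simp [tb_apply, bit, Nat.testBit_two_pow]

theorem add_two_pow (j : ℕ) : ∀ a : ℕ, a.testBit j = false → a + 2 ^ j = a ^^^ 2 ^ j := by
  induction j with
  | zero =>
    intro a h
    have h1 : (a ^^^ 2 ^ 0) / 2 = a / 2 := by rw [Nat.xor_div_two]; simp
    have h2 := Nat.xor_mod_two_eq (m := a) (n := 2 ^ 0)
    have h3 : a % 2 = 0 := by simpa using h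
    omega
  | succ j ih =>
    intro a h
    have h0 := ih (a / 2) (by rwa [Nat.testBit_succ] at h)
    have h1 : (a ^^^ 2 ^ (j + 1)) / 2 = a / 2 + 2 ^ j := by
      rw [Nat.xor_div_two, h0, pow_succ, Nat.mul_div_cancel _ two_pos]
    have h2 := Nat.xor_mod_two_eq (m := a) (n := 2 ^ (j + 1))
    rw [pow_succ] at *
    omega

theorem sum_bits (p : ℕ → ℕ) (hp : Function.Injective p) (P : ℕ → Prop) [DecidablePred P]
    (s : Finset ℕ) : (⟨∑ n ∈ s, if P n then 2 ^ p n else 0⟩ : XN)
      = ∑ n ∈ s, (if P n then 1 else 0 : F2) • bit (p n) := by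
  induction s using Finset.induction_on with
  | empty => rfl
  | insert a s ha ih =>
    rw [Finset.sum_insert ha, Finset.sum_insert ha, ← ih]
    by_cases h : P a
    · rw [if_pos h, if_pos h, one_smul, add_comm, add_comm (bit _)]
      refine XN.ext (add_two_pow _ _ ?_)
      have h1 := congrArg (tb (p a)) ih
      have h3 : ∀ n ∈ s, tb (p a) ((if P n then 1 else 0 : F2) • bit (p n)) = 0 := fun n hn => by
        rw [tb_smul, tb_bit, if_neg (fun e : p n = p a => ha (hp e ▸ hn)), mul_zero]
      rw [map_sum, Finset.sum_eq_zero h3, tb_apply] at h1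
      by_contra h2
      rw [if_pos (by simpa using h2)] at h1
      exact one_ne_zero h1
    · rw [if_neg h, if_neg h, zero_smul, zero_add, zero_add]

section algebra

variable {k : Type} [CommRing k]

/-- The flip by a mask. -/
def flip (k : Type) [CommRing k] (μ : XN) : Module.End k (ℕ → k) :=
  LinearMap.funLeft k k fun i => i ^^^ μ.val

theorem flip_apply (μ : XN) (v : ℕ → k) (i : ℕ) : flip k μ v i = v (i ^^^ μ.val) := rfl

/-- The group algebra of masks. -/
abbrev GA (k : Type) [CommRing k] : Type := AddMonoidAlgebra k XN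

/-- The action of the group algebra on arrays. -/
noncomputable def Phi (k : Type) [CommRing k] : GA k →ₐ[k] Module.End k (ℕ → k) :=
  AddMonoidAlgebra.lift k _ XN
    { toFun := fun μ => flip k μ.toAdd
      map_one' := by ext v i; simp [flip_apply, XN.zero_val]
      map_mul' := fun a b => by
        ext v i
        simp [flip_apply, XN.add_val, Nat.xor_assoc] }

/-- The group element of a mask. -/
noncomputable def xx (k : Type) [CommRing k] (μ : XN) : GA k := AddMonoidAlgebra.single μ 1

theorem xx_zero : xx k 0 = 1 := rfl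

theorem xx_add (μ ν : XN) : xx k (μ + ν) = xx k μ * xx k ν := by
  rw [xx, xx, xx, AddMonoidAlgebra.single_mul_single, one_mul]

theorem xx_sum {α : Type} (s : Finset α) (f : α → XN) :
    xx k (∑ a ∈ s, f a) = ∏ a ∈ s, xx k (f a) := by
  classical
  induction s using Finset.induction_on with
  | empty => rfl
  | insert a s ha ih => rw [Finset.sum_insert ha, Finset.prod_insert ha, xx_add, ih]

theorem Phi_xx (μ : XN) : Phi k (xx k μ) = flip k μ := by
  simp [Phi, xx]

end algebra

/-- The square root of an involution `x`. -/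
def gg {R : Type} [CommRing R] (ι h x : R) : R := h * ((1 + ι) + (1 - ι) * x)

theorem gg_one {R : Type} [CommRing R] {ι h : R} (hh : 2 * h = 1) : gg ι h 1 = 1 := by
  unfold gg; linear_combination hh

theorem gg_unit {R : Type} [CommRing R] {ι h x : R} (hι : ι * ι = -1) (hh : 2 * h = 1)
    (hx : x * x = 1) : IsUnit (gg ι h x) := by
  refine IsUnit.of_mul_eq_one (gg (-ι) h x) ?_
  unfold gg
  linear_combination (h * h * (1 - ι * ι)) * hx + (2 * h * h * (x - 1)) * hι + (2 * h + 1) * hh

section quad

variable {I : Type} [Fintype I] [DecidableEq I]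

/-- The symmetric matrix of a list of vectors. -/
def mat (us : List (I → F2)) : Matrix I I F2 := (us.map fun u => vecMulVec u u).sum

theorem mat_nil : mat ([] : List (I → F2)) = 0 := rfl
theorem mat_cons (u : I → F2) (us : List (I → F2)) : mat (u :: us) = vecMulVec u u + mat us := by
  simp [mat]
theorem mat_append (us vs : List (I → F2)) : mat (us ++ vs) = mat us + mat vs := by
  simp [mat]

theorem rk_list {r : ℕ} {M : Matrix I I F2} (h : Rk r M) :
    ∃ us : List (I → F2), us.length ≤ r ∧ mat us = M := by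
  induction h with
  | zero r => exact ⟨[], Nat.zero_le _, rfl⟩
  | step r u M _ ih =>
    obtain ⟨us, h1, h2⟩ := ih
    exact ⟨u :: us, by simpa using h1, by rw [mat_cons, h2, add_comm]⟩

/-- The number of vectors of the list not orthogonal to `ξ`. -/
def qn (us : List (I → F2)) (ξ : I → F2) : ℕ := (us.map fun u => (u ⬝ᵥ ξ).val).sum

/-- Doubling, from residues modulo two to residues modulo four. -/
def dbl (a : F2) : ZMod 4 := 2 * (a.val : ZMod 4)

theorem dbl_add (a b : F2) : dbl (a + b) = dbl a + dbl b := by revert a b; decide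

theorem val_add4 (a b : F2) : (((a + b).val : ℕ) : ZMod 4) = a.val + b.val + dbl (a * b) := by
  revert a b; decide

theorem qn_add (us : List (I → F2)) (ξ η : I → F2) :
    (qn us (ξ + η) : ZMod 4) = qn us ξ + qn us η + dbl (ξ ⬝ᵥ mat us *ᵥ η) := by
  induction us with
  | nil => simp [qn, mat_nil, dbl]
  | cons u us ih =>
    have e : ∀ ζ, qn (u :: us) ζ = (u ⬝ᵥ ζ).val + qn us ζ := fun ζ => by simp [qn]
    rw [e, e, e, mat_cons, add_mulVec, dotProduct_add ξ, dbl_add, vecMulVec_mulVec, dotProduct_add]
    push_cast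
    rw [ih, val_add4, op_smul_eq_smul, dotProduct_smul, dotProduct_comm ξ u, smul_eq_mul,
      mul_comm (u ⬝ᵥ η)]
    ring

theorem qn_zero (us : List (I → F2)) : qn us 0 = 0 := by simp [qn]

theorem exists_char {us us' ds : List (I → F2)} (h : mat us' = mat us + mat ds) :
    ∃ c : I → F2, ∀ ξ, qn us' ξ ≡ 2 * (c ⬝ᵥ ξ).val + (qn ds ξ + qn us ξ) [MOD 4] := by
  let d : (I → F2) → ZMod 4 := fun ξ => qn us' ξ - qn ds ξ - qn us ξ
  have hadd : ∀ ξ η, d (ξ + η) = d ξ + d η := fun ξ η => by
    simp only [d, qn_add, h, add_mulVec, dotProduct_add, dbl_add]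
    ring
  have h0 : d 0 = 0 := by simp [d, qn_zero]
  have key : ∀ ξ, d ξ = dbl ((fun j => if d (Pi.single j 1) = 0 then 0 else 1) ⬝ᵥ ξ) := by
    intro ξ
    induction ξ using Pi.single_induction with
    | zero => rw [h0, dotProduct_zero]; rfl
    | add f g hf hg => rw [hadd, dotProduct_add, dbl_add, ← hf, ← hg]
    | single i m =>
      rcases f2_cases m with rfl | rfl
      · rw [Pi.single_zero, h0, dotProduct_zero]; rfl
      · rw [dotProduct_single, mul_one]
        have h2 : d (Pi.single i 1) + d (Pi.single i 1) = 0 := by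
          rw [← hadd, vec_add_self, h0]
        revert h2
        generalize d (Pi.single i 1) = z
        revert z
        decide
  refine ⟨fun j => if d (Pi.single j 1) = 0 then 0 else 1,
    fun ξ => (ZMod.natCast_eq_natCast_iff _ _ 4).1 ?_⟩
  have := key ξ
  rw [dbl] at this
  have e : d ξ = qn us' ξ - qn ds ξ - qn us ξ := rfl
  push_cast
  linear_combination this - e

variable {R : Type} [CommRing R]

/-- The product of the square roots along a list. -/
def pg (ι h : R) (x : (I → F2) → R) (us : List (I → F2)) : R :=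
  (us.map fun u => gg ι h (x u)).prod

theorem pg_nil (ι h : R) (x : (I → F2) → R) : pg ι h x [] = 1 := rfl
theorem pg_cons (ι h : R) (x : (I → F2) → R) (u : I → F2) (us : List (I → F2)) :
    pg ι h x (u :: us) = gg ι h (x u) * pg ι h x us := by simp [pg]
theorem pg_append (ι h : R) (x : (I → F2) → R) (us vs : List (I → F2)) :
    pg ι h x (us ++ vs) = pg ι h x us * pg ι h x vs := by simp [pg]

theorem pg_eq {ι h : R} (hι : ι * ι = -1) (hh : 2 * h = 1) {x : (I → F2) → R} (x0 : x 0 = 1)
    (xa : ∀ u w, x (u + w) = x u * x w) {us us' ds : List (I → F2)} {c : I → F2}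
    (hc : ∀ ξ, qn us' ξ ≡ 2 * (c ⬝ᵥ ξ).val + (qn ds ξ + qn us ξ) [MOD 4]) :
    pg ι h x us' = x c * pg ι h x ds * pg ι h x us := by
  let e : (I → F2) → R := fun ξ => ∏ a, h * (1 + (-1) ^ (ξ a).val * x (Pi.single a 1))
  have hs : ∑ ξ, e ξ = 1 := by
    have := Fintype.prod_sum (fun (a : I) (z : F2) => h * (1 + (-1) ^ z.val * x (Pi.single a 1)))
    simp only [e]
    rw [← this]
    refine Finset.prod_eq_one fun a _ => ?_
    rw [P344.sum_f2]
    have : (1 : F2).val = 1 := rfl
    rw [this, ZMod.val_zero]
    linear_combination hh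
  have sg : ∀ a b : F2, (-1 : R) ^ (a + b).val = (-1) ^ a.val * (-1) ^ b.val := by
    intro a b
    have : (1 : F2).val = 1 := rfl
    rcases f2_cases a with rfl | rfl <;> rcases f2_cases b with rfl | rfl <;>
      simp [f2_add_self, this]
  have hx : ∀ ξ u, x u * e ξ = (-1) ^ (u ⬝ᵥ ξ).val * e ξ := by
    intro ξ u
    induction u using Pi.single_induction with
    | zero => simp [x0]
    | add f g hf hg => rw [xa, add_dotProduct, sg, mul_assoc, hg, mul_left_comm, hf]; ring
    | single i m =>
      rcases f2_cases m with rfl | rfl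
      · simp [x0]
      · have h2 : x (Pi.single i 1) * x (Pi.single i 1) = 1 := by rw [← xa, vec_add_self, x0]
        have h3 : (-1 : R) ^ (ξ i).val * (-1) ^ (ξ i).val = 1 := by
          rw [← sg, f2_add_self]; simp
        rw [single_dotProduct, one_mul]
        simp only [e]
        rw [← Finset.mul_prod_erase _ _ (Finset.mem_univ i)]
        generalize ∏ a ∈ Finset.univ.erase i, h * (1 + (-1) ^ (ξ a).val * x (Pi.single a 1)) = w
        linear_combination (w * h * (-1) ^ (ξ i).val) * h2 - (w * h * x (Pi.single i 1)) * h3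
  have hg : ∀ ξ u, gg ι h (x u) * e ξ = ι ^ (u ⬝ᵥ ξ).val * e ξ := by
    intro ξ u
    have h1 := hx ξ u
    have : (1 : F2).val = 1 := rfl
    unfold gg
    rcases f2_cases (u ⬝ᵥ ξ) with h2 | h2
    · rw [h2, ZMod.val_zero] at h1 ⊢
      linear_combination (h * (1 - ι)) * h1 + e ξ * hh
    · rw [h2, this] at h1 ⊢
      linear_combination (h * (1 - ι)) * h1 + (ι * e ξ) * hh
  have hp : ∀ ξ vs, pg ι h x vs * e ξ = ι ^ qn vs ξ * e ξ := by
    intro ξ vs
    induction vs with
    | nil => simp [pg_nil, qn]
    | cons u vs ih =>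
      have e1 : qn (u :: vs) ξ = (u ⬝ᵥ ξ).val + qn vs ξ := by simp [qn]
      rw [pg_cons, e1, mul_assoc, ih, mul_left_comm, hg, pow_add]
      ring
  have h4 : ι ^ 4 = 1 := by linear_combination (ι * ι - 1) * hι
  rw [← mul_one (pg ι h x us'), ← mul_one (x c * _ * _), ← hs, Finset.mul_sum, Finset.mul_sum]
  refine Finset.sum_congr rfl fun ξ _ => ?_
  rw [hp, pow_eq_pow_of_modEq (hc ξ) h4, mul_assoc, hp, mul_left_comm, mul_assoc, hp,
    mul_left_comm (x c), hx, pow_add, pow_add, pow_mul, pow_two, hι]
  ring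

end quad

end Vale.Agent.P338.Lab2Aux
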