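import Vale.Agent.P338.CfPure
import Vale.Agent.P338.Fields
import Vale.Agent.P338.Lab2Aux

/-! Controlled flips of index bits: the index trajectory. -/

namespace Vale.Agent.P338

/-- Conditions on a controlled flip `(j, f0, f1, t, fl)`: bit `j` of the fields `f1 + n`, `n < t`,
is flipped, unconditionally if `fl`, otherwise under the control of the fields `f0 + n`. -/
def XeOK (c : Cf) (θ : ℕ × ℕ × ℕ × ℕ × Bool) : Prop :=
  θ.1 ≤ c.a ∧ θ.2.1 ≤ c.m ∧ θ.2.2.1 + θ.2.2.2.1 ≤ c.m ∧ (θ.2.2.2.2 = true ∨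
    (θ.2.1 + θ.2.2.2.1 ≤ c.m ∧
      (θ.2.1 + θ.2.2.2.1 ≤ θ.2.2.1 ∨ θ.2.2.1 + θ.2.2.2.1 ≤ θ.2.1)))

namespace FE

section
variable (c : Cf) (θ : ℕ × ℕ × ℕ × ℕ × Bool)

/-- Target fields. -/
abbrev inT (f : ℕ) : Prop := θ.2.2.1 ≤ f ∧ f < θ.2.2.1 + θ.2.2.2.1
/-- Target fields whose control is set. -/
abbrev ctl (y f : ℕ) : Prop := inT θ f ∧
  (θ.2.2.2.2 = true ∨ (fdg c.F y (f - θ.2.2.1 + θ.2.1)).testBit θ.1 = true)
/-- The control bits. -/
def g1 (y : ℕ) : ℕ := pk c.e' c.m fun f => if ctl c θ y f then 1 else 0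
/-- The control bits of the fields with a cleared bit. -/
def g2 (y : ℕ) : ℕ :=
  pk c.e' c.m fun f => if ctl c θ y f ∧ ¬ (fdg c.F y f).testBit θ.1 = true then 1 else 0
/-- The subfields of the last digit, moved to the target fields. -/
def hh (k w : ℕ) : ℕ :=
  pk c.F c.m fun f => if inT θ f then fdg c.e' w f * 2 ^ (min θ.1 c.a + k) else 0
/-- The bits to flip. -/
def mk (y : ℕ) : ℕ := pk c.F c.m fun f => if ctl c θ y f then 2 ^ θ.1 else 0

end

variable {c : Cf} {θ : ℕ × ℕ × ℕ × ℕ × Bool}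

theorem ctl_congr (hθ : XeOK c θ) {y y' : ℕ}
    (h : ∀ f < c.m, ¬ inT θ f → fdg c.F y' f = fdg c.F y f) (f : ℕ) :
    ctl c θ y' f ↔ ctl c θ y f := by
  obtain ⟨-, -, -, h1 | ⟨h1, h2⟩⟩ := hθ
  · simp only [ctl, h1, true_or]
  · refine and_congr_right fun hf => ?_
    rw [h _ (by omega) (by omega)]

theorem bit_add (n j x : ℕ) : (n + x * 2 ^ (j + 1)).testBit j = n.testBit j := by
  have h := Nat.testBit_mod_two_pow (n + x * 2 ^ (j + 1)) (j + 1) j
  rw [Nat.add_mul_mod_self_right, Nat.testBit_mod_two_pow] at h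
  simpa using h.symm

theorem bit_flip (n j : ℕ) : (n + 2 ^ j).testBit j = !n.testBit j := by
  rw [add_comm, Nat.testBit_two_pow_add_eq]

theorem xor_set {n j : ℕ} (h : n.testBit j = true) : (n ^^^ 2 ^ j) + 2 ^ j = n := by
  rw [Lab2Aux.add_two_pow j _ (by simp [h]), Nat.xor_assoc, Nat.xor_self, Nat.xor_zero]

theorem room {y : ℕ} (hy : c.safeY y) {f : ℕ} (hf : f < c.m) :
    fdg c.F y f + 2 ^ c.e' * 2 ^ (c.a + 1) < 2 ^ c.F := by
  have h := hy f hf
  have h1 := fdg_div y f (c.a + 1) c.e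
  have h2 := Nat.lt_mul_div_succ (fdg c.F y f) (Nat.two_pow_pos (c.a + 1))
  rw [Cf.F] at *
  rw [← h1] at h
  have h3 := Nat.mul_le_mul_left (2 ^ (c.a + 1)) h.le
  rw [pow_add 2 (c.a + 1)]
  nlinarith

theorem room' (hθ : XeOK c θ) {y w : ℕ} (sy : c.safeY y) (sw : c.safeW w) {f : ℕ} (hf : f < c.m) :
    fdg c.F y f + fdg c.e' w f * 2 ^ (θ.1 + 1) + 2 ^ (θ.1 + 1) < 2 ^ c.F := by
  have h1 := room sy hf
  have p1 : 2 ^ (θ.1 + 1) ≤ 2 ^ (c.a + 1) := Nat.pow_le_pow_right two_pos (by have := hθ.1; omega)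
  have h2 : (fdg c.e' w f + 1) * 2 ^ (θ.1 + 1) ≤ _ := Nat.mul_le_mul (sw f hf).2.le p1
  rw [add_one_mul] at h2
  omega

theorem traj1 (hc : c.ok) (hθ : XeOK c θ) {y w : ℕ} (hy : y < c.R) (hw : w < c.R)
    (sy : c.safeY y) (sw : c.safeW w) {y1 w2 y3 w4 : ℕ}
    (e1 : y1 = (y + hh c θ 0 w) % c.R) (e2 : w2 = (w + (c.R - g1 c θ y1)) % c.R)
    (e3 : y3 = (y1 + (c.R - hh c θ 0 w2)) % c.R) (e4 : w4 = (w2 + g1 c θ y3) % c.R) :
    w4 = w ∧ y3 < c.R ∧ y3 / 2 ^ (c.F * c.m) = y / 2 ^ (c.F * c.m) ∧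
      ∀ f < c.m, fdg c.F y3 f = fdg c.F y f + if ctl c θ y f then 2 ^ θ.1 else 0 := by
  have hF := hc.fm
  have he := hc.e'_le.2.1
  have hW : ∀ f < c.m, 1 ≤ fdg c.e' w f ∧ fdg c.e' w f + 1 < 2 ^ c.e' := sw
  simp only [hh, g1, min_eq_left hθ.1, add_zero, Cf.R] at e1 e2 e3 e4 hy hw ⊢
  obtain ⟨_, rfl, l1, t1, d1⟩ := addm_pk (d := fun f => if inT θ f then fdg c.e' w f * 2 ^ θ.1
    else 0) hF hy fun f hf => by
      have h1 := room' hθ sy sw hf
      rw [pow_succ, ← mul_assoc] at h1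
      split_ifs <;> omega
  rw [← e1] at l1 t1 d1
  have c1 := ctl_congr hθ (y := y) (y' := y1) fun f hf h => by rw [d1 f hf, if_neg h, add_zero]
  simp only [c1] at e2
  obtain ⟨_, rfl, l2, t2, d2⟩ := subm_pk (F := c.e') (m := c.m)
    (d := fun f => if ctl c θ y f then 1 else 0) hw fun f hf => by
      have := (hW f hf).1; split_ifs <;> omega
  rw [← e2] at l2 t2 d2
  have k3 : ∀ f < c.m, fdg c.F y1 f = (fdg c.F y f + if ctl c θ y f then 2 ^ θ.1 else 0) +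
      if inT θ f then fdg c.e' w2 f * 2 ^ θ.1 else 0 := by
    intro f hf
    have h1 := (hW f hf).1
    rw [d1 f hf, d2 f hf]
    by_cases h : ctl c θ y f
    · rw [if_pos h, if_pos h, if_pos h.1, if_pos h.1, add_assoc, ← one_add_mul,
        Nat.add_sub_cancel' h1]
    · rw [if_neg h, if_neg h, add_zero, Nat.sub_zero]
  obtain ⟨_, rfl, l3, t3, d3⟩ := subm_pk (F := c.F) (m := c.m)
    (d := fun f => if inT θ f then fdg c.e' w2 f * 2 ^ θ.1 else 0) l1 fun f hf => by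
      rw [k3 f hf]; exact Nat.le_add_left _ _
  rw [← e3] at l3 t3 d3
  have d3' : ∀ f < c.m, fdg c.F y3 f = fdg c.F y f + if ctl c θ y f then 2 ^ θ.1 else 0 :=
    fun f hf => by rw [d3 f hf, k3 f hf, Nat.add_sub_cancel]
  have c3 := ctl_congr hθ (y := y) (y' := y3) fun f hf h => by
    rw [d3' f hf, if_neg fun h' => h h'.1, add_zero]
  simp only [c3] at e4
  obtain ⟨_, rfl, l4, t4, d4⟩ := addm_pk (d := fun f => if ctl c θ y f then 1 else 0) he l2
    fun f hf => by have := hW f hf; rw [d2 f hf]; split_ifs <;> omega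
  rw [← e4] at l4 t4 d4
  exact ⟨ext_fdg (t4.trans t2) fun f hf => by
    have := (hW f hf).1; rw [d4 f hf, d2 f hf]; split_ifs <;> omega, l3, t3.trans t1, d3'⟩

theorem traj2 (hc : c.ok) (hθ : XeOK c θ) {y w : ℕ} (hw : w < c.R)
    (sy : c.safeY y) (sw : c.safeW w) {y3 y5 w6 y7 w8 : ℕ} (l3 : y3 < c.R)
    (t3 : y3 / 2 ^ (c.F * c.m) = y / 2 ^ (c.F * c.m))
    (d3 : ∀ f < c.m, fdg c.F y3 f = fdg c.F y f + if ctl c θ y f then 2 ^ θ.1 else 0)
    (e5 : y5 = (y3 + hh c θ 1 w) % c.R) (e6 : w6 = (w + g2 c θ y5) % c.R)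
    (e7 : y7 = (y5 + (c.R - hh c θ 1 w6)) % c.R) (e8 : w8 = (w6 + (c.R - g2 c θ y7)) % c.R) :
    y7 = y ^^^ mk c θ y ∧ w8 = w := by
  have hF := hc.fm
  have he := hc.e'_le.2.1
  have hW : ∀ f < c.m, 1 ≤ fdg c.e' w f ∧ fdg c.e' w f + 1 < 2 ^ c.e' := sw
  have p2 : 2 ^ (θ.1 + 1) = 2 ^ θ.1 * 2 := pow_succ _ _
  simp only [hh, g2, min_eq_left hθ.1, Cf.R] at e5 e6 e7 e8 l3 hw
  obtain ⟨_, rfl, l5, t5, d5⟩ := addm_pk (d := fun f => if inT θ f then
    fdg c.e' w f * 2 ^ (θ.1 + 1) else 0) hF l3 fun f hf => by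
      have := room' hθ sy sw hf; rw [d3 f hf]; split_ifs <;> omega
  rw [← e5] at l5 t5 d5
  have c5 := ctl_congr hθ (y := y) (y' := y5) fun f hf h => by
    rw [d5 f hf, d3 f hf, if_neg h, if_neg fun h' => h h'.1, add_zero, add_zero]
  have b5 : (pk c.e' c.m fun f => if ctl c θ y5 f ∧ ¬ (fdg c.F y5 f).testBit θ.1 = true then 1
      else 0) = pk c.e' c.m fun f => if ctl c θ y f ∧ (fdg c.F y f).testBit θ.1 = true then 1
      else 0 := pk_congr fun f hf => by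
    refine if_congr ?_ rfl rfl
    rw [c5]
    refine and_congr_right fun h => ?_
    rw [d5 f hf, d3 f hf, if_pos h, if_pos h.1, bit_add, bit_flip]
    simp
  rw [b5] at e6
  obtain ⟨_, rfl, l6, t6, d6⟩ := addm_pk (d := fun f => if ctl c θ y f ∧
    (fdg c.F y f).testBit θ.1 = true then 1 else 0) he hw fun f hf => by
      have := hW f hf; split_ifs <;> omega
  rw [← e6] at l6 t6 d6
  have k7 : ∀ f < c.m, fdg c.F y5 f = (fdg c.F y f ^^^ if ctl c θ y f then 2 ^ θ.1 else 0) +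
      if inT θ f then fdg c.e' w6 f * 2 ^ (θ.1 + 1) else 0 := by
    intro f hf
    rw [d5 f hf, d3 f hf, d6 f hf]
    by_cases h : ctl c θ y f
    · rw [if_pos h, if_pos h.1, if_pos h.1]
      by_cases hb : (fdg c.F y f).testBit θ.1 = true
      · have := xor_set hb
        rw [if_pos ⟨h, hb⟩, add_one_mul]; omega
      · rw [if_neg fun h' => hb h'.2, add_zero, Lab2Aux.add_two_pow _ _ (by simpa using hb)]
    · rw [if_neg h, if_neg (fun h' : _ ∧ _ => h h'.1), add_zero, add_zero, Nat.xor_zero]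
  obtain ⟨_, rfl, l7, t7, d7⟩ := subm_pk (F := c.F) (m := c.m)
    (d := fun f => if inT θ f then fdg c.e' w6 f * 2 ^ (θ.1 + 1) else 0) l5 fun f hf => by
      rw [k7 f hf]; exact Nat.le_add_left _ _
  rw [← e7] at l7 t7 d7
  have d7' : ∀ f < c.m, fdg c.F y7 f = fdg c.F y f ^^^ if ctl c θ y f then 2 ^ θ.1 else 0 :=
    fun f hf => by rw [d7 f hf, k7 f hf, Nat.add_sub_cancel]
  have c7 := ctl_congr hθ (y := y) (y' := y7) fun f hf h => by
    rw [d7' f hf, if_neg fun h' => h h'.1, Nat.xor_zero]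
  have b7 : (pk c.e' c.m fun f => if ctl c θ y7 f ∧ ¬ (fdg c.F y7 f).testBit θ.1 = true then 1
      else 0) = pk c.e' c.m fun f => if ctl c θ y f ∧ (fdg c.F y f).testBit θ.1 = true then 1
      else 0 := pk_congr fun f hf => by
    refine if_congr ?_ rfl rfl
    rw [c7]
    refine and_congr_right fun h => ?_
    rw [d7' f hf, if_pos h]
    simp
  rw [b7] at e8
  obtain ⟨_, rfl, -, t8, d8⟩ := subm_pk (F := c.e') (m := c.m) (d := fun f => if ctl c θ y f ∧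
    (fdg c.F y f).testBit θ.1 = true then 1 else 0) l6 fun f hf => by
      rw [d6 f hf]; exact Nat.le_add_left _ _
  rw [← e8] at t8 d8
  obtain ⟨x1, x2⟩ := xor_pk (y := y) (F := c.F) (m := c.m)
    (d := fun f => if ctl c θ y f then 2 ^ θ.1 else 0) fun f hf => by
      have := room' hθ sy sw hf; split_ifs <;> omega
  exact ⟨ext_fdg (by rw [t7, t5, t3, mk, x1]) fun f hf => by rw [d7' f hf, mk, x2 f hf],
    ext_fdg (t8.trans t6) fun f hf => by rw [d8 f hf, d6 f hf, Nat.add_sub_cancel]⟩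

theorem xor_idx {k u v u' v' : ℕ} (hv : v < 2 ^ k) (hv' : v' < 2 ^ k) :
    (u * 2 ^ k + v) ^^^ (u' * 2 ^ k + v') = (u ^^^ u') * 2 ^ k + (v ^^^ v') := by
  rw [← Nat.div_add_mod' ((u * 2 ^ k + v) ^^^ (u' * 2 ^ k + v')) (2 ^ k), Nat.xor_div_two_pow,
    Nat.xor_mod_two_pow, idx_div hv, idx_div hv', idx_mod hv, idx_mod hv']

theorem mk_lt (hc : c.ok) (hθ : XeOK c θ) (y : ℕ) : mk c θ y < c.R :=
  (pk_lt fun f _ => by
    have : 2 ^ θ.1 < 2 ^ c.F := Nat.pow_lt_pow_right one_lt_two (by have := hθ.1; rw [Cf.F]; omega)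
    split_ifs
    · exact this
    · exact Nat.two_pow_pos _).trans_le (Nat.pow_le_pow_right two_pos hc.fm)

theorem cmask_eq (hc : c.ok) (hθ : XeOK c θ) {a y x w : ℕ} (hy : y < c.R) (hx : x < c.R)
    (hw : w < c.R) : cmask (c.pos θ.1) θ.2.1 θ.2.2.1 θ.2.2.2.1 θ.2.2.2.2
      (((a * c.R + y) * c.R + x) * c.R + w) = mk c θ y * c.R * c.R := by
  have hj : θ.1 < c.F := by have := hθ.1; rw [Cf.F]; omega
  have h1 : Finset.Ico θ.2.2.1 (θ.2.2.1 + θ.2.2.2.1) ⊆ Finset.range c.m := fun f hf => by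
    have := hθ.2.2.1
    rw [Finset.mem_Ico] at hf
    exact Finset.mem_range.2 (by omega)
  rw [mk, pk, ← Finset.sum_subset h1 fun f _ hf => by
    rw [if_neg fun h => hf (Finset.mem_Ico.2 h.1), zero_mul], Finset.sum_Ico_eq_sum_range,
    Nat.add_sub_cancel_left, Finset.sum_mul, Finset.sum_mul, cmask]
  refine Finset.sum_congr rfl fun n hn => ?_
  have hn' := Finset.mem_range.1 hn
  have h2 : (θ.2.2.2.2 = true ∨ Nat.testBit (((a * c.R + y) * c.R + x) * c.R + w)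
      (c.pos θ.1 (θ.2.1 + n)) = true) ↔ ctl c θ y (θ.2.2.1 + n) := by
    rw [ctl, and_iff_right ⟨by omega, by omega⟩, Nat.add_sub_cancel_left, add_comm n]
    obtain ⟨-, -, -, h | ⟨h, -⟩⟩ := hθ
    · simp only [h, true_or]
    · have h3 : c.F * (θ.2.1 + n + 1) ≤ c.s := (Nat.mul_le_mul_left _ (by omega)).trans hc.fm
      have h4 : y = (((a * c.R + y) * c.R + x) * c.R + w) / 2 ^ c.s / 2 ^ c.s % 2 ^ c.s := by
        change y = _ / c.R / c.R % c.R
        rw [idx_div hw, idx_div hx, idx_mod hy]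
      rw [testBit_fdg _ _ hj]
      conv_rhs => rw [h4]
      rw [mul_add _ _ 1] at h3
      rw [Nat.testBit_mod_two_pow, Nat.testBit_div_two_pow, Nat.testBit_div_two_pow,
        decide_eq_true (by omega), Bool.true_and, Cf.pos]
      congr! 3
      omega
  by_cases h : ctl c θ y (θ.2.2.1 + n)
  · rw [if_pos h, if_pos (h2.2 h), Cf.pos, Cf.R, ← pow_add, ← pow_add, ← pow_add]
    congr 1; omega
  · rw [if_neg h, if_neg fun h' => h (h2.1 h')]; simp

theorem idx_xor (hc : c.ok) (hθ : XeOK c θ) {a y x w : ℕ} (hy : y < c.R) (hx : x < c.R)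
    (hw : w < c.R) : (((a * c.R + y) * c.R + x) * c.R + w) ^^^ cmask (c.pos θ.1) θ.2.1 θ.2.2.1
      θ.2.2.2.1 θ.2.2.2.2 (((a * c.R + y) * c.R + x) * c.R + w) =
      ((a * c.R + (y ^^^ mk c θ y)) * c.R + x) * c.R + w := by
  have h := mk_lt hc hθ y
  have e : mk c θ y * c.R * c.R = ((0 * c.R + mk c θ y) * c.R + 0) * c.R + 0 := by simp
  rw [cmask_eq hc hθ hy hx hw, e]
  simp only [Cf.R] at *
  rw [xor_idx hw (Nat.two_pow_pos _), xor_idx hx (Nat.two_pow_pos _), xor_idx hy h]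
  simp

/-- Rotation of the first digit by a function of the last one. -/
def up (c : Cf) (g : ℕ → ℕ) (l : List ℕ) : List ℕ := upper c.R (fun u => g (u / c.R % c.R)) l

/-- Rotation of the last digit by a function of the first one. -/
def lo (c : Cf) (g : ℕ → ℕ) (l : List ℕ) : List ℕ :=
  shear c.R c.R 1 (fun u => g (u / c.R % c.R)) l

variable {A : ℕ} {l : List ℕ}

theorem length_up (g : ℕ → ℕ) (h : l.length = A * c.R * c.R * c.R) :
    (up c g l).length = A * c.R * c.R * c.R := (length_upper _ c.R_pos h).trans h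

theorem length_lo (g : ℕ → ℕ) (h : l.length = A * c.R * c.R * c.R) :
    (lo c g l).length = A * c.R * c.R * c.R := by
  rw [lo, shear, length_dg (A := A * c.R * c.R) _ c.R_pos one_pos (by rw [h, mul_one]), mul_one]

theorem bd_up (g : ℕ → ℕ) (h : Bd c.P l) : Bd c.P (up c g l) := bd_upper _ h c.P_pos

theorem bd_lo (g : ℕ → ℕ) (h : Bd c.P l) : Bd c.P (lo c g l) := by
  rw [lo, shear]; exact bd_dg _ h c.P_pos

theorem gt_up (g : ℕ → ℕ) (h : l.length = A * c.R * c.R * c.R) {a y x z : ℕ} (ha : a < A)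
    (hy : y < c.R) (hx : x < c.R) (hz : z < c.R) :
    gt (up c g l) (((a * c.R + y) * c.R + x) * c.R + z) =
      gt l (((a * c.R + (y + g z) % c.R) * c.R + x) * c.R + z) := by
  rw [up, gt_upper _ h ha hy hx hz, idx_div hx, idx_mod hz]

theorem gt_lo (g : ℕ → ℕ) (h : l.length = A * c.R * c.R * c.R) {a y x z : ℕ} (ha : a < A)
    (hy : y < c.R) (hx : x < c.R) (hz : z < c.R) :
    gt (lo c g l) (((a * c.R + y) * c.R + x) * c.R + z) =
      gt l (((a * c.R + y) * c.R + x) * c.R + (z + g y) % c.R) := by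
  have := gt_dg (A := A * c.R * c.R) (R' := c.R) (C := 1) (fun u v => some (if v < c.R then
    (v + g (u / c.R % c.R)) % c.R else v)) c.R_pos (by rw [h, mul_one])
    (idx_lt (idx_lt ha hy) hx) hz one_pos
  simp only [mul_one, add_zero, Option.elim_some, if_pos hz, idx_div hx, idx_mod hy] at this
  exact this

/-- The eight passes. -/
def xe (c : Cf) (θ : ℕ × ℕ × ℕ × ℕ × Bool) (l : List ℕ) : List ℕ :=
  up c (hh c θ 0) (lo c (fun y => c.R - g1 c θ y) (up c (fun w => c.R - hh c θ 0 w)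
    (lo c (g1 c θ) (up c (hh c θ 1) (lo c (g2 c θ) (up c (fun w => c.R - hh c θ 1 w)
      (lo c (fun y => c.R - g2 c θ y) l)))))))

theorem xe_spec (hc : c.ok) (hl : c.Good l) (hθ : XeOK c θ) :
    (xe c θ l).length = l.length ∧ Bd c.P (xe c θ l) ∧ ∀ i < l.length, c.Safe i →
      gt (xe c θ l) i = gt l (i ^^^ cmask (c.pos θ.1) θ.2.1 θ.2.2.1 θ.2.2.2.1 θ.2.2.2.2 i) := by
  obtain ⟨⟨A, -, -, -, h⟩, hb⟩ := hl
  have h8 := length_lo (fun y => c.R - g2 c θ y) h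
  have h7 := length_up (fun w => c.R - hh c θ 1 w) h8
  have h6 := length_lo (g2 c θ) h7
  have h5 := length_up (hh c θ 1) h6
  have h4 := length_lo (g1 c θ) h5
  have h3 := length_up (fun w => c.R - hh c θ 0 w) h4
  have h2 := length_lo (fun y => c.R - g1 c θ y) h3
  refine ⟨(length_up _ h2).trans h.symm, bd_up _ (bd_lo _ (bd_up _ (bd_lo _ (bd_up _ (bd_lo _
    (bd_up _ (bd_lo _ hb))))))), fun i hi hs => ?_⟩
  have hR := c.R_pos
  have lt : ∀ n, n % c.R < c.R := fun n => Nat.mod_lt _ hR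
  obtain ⟨sy, sw⟩ := hs
  have ha : i / c.R / c.R / c.R < A := by
    rw [Nat.div_lt_iff_lt_mul hR, Nat.div_lt_iff_lt_mul hR, Nat.div_lt_iff_lt_mul hR, ← h]
    exact hi
  have e : i = ((i / c.R / c.R / c.R * c.R + i / c.R / c.R % c.R) * c.R + i / c.R % c.R) * c.R +
      i % c.R := by rw [Nat.div_add_mod', Nat.div_add_mod', Nat.div_add_mod']
  have hy := lt (i / c.R / c.R)
  have hx := lt (i / c.R)
  have hw := lt i
  generalize i / c.R / c.R / c.R = a at *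
  generalize i / c.R / c.R % c.R = y at *
  generalize i / c.R % c.R = x at *
  generalize i % c.R = w at *
  subst e
  obtain ⟨q4, l3, t3, d3⟩ := traj1 hc hθ hy hw sy sw rfl rfl rfl rfl
  obtain ⟨q7, q8⟩ := traj2 hc hθ hw sy sw l3 t3 d3 rfl rfl rfl rfl
  rw [idx_xor hc hθ hy hx hw, xe, gt_up _ h2 ha hy hx hw, gt_lo _ h3 ha (lt _) hx hw,
    gt_up _ h4 ha (lt _) hx (lt _), gt_lo _ h5 ha (lt _) hx (lt _), q4,
    gt_up _ h6 ha (lt _) hx hw, gt_lo _ h7 ha (lt _) hx hw, gt_up _ h8 ha (lt _) hx (lt _),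
    gt_lo _ h ha (lt _) hx (lt _), q8, q7]

end FE

end Vale.Agent.P338
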