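import Vale.Agent.P338.CfOps
import Vale.Agent.P338.FEAux

/-! Controlled flips of index bits through shears with the last digit. -/

namespace Vale.Agent.P338

section
variable {ι : Type} [Enc ι] {𝒯 : Cls ι} [Dom 𝒯] [Mulc 𝒯] {F m y f : ι → ℕ}

@[fun_prop] theorem Tm.fdg (hF : Tm 𝒯 F) (hy : Tm 𝒯 y) (hf : Tm 𝒯 f) :
    Tm 𝒯 (fun i => fdg (F i) (y i) (f i)) := (hy.shr (hF.mul hf)).low hF

theorem Tm.pk {d : ι → ℕ → ℕ} (hF : Tm 𝒯 F) (hm : Tm 𝒯 m) (h1 : 𝒯.mem F) (h2 : 𝒯.mem m)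
    (hd : Dom (𝒯.ext fun i (k : ℕ) => k < m i) →
      Tm (𝒯.ext fun i (k : ℕ) => k < m i) (fun p => d p.2 p.1)) :
    Tm 𝒯 (fun i => pk (F i) (m i) (d i)) := by
  refine Tm.sumRange (u := fun i f => d i f * 2 ^ (F i * f)) hm h2 fun hD => ?_
  refine Tm.shl (hd hD) ((hF.lift _).mul (by fun_prop)) ?_
  exact Cls.ext_of_le (Mulc.mul h1 h2) fun b i _ hb => Nat.mul_le_mul_left _ hb.le

end

namespace FE

section
variable {ι : Type} [Enc ι] {𝒯 : Cls ι} [Dom 𝒯] [Mulc 𝒯] {c : ι → Cf} {y f : ι → ℕ}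
  {θ : ι → ℕ × ℕ × ℕ × ℕ × Bool}

theorem tm_inT (hθ : Tm 𝒯 θ) (hf : Tm 𝒯 f) : Tm 𝒯 (fun i => inT (θ i) (f i)) := by
  unfold inT; fun_prop

theorem tm_ctl (hc : Tm 𝒯 c) (hθ : Tm 𝒯 θ) (hy : Tm 𝒯 y) (hf : Tm 𝒯 f) :
    Tm 𝒯 (fun i => ctl (c i) (θ i) (y i) (f i)) := by
  unfold ctl inT; fun_prop

variable (h : CfT 𝒯 c) (hθ : Tm 𝒯 θ) (hy : Tm 𝒯 y)
include h

theorem mem_F : 𝒯.mem fun i => (c i).F :=
  Cls.mono _ h.mem_s fun i hi => (h.ok i hi).e'_le.2.2.2.1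

theorem mem_e' : 𝒯.mem fun i => (c i).e' :=
  Cls.mono _ (mem_F h) fun i hi => (h.ok i hi).e'_le.1.trans (Nat.le_add_left _ _)

theorem mem_a : 𝒯.mem fun i => (c i).a :=
  Cls.mono _ (mem_F h) fun i _ => (Nat.le_add_right _ _).trans (Nat.le_add_right _ _)

include hθ hy

theorem tm_g1 : Tm 𝒯 (fun i => g1 (c i) (θ i) (y i)) :=
  Tm.pk h.tm.cf_e' h.m (mem_e' h) h.mem_m fun _ =>
    (tm_ctl (h.tm.lift _) (hθ.lift _) (hy.lift _) Tm.id.fst).ite (Tm.const _) (Tm.const _)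

theorem tm_g2 : Tm 𝒯 (fun i => g2 (c i) (θ i) (y i)) :=
  Tm.pk h.tm.cf_e' h.m (mem_e' h) h.mem_m fun _ =>
    ((tm_ctl (h.tm.lift _) (hθ.lift _) (hy.lift _) Tm.id.fst).and
      ((Tm.fdg (h.tm.lift _).cf_F (hy.lift _) Tm.id.fst).testBit (hθ.lift _).fst).isTrue.not).ite
      (Tm.const _) (Tm.const _)

theorem tm_hh (k : ℕ) : Tm 𝒯 (fun i => hh (c i) (θ i) k (y i)) :=
  Tm.pk h.tm.cf_F h.m (mem_F h) h.mem_m fun _ =>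
    (tm_inT (hθ.lift _) Tm.id.fst).ite (Tm.shl (Tm.fdg (h.tm.lift _).cf_e' (hy.lift _) Tm.id.fst)
      (((hθ.lift _).fst.min (h.tm.lift _).cf_a).add (Tm.const _))
      (Cls.ext_of_le (Cls.add _ (mem_a h) (Cls.const _ k)) fun _ _ _ _ =>
        Nat.add_le_add_right (min_le_right _ _) _)) (Tm.const _)

end

theorem cp_dig {Θ : Type} [Enc Θ] : Tm (cp Θ) fun p => p.1 / p.2.1.R % p.2.1.R :=
  (Tm.div (by fun_prop) cp_cfT.R).mod cp_cfT.R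

theorem sz_le {c : Cf} {θ : ℕ × ℕ × ℕ × ℕ × Bool} (hc : c.ok) (hθ : XeOK c θ) :
    sz θ ≤ 100 * (c.s + 1) := by
  obtain ⟨j, f0, f1, t, fl⟩ := θ
  obtain ⟨h1, h2, h3, -⟩ := hθ
  have := hc.e'_le
  have := sz_nat_le j
  have := sz_nat_le f0
  have := sz_nat_le f1
  have := sz_nat_le t
  have := sz_bool fl
  rw [Cf.F] at *
  simp only [sz_pair] at *
  omega

end FE

open FE in
theorem exists_xe : ∃ xe : Cf → ℕ × ℕ × ℕ × ℕ × Bool → List ℕ → List ℕ,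
    (∀ c θ l, c.ok → c.Good l → XeOK c θ → (xe c θ l).length = l.length ∧ Bd c.P (xe c θ l) ∧
      ∀ i < l.length, c.Safe i → gt (xe c θ l) i =
        gt l (i ^^^ cmask (c.pos θ.1) θ.2.1 θ.2.2.1 θ.2.2.2.1 θ.2.2.2.2 i)) ∧
    ∀ {ι : Type} [Enc ι] {𝒯 : Cls ι} [Dom 𝒯] {c : ι → Cf} {l : ι → List ℕ}
      {θ : ι → ℕ × ℕ × ℕ × ℕ × Bool}, CArr 𝒯 c l → Tm 𝒯 θ → (∀ i, 𝒯.dom i → XeOK (c i) (θ i)) →
      Tm 𝒯 (fun i => xe (c i) (θ i) (l i)) := by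
  refine ⟨xe, fun c θ l hc hl hθ => xe_spec hc hl hθ, fun h hθ hok => ?_⟩
  have hs := fun i hi => sz_le (h.ok i hi) (hok i hi)
  have t : Tm (cp (ℕ × ℕ × ℕ × ℕ × Bool)) fun p => p.2.2 := by fun_prop
  have a1 := tm_g1 cp_cfT t cp_dig
  have a2 := tm_g2 cp_cfT t cp_dig
  have a3 := tm_hh cp_cfT t cp_dig
  exact ((((((((h.shearW hθ hs (cp_cfT.R.sub a2)).upper hθ hs (cp_cfT.R.sub (a3 1))).shearW hθ hs
    a2).upper hθ hs (a3 1)).shearW hθ hs a1).upper hθ hs (cp_cfT.R.sub (a3 0))).shearW hθ hs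
    (cp_cfT.R.sub a1)).upper hθ hs (a3 0)).tl

end Vale.Agent.P338
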