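import Vale.Agent.P338.GtenB

/-! The tensor power of the gate with few passes. -/

namespace Vale.Agent.P338

theorem length_gten (c : Cf) (j f0 t : ℕ) (l : List ℕ) : (gten c j f0 t l).length = l.length :=
  length_tab _ _

theorem bd_gten (c : Cf) (j f0 t : ℕ) (l : List ℕ) : Bd c.P (gten c j f0 t l) :=
  bd_tab fun i _ => by
    split_ifs
    · exact ZMod.val_lt _
    · exact c.P_pos

namespace GtenAux

theorem cst_gten {c : Cf} (j f0 t : ℕ) {l : List ℕ} {i : ℕ} (hi : i < l.length) (hs : c.Safe i) :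
    cst c.w (gten c j f0 t l) i = gall (im c.w) (hm c.w) (c.pos j) f0 t (cst c.w l) i := by
  rw [cst, gten, gt_tab _ hi, if_pos hs, ZMod.natCast_zmod_val]
  rfl

/-- The class of the recursive case. -/
abbrev SS : Cls Ar := UU.res fun x => ¬ x.1.2.2.2 = 0

/-- Wires. -/
def GG (a : Ar) (l : List ℕ) : Prop := l.length = a.2.length / Wn ∧ Bd a.1.1.P l

/-- Arrays of the full length. -/
def GF (a : Ar) (l : List ℕ) : Prop := l.length = a.2.length ∧ Bd a.1.1.P l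

/-- Admissible calls. -/
def QQ (a x : Ar) : Prop :=
  dm x ∧ x.2.length = a.2.length / Wn ∧ x.1.2.2.2 = a.1.2.2.2 - 1 ∧ x.1.1 = a.1.1

theorem mem_SS : SS.mem fun x => 4 * (x.2.length * (x.1.1.b + 1)) + 2 :=
  Cls.lin (Cls.res_mem mem_UU) 4 2 fun _ _ => le_rfl

theorem GG.le {a : Ar} {l : List ℕ} (h : GG a l) : l.length ≤ a.2.length :=
  h.1 ▸ Nat.div_le_self _ _

/-- The class of an operation on one wire. -/
abbrev WW : Cls (List ℕ × Ar) := SS.ext GG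

instance : Dom WW := Cls.dom_ext mem_SS fun _ _ _ hl => sz_bd hl.2 hl.le

instance : Dom (SS.ext GF) := Cls.dom_ext mem_SS fun _ _ _ hl => sz_bd hl.2 hl.1.le

theorem shW {a : Ar} (h : SS.dom a) : Sh a.1.1 (a.1.2.2.2 - 1) (a.2.length / Wn) :=
  (h.1.2.1.div h.2).1

theorem carrW : CArr WW (fun p => p.2.1.1) fun p => p.1 :=
  ⟨Tm.id.snd.fst.fst, Tm.id.fst, fun _ h => h.1.1.1.1,
    fun _ h => Sh.good (h.2.1 ▸ shW h.1) h.2.2,
    Cls.ext_of_le (Cls.res_mem mem_sw) fun _ _ _ hl =>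
      Nat.mul_le_mul_right _ (Nat.mul_le_mul_right _ hl.le)⟩

theorem carrF : CArr (SS.ext GF) (fun p => p.2.1.1) fun p => p.1 :=
  ⟨Tm.id.snd.fst.fst, Tm.id.fst, fun _ h => h.1.1.1.1,
    fun _ h => Sh.good (h.2.1 ▸ h.1.1.2.1) h.2.2,
    Cls.ext_of_le (Cls.res_mem mem_sw) fun _ _ _ hl =>
      Nat.mul_le_mul_right _ (Nat.mul_le_mul_right _ hl.1.le)⟩

theorem tt_eq {θ : Th} (h : ¬ θ.2.2.2 = 0) : 289 * tt θ = 289 ^ θ.2.2.2 * θ.1.t0 := by
  obtain ⟨u, hu⟩ := Nat.exists_eq_succ_of_ne_zero h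
  rw [tt, hu, Nat.succ_sub_one, pow_succ]
  ring

theorem grp_le {a : Ar} (h : SS.dom a) (b : Fin 289) :
    a.1.2.2.1 + b * tt a.1 + tt a.1 ≤ a.1.1.m := by
  have h1 := h.1.1.2.2.1
  have h2 : (b + 1) * tt a.1 ≤ 289 * tt a.1 := Nat.mul_le_mul_right _ b.2
  rw [← tt_eq h.2] at h1
  rw [add_mul] at h2
  omega

theorem tmW_grp (b : ℕ) : Tm WW fun p => p.2.1.2.2.1 + b * tt p.2.1 :=
  Tm.id.snd.fst.snd.snd.fst.add (Tm.cmul b (Tm.lift GG ((tmU tm_tt).res _)))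

theorem tm_nn : Tm SS fun a => a.2.length / Wn := Tm.id.snd.length.shr (Tm.const 30)

/-- Arguments with a positive word length. -/
abbrev DD : Type := {a : Ar // 0 < a.1.1.w}
/-- Scalars. -/
abbrev KK : Type := (a : DD) → ZMod (Pm a.1.1.1.w)
/-- Values held by wires. -/
abbrev VV : Type := (a : DD) → ℕ → ZMod (Pm a.1.1.1.w)
/-- Families of operators. -/
abbrev Fam (Lab : Type) : Type 1 := Lab → ∀ (k : Type) [CommRing k] (_ _ : k)
  (_ : ℕ → ℕ) (_ _ : ℕ), (ℕ → k) →ₗ[k] (ℕ → k)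

/-- The implementation of the network. -/
noncomputable def impl {Lab : Type} (UL : Fam Lab) : Impl Ar Ar (List ℕ) KK VV Lab where
  g := gg
  𝒯 := SS
  Q := QQ
  G := GG
  Rep := fun a l v => GG a l ∧ ∀ h : 0 < a.1.1.w, ∀ i < a.2.length / Wn, a.1.1.Safe i →
    cst a.1.1.w l i = v ⟨a, h⟩ i
  U := fun M =>
    { toFun := fun v a => UL M _ (im _) (hm _) (a.1.1.1.pos a.1.1.2.1) a.1.1.2.2.1 (tt a.1.1) (v a)
      map_add' := fun _ _ => funext fun _ => map_add _ _ _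
      map_smul' := fun c v => funext fun a => map_smul _ (c a) (v a) }
  B := fun a => 4 * (a.2.length * (a.1.1.b + 1)) + 2
  z := fun a => List.replicate (a.2.length / Wn) 0
  dom := inferInstance
  memB := mem_SS
  szG := fun _ _ _ hl => sz_bd hl.2 hl.le
  repG := fun _ _ _ _ h => h.1
  tz := Tm.replicate tm_nn (Tm.const 0) (SS.mono mem_SS fun a _ => by
    have h1 : a.2.length / Wn ≤ a.2.length := Nat.div_le_self _ _
    have h2 : sz (0 : ℕ) = 2 := rfl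
    rw [h2]
    nlinarith)
  repz := fun a _ => ⟨⟨List.length_replicate, fun x hx => by
      rw [List.eq_of_mem_replicate hx]; exact a.1.1.P_pos⟩, fun _ i hi _ => by
    rw [cst, gt_eq (by simpa using hi), List.getElem_replicate, Nat.cast_zero]
    rfl⟩

variable {Lab : Type} {UL : Fam Lab}

theorem impl_cf {c : KK} {g : ℕ → ℕ → ℕ → ℕ} (hg : Tm W2 fun p => g p.2 p.1.1 p.1.2)
    (h1 : ∀ w x y, x < Pm w → y < Pm w → g w x y < Pm w)
    (h2 : ∀ (a : DD) x y, y < Pm a.1.1.1.w →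
      (g a.1.1.1.w x y : ZMod (Pm a.1.1.1.w)) = x + c a * y) : (impl UL).Cf c := by
  have := (impl UL).domG2
  refine ⟨fun p => List.zipWith (g p.2.1.1.w) p.1.1 p.1.2,
    tm_zipW hg Tm.id.fst.fst Tm.id.fst.snd Tm.id.snd.fst.fst.cf_w (fun _ h => ⟨h.2.1.2, h.2.2.2⟩)
      (Cls.ext_of_le mem_SS fun p a _ h => ?_),
    fun a l l' v v' _ h h' => ⟨⟨?_, bd_zipWith h.1.2 h'.1.2 (h1 _)⟩, fun hw i hi hs => ?_⟩⟩
  · have h3 : p.1.length * a.1.1.w ≤ a.2.length * (a.1.1.b + 1) :=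
      Nat.mul_le_mul h.1.le (by unfold Cf.b; omega)
    change p.1.length * a.1.1.w ≤ _
    omega
  · rw [List.length_zipWith, h.1.1, h'.1.1, min_self]
  · rw [cst, gt_zipWith _ (h'.1.1.trans h.1.1.symm) (h.1.1 ▸ hi),
      h2 ⟨a, hw⟩ _ _ (h'.1.2.gt (Pm_pos _) _)]
    exact congrArg₂ (fun x y => x + c ⟨a, hw⟩ * y) (h.2 hw i hi hs) (h'.2 hw i hi hs)

theorem impl_design : Nonempty (Design KK (Option P344.H17) (impl UL).Cf P344.orth) := by
  refine design2 (fun a => hm _) (funext fun a => two_hm a.2) _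
    (impl_cf (g := fun _ x _ => x) w2_x (fun _ _ _ h _ => h) fun a x y _ => by simp)
    (impl_cf (g := addW) (w2_w.addW w2_m w2_x w2_y fun _ h => h) (fun _ _ _ _ _ => addW_lt _ _ _)
      fun a x y _ => by rw [addW_cast]; simp)
    (impl_cf (g := subW) (w2_w.subW w2_m w2_x w2_y fun _ h => h) (fun _ _ _ _ _ => subW_lt _ _ _)
      fun a x y h => by rw [subW_cast _ h]; simp [sub_eq_add_neg])
    (impl_cf (g := fun w x y => addW w x (halfW w y))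
      (w2_w.addW w2_m w2_x (w2_w.halfW w2_m w2_y) fun _ h => ⟨h.1, halfW_lt h.2⟩)
      (fun _ _ _ _ _ => addW_lt _ _ _) fun a x y _ => by rw [addW_cast, halfW_cast a.2])
    (impl_cf (g := fun w x y => subW w x (halfW w y))
      (w2_w.subW w2_m w2_x (w2_w.halfW w2_m w2_y) fun _ h => ⟨h.1, halfW_lt h.2⟩)
      (fun _ _ _ _ _ => subW_lt _ _ _) fun a x y h => by
        rw [subW_cast _ (halfW_lt h), halfW_cast a.2]; simp [sub_eq_add_neg])

theorem op_xe (f0 f1 : Ar → ℕ) (fl : Bool) (h0 : Tm WW fun p => f0 p.2)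
    (h1 : Tm WW fun p => f1 p.2)
    (h : ∀ a, SS.dom a → XeOK a.1.1 (a.1.2.1, f0 a, f1 a, tt a.1, fl)) :
    (impl UL).Op 0 fun v a i =>
      v a (i ^^^ cmask (a.1.1.1.pos a.1.1.2.1) (f0 a.1) (f1 a.1) (tt a.1.1) fl i) := by
  obtain ⟨xe, k1, k2⟩ := exists_xe
  have k3 : Tm WW fun p => xe p.2.1.1 (p.2.1.2.1, f0 p.2, f1 p.2, tt p.2.1, fl) p.1 :=
    k2 carrW (Tm.id.snd.fst.snd.fst.pair (h0.pair (h1.pair
      ((Tm.lift GG ((tmU tm_tt).res _)).pair (Tm.const fl))))) fun p hp => h _ hp.1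
  have k4 := fun a l (ha : SS.dom a) (hl : GG a l) =>
    k1 _ _ l ha.1.1.1 (carrW.good (l, a) ⟨ha, hl⟩) (h a ha)
  have hG : ∀ a l, SS.dom a → GG a l →
      GG a (xe a.1.1 (a.1.2.1, f0 a, f1 a, tt a.1, fl) l) := fun a l ha hl =>
    ⟨(k4 a l ha hl).1.trans hl.1, (k4 a l ha hl).2.1⟩
  refine ⟨_, k3.toN, hG, fun a l v ha hl => ⟨hG a l ha hl.1, fun hw i hi hs => ?_⟩⟩
  obtain ⟨k5, k6⟩ := ha.1.1.1.safe_cmask (f0 := f0 a) (h a ha).1 (h a ha).2.2.1 fl i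
  rw [cst, (k4 a l ha hl.1).2.2 i (hl.1.1 ▸ hi) hs]
  exact hl.2 hw _ ((shW ha).lt_of hi k6) (k5.2 hs)

theorem safe_flip {a : Ar} (ha : SS.dom a) {f i : ℕ} (hf : f < a.1.1.m)
    (hi : i < a.2.length / Wn ∧ a.1.1.Safe i) :
    i ^^^ 2 ^ a.1.1.pos a.1.2.1 f < a.2.length / Wn ∧ a.1.1.Safe (i ^^^ 2 ^ a.1.1.pos a.1.2.1 f) :=
  have k := ha.1.1.1.safe_bit ha.1.1.2.1 hf i
  ⟨(shW ha).lt_of hi.1 k.2.2, k.1.2 hi.2⟩

theorem op_gate (b : Fin 289) : (impl UL).Op 1 fun v a =>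
    gall (im _) (hm _) (a.1.1.1.pos a.1.1.2.1) (a.1.1.2.2.1 + b * tt a.1.1) (tt a.1.1) (v a) := by
  have hc : TmN gg WW (fun p => QQ p.2) 1 fun p =>
      gg ((p.2.1.1, p.2.1.2.1, p.2.1.2.2.1 + b * tt p.2.1, p.2.1.2.2.2 - 1), p.1) :=
    TmN.call ((carrW.tc.pair (Tm.id.snd.fst.snd.fst.pair ((tmW_grp b).pair
      (Tm.id.snd.fst.snd.snd.snd.sub (Tm.const 1))))).pair Tm.id.fst) fun p hp =>
      ⟨⟨⟨hp.1.1.1.1, hp.1.1.1.2.1, grp_le hp.1 b, (Nat.sub_le _ _).trans hp.1.1.1.2.2.2⟩,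
        hp.2.1 ▸ shW hp.1, hp.2.2⟩, hp.2.1, rfl, rfl⟩
  have hG : ∀ a l, GG a l → GG a (gten a.1.1 a.1.2.1 (a.1.2.2.1 + b * tt a.1) (tt a.1) l) :=
    fun a l hl => ⟨(length_gten _ _ _ _ _).trans hl.1, bd_gten _ _ _ _ _⟩
  refine ⟨_, hc, fun a l _ hl => hG a l hl, fun a l v ha hl => ⟨hG a l hl.1, fun hw i hi hs => ?_⟩⟩
  have h1 := grp_le ha b
  exact (cst_gten _ _ _ (hl.1.1 ▸ hi) hs).trans
    (gall_map _ _ _ (a.1.2.2.1 + b * tt a.1) (tt a.1)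
      (fun i => i < a.2.length / Wn ∧ a.1.1.Safe i) (fun i => i)
      (fun n hn i hi => ⟨safe_flip ha (by omega) hi, rfl⟩) (fun i hi => hl.2 hw i hi.1 hi.2)
      ⟨hi, hs⟩)

/-- The action of a generator on all components. -/
def act (g : Gen2) (v : VV) : VV := fun a =>
  g.act (im _) (hm _) (a.1.1.1.pos a.1.1.2.1) a.1.1.2.2.1 (tt a.1.1) (v a)

theorem op_gen (g : Gen2) (hg : g.ok) : (impl UL).Op g.cost (act g) := by
  cases g with
  | cnot a0 b =>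
    refine op_xe (fun a => a.1.2.2.1 + a0 * tt a.1) (fun a => a.1.2.2.1 + b * tt a.1) false
      (tmW_grp a0) (tmW_grp b) fun a ha => ?_
    have h1 := grp_le ha a0
    refine ⟨ha.1.1.2.1, le_trans (Nat.le_add_right _ _) h1, grp_le ha b, Or.inr ⟨h1, ?_⟩⟩
    have h2 : ∀ x y : ℕ, x < y → a.1.2.2.1 + x * tt a.1 + tt a.1 ≤ a.1.2.2.1 + y * tt a.1 := by
      intro x y hxy
      have := Nat.mul_le_mul_right (tt a.1) (Nat.succ_le_of_lt hxy)
      rw [Nat.succ_mul] at this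
      omega
    exact (lt_or_gt_of_ne (Fin.val_ne_of_ne hg)).imp (h2 _ _) (h2 _ _)
  | nt b =>
    exact op_xe (fun _ => 0) (fun a => a.1.2.2.1 + b * tt a.1) true (Tm.const 0) (tmW_grp b)
      fun a ha => ⟨ha.1.1.2.1, Nat.zero_le _, grp_le ha b, Or.inl rfl⟩
  | gate b => exact op_gate b

theorem foldl_act (w : List Gen2) (v : VV) (a : DD) :
    w.foldl (fun v g => act g v) v a = w.foldl (fun v g =>
      g.act (im _) (hm _) (a.1.1.1.pos a.1.1.2.1) a.1.1.2.2.1 (tt a.1.1) v) (v a) := by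
  induction w generalizing v with
  | nil => rfl
  | cons g w ih => rw [List.foldl_cons, ih]; rfl

theorem exists_out : ∃ out : Fin Wn → Ar → List ℕ,
    TmN gg SS QQ Nn (fun a => (List.ofFn fun w => out w a).flatten) ∧
    ∀ w a, SS.dom a → GG a (out w a) ∧ ∀ i < a.2.length / Wn, a.1.1.Safe i →
      cst a.1.1.w (out w a) i = gall (im _) (hm _) (a.1.1.pos a.1.2.1) a.1.2.2.1 (289 * tt a.1)
        (cst a.1.1.w (piece (a.2.length / Wn) w a.2)) i := by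
  obtain ⟨Lab, UL, Λ, hM, hΛ⟩ := lab2_exists
  obtain ⟨Ds⟩ := impl_design (UL := UL)
  have hM' : Moves (impl UL).Mv P344.orth Λ := by
    refine hM.mono ?_
    rintro r P P' ⟨w, h1, h2, h3⟩
    refine ⟨_, (impl UL).op_word Gen2.cost act w (fun g hg => op_gen g (h1 g hg)) h2,
      fun a l v ha hl => ⟨hl.1, fun hw i hi hs => ?_⟩⟩
    rw [hl.2 hw i hi hs, foldl_act]
    exact congrFun (h3 _ _ _ _ _ _ (im_sq _) (two_hm hw) (Cf.pos_inj _ _) _) i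
  obtain ⟨kind, hk⟩ := (impl UL).net Ds hM'
  have hΛ' := fun a : DD => hΛ _ (im _) (hm _) (a.1.1.1.pos a.1.1.2.1) a.1.1.2.2.1 (tt a.1.1)
    (im_sq _) (two_hm a.2) (Cf.pos_inj _ _)
  have hv : ∀ (w : Fin Wn) (a : DD), ∃ v, UL ((kind w).elim Λ.l0 Λ.lX) _ (im _) (hm _)
      (a.1.1.1.pos a.1.1.2.1) a.1.1.2.2.1 (tt a.1.1) v =
        cst a.1.1.1.w (piece (a.1.2.length / Wn) w a.1.2) := by
    intro w a
    cases kind w with
    | none => exact ⟨_, (hΛ' a).1 _⟩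
    | some x => exact ((hΛ' a).2.2 x).1 _
  choose v hv using hv
  obtain ⟨out, h1, h2⟩ := hk (fun w a => piece (a.2.length / Wn) w a.2) v
    (fun w => (Tm.take tm_nn (Tm.drop (Tm.cmul _ tm_nn) Tm.id.snd) : Tm SS _))
    fun w a ha => ⟨⟨length_piece (ha.1.2.1.div ha.2).2 w.2, bd_piece ha.1.2.2⟩,
      fun hw i _ _ => (congrFun (hv w ⟨a, hw⟩) i).symm⟩
  refine ⟨out, h1, fun w a ha => ⟨(h2 w a ha).1, fun i hi hs => ?_⟩⟩
  have hw := ha.1.1.small.2.2.2.2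
  have e := hv w ⟨a, hw⟩
  rw [(h2 w a ha).2 hw i hi hs, ← e]
  change UL ((kind w).elim Λ.l1 Λ.lX') _ _ _ _ _ _ _ i = _
  cases kind w with
  | none => exact congrFun (((hΛ' ⟨a, hw⟩).2.1 _).trans (congrArg _ ((hΛ' ⟨a, hw⟩).1 _).symm)) i
  | some x => exact congrFun (((hΛ' ⟨a, hw⟩).2.2 x).2 _) i

theorem exists_flat : ∃ F : Ar → List ℕ, TmN gg SS QQ Nn F ∧
    ∀ a, SS.dom a → GF a (F a) ∧ ∀ w < Wn, ∀ i < a.2.length / Wn, a.1.1.Safe i →
      cst a.1.1.w (F a) (w * (a.2.length / Wn) + i) =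
        gall (im _) (hm _) (a.1.1.pos a.1.2.1) a.1.2.2.1 (289 * tt a.1)
          (cst a.1.1.w (piece (a.2.length / Wn) w a.2)) i := by
  obtain ⟨out, h1, h2⟩ := exists_out
  refine ⟨_, h1, fun a ha => ?_⟩
  have hL : ∀ x ∈ List.ofFn fun w => out w a, GG a x := by
    intro x hx
    obtain ⟨w, rfl⟩ := List.mem_ofFn.1 hx
    exact (h2 w a ha).1
  refine ⟨⟨?_, fun x hx => ?_⟩, fun w hw i hi hs => ?_⟩
  · rw [length_flatten_of _ fun x hx => (hL x hx).1, List.length_ofFn]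
    exact (ha.1.2.1.div ha.2).2.symm
  · obtain ⟨y, hy, hx⟩ := List.mem_flatten.1 hx
    exact (hL y hy).2 x hx
  · have e1 : (List.ofFn fun w => out w a).getD w [] = out ⟨w, hw⟩ a := by
      have hw' : w < (List.ofFn fun w => out w a).length := by rw [List.length_ofFn]; exact hw
      rw [List.getD_eq_getElem _ _ hw', List.getElem_ofFn]
    rw [cst, gt_flatten _ (fun x hx => (hL x hx).1) w hi, e1]
    exact (h2 ⟨w, hw⟩ a ha).2 i hi hs

theorem step_case : TmN gg SS QQ Nn gg := by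
  obtain ⟨F, h1, h2⟩ := exists_flat
  refine (TmN.letG GF h1 (fun a ha => (h2 a ha).1) carrF.clean.tl.toN).congr fun a ha => ?_
  obtain ⟨⟨k1, k2⟩, k3⟩ := h2 a ha
  change gg a = tab (F a).length fun n => if a.1.1.Safe n then gt (F a) n else 0
  rw [k1]
  refine ext_gt ?_ fun i hi => ?_
  · rw [gg, length_gten, length_tab]
  rw [gg, length_gten] at hi
  rw [gg, gt_tab _ hi]
  by_cases hs : a.1.1.Safe i
  · rw [if_pos hs, ← cst_val (w := a.1.1.w) (bd_gten _ _ _ _ _), ← cst_val (w := a.1.1.w) k2,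
      cst_gten _ _ _ hi hs]
    rw [(ha.1.2.1.div ha.2).2] at hi
    obtain ⟨w, hw, u, hu, rfl⟩ := idx_decomp hi
    have hs' := ((shW ha).safe_add w u).1 hs
    have h3 := ha.1.1.2.2.1
    rw [← tt_eq ha.2] at h3 ⊢
    rw [k3 w hw u hu hs', gall_map _ _ _ a.1.2.2.1 (289 * tt a.1)
      (fun i => i < a.2.length / Wn ∧ a.1.1.Safe i) (fun i => w * (a.2.length / Wn) + i)
      (fun n hn i hi => ⟨safe_flip ha (by omega) hi,
        add_xor (((shW ha).dvd_pos ha.1.1.1 ha.1.1.2.1 (by omega)).mul_left _) i⟩)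
      (v' := cst a.1.1.w a.2) (fun i hi => by rw [cst, cst, gt_piece _ hi.1]) ⟨hu, hs'⟩]
  · rw [if_neg hs, gten, gt_tab _ hi, if_neg hs]

/-- The solution of the recurrence. -/
def U0 (x : Ar) : ℕ := x.2.length / Wn ^ x.1.2.2.2 * Nn ^ x.1.2.2.2 * (x.1.1.b + 1) *
  (x.1.1.t0 + 1 + (x.1.2.2.2 + 1) * x.1.1.sw)

theorem exists_rec : ∃ K, Tm (big dm fun x => K * U0 x) gg := by
  obtain ⟨T, ⟨K, hK⟩, h2⟩ := TmN.fix (𝒰 := UU) (c := fun a => a.1.2.2.2 = 0)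
    (Tm.id.fst.snd.snd.snd.eq (Tm.const 0)) base_case step_case fun _ _ _ _ h => h.1
  refine ⟨2 * K, h2 _ (fun a ha h0 => ?_) fun a ha h0 => ?_⟩
  · have h3 := hK a ha
    have h5 : 1 ≤ tau a := by
      rw [tau, if_pos h0]
      exact Nat.mul_pos (Nat.mul_pos ha.2.1.pos (by omega)) (by omega)
    have h6 : U0 a = tau a := by
      rw [U0, tau, if_pos h0, h0, pow_zero, pow_zero, Nat.div_one, mul_one, zero_add, one_mul]
    rw [h6]
    nlinarith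
  · have h3 := hK a ha
    have h4 := a.1.1.one_le_sw
    have h5 : 1 ≤ tau a := by
      rw [tau, if_neg h0]
      exact Nat.mul_pos (Nat.mul_pos ha.2.1.pos (by omega)) h4
    obtain ⟨r, hr⟩ := Nat.exists_eq_succ_of_ne_zero h0
    refine ⟨2 * K * (a.2.length / Wn ^ (r + 1) * Nn ^ r * (a.1.1.b + 1) *
      (a.1.1.t0 + 1 + (r + 1) * a.1.1.sw)), fun x hx => le_of_eq ?_, ?_⟩
    · obtain ⟨-, k1, k2, k3⟩ := hx
      rw [U0, k1, k2, k3, hr, Nat.succ_sub_one, Nat.div_div_eq_div_mul, ← pow_succ']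
    · have k3 := ha.2.1.wn
      rw [hr] at k3
      have k4 : a.2.length ≤ a.2.length / Wn ^ (r + 1) * Nn ^ (r + 1) := by
        conv_lhs => rw [← Nat.div_mul_cancel k3]
        exact Nat.mul_le_mul_left _ (Nat.pow_le_pow_left SwapAux.Wn_le_Nn _)
      have k5 : tau a ≤ a.2.length / Wn ^ (r + 1) * Nn ^ (r + 1) * (a.1.1.b + 1) * a.1.1.sw := by
        rw [tau, if_neg h0]
        exact Nat.mul_le_mul_right _ (Nat.mul_le_mul_right _ k4)
      have k6 : T a ≤ 2 * K *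
          (a.2.length / Wn ^ (r + 1) * Nn ^ (r + 1) * (a.1.1.b + 1) * a.1.1.sw) := by
        rw [mul_comm 2, mul_assoc K]
        exact h3.trans (Nat.mul_le_mul_left _ (by omega))
      rw [U0, hr]
      refine (Nat.add_le_add_right k6 _).trans (le_of_eq ?_)
      rw [Nat.succ_eq_add_one]
      ring

theorem U0_le (c : Cf) (j : ℕ) (l : List ℕ) :
    U0 ((c, j, 0, c.r2), l) ≤ l.length * (c.b + 1) * c.gc := by
  have h1 : l.length / Wn ^ c.r2 * Nn ^ c.r2 ≤ l.length * (Nn ^ c.r2 / Wn ^ c.r2 + 1) := by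
    have h2 : Nn ^ c.r2 ≤ Wn ^ c.r2 * (Nn ^ c.r2 / Wn ^ c.r2 + 1) :=
      (Nat.lt_mul_div_succ _ (pow_pos SwapAux.Wn_pos _)).le
    calc _ ≤ l.length / Wn ^ c.r2 * (Wn ^ c.r2 * (Nn ^ c.r2 / Wn ^ c.r2 + 1)) :=
          Nat.mul_le_mul_left _ h2
      _ = l.length / Wn ^ c.r2 * Wn ^ c.r2 * (Nn ^ c.r2 / Wn ^ c.r2 + 1) := by ring
      _ ≤ _ := Nat.mul_le_mul_right _ (Nat.div_mul_le_self _ _)
  calc U0 ((c, j, 0, c.r2), l) = l.length / Wn ^ c.r2 * Nn ^ c.r2 * (c.b + 1) *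
        (c.t0 + 1 + (c.r2 + 1) * c.sw) := rfl
    _ ≤ l.length * (Nn ^ c.r2 / Wn ^ c.r2 + 1) * (c.b + 1) * (c.t0 + 1 + (c.r2 + 1) * c.sw) :=
        Nat.mul_le_mul_right _ (Nat.mul_le_mul_right _ h1)
    _ = _ := by rw [Cf.gc]; ring

end GtenAux

open GtenAux in
theorem Tm.gten {ι : Type} [Enc ι] {𝒯 : Cls ι} [Dom 𝒯] {c : ι → Cf} {l : ι → List ℕ} {j : ι → ℕ}
    (hc : Tm 𝒯 c) (hl : Tm 𝒯 l) (hj : Tm 𝒯 j)
    (h : ∀ i, 𝒯.dom i → (c i).ok ∧ (c i).Full (l i) ∧ j i ≤ (c i).a)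
    (hm : 𝒯.mem fun i => (l i).length * ((c i).b + 1) * (c i).gc) :
    Tm 𝒯 (fun i => gten (c i) (j i) 0 (c i).m (l i)) := by
  obtain ⟨K, hK⟩ := exists_rec
  have hx : Tm 𝒯 fun i => (((c i, j i, 0, (c i).r2), l i) : Ar) :=
    (hc.pair (hj.pair ((Tm.const 0).pair hc.cf_r2))).pair hl
  have hd : ∀ i, 𝒯.dom i → dm ((c i, j i, 0, (c i).r2), l i) := fun i hi =>
    ⟨⟨(h i hi).1, (h i hi).2.2, (Nat.zero_add (c i).m).le, Nat.le_refl (c i).r2⟩,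
      ⟨(c i).E, (c i).E_pos, Nat.le_refl (c i).E, Nat.dvd_refl (c i).E, (h i hi).2.1.1⟩,
      (h i hi).2.1.2⟩
  have hU : 𝒯.mem fun i => U0 ((c i, j i, 0, (c i).r2), l i) := 𝒯.mono hm fun i _ => U0_le _ _ _
  have key := hK.compB hx hd (Cls.cmul hU K)
  exact key

end Vale.Agent.P338
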