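import Vale.Agent.P338.Net
import Vale.Agent.P338.Gate
import Vale.Agent.P338.Lab2Aux

/-! Frames for the tensor power of the gate: quadratic forms over the binary field. -/

namespace Vale.Agent.P338

open Vale.Agent.P344 (Tr H17)

/-- Elementary operations on 289 groups of bits. -/
inductive Gen2 : Type
  | cnot : Fin 289 → Fin 289 → Gen2
  | nt : Fin 289 → Gen2
  | gate : Fin 289 → Gen2

/-- Control and target differ. -/
def Gen2.ok : Gen2 → Prop
  | .cnot a0 a => a0 ≠ a
  | _ => True

/-- Number of recursive calls. -/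
def Gen2.cost : Gen2 → ℕ
  | .gate _ => 1
  | _ => 0

/-- Action on arrays; group `a` consists of the bits `pos (f0 + a * t + n)`, `n < t`. -/
def Gen2.act {k : Type} [CommRing k] (ι h : k) (pos : ℕ → ℕ) (f0 t : ℕ) :
    Gen2 → (ℕ → k) → (ℕ → k)
  | .cnot a0 a, v => fun i => v (i ^^^ cmask pos (f0 + a0 * t) (f0 + a * t) t false i)
  | .nt a, v => fun i => v (i ^^^ cmask pos 0 (f0 + a * t) t true i)
  | .gate a, v => gall ι h pos (f0 + a * t) t v

theorem design2 {k : Type} [CommRing k] (h : k) (hh : 2 * h = 1) (Cf : k → Prop) (c0 : Cf 0)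
    (c1 : Cf 1) (c2 : Cf (-1)) (c3 : Cf h) (c4 : Cf (-h)) :
    Nonempty (Design k (Option H17) Cf P344.orth) := by
  have e : ∀ S T : Tr, ∑ i : Option H17,
      (i.elim (-h) fun j => if j ∈ S.1 then h else 0) * (i.elim 1 fun j => if j ∈ T.1 then 1 else 0)
      = h * (((S.1 ∩ T.1).card : k) - 1) := by
    intro S T
    rw [Fintype.sum_option]
    simp only [Option.elim, mul_ite, mul_one, mul_zero]
    rw [Finset.sum_ite_mem, Finset.univ_inter, Finset.sum_ite_mem, Finset.sum_const,
      Finset.inter_comm]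
    simp only [nsmul_eq_mul]
    ring
  have e3 : ∀ S T : Tr, (S = T ∧ (S.1 ∩ T.1).card = 3) ∨ (S ≠ T ∧ (S.1 ∩ T.1).card ≤ 2) := by
    intro S T
    by_cases hST : S = T
    · subst hST
      exact Or.inl ⟨rfl, by rw [Finset.inter_self, S.2]⟩
    · refine Or.inr ⟨hST, ?_⟩
      have h3 : (S.1 ∩ T.1).card ≤ 3 :=
        (Finset.card_le_card Finset.inter_subset_left).trans (le_of_eq S.2)
      have h1 : (S.1 ∩ T.1).card ≠ 3 := by
        intro h1
        apply hST
        have hs : S.1 ∩ T.1 = S.1 :=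
          Finset.eq_of_subset_of_card_le Finset.inter_subset_left (by rw [h1, S.2])
        have ht : S.1 ∩ T.1 = T.1 :=
          Finset.eq_of_subset_of_card_le Finset.inter_subset_right (by rw [h1, T.2])
        exact Subtype.ext (hs.symm.trans ht)
      omega
  have e4 : ∀ S T : Tr, S = T ∨ (S.1 ∩ T.1).card = 1 →
      (if S = T then 1 else 0) - h * (((S.1 ∩ T.1).card : k) - 1) = 0 := by
    intro S T hST
    rcases e3 S T with ⟨h1, h2⟩ | ⟨h1, h2⟩
    · rw [if_pos h1, h2]; push_cast; linear_combination -hh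
    · rw [if_neg h1, hST.resolve_left h1]; simp
  refine ⟨⟨fun S i => i.elim (-h) fun j => if j ∈ S.1 then h else 0,
    fun i T => i.elim 1 fun j => if j ∈ T.1 then 1 else 0,
    fun S T => (if S = T then 1 else 0) - h * (((S.1 ∩ T.1).card : k) - 1),
    fun S T => by rw [e], fun S T hn => e4 S T ?_, ?_, ?_, fun S T => ?_, c1, c2, by simp⟩⟩
  · rw [P344.orth, not_or] at hn
    rcases e3 S T with ⟨h1, _⟩ | ⟨_, h2⟩
    · exact Or.inl h1
    · exact Or.inr (by omega)
  · rintro S (_ | j)
    · exact c4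
    · simp only [Option.elim]
      split_ifs
      exacts [c3, c0]
  · rintro (_ | j) T
    · exact c1
    · simp only [Option.elim]
      split_ifs
      exacts [c1, c0]
  · by_cases h0 : S = T ∨ (S.1 ∩ T.1).card = 1
    · rw [e4 S T h0]; exact c0
    · rw [not_or] at h0
      have h2 := ((e3 S T).resolve_left fun h' => h0.1 h'.1).2
      have h5 : (S.1 ∩ T.1).card = 0 ∨ (S.1 ∩ T.1).card = 2 := by omega
      rw [if_neg h0.1]
      rcases h5 with h5 | h5 <;> rw [h5]
      · convert c3 using 1; push_cast; ring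
      · convert c4 using 1; push_cast; ring

namespace Lab2Aux

open Vale.Agent.P344 (F2 f2_cases vec_add_self mat_add_self Rk LL)
open Finset Matrix Kronecker

/-- Pairs of points. -/
abbrev I2 : Type := H17 × H17

/-- Numbering of the pairs. -/
def ei : I2 ≃ Fin 289 := finProdFinEquiv

theorem idx_inj {t a b n n' : ℕ} (hn : n < t) (hn' : n' < t) (h : a * t + n = b * t + n') :
    a = b ∧ n = n' := by
  have h1 : ∀ a n, n < t → (a * t + n) / t = a := fun a n hn => by
    rw [mul_comm, Nat.mul_add_div (by omega), Nat.div_eq_of_lt hn, add_zero]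
  have h2 : a = b := by rw [← h1 a n hn, h, h1 b n' hn']
  subst h2
  exact ⟨rfl, by omega⟩

theorem prod_range_mul {R : Type} [CommMonoid R] (f : ℕ → R) (N t : ℕ) :
    ∏ m ∈ range (N * t), f m = ∏ a ∈ range N, ∏ n ∈ range t, f (a * t + n) := by
  induction N with
  | zero => simp
  | succ N ih => rw [Nat.succ_mul, Finset.prod_range_add, ih, Finset.prod_range_succ]

/-- The vector `u` placed in the slice `n`. -/
def mask (pos : ℕ → ℕ) (f0 t n : ℕ) (u : I2 → F2) : XN :=
  ∑ a, u a • bit (pos (f0 + ei a * t + n))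

theorem mask_zero (pos : ℕ → ℕ) (f0 t n : ℕ) : mask pos f0 t n 0 = 0 := by simp [mask]

theorem mask_add (pos : ℕ → ℕ) (f0 t n : ℕ) (u w : I2 → F2) :
    mask pos f0 t n (u + w) = mask pos f0 t n u + mask pos f0 t n w := by
  simp [mask, add_smul, Finset.sum_add_distrib]

theorem mask_single (pos : ℕ → ℕ) (f0 t n : ℕ) (a : I2) :
    mask pos f0 t n (Pi.single a 1) = bit (pos (f0 + ei a * t + n)) := by
  simp [mask, Pi.single_apply, ite_smul]

theorem tb_mask {pos : ℕ → ℕ} (hp : Function.Injective pos) {f0 t n n' : ℕ} (hn : n < t)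
    (hn' : n' < t) (u : I2 → F2) (a : I2) :
    tb (pos (f0 + ei a * t + n')) (mask pos f0 t n u) = if n' = n then u a else 0 := by
  rw [mask, map_sum, Finset.sum_eq_single a]
  · rw [tb_smul, tb_bit]
    by_cases h : n' = n
    · rw [if_pos h, if_pos (by rw [h]), mul_one]
    · rw [if_neg h, if_neg (fun e => h (by have := hp e; omega)), mul_zero]
  · intro b _ hb
    rw [tb_smul, tb_bit, if_neg, mul_zero]
    intro e
    have h1 : (ei b : ℕ) * t + n = ei a * t + n' := by have := hp e; omega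
    exact hb (ei.injective (Fin.ext (idx_inj hn hn' h1).1))
  · exact fun h => absurd (Finset.mem_univ a) h

/-- The index map of a controlled flip. -/
def sig (pos : ℕ → ℕ) (f0 f1 t : ℕ) (μ : XN) : XN :=
  μ + ∑ n ∈ range t, tb (pos (f0 + n)) μ • bit (pos (f1 + n))

theorem sig_add (pos : ℕ → ℕ) (f0 f1 t : ℕ) (μ ν : XN) :
    sig pos f0 f1 t (μ + ν) = sig pos f0 f1 t μ + sig pos f0 f1 t ν := by
  simp only [sig, map_add, add_smul, Finset.sum_add_distrib]
  abel

theorem shift_inj {pos : ℕ → ℕ} (hp : Function.Injective pos) (f : ℕ) :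
    Function.Injective fun n => pos (f + n) := fun _ _ e => Nat.add_left_cancel (hp e)

theorem sig_val {pos : ℕ → ℕ} (hp : Function.Injective pos) (f0 f1 t i : ℕ) :
    i ^^^ cmask pos f0 f1 t false i = (sig pos f0 f1 t ⟨i⟩).val := by
  have := sum_bits _ (shift_inj hp f1)
    (fun n => false = true ∨ i.testBit (pos (f0 + n)) = true) (range t)
  have e : cmask pos f0 f1 t false i = _ := congrArg XN.val this
  rw [sig, XN.add_val, e]
  simp [tb_apply]

theorem sig_sig {pos : ℕ → ℕ} (hp : Function.Injective pos) {f0 t a0 a : ℕ} (ha : a0 ≠ a)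
    (μ : XN) : sig pos (f0 + a0 * t) (f0 + a * t) t (sig pos (f0 + a0 * t) (f0 + a * t) t μ) = μ := by
  have h1 : ∀ n ∈ range t, tb (pos (f0 + a0 * t + n)) (sig pos (f0 + a0 * t) (f0 + a * t) t μ)
      • bit (pos (f0 + a * t + n)) = tb (pos (f0 + a0 * t + n)) μ • bit (pos (f0 + a * t + n)) := by
    intro n hn
    rw [sig, map_add, map_sum, Finset.sum_eq_zero, add_zero]
    intro m hm
    rw [tb_smul, tb_bit, if_neg, mul_zero]
    intro e
    have h1 : a * t + m = a0 * t + n := by have := hp e; omega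
    exact ha (idx_inj (Finset.mem_range.1 hm) (Finset.mem_range.1 hn) h1).1.symm
  rw [sig, Finset.sum_congr rfl h1, sig, add_assoc, XN.add_self, add_zero]

theorem sig_mask {pos : ℕ → ℕ} (hp : Function.Injective pos) {f0 t n : ℕ} (hn : n < t)
    {u : I2 → F2} {a0 : I2} (hu : u a0 = 1) (a : I2) :
    sig pos (f0 + ei a0 * t) (f0 + ei a * t) t (mask pos f0 t n u)
      = mask pos f0 t n (u + Pi.single a 1) := by
  rw [mask_add, mask_single, sig, Finset.sum_eq_single n]
  · rw [tb_mask hp hn hn, if_pos rfl, hu, one_smul]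
  · intro m hm hmn
    rw [tb_mask hp hn (Finset.mem_range.1 hm), if_neg hmn, zero_smul]
  · exact fun h => absurd (Finset.mem_range.2 hn) h

section ops

variable {k : Type} [CommRing k]

/-- The gate of a mask, in the group algebra. -/
noncomputable def gx (ι h : k) (μ : XN) : GA k :=
  gg (algebraMap k (GA k) ι) (algebraMap k (GA k) h) (xx k μ)

theorem Phi_gx (ι h : k) (μ : XN) (v : ℕ → k) : Phi k (gx ι h μ) v = h • gate1 ι μ.val v := by
  funext i
  simp only [gx, gg, map_mul, map_add, map_sub, map_one, AlgHom.commutes, Phi_xx]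
  simp [flip_apply, gate1]
  ring

theorem gall_eq (ι h : k) (pos : ℕ → ℕ) (f0 t : ℕ) : ∀ v : ℕ → k,
    gall ι h pos f0 t v = Phi k (∏ n ∈ range t, gx ι h (bit (pos (f0 + n)))) v := by
  induction t with
  | zero => intro v; simp [gall]
  | succ t ih =>
    intro v
    rw [Finset.prod_range_succ, map_mul, Module.End.mul_apply, Phi_gx, ← ih]
    simp only [gall, List.range_succ, List.foldr_append, List.foldr_cons, List.foldr_nil]
    rfl

theorem conj_prod (ι h : k) {σ : XN → XN} (h1 : ∀ μ ν, σ (μ + ν) = σ μ + σ ν)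
    (h2 : ∀ μ, σ (σ μ) = μ) (μ : ℕ → XN) (s : Finset ℕ) : ∀ v : ℕ → k,
    (fun i => Phi k (∏ n ∈ s, gx ι h (μ n)) (fun j => v (σ ⟨j⟩).val) (σ ⟨i⟩).val)
      = Phi k (∏ n ∈ s, gx ι h (σ (μ n))) v := by
  induction s using Finset.induction_on with
  | empty => intro v; funext i; simp [h2]
  | insert a s ha ih =>
    intro v
    rw [Finset.prod_insert ha, Finset.prod_insert ha, map_mul, map_mul, Module.End.mul_apply,
      Module.End.mul_apply, ← ih, Phi_gx, Phi_gx]
    funext i
    have e : (σ ⟨i⟩).val ^^^ (μ a).val = (σ ⟨i ^^^ (σ (μ a)).val⟩).val := by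
      rw [← XN.add_val, ← h2 (μ a), ← h1, h2 (μ a)]
      rfl
    simp only [Pi.smul_apply, gate1, e]

/-- The element of the group algebra attached to a list of vectors. -/
noncomputable def GG (ι h : k) (pos : ℕ → ℕ) (f0 t : ℕ) (us : List (I2 → F2)) : GA k :=
  ∏ n ∈ range t, pg (algebraMap k (GA k) ι) (algebraMap k (GA k) h)
    (fun u => xx k (mask pos f0 t n u)) us

theorem GG_nil (ι h : k) (pos : ℕ → ℕ) (f0 t : ℕ) : GG ι h pos f0 t [] = 1 := by
  simp [GG, pg_nil]

theorem GG_append (ι h : k) (pos : ℕ → ℕ) (f0 t : ℕ) (us vs : List (I2 → F2)) :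
    GG ι h pos f0 t (us ++ vs) = GG ι h pos f0 t us * GG ι h pos f0 t vs := by
  simp only [GG, pg_append, Finset.prod_mul_distrib]

theorem GG_one (ι h : k) (pos : ℕ → ℕ) (f0 t : ℕ) (u : I2 → F2) :
    GG ι h pos f0 t [u] = ∏ n ∈ range t, gx ι h (mask pos f0 t n u) := by
  simp only [GG, pg_cons, pg_nil, mul_one, gx]

theorem map_iota {ι : k} (hι : ι * ι = -1) :
    algebraMap k (GA k) ι * algebraMap k (GA k) ι = -1 := by
  rw [← map_mul, hι, map_neg, map_one]

theorem map_half {h : k} (hh : 2 * h = 1) : 2 * algebraMap k (GA k) h = 1 := by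
  have := congrArg (algebraMap k (GA k)) hh
  rwa [map_mul, map_ofNat, map_one] at this

theorem GG_unit {ι h : k} (hι : ι * ι = -1) (hh : 2 * h = 1) (pos : ℕ → ℕ) (f0 t : ℕ)
    (us : List (I2 → F2)) : IsUnit (GG ι h pos f0 t us) := by
  induction us with
  | nil => rw [GG_nil]; exact isUnit_one
  | cons u us ih =>
    rw [← List.singleton_append, GG_append, GG_one]
    refine IsUnit.mul (IsUnit.prod_iff.2 fun n _ => ?_) ih
    exact gg_unit (map_iota hι) (map_half hh) (by rw [← xx_add, XN.add_self, xx_zero])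

/-- The unit vectors. -/
noncomputable def units : List (I2 → F2) :=
  (univ : Finset I2).toList.map fun a => Pi.single a 1

theorem mat_units : mat units = 1 := by
  rw [← P344.Dg_univ, mat, units, List.map_map, Finset.sum_map_toList]
  rfl

theorem GG_units (ι h : k) (pos : ℕ → ℕ) (f0 t : ℕ) (v : ℕ → k) :
    Phi k (GG ι h pos f0 t units) v = gall ι h pos f0 (289 * t) v := by
  rw [gall_eq, prod_range_mul, ← Fin.prod_univ_eq_prod_range
    (fun a => ∏ n ∈ range t, gx ι h (bit (pos (f0 + (a * t + n))))), ← ei.prod_comp,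
    Finset.prod_comm, GG]
  congr 2
  refine Finset.prod_congr rfl fun n _ => ?_
  rw [pg, units, List.map_map, Finset.prod_map_toList]
  refine Finset.prod_congr rfl fun a _ => ?_
  rw [Function.comp_apply, mask_single, add_assoc, gx]

end ops

/-- Families of elements of the group algebras. -/
abbrev Fam : Type 1 := ∀ (k : Type) [CommRing k] (_ _ : k) (_ : ℕ → ℕ) (_ _ : ℕ), GA k

/-- The family is computed by a word of cost at most `r`. -/
def Impl (r : ℕ) (ρ : Fam) : Prop :=
  ∃ w : List Gen2, (∀ g ∈ w, g.ok) ∧ (w.map Gen2.cost).sum ≤ r ∧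
    ∀ (k : Type) [CommRing k] (ι h : k) (pos : ℕ → ℕ) (f0 t : ℕ), ι * ι = -1 → 2 * h = 1 →
      Function.Injective pos → ∀ v,
      w.foldl (fun v g => g.act ι h pos f0 t v) v = Phi k (ρ k ι h pos f0 t) v

theorem Impl.congr {r r' : ℕ} {ρ ρ' : Fam} (h : Impl r ρ) (hr : r ≤ r')
    (e : ∀ (k : Type) [CommRing k] (ι h : k) (pos : ℕ → ℕ) (f0 t : ℕ), ι * ι = -1 → 2 * h = 1 →
      Function.Injective pos → ρ' k ι h pos f0 t = ρ k ι h pos f0 t) : Impl r' ρ' := by
  obtain ⟨w, h1, h2, h3⟩ := h
  exact ⟨w, h1, h2.trans hr, fun k _ ι h pos f0 t a b c v => by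
    rw [e k ι h pos f0 t a b c, h3 k ι h pos f0 t a b c]⟩

theorem Impl.one : Impl 0 (fun _ _ _ _ _ _ _ => 1) :=
  ⟨[], by simp, by simp, fun k _ ι h pos f0 t _ _ _ v => by simp⟩

theorem Impl.mul {r r' : ℕ} {ρ ρ' : Fam} (h : Impl r ρ) (h' : Impl r' ρ') :
    Impl (r + r') (fun k _ ι h pos f0 t => ρ k ι h pos f0 t * ρ' k ι h pos f0 t) := by
  obtain ⟨w, h1, h2, h3⟩ := h
  obtain ⟨w', h1', h2', h3'⟩ := h'
  refine ⟨w' ++ w, fun g hg => (List.mem_append.1 hg).elim (h1' g) (h1 g), ?_,
    fun k _ ι h pos f0 t a b c v => ?_⟩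
  · rw [List.map_append, List.sum_append]; omega
  · rw [List.foldl_append, h3' k ι h pos f0 t a b c, h3 k ι h pos f0 t a b c, map_mul,
      Module.End.mul_apply]

theorem impl_x (c : I2 → F2) :
    Impl 0 (fun k _ _ _ pos f0 t => ∏ n ∈ range t, xx k (mask pos f0 t n c)) := by
  induction c using Pi.single_induction with
  | zero => exact Impl.one.congr le_rfl fun k _ ι h pos f0 t _ _ _ => by simp [mask_zero, xx_zero]
  | add f g hf hg =>
    exact (hf.mul hg).congr le_rfl fun k _ ι h pos f0 t _ _ _ => by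
      simp only [mask_add, xx_add, Finset.prod_mul_distrib]
  | single a m =>
    rcases f2_cases m with rfl | rfl
    · exact Impl.one.congr le_rfl fun k _ ι h pos f0 t _ _ _ => by simp [mask_zero, xx_zero]
    · refine ⟨[.nt (ei a)], by simp [Gen2.ok], by simp [Gen2.cost],
        fun k _ ι h pos f0 t _ _ hp v => ?_⟩
      funext i
      have := sum_bits _ (shift_inj hp (f0 + ei a * t))
        (fun n => true = true ∨ i.testBit (pos (0 + n)) = true) (range t)
      have e : cmask pos 0 (f0 + ei a * t) t true i = _ := congrArg XN.val this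
      beta_reduce
      rw [← xx_sum, Phi_xx, flip_apply]
      simp only [List.foldl_cons, List.foldl_nil, Gen2.act, mask_single]
      rw [e]
      simp

theorem impl_cnot {r : ℕ} {u : I2 → F2} {a0 a : I2} (hu : u a0 = 1) (ha : a0 ≠ a)
    (h : Impl r (fun _ _ ι h pos f0 t => GG ι h pos f0 t [u])) :
    Impl r (fun _ _ ι h pos f0 t => GG ι h pos f0 t [u + Pi.single a 1]) := by
  obtain ⟨w, h1, h2, h3⟩ := h
  have ha' : ei a0 ≠ ei a := ei.injective.ne ha
  refine ⟨.cnot (ei a0) (ei a) :: w ++ [.cnot (ei a0) (ei a)], ?_, ?_,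
    fun k _ ι h pos f0 t b c hp v => ?_⟩
  · intro g hg
    simp only [List.cons_append, List.mem_cons, List.mem_append, List.not_mem_nil, or_false] at hg
    rcases hg with rfl | hg | rfl
    exacts [ha', h1 g hg, ha']
  · simpa [Gen2.cost] using h2
  · rw [List.foldl_append, List.foldl_cons, List.foldl_cons, List.foldl_nil,
      h3 k ι h pos f0 t b c hp]
    simp only [Gen2.act, sig_val hp, GG_one]
    rw [conj_prod ι h (sig_add _ _ _ _) (sig_sig hp (Fin.val_ne_of_ne ha')),
      Finset.prod_congr rfl fun n hn => congrArg (gx ι h)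
        (sig_mask hp (Finset.mem_range.1 hn) hu a)]

theorem impl_sq (u : I2 → F2) : Impl 1 (fun _ _ ι h pos f0 t => GG ι h pos f0 t [u]) := by
  by_cases hu : u = 0
  · subst hu
    refine Impl.one.congr (Nat.zero_le _) fun k _ ι h pos f0 t _ hh _ => ?_
    rw [GG_one]
    exact Finset.prod_eq_one fun n _ => by rw [mask_zero, gx, xx_zero, gg_one (map_half hh)]
  · obtain ⟨a0, ha0⟩ := Function.ne_iff.1 hu
    have h0 : u a0 = 1 := (f2_cases _).resolve_left ha0
    have key : ∀ Z : Finset I2, a0 ∉ Z →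
        Impl 1 (fun _ _ ι h pos f0 t => GG ι h pos f0 t [P344.ind (insert a0 Z)]) := by
      intro Z
      induction Z using Finset.induction_on with
      | empty =>
        intro _
        have e : P344.ind (insert a0 (∅ : Finset I2)) = Pi.single a0 1 := by
          funext a; simp [P344.ind, Pi.single_apply]
        refine ⟨[.gate (ei a0)], by simp [Gen2.ok], by simp [Gen2.cost],
          fun k _ ι h pos f0 t _ _ hp v => ?_⟩
        simp only [List.foldl_cons, List.foldl_nil, Gen2.act, e, GG_one, mask_single, gall_eq]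
      | insert a Z ha ih =>
        intro hZ
        rw [Finset.mem_insert, not_or] at hZ
        have e : P344.ind (insert a0 (insert a Z)) = P344.ind (insert a0 Z) + Pi.single a 1 := by
          funext b
          by_cases hb : b = a
          · subst hb
            simp [P344.ind, ha, Ne.symm hZ.1]
          · simp [P344.ind, hb]
        rw [e]
        exact impl_cnot (by simp [P344.ind]) hZ.1 (ih hZ.2)
    have e : u = P344.ind (insert a0 ((univ.filter fun a => u a = 1).erase a0)) := by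
      rw [Finset.insert_erase (by simpa using h0)]
      funext a
      rcases f2_cases (u a) with h | h <;> simp [P344.ind, h]
    rw [e]
    exact key _ (Finset.notMem_erase _ _)

theorem impl_list (ds : List (I2 → F2)) :
    Impl ds.length (fun _ _ ι h pos f0 t => GG ι h pos f0 t ds) := by
  induction ds with
  | nil => exact Impl.one.congr le_rfl fun k _ ι h pos f0 t _ _ _ => GG_nil _ _ _ _ _
  | cons u ds ih =>
    exact ((impl_sq u).mul ih).congr (by simp [add_comm]) fun k _ ι h pos f0 t _ _ _ => by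
      rw [← GG_append, List.singleton_append]

/-- The operator of a label. -/
noncomputable def UL (us : List (I2 → F2)) (k : Type) [CommRing k] (ι h : k) (pos : ℕ → ℕ)
    (f0 t : ℕ) : (ℕ → k) →ₗ[k] (ℕ → k) := Phi k (GG ι h pos f0 t us)

/-- Changes of frame. -/
def Mv (r : ℕ) (P P' : List (I2 → F2)) : Prop :=
  ∃ w : List Gen2, (∀ g ∈ w, g.ok) ∧ (w.map Gen2.cost).sum ≤ r ∧
    ∀ (k : Type) [CommRing k] (ι h : k) (pos : ℕ → ℕ) (f0 t : ℕ), ι * ι = -1 → 2 * h = 1 →
      Function.Injective pos → ∀ v,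
      w.foldl (fun v g => g.act ι h pos f0 t v) (UL P k ι h pos f0 t v) = UL P' k ι h pos f0 t v

theorem mv_of_rk {r : ℕ} {P P' : List (I2 → F2)} (h : Rk r (mat P + mat P')) : Mv r P P' := by
  obtain ⟨ds, h1, h2⟩ := rk_list h
  have h3 : mat P' = mat P + mat ds := by rw [h2, ← add_assoc, mat_add_self, zero_add]
  obtain ⟨c, hc⟩ := exists_char h3
  obtain ⟨w, w1, w2, w3⟩ := (impl_x c).mul (impl_list ds)
  refine ⟨w, w1, by omega, fun k _ ι h pos f0 t hι hh hp v => ?_⟩
  rw [w3 k ι h pos f0 t hι hh hp, UL, UL, ← Module.End.mul_apply, ← map_mul]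
  congr 2
  simp only [GG, ← Finset.prod_mul_distrib]
  refine Finset.prod_congr rfl fun n _ => (pg_eq (map_iota hι) (map_half hh) ?_ ?_ hc).symm
  · rw [mask_zero, xx_zero]
  · intro u w; rw [mask_add, xx_add]

open Classical in
/-- A list of vectors with a given matrix. -/
noncomputable def rep (M : Matrix I2 I2 F2) : List (I2 → F2) :=
  if h : ∃ us, mat us = M then h.choose else []

theorem mat_rep {r : ℕ} {M : Matrix I2 I2 F2} (h : Rk r M) : mat (rep M) = M := by
  obtain ⟨us, _, h2⟩ := rk_list h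
  have : ∃ us, mat us = M := ⟨us, h2⟩
  rw [rep, dif_pos this]
  exact this.choose_spec

/-- The matrices of the names. -/
def lh : LH → Matrix H17 H17 F2
  | .zero => 0
  | .one => 1
  | .L S => LL S
  | .cL S => 1 + LL S

theorem rk_lh (a : LH) : Rk 17 (lh a) := by
  cases a with
  | zero => exact Rk.zero _
  | one => exact P344.rk_one17
  | L S => exact (P344.rk_LL S).mono (by norm_num)
  | cL S => exact (P344.rk_one_LL S).mono (by norm_num)

theorem rk0 {r : ℕ} {a b : LH} (h : Mv0 P344.orth r a b) : Rk r (lh a + lh b) := by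
  cases h with
  | A T => simpa [lh] using P344.rk_LL T
  | B S => rw [add_comm]; exact P344.rk_one_LL S
  | C => simpa [lh] using P344.rk_one17
  | C' => simpa [lh] using P344.rk_one17
  | D S => simpa [lh] using P344.rk_one_LL S
  | E S T h => rw [add_comm]; exact P344.rk_one_LL_LL h
  | E' S T h => rw [lh, lh, ← add_assoc, add_comm (LL S)]; exact P344.rk_one_LL_LL h
  | F S => rw [lh, lh, add_comm 1, add_assoc, mat_add_self, add_zero]; exact P344.rk_LL S

/-- The labels. -/
noncomputable def Lam : Labels (List (I2 → F2)) where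
  lab1 := fun g n => match n with
    | .zero => []
    | n => rep (lh n ⊗ₖ LL g)
  lab2 := fun g n => match n with
    | .one => units
    | .cL S => units ++ rep (LL g ⊗ₖ LL S)
    | n => rep ((1 + LL g) ⊗ₖ (1 : Matrix H17 H17 F2) + LL g ⊗ₖ lh n)
  l0 := []
  l1 := units
  lX := fun a => rep (LL a.1 ⊗ₖ LL a.2)
  lX' := fun a => units ++ rep (LL a.1 ⊗ₖ LL a.2)

theorem mat_lab1 (g : Tr) (n : LH) : mat (Lam.lab1 g n) = lh n ⊗ₖ LL g := by
  have h := mat_rep ((rk_lh n).kron (P344.rk_LL g))
  cases n with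
  | zero => rw [lh, zero_kronecker]; rfl
  | one => exact h
  | L S => exact h
  | cL S => exact h

theorem mat_lX' (a : Tr × Tr) : mat (Lam.lX' a) = 1 + LL a.1 ⊗ₖ LL a.2 := by
  rw [← mat_rep ((P344.rk_LL a.1).kron (P344.rk_LL a.2)), ← mat_units, ← mat_append]
  rfl

theorem mat_lab2 (g : Tr) (n : LH) :
    mat (Lam.lab2 g n) = (1 + LL g) ⊗ₖ (1 : Matrix H17 H17 F2) + LL g ⊗ₖ lh n := by
  have h := mat_rep (((P344.rk_one_LL g).kron P344.rk_one17).add ((P344.rk_LL g).kron (rk_lh n)))
  cases n with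
  | zero => exact h
  | one =>
    rw [lh, add_kronecker, one_kronecker_one, add_assoc, mat_add_self, add_zero]
    exact mat_units
  | L S => exact h
  | cL S =>
    rw [lh, add_kronecker, kronecker_add, one_kronecker_one, add_assoc, ← add_assoc (LL g ⊗ₖ 1),
      mat_add_self, zero_add]
    exact mat_lX' (g, S)

theorem moves : Moves Mv P344.orth Lam where
  st1 := fun g r a b h => mv_of_rk (by
    rw [mat_lab1, mat_lab1, ← add_kronecker]
    simpa using (rk0 h).kron (P344.rk_LL g))
  st2 := fun g r a b h => mv_of_rk (by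
    rw [mat_lab2, mat_lab2, add_add_add_comm, mat_add_self, zero_add, ← kronecker_add]
    simpa using (P344.rk_LL g).kron (rk0 h))
  mX := fun S T => mv_of_rk (by
    rw [mat_lab1, mat_lab2]
    convert (P344.rk_one_LL S).kron (P344.rk_one_LL T) using 1
    simp only [lh, add_kronecker, kronecker_add]
    abel)
  mY := fun S T => mv_of_rk (by
    rw [mat_lab1, mat_lab2]
    convert (P344.rk_one_LL S).kron (P344.rk_one_LL T) using 1
    simp only [lh, add_kronecker, kronecker_add, kronecker_zero]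
    abel)
  mZ := fun g => mv_of_rk (by
    rw [mat_lab1, show mat Lam.l1 = 1 from mat_units]
    convert P344.rk_one17.kron (P344.rk_one_LL g) using 1
    simp only [lh, kronecker_add, one_kronecker_one]
    abel)
  mZ' := fun g => mv_of_rk (by
    rw [mat_lab2, show mat Lam.l0 = 0 from rfl]
    convert (P344.rk_one_LL g).kron P344.rk_one17 using 1
    simp only [lh, kronecker_zero, zero_add, add_zero])
  mL := fun a => mv_of_rk (by
    rw [mat_lX', show mat Lam.l1 = 1 from mat_units, ← add_assoc, mat_add_self, zero_add]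
    exact (P344.rk_LL a.1).kron (P344.rk_LL a.2))
  full := mv_of_rk (by
    rw [show mat Lam.l1 = 1 from mat_units, show mat Lam.l0 = 0 from rfl, zero_add,
      ← one_kronecker_one]
    exact P344.rk_one17.kron P344.rk_one17)
  e1 := fun _ _ => rfl
  e2 := fun _ => rfl
  e3 := fun _ => rfl
  e4 := fun _ _ => rfl

end Lab2Aux

open Lab2Aux in
theorem lab2_exists : ∃ (Lab : Type) (UL : Lab → ∀ (k : Type) [CommRing k] (_ _ : k)
    (_ : ℕ → ℕ) (_ _ : ℕ), (ℕ → k) →ₗ[k] (ℕ → k)) (Λ : Labels Lab),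
    Moves (fun r P P' => ∃ w : List Gen2, (∀ g ∈ w, g.ok) ∧ (w.map Gen2.cost).sum ≤ r ∧
      ∀ (k : Type) [CommRing k] (ι h : k) (pos : ℕ → ℕ) (f0 t : ℕ), ι * ι = -1 → 2 * h = 1 →
        Function.Injective pos → ∀ v,
        w.foldl (fun v g => g.act ι h pos f0 t v) (UL P k ι h pos f0 t v) = UL P' k ι h pos f0 t v)
      P344.orth Λ ∧
    ∀ (k : Type) [CommRing k] (ι h : k) (pos : ℕ → ℕ) (f0 t : ℕ), ι * ι = -1 → 2 * h = 1 →
      Function.Injective pos → (∀ v, UL Λ.l0 k ι h pos f0 t v = v) ∧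
      (∀ v, UL Λ.l1 k ι h pos f0 t v = gall ι h pos f0 (289 * t) v) ∧
      ∀ a, Function.Surjective (UL (Λ.lX a) k ι h pos f0 t) ∧
        ∀ v, UL (Λ.lX' a) k ι h pos f0 t v =
          gall ι h pos f0 (289 * t) (UL (Λ.lX a) k ι h pos f0 t v) := by
  refine ⟨_, UL, Lam, moves, fun k _ ι h pos f0 t hι hh _ => ⟨fun v => ?_, fun v => ?_, fun a =>
    ⟨?_, fun v => ?_⟩⟩⟩
  · rw [UL, show Lam.l0 = [] from rfl, GG_nil, map_one, Module.End.one_apply]
  · exact GG_units ι h pos f0 t v
  · exact ((Module.End.isUnit_iff _).1 ((GG_unit hι hh pos f0 t _).map (Phi k))).2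
  · rw [← GG_units, UL, UL, ← Module.End.mul_apply, ← map_mul, ← GG_append]
    rfl

end Vale.Agent.P338
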