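import Vale.Agent.P338.FE
import Vale.Agent.P338.Lab2

/-! The gate on one bit of the index, as one pass over an array of words. -/

namespace Vale.Agent.P338

namespace GtenAux

theorem testBit_add_of_dvd {N p : ℕ} (h : 2 ^ (p + 1) ∣ N) (i : ℕ) :
    (N + i).testBit p = i.testBit p := by
  obtain ⟨q, rfl⟩ := h
  have h1 := Nat.testBit_mod_two_pow (2 ^ (p + 1) * q + i) (p + 1) p
  have h2 := Nat.testBit_mod_two_pow i (p + 1) p
  rw [Nat.mul_add_mod] at h1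
  simp only [Nat.lt_add_one, decide_true, Bool.true_and] at h1 h2
  rw [← h1, h2]

theorem add_xor {N p : ℕ} (h : 2 ^ (p + 1) ∣ N) (i : ℕ) :
    N + (i ^^^ 2 ^ p) = (N + i) ^^^ 2 ^ p := by
  have key : ∀ i : ℕ, i.testBit p = false → N + (i ^^^ 2 ^ p) = (N + i) ^^^ 2 ^ p := by
    intro i hi
    rw [← Lab2Aux.add_two_pow p i hi,
      ← Lab2Aux.add_two_pow p (N + i) (by rw [testBit_add_of_dvd h, hi]), add_assoc]
  cases hi : i.testBit p with
  | false => exact key i hi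
  | true =>
    have h1 := key (i ^^^ 2 ^ p) (by simp [hi])
    rw [Nat.xor_assoc, Nat.xor_self, Nat.xor_zero] at h1
    rw [h1, Nat.xor_assoc, Nat.xor_self, Nat.xor_zero]

theorem xor_low {p c v : ℕ} (hc : c < 2 ^ p) (hv : v < 2) :
    (v * 2 ^ p + c) ^^^ 2 ^ p = (1 - v) * 2 ^ p + c := by
  have h1 := Lab2Aux.add_two_pow p c (Nat.testBit_lt_two_pow hc)
  have h2 : v = 0 ∨ v = 1 := by omega
  rcases h2 with rfl | rfl
  · rw [zero_mul, zero_add, ← h1, Nat.sub_zero, one_mul, add_comm]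
  · rw [one_mul, add_comm, h1, Nat.xor_assoc, Nat.xor_self, Nat.xor_zero]
    simp

theorem xor_idx {p u v c : ℕ} (hc : c < 2 ^ p) (hv : v < 2) :
    ((u * 2 + v) * 2 ^ p + c) ^^^ 2 ^ p = (u * 2 + (1 - v)) * 2 ^ p + c := by
  have h1 := add_xor (N := 2 ^ (p + 1) * u) (p := p) (Dvd.intro _ rfl) (v * 2 ^ p + c)
  rw [xor_low hc hv] at h1
  rw [show (u * 2 + v) * 2 ^ p + c = 2 ^ (p + 1) * u + (v * 2 ^ p + c) by ring, ← h1]
  ring

/-- Transport of the gate along a map of indices that commutes with the flips. -/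
theorem gall_map {k : Type} [CommRing k] (ι h : k) (pos : ℕ → ℕ) (f0 t : ℕ) (S : ℕ → Prop)
    (σ : ℕ → ℕ) (hS : ∀ n < t, ∀ i, S i → S (i ^^^ 2 ^ pos (f0 + n)) ∧
      σ (i ^^^ 2 ^ pos (f0 + n)) = σ i ^^^ 2 ^ pos (f0 + n)) {v v' : ℕ → k}
    (hv : ∀ i, S i → v i = v' (σ i)) {i : ℕ} (hi : S i) :
    gall ι h pos f0 t v i = gall ι h pos f0 t v' (σ i) := by
  have key : ∀ L : List ℕ, (∀ n ∈ L, n < t) → ∀ i, S i →
      L.foldr (fun n v => h • gate1 ι (2 ^ pos (f0 + n)) v) v i =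
        L.foldr (fun n v => h • gate1 ι (2 ^ pos (f0 + n)) v) v' (σ i) := by
    intro L hL
    induction L with
    | nil => exact hv
    | cons n L ih =>
      intro i hi
      have ih' := ih fun g hg => hL g (by simp [hg])
      obtain ⟨h1, h2⟩ := hS n (hL n (by simp)) i hi
      simp only [List.foldr_cons, Pi.smul_apply, gate1]
      rw [ih' i hi, ih' _ h1, h2]
  exact key _ (fun n hn => List.mem_range.1 hn) i hi

/-- The array as a function to the residues. -/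
def cst (w : ℕ) (l : List ℕ) : ℕ → ZMod (Pm w) := fun i => (gt l i : ZMod (Pm w))

theorem Pm_pos (w : ℕ) : 0 < Pm w := Nat.succ_pos _

theorem cst_val {w : ℕ} {l : List ℕ} (h : Bd (Pm w) l) (i : ℕ) : (cst w l i).val = gt l i := by
  rw [cst, ZMod.val_natCast, Nat.mod_eq_of_lt (h.gt (Pm_pos w) i)]

theorem gt_zipWith (g : ℕ → ℕ → ℕ) {l l' : List ℕ} (h : l'.length = l.length) {i : ℕ}
    (hi : i < l.length) : gt (List.zipWith g l l') i = g (gt l i) (gt l' i) := by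
  rw [gt_eq (l := List.zipWith _ l l') (by simp; omega), List.getElem_zipWith, gt_eq hi,
    gt_eq (l := l') (h ▸ hi)]

theorem bd_zipWith {B : ℕ} {g : ℕ → ℕ → ℕ} {l l' : List ℕ} (h : Bd B l) (h' : Bd B l')
    (hg : ∀ x y, x < B → y < B → g x y < B) : Bd B (List.zipWith g l l') := by
  intro x hx
  obtain ⟨i, hi, rfl⟩ := List.getElem_of_mem hx
  rw [List.getElem_zipWith]
  exact hg _ _ (h _ (List.getElem_mem _)) (h' _ (List.getElem_mem _))

/-- Pairs of words, in linear time. -/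
abbrev W2 : Cls ((ℕ × ℕ) × ℕ) := big (fun p => p.1.1 < Pm p.2 ∧ p.1.2 < Pm p.2) fun p => p.2

instance : Dom W2 := ⟨big_of_le 20 14 fun p h => by
  have h1 := sz_nat_lt (h.1.trans_le (Pm_le _))
  have h2 := sz_nat_lt (h.2.trans_le (Pm_le _))
  have h3 := sz_nat_le p.2
  rw [sz_prod, sz_prod]
  omega⟩

theorem w2_w : Tm W2 fun p => p.2 := Tm.id.snd
theorem w2_m : W2.mem fun p => p.2 := big_self _ _
theorem w2_x : Tm W2 fun p => p.1.1 := Tm.id.fst.fst
theorem w2_y : Tm W2 fun p => p.1.2 := Tm.id.fst.snd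

theorem tm_zipW {ι : Type} [Enc ι] {𝒯 : Cls ι} [Dom 𝒯] {g : ℕ → ℕ → ℕ → ℕ}
    (hg : Tm W2 fun p => g p.2 p.1.1 p.1.2) {l l' : ι → List ℕ} {w : ι → ℕ} (hl : Tm 𝒯 l)
    (hl' : Tm 𝒯 l') (hw : Tm 𝒯 w)
    (h : ∀ i, 𝒯.dom i → Bd (Pm (w i)) (l i) ∧ Bd (Pm (w i)) (l' i))
    (hc : 𝒯.mem fun i => (l i).length * w i) :
    Tm 𝒯 fun i => List.zipWith (g (w i)) (l i) (l' i) :=
  Tm.zipWithU hg hl hl' hw (c := w)
    (fun i hi x hx y hy => ⟨⟨(h i hi).1 x hx, (h i hi).2 y hy⟩, le_rfl⟩) hc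

/-- The gate on two words. -/
def gw (w x y : ℕ) : ℕ := halfW w (addW w (addW w x y) (shlW w w (subW w x y)))

theorem gw_lt (w x y : ℕ) : gw w x y < Pm w := halfW_lt (addW_lt _ _ _)

theorem gw_cast {w : ℕ} (hw : 0 < w) (x : ℕ) {y : ℕ} (hy : y < Pm w) :
    (gw w x y : ZMod (Pm w)) = hm w * ((1 + im w) * x + (1 - im w) * y) := by
  rw [gw, halfW_cast hw, addW_cast, addW_cast, shlW_cast, subW_cast _ hy, im]
  ring

theorem tm_gw : Tm W2 fun p => gw p.2 p.1.1 p.1.2 :=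
  w2_w.halfW w2_m (w2_w.addW w2_m (w2_w.addW w2_m w2_x w2_y fun _ h => h)
    (w2_w.shlW w2_m w2_w (w2_w.subW w2_m w2_x w2_y fun _ h => h)
      fun _ _ => ⟨subW_lt _ _ _, by omega⟩) fun _ _ => ⟨addW_lt _ _ _, shlW_lt _ _ _⟩)

/-- Flip of one bit of the index. -/
def flp (p : ℕ) (l : List ℕ) : List ℕ := dg 2 2 (2 ^ p) (fun _ v => some (1 - v)) l

theorem length_flp {p : ℕ} {l : List ℕ} (h : 2 ^ (p + 1) ∣ l.length) :
    (flp p l).length = l.length := by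
  obtain ⟨A, hA⟩ := h
  have h1 : l.length = A * 2 * 2 ^ p := by rw [hA]; ring
  rw [flp, length_dg _ two_pos (by positivity) h1, h1]

theorem gt_flp {p : ℕ} {l : List ℕ} (h : 2 ^ (p + 1) ∣ l.length) {i : ℕ} (hi : i < l.length) :
    gt (flp p l) i = gt l (i ^^^ 2 ^ p) := by
  obtain ⟨A, hA⟩ := h
  have h1 : l.length = A * 2 * 2 ^ p := by rw [hA]; ring
  rw [h1] at hi
  obtain ⟨i1, hi1, c, hc, rfl⟩ := idx_decomp hi
  obtain ⟨u, hu, v, hv, rfl⟩ := idx_decomp hi1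
  rw [flp, gt_dg _ two_pos h1 hu hv hc, xor_idx hc hv]
  rfl

theorem le_xor {N p i : ℕ} (h : 2 ^ (p + 1) ∣ N) (hi : N ≤ i) : N ≤ i ^^^ 2 ^ p := by
  obtain ⟨j, rfl⟩ := Nat.exists_eq_add_of_le hi
  rw [← add_xor h]
  omega

/-- The gate on one bit of the index. -/
def bfly (w p : ℕ) (l : List ℕ) : List ℕ := List.zipWith (gw w) l (flp p l)

theorem length_bfly (w : ℕ) {p : ℕ} {l : List ℕ} (h : 2 ^ (p + 1) ∣ l.length) :
    (bfly w p l).length = l.length := by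
  rw [bfly, List.length_zipWith, length_flp h, min_self]

theorem bd_bfly (w p : ℕ) (l : List ℕ) : Bd (Pm w) (bfly w p l) := by
  intro x hx
  obtain ⟨i, hi, rfl⟩ := List.getElem_of_mem hx
  simp only [bfly, List.getElem_zipWith]
  exact gw_lt _ _ _

theorem cst_bfly {w p : ℕ} {l : List ℕ} (hw : 0 < w) (h : 2 ^ (p + 1) ∣ l.length)
    (hl : Bd (Pm w) l) : cst w (bfly w p l) = hm w • gate1 (im w) (2 ^ p) (cst w l) := by
  funext i
  simp only [cst, Pi.smul_apply, gate1, smul_eq_mul]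
  by_cases hi : i < l.length
  · rw [bfly, gt_zipWith _ (length_flp h) hi, gt_flp h hi, gw_cast hw _ (hl.gt (Pm_pos w) _)]
  · rw [gt_of_le (by rw [length_bfly w h]; omega), gt_of_le (l := l) (i := i) (by omega),
      gt_of_le (le_xor h (by omega))]
    simp

theorem foldr_bfly {w : ℕ} (hw : 0 < w) (q : ℕ → ℕ) {l : List ℕ} (hl : Bd (Pm w) l) (L : List ℕ)
    (h : ∀ n ∈ L, 2 ^ (q n + 1) ∣ l.length) :
    (L.foldr (fun n y => bfly w (q n) y) l).length = l.length ∧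
      Bd (Pm w) (L.foldr (fun n y => bfly w (q n) y) l) ∧
      cst w (L.foldr (fun n y => bfly w (q n) y) l) =
        L.foldr (fun n v => hm w • gate1 (im w) (2 ^ q n) v) (cst w l) := by
  induction L with
  | nil => exact ⟨rfl, hl, rfl⟩
  | cons n L ih =>
    obtain ⟨h1, h2, h3⟩ := ih fun g hg => h g (by simp [hg])
    have h4 := h n (by simp)
    rw [← h1] at h4
    rw [List.foldr_cons, List.foldr_cons]
    exact ⟨(length_bfly w h4).trans h1, bd_bfly _ _ _, by rw [cst_bfly hw h4 h2, h3]⟩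

/-- One pass for one gate. -/
abbrev BF : Cls (ℕ × List ℕ × ℕ) :=
  big (fun q => 2 ^ (q.1 + 1) ∣ q.2.1.length ∧ 0 < q.2.1.length ∧
    q.2.1.length < 2 ^ (2 * q.2.2 + 1) ∧ Bd (Pm q.2.2) q.2.1)
    fun q => q.2.1.length * (2 * q.2.2 + 1 + 1)

theorem bf_le {q : ℕ × List ℕ × ℕ} (h : BF.dom q) : q.1 ≤ q.2.1.length := by
  have h1 := Nat.le_of_dvd h.2.1 h.1
  have h2 : q.1 + 1 < 2 ^ (q.1 + 1) := Nat.lt_two_pow_self
  omega

instance : Dom BF := ⟨big_of_le 10 6 fun q h => by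
  have h1 := bf_le h
  have h2 := (h.2.2.2.mono (Pm_le _)).sz_le
  have h3 := sz_nat_le q.1
  have h4 := sz_nat_le q.2.2
  have h5 := h.2.1
  rw [sz_prod, sz_prod]
  nlinarith⟩

theorem tm_bfly : Tm BF fun q => bfly q.2.2 q.1 q.2.1 := by
  have h : ArrOK BF (fun q => 2 * q.2.2 + 1) fun q => q.2.1 :=
    ⟨Tm.id.snd.fst, fun _ h => h.2.2.2.mono (Pm_le _), fun _ h => h.2.2.1, big_self _ _⟩
  have hm : BF.mem fun q => q.2.1.length :=
    BF.mono h.cost fun q _ => Nat.le_mul_of_pos_right _ (by omega)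
  have hop : Tm (lin (List (List ℕ) × Unit)) (fun q => q.1.reverse) := Tm.id.fst.reverse
  have h1 : Tm BF fun q => flp q.1 q.2.1 := by
    refine Tm.dgL (A := fun q => q.2.1.length / 2 ^ (q.1 + 1)) hop h (Tm.const ()) (Tm.const 2)
      (Tm.id.fst.pow2 (BF.mono hm fun _ => bf_le)) (fun q hq => ⟨?_, ?_, two_pos, by positivity⟩)
      (fun q _ u _ L hL _ => ⟨by simp [hL], fun v hv => ?_⟩) (fun q _ u _ v _ v' hv' => ?_)
      (Cls.lin hm 2 0 fun q _ => ?_)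
    · rw [mul_assoc, ← pow_succ', Nat.div_mul_cancel hq.1]
    · exact Nat.div_pos (Nat.le_of_dvd hq.2.1 hq.1) (by positivity)
    · simp only [Option.elim_some, List.getD_eq_getElem?_getD]
      rw [List.getElem?_reverse (by omega), hL]
    · have : 1 - v = v' := Option.some.inj hv'
      omega
    · have := Nat.div_le_self q.2.1.length (2 ^ (q.1 + 1))
      rw [sz_unit]
      omega
  exact tm_zipW tm_gw h.tm h1 Tm.id.snd.snd
    (fun q hq => ⟨hq.2.2.2, bd_dg _ hq.2.2.2 (Pm_pos _)⟩)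
    (BF.mono h.cost fun q _ => Nat.mul_le_mul_left _ (by omega))

end GtenAux

end Vale.Agent.P338
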