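import Vale.Agent.P338.GtenA

/-! The recursion for the tensor power of the gate: classes and the base case. -/

namespace Vale.Agent.P338

namespace GtenAux

/-- Parameters, bit, first field, depth. -/
abbrev Th : Type := Cf × ℕ × ℕ × ℕ
/-- Arguments of the recursion. -/
abbrev Ar : Type := Th × List ℕ

/-- Admissible small arguments. -/
def PTh (θ : Th) : Prop :=
  θ.1.ok ∧ θ.2.1 ≤ θ.1.a ∧ θ.2.2.1 + 289 ^ θ.2.2.2 * θ.1.t0 ≤ θ.1.m ∧ θ.2.2.2 ≤ θ.1.r2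

theorem PTh.small {θ : Th} (h : PTh θ) :
    θ.2.1 ≤ θ.1.s ∧ θ.2.2.1 ≤ θ.1.s ∧ θ.2.2.2 ≤ θ.1.s ∧ θ.1.t0 ≤ θ.1.s ∧ 0 < θ.1.w := by
  obtain ⟨h1, h2, h3, -⟩ := h
  obtain ⟨-, -, k1, k2, k3, -, k4, k5⟩ := h1.e'_le
  have k6 : 0 < θ.1.t0 := Nat.pos_of_mul_pos_left h1.m_pos
  have k7 : θ.2.2.2 < 289 ^ θ.2.2.2 := Nat.lt_pow_self (by norm_num)
  have k8 : 289 ^ θ.2.2.2 ≤ 289 ^ θ.2.2.2 * θ.1.t0 := Nat.le_mul_of_pos_right _ k6
  have k9 : θ.1.F = θ.1.a + 1 + θ.1.e := rfl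
  omega

theorem sz_Th : ∃ C, ∀ θ : Th, PTh θ → sz θ ≤ C * (θ.1.s + 1) ^ 6 := by
  obtain ⟨C, hC⟩ := Cf.ok.sz_le
  refine ⟨C + 12, fun θ h => ?_⟩
  obtain ⟨h1, h2, h3, -⟩ := h.small
  have k1 := hC _ h.1
  have k2 := sz_nat_le θ.2.1
  have k3 := sz_nat_le θ.2.2.1
  have k4 := sz_nat_le θ.2.2.2
  have k5 : θ.1.s + 1 ≤ (θ.1.s + 1) ^ 6 := Nat.le_self_pow (by norm_num) _
  rw [sz_prod, sz_prod, sz_prod, add_mul]
  omega

/-- Polynomial time in the size of a digit. -/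
abbrev PP : Cls Th := poly PTh fun θ => θ.1.s

instance : Dom PP := ⟨by
  obtain ⟨C, hC⟩ := sz_Th
  exact ⟨6, C, hC⟩⟩

theorem pp_s : PP.mem fun θ => θ.1.s := poly_self _ _

theorem pp_c : Tm PP fun θ => θ.1 := Tm.id.fst

/-- Number of fields in a group. -/
def tt (θ : Th) : ℕ := 289 ^ (θ.2.2.2 - 1) * θ.1.t0

theorem tm_tt : Tm PP tt :=
  (Tm.pow (Tm.const 289) (Tm.id.snd.snd.snd.sub (Tm.const 1))
    (PP.mono pp_s fun _ h => (Nat.sub_le _ _).trans h.small.2.2.1)).mul pp_c.cf_t0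

/-- The bits of the base case. -/
def bits0 (θ : Th) : List ℕ :=
  (List.range θ.1.t0).reverse.map fun n => θ.1.pos θ.2.1 (θ.2.2.1 + n)

theorem tm_bits0 : Tm PP bits0 :=
  Tm.mapE (g := fun (θ : Th) (n : ℕ) => θ.1.pos θ.2.1 (θ.2.2.1 + n))
    (pp_c.cf_t0.rangeP (PP.mono pp_s fun _ h => h.small.2.2.2.1)).reverse fun _ =>
      ((Tm.lift _ pp_c.cf_s).dbl.add ((Tm.lift _ pp_c.cf_F).mul
        (Tm.id.snd.snd.snd.fst.add Tm.id.fst))).add Tm.id.snd.snd.fst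

/-- Lengths made of whole cubes. -/
def Sh (c : Cf) (v n : ℕ) : Prop :=
  ∃ A, 0 < A ∧ A ≤ c.E ∧ Wn ^ (c.r1 + v) ∣ A ∧ n = A * c.R * c.R * c.R

theorem Sh.good {c : Cf} {v : ℕ} {l : List ℕ} (h : Sh c v l.length) (h' : Bd c.P l) :
    c.Good l := by
  obtain ⟨A, h1, h2, h3, h4⟩ := h
  exact ⟨⟨A, h1, (pow_dvd_pow _ (Nat.le_add_right _ _)).trans h3, h2, h4⟩, h'⟩

theorem Sh.dvd {c : Cf} {v n : ℕ} (h : Sh c v n) : 2 ^ (3 * c.s) ∣ n := by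
  obtain ⟨A, -, -, -, h4⟩ := h
  exact ⟨A, by rw [h4, Cf.R]; ring⟩

theorem Sh.pos {c : Cf} {v n : ℕ} (h : Sh c v n) : 0 < n := by
  obtain ⟨A, h1, -, -, h4⟩ := h
  have := c.R_pos
  rw [h4]
  positivity

theorem Sh.wn {c : Cf} {v n : ℕ} (h : Sh c v n) : Wn ^ v ∣ n := by
  obtain ⟨A, -, -, h3, h4⟩ := h
  rw [h4]
  exact ((((pow_dvd_pow _ (Nat.le_add_left _ _)).trans h3).mul_right _).mul_right _).mul_right _

theorem Sh.lt {c : Cf} {v n : ℕ} (h : Sh c v n) (hc : c.ok) : n < 2 ^ (2 * c.w + 1) := by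
  obtain ⟨A, -, h2, -, h4⟩ := h
  have h5 : A * c.R * c.R * c.R ≤ c.E * c.R * c.R * c.R := by gcongr
  have h6 := hc.len_lt
  have h7 : 2 ^ c.w ≤ 2 ^ (2 * c.w + 1) := Nat.pow_le_pow_right two_pos (by omega)
  omega

theorem Sh.div {c : Cf} {v n : ℕ} (h : Sh c v n) (hv : ¬ v = 0) :
    Sh c (v - 1) (n / Wn) ∧ n = Wn * (n / Wn) := by
  obtain ⟨A, h1, h2, ⟨k, h3⟩, h4⟩ := h
  obtain ⟨u, rfl⟩ := Nat.exists_eq_succ_of_ne_zero hv
  have hW := SwapAux.Wn_pos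
  have e1 : A = Wn * (Wn ^ (c.r1 + u) * k) := by rw [h3, Nat.add_succ, pow_succ]; ring
  have e2 : n = Wn * (Wn ^ (c.r1 + u) * k * c.R * c.R * c.R) := by rw [h4, e1]; ring
  have e3 : n / Wn = Wn ^ (c.r1 + u) * k * c.R * c.R * c.R := by
    rw [e2, Nat.mul_div_cancel_left _ hW]
  refine ⟨⟨Wn ^ (c.r1 + u) * k, Nat.pos_of_mul_pos_left (e1 ▸ h1), ?_, Dvd.intro _ rfl, e3⟩,
    by rw [e3]; exact e2⟩
  exact le_trans (e1 ▸ Nat.le_mul_of_pos_left _ hW) h2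

theorem Sh.lt_of {c : Cf} {v n i i' : ℕ} (h : Sh c v n) (hi : i < n)
    (e : i' / (c.R * c.R * c.R) = i / (c.R * c.R * c.R)) : i' < n := by
  obtain ⟨A, -, -, -, h4⟩ := h
  have hR := c.R_pos
  have h5 : n = A * (c.R * c.R * c.R) := by rw [h4]; ring
  rw [h5, ← Nat.div_lt_iff_lt_mul (by positivity)] at hi ⊢
  omega

theorem Sh.safe_add {c : Cf} {v n : ℕ} (h : Sh c v n) (u i : ℕ) : c.Safe (u * n + i) ↔ c.Safe i := by
  obtain ⟨A, -, -, -, h4⟩ := h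
  have hR := c.R_pos
  have e1 : u * n + i = i + c.R * (c.R * (c.R * (u * A))) := by rw [h4]; ring
  rw [Cf.Safe, Cf.Safe, e1, Nat.add_mul_mod_self_left, Nat.add_mul_div_left _ _ hR,
    Nat.add_mul_div_left _ _ hR, Nat.add_mul_mod_self_left]

theorem pos_lt {c : Cf} (h : c.ok) {j f : ℕ} (hj : j ≤ c.a) (hf : f < c.m) :
    c.pos j f + 1 ≤ 3 * c.s := by
  have h1 := h.fm
  have h2 : c.F * (f + 1) ≤ c.F * c.m := Nat.mul_le_mul_left _ hf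
  have h3 : c.F = c.a + 1 + c.e := rfl
  rw [mul_add] at h2
  rw [Cf.pos]
  omega

theorem Sh.dvd_pos {c : Cf} {v n : ℕ} (h : Sh c v n) (hc : c.ok) {j f : ℕ} (hj : j ≤ c.a)
    (hf : f < c.m) : 2 ^ (c.pos j f + 1) ∣ n := (pow_dvd_pow _ (pos_lt hc hj hf)).trans h.dvd

theorem pow6_le (s : ℕ) : (s + 1) ^ 6 ≤ 64 * 2 ^ (3 * s) := by
  have h : ∀ n : ℕ, (n + 1) ^ 2 ≤ 4 * 2 ^ n := by
    intro n
    induction n with
    | zero => norm_num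
    | succ n ih =>
      have : n < 2 ^ n := Nat.lt_two_pow_self
      rw [pow_succ 2 n]
      nlinarith
  calc (s + 1) ^ 6 = ((s + 1) ^ 2) ^ 3 := by ring
    _ ≤ (4 * 2 ^ s) ^ 3 := Nat.pow_le_pow_left (h s) 3
    _ = _ := by ring

/-- The function computed by the recursion. -/
def gg (x : Ar) : List ℕ := gten x.1.1 x.1.2.1 x.1.2.2.1 (289 ^ x.1.2.2.2 * x.1.1.t0) x.2

/-- The domain of the recursion. -/
def dm (x : Ar) : Prop := PTh x.1 ∧ Sh x.1.1 x.1.2.2.2 x.2.length ∧ Bd x.1.1.P x.2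

/-- The cost of one level. -/
def tau (x : Ar) : ℕ := x.2.length * (x.1.1.b + 1) *
  (if x.1.2.2.2 = 0 then x.1.1.t0 + 1 + x.1.1.sw else x.1.1.sw)

/-- The class of one level. -/
abbrev UU : Cls Ar := big dm tau

theorem mem_sw : UU.mem fun x => x.2.length * (x.1.1.b + 1) * x.1.1.sw :=
  UU.mono (big_self _ _) fun x _ => Nat.mul_le_mul_left _ (by split_ifs <;> omega)

theorem mem_UU : UU.mem fun x => x.2.length * (x.1.1.b + 1) :=
  UU.mono mem_sw fun x _ => Nat.le_mul_of_pos_right _ x.1.1.one_le_sw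

theorem sz_bd {c : Cf} {l : List ℕ} {n : ℕ} (h : Bd c.P l) (hn : l.length ≤ n) :
    sz l ≤ 4 * (n * (c.b + 1)) + 2 := by
  have h1 := (h.mono c.P_le).sz_le
  have h2 := Nat.mul_le_mul_right (4 * c.b + 2) hn
  nlinarith

instance : Dom UU := ⟨by
  obtain ⟨C, hC⟩ := sz_Th
  refine Cls.lin mem_UU (64 * C + 4) 2 fun x h => ?_
  have h1 := hC _ h.1
  have h2 := Nat.mul_le_mul_left C (pow6_le x.1.1.s)
  have h3 := Nat.le_of_dvd h.2.1.pos h.2.1.dvd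
  have h4 := sz_bd h.2.2 le_rfl
  have h5 : x.2.length ≤ x.2.length * (x.1.1.b + 1) := Nat.le_mul_of_pos_right _ (by omega)
  have h6 := Nat.mul_le_mul_left (64 * C) (h3.trans h5)
  rw [sz_prod, add_mul]
  nlinarith⟩

theorem carrU : CArr UU (fun x => x.1.1) fun x => x.2 :=
  ⟨Tm.id.fst.fst, Tm.id.snd, fun _ h => h.1.1, fun _ h => h.2.1.good h.2.2, mem_sw⟩

theorem tmU {β : Type} [Enc β] {f : Th → β} (h : Tm PP f) : Tm UU fun x => f x.1 :=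
  h.compP Tm.id.fst (Cls.pays_poly (fun _ h => h.1) carrU.cfT.mem)

/-- The class of the base case. -/
abbrev B0 : Cls Ar := UU.res fun x => x.1.2.2.2 = 0

theorem carrB : CArr B0 (fun x => x.1.1) fun x => x.2 :=
  ⟨Tm.id.fst.fst, Tm.id.snd, fun _ h => h.1.1.1, fun _ h => h.1.2.1.good h.1.2.2,
    Cls.res_mem mem_sw⟩

theorem dvd_base {x : Ar} (h : B0.dom x) {n : ℕ} (hn : n < x.1.1.t0) :
    2 ^ (x.1.1.pos x.1.2.1 (x.1.2.2.1 + n) + 1) ∣ x.2.length := by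
  have h1 := h.1.1.2.2.1
  have h0 : x.1.2.2.2 = 0 := h.2
  rw [h0, pow_zero, one_mul] at h1
  exact h.1.2.1.dvd_pos h.1.1.1 h.1.1.2.1 (by omega)

theorem tm_fold : Tm B0 fun x => (bits0 x.1).foldl (fun y p => bfly x.1.1.w p y) x.2 := by
  refine Tm.foldlU tm_bfly ((tmU tm_bits0).res _) carrB.tl carrB.tc.cf_w
    (fun x y => y.length = x.2.length ∧ Bd x.1.1.P y) (c := fun x => x.2.length * (x.1.1.b + 1))
    (fun x h => ⟨rfl, h.1.2.2⟩) (fun x h p hp y hy => ?_) ⟨tau, big_self _ _, fun x _ h0 => ?_⟩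
  · obtain ⟨n, hn, rfl⟩ := List.mem_map.1 hp
    have h1 := dvd_base h (List.mem_range.1 (List.mem_reverse.1 hn))
    rw [← hy.1] at h1
    exact ⟨⟨h1, hy.1 ▸ h.1.2.1.pos, hy.1 ▸ h.1.2.1.lt h.1.1.1, hy.2⟩, le_of_eq (by rw [← hy.1]; rfl),
      (length_bfly _ h1).trans hy.1, bd_bfly _ _ _⟩
  · have e : (bits0 x.1).length = x.1.1.t0 := by simp [bits0]
    beta_reduce
    rw [tau, if_pos h0, e, mul_comm]
    exact Nat.mul_le_mul_left _ (by omega)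

theorem base_case : Tm B0 gg := by
  have key : ∀ x, B0.dom x → _ := fun x h =>
    foldr_bfly h.1.1.small.2.2.2.2 (fun n => x.1.1.pos x.1.2.1 (x.1.2.2.1 + n)) h.1.2.2
      (List.range x.1.1.t0) fun n hn => dvd_base h (List.mem_range.1 hn)
  have e : ∀ x : Ar, (bits0 x.1).foldl (fun y p => bfly x.1.1.w p y) x.2 =
      (List.range x.1.1.t0).foldr
        (fun n y => bfly x.1.1.w (x.1.1.pos x.1.2.1 (x.1.2.2.1 + n)) y) x.2 := fun x => by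
    rw [bits0, List.foldl_map, List.foldl_reverse]
  refine (carrB.next tm_fold fun x h => ?_).clean.tl.congr fun x h => ?_
  · rw [e]
    exact ⟨(key x h).1, (key x h).2.1⟩
  · have h0 : x.1.2.2.2 = 0 := h.2
    obtain ⟨k1, k2, k3⟩ := key x h
    rw [e, k1, gg, h0, pow_zero, one_mul, gten]
    congr 1
    funext i
    rw [← cst_val k2, k3]
    rfl

end GtenAux

end Vale.Agent.P338
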