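import Vale.Agent.P338.NatOps

/-! Karatsuba multiplication. -/

namespace Vale.Agent.P338

/-- Cost of a product of `b` bit numbers. -/
def kc (b : ℕ) : ℕ := 3 ^ Nat.clog 2 b

theorem le_kc (b : ℕ) : b ≤ kc b :=
  (Nat.le_pow_clog one_lt_two b).trans (Nat.pow_le_pow_left (by norm_num) _)

theorem kc_mono {a b : ℕ} (h : a ≤ b) : kc a ≤ kc b :=
  Nat.pow_le_pow_right (by norm_num) (Nat.clog_mono_right 2 h)

theorem kc_mul_le (c : ℕ) : ∃ C, ∀ b, kc (c * b + c) ≤ C * kc b := by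
  refine ⟨3 ^ (Nat.clog 2 c + 1), fun b => ?_⟩
  rw [kc, kc, ← pow_add]
  refine Nat.pow_le_pow_right (by norm_num) (Nat.clog_le_of_le_pow ?_)
  have h1 := Nat.le_pow_clog one_lt_two c
  have h2 := Nat.le_pow_clog one_lt_two b
  have h3 : 1 ≤ 2 ^ Nat.clog 2 b := Nat.one_le_two_pow
  calc c * b + c = c * (b + 1) := by ring
    _ ≤ 2 ^ Nat.clog 2 c * (2 * 2 ^ Nat.clog 2 b) := Nat.mul_le_mul h1 (by omega)
    _ = _ := by ring

theorem kc_pow_le (b : ℕ) : kc b ^ 5 ≤ 256 * (b + 1) ^ 8 := by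
  have h1 : 2 ^ Nat.clog 2 b ≤ 2 * (b + 1) := by
    rcases Nat.lt_or_ge 1 b with h | h
    · have h2 := Nat.pow_pred_clog_lt_self one_lt_two h
      have h3 := Nat.clog_pos one_lt_two h
      obtain ⟨k, hk⟩ : ∃ k, Nat.clog 2 b = k + 1 := ⟨Nat.clog 2 b - 1, by omega⟩
      rw [hk] at h2 ⊢
      rw [Nat.pred_succ] at h2
      rw [pow_succ]
      omega
    · rw [Nat.clog_of_right_le_one h]
      omega
  calc kc b ^ 5 = 243 ^ Nat.clog 2 b := by rw [kc, ← pow_mul, mul_comm, pow_mul]; norm_num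
    _ ≤ 256 ^ Nat.clog 2 b := Nat.pow_le_pow_left (by norm_num) _
    _ = (2 ^ Nat.clog 2 b) ^ 8 := by rw [← pow_mul, mul_comm, pow_mul]; norm_num
    _ ≤ (2 * (b + 1)) ^ 8 := Nat.pow_le_pow_left h1 _
    _ = _ := by ring

namespace Kara

/-- the product -/
def g (p : ℕ × ℕ) : ℕ := p.1 * p.2

/-- the larger size -/
def ms (p : ℕ × ℕ) : ℕ := max p.1.size p.2.size

/-- the cutting point -/
def hh (p : ℕ × ℕ) : ℕ := (ms p + 1) / 2

def c1 (p : ℕ × ℕ) : ℕ × ℕ := (p.1 / 2 ^ hh p, p.2 / 2 ^ hh p)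

def c2 (p : ℕ × ℕ) : ℕ × ℕ := (p.1 % 2 ^ hh p, p.2 % 2 ^ hh p)

def c3 (p : ℕ × ℕ) : ℕ × ℕ :=
  (p.1 / 2 ^ hh p + p.1 % 2 ^ hh p, p.2 / 2 ^ hh p + p.2 % 2 ^ hh p)

def fin (s : ℕ × ℕ × ℕ × ℕ × ℕ) : ℕ :=
  s.2.2.1 * 2 ^ hh s.2.2.2 * 2 ^ hh s.2.2.2 + (s.1 - s.2.2.1 - s.2.1) * 2 ^ hh s.2.2.2 + s.2.1

theorem fin_eq (p : ℕ × ℕ) : g p = fin (g (c3 p), g (c2 p), g (c1 p), p) := by
  simp only [fin, g, c1, c2, c3]
  have h1 := Nat.div_add_mod' p.1 (2 ^ hh p)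
  have h2 := Nat.div_add_mod' p.2 (2 ^ hh p)
  generalize p.1 / 2 ^ hh p = a1 at h1 ⊢
  generalize p.1 % 2 ^ hh p = a0 at h1 ⊢
  generalize p.2 / 2 ^ hh p = b1 at h2 ⊢
  generalize p.2 % 2 ^ hh p = b0 at h2 ⊢
  have h3 : (a1 + a0) * (b1 + b0) - a1 * b1 - a0 * b0 = a1 * b0 + a0 * b1 := by
    have : (a1 + a0) * (b1 + b0) = a1 * b0 + a0 * b1 + a0 * b0 + a1 * b1 := by ring
    omega
  rw [h3, ← h1, ← h2]
  ring

theorem tm_ms : Tm (lin (ℕ × ℕ)) ms := by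
  unfold ms
  fun_prop

theorem tm_hh : Tm (lin (ℕ × ℕ)) hh := (tm_ms.add (Tm.const 1)).half

theorem tm_c1 : Tm (lin (ℕ × ℕ)) c1 := (Tm.id.fst.shr tm_hh).pair (Tm.id.snd.shr tm_hh)

theorem tm_c2 : Tm (lin (ℕ × ℕ)) c2 := (Tm.id.fst.low tm_hh).pair (Tm.id.snd.low tm_hh)

theorem tm_c3 : Tm (lin (ℕ × ℕ)) c3 :=
  ((Tm.id.fst.shr tm_hh).add (Tm.id.fst.low tm_hh)).pair
    ((Tm.id.snd.shr tm_hh).add (Tm.id.snd.low tm_hh))

theorem ms_le (p : ℕ × ℕ) : ms p ≤ sz p ∧ sz p ≤ 8 * ms p + 4 := by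
  have h1 := size_le_sz p.1
  have h2 := size_le_sz p.2
  have h3 := sz_nat p.1
  have h4 := sz_nat p.2
  rw [sz_prod, ms]
  omega

theorem tm_fin : Tm (lin (ℕ × ℕ × ℕ × ℕ × ℕ)) fin := by
  have h1 : Tm (lin (ℕ × ℕ × ℕ × ℕ × ℕ)) fun s => hh s.2.2.2 := tm_hh.comp Tm.id.snd.snd.snd
  have h2 : (lin (ℕ × ℕ × ℕ × ℕ × ℕ)).mem fun s => hh s.2.2.2 :=
    big_of_le 1 0 fun s _ => by
      have := (ms_le s.2.2.2).1
      rw [sz_prod s, sz_prod s.2, sz_prod s.2.2, hh]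
      omega
  exact (((Tm.id.snd.snd.fst.shl h1 h2).shl h1 h2).add
    (((Tm.id.fst.sub Tm.id.snd.snd.fst).sub Tm.id.snd.fst).shl h1 h2)).add Tm.id.snd.fst

theorem lt_ms (p : ℕ × ℕ) : p.1 < 2 ^ ms p ∧ p.2 < 2 ^ ms p :=
  ⟨Nat.size_le.1 (le_max_left _ _), Nat.size_le.1 (le_max_right _ _)⟩

theorem ms_le_of {p : ℕ × ℕ} {b : ℕ} (h : p.1 < 2 ^ b ∧ p.2 < 2 ^ b) : ms p ≤ b :=
  max_le (Nat.size_le.2 h.1) (Nat.size_le.2 h.2)

theorem sz_g (p : ℕ × ℕ) : sz (g p) ≤ 2 * sz p := by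
  have h1 := size_le_sz p.1
  have h2 := size_le_sz p.2
  have h3 : g p < 2 ^ (p.1.size + p.2.size) := by
    rw [pow_add]
    exact Nat.mul_lt_mul'' (Nat.lt_size_self _) (Nat.lt_size_self _)
  have h4 := sz_nat_lt h3
  rw [sz_prod]
  omega

section step

variable {σ : Type} [Enc σ] {f : σ → ℕ × ℕ}

theorem step (hf : Tm (lin σ) f) : TmO g (lin σ) (fun s => [f s]) fun s => (g (f s), s) :=
  ((TmO.call (𝒯 := lin (ℕ × ℕ))).compP hf.toO (Cls.pays_big (fun _ _ => trivial) hf.szb)).keep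

theorem pays (hf : Tm (lin σ) f) : (lin σ).Pays (lin (ℕ × σ)) fun s => (g (f s), s) :=
  Cls.pays_big (fun _ _ => trivial) ((lin σ).mono
    ((lin σ).add (Cls.cmul hf.szb 2) (big_self _ _)) fun s _ => by
      have := sz_g (f s)
      rw [sz_pair]
      omega)

end step

theorem rec_step : TmO g (lin (ℕ × ℕ)) (fun p => [c1 p, c2 p, c3 p]) g := by
  have h2 : Tm (lin (ℕ × ℕ × ℕ)) fun s => c2 s.2 := tm_c2.comp Tm.id.snd
  have h3 : Tm (lin (ℕ × ℕ × ℕ × ℕ)) fun s => c3 s.2.2 := tm_c3.comp Tm.id.snd.snd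
  exact (((tm_fin.toO.compP (step h3) (pays h3)).compP (step h2) (pays h2)).compP (step tm_c1)
    (pays tm_c1)).congr fun p _ => fin_eq p

theorem body : TmO g (lin (ℕ × ℕ)) (fun p => if ms p ≤ 4 then [] else [c1 p, c2 p, c3 p]) g := by
  have h1 : Tm ((lin (ℕ × ℕ)).res fun p => ms p ≤ 4) g :=
    Tm.mulR Tm.id.fst Tm.id.snd ⟨fun _ => 16 * 8, Cls.const _ _, fun p _ hp => by
      have h2 := (lt_ms p).1
      have h3 : 2 ^ ms p ≤ 2 ^ 4 := Nat.pow_le_pow_right (by norm_num) hp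
      refine Nat.mul_le_mul (by omega) ?_
      unfold ms at hp
      omega⟩
  exact (TmO.ite (tm_ms.le (Tm.const 4)) h1.toO
    (rec_step.compP Tm.id.toO (Cls.pays_res _ _))).congr fun p _ => (ite_self _).symm

/-- the solution of the recurrence -/
def V (A : ℕ) : ℕ → ℕ
  | 0 => A
  | d + 1 => 3 * V A d + A * 2 ^ (d + 1)

theorem V_eq (A d : ℕ) : V A d + A * 2 ^ (d + 1) = A * 3 ^ (d + 1) := by
  induction d with
  | zero => simp only [V]; ring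
  | succ d ih =>
    rw [V, pow_succ 3 (d + 1), ← mul_assoc, ← ih]
    ring

theorem V_mono (A : ℕ) : Monotone (V A) :=
  monotone_nat_of_le_succ fun d => by rw [V]; omega

theorem V_ge (A d : ℕ) : A * 2 ^ d ≤ V A d := by
  cases d with
  | zero => simp [V]
  | succ d => rw [V]; omega

theorem ms_call (p : ℕ × ℕ) :
    ms (c1 p) ≤ hh p + 1 ∧ ms (c2 p) ≤ hh p + 1 ∧ ms (c3 p) ≤ hh p + 1 := by
  have h0 : 0 < 2 ^ hh p := by positivity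
  have h1 : 2 ^ ms p ≤ 2 ^ hh p * 2 ^ hh p := by
    rw [← pow_add]
    exact Nat.pow_le_pow_right (by norm_num) (by unfold hh; omega)
  have h2 : p.1 / 2 ^ hh p < 2 ^ hh p := Nat.div_lt_of_lt_mul ((lt_ms p).1.trans_le h1)
  have h3 : p.2 / 2 ^ hh p < 2 ^ hh p := Nat.div_lt_of_lt_mul ((lt_ms p).2.trans_le h1)
  have h4 := Nat.mod_lt p.1 h0
  have h5 := Nat.mod_lt p.2 h0
  refine ⟨ms_le_of ?_, ms_le_of ?_, ms_le_of ?_⟩ <;> simp only [c1, c2, c3, pow_succ] <;> omega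

theorem main : ∃ A, Tm (big (fun _ => True) fun p => V A (Nat.log 2 (ms p - 3))) g := by
  obtain ⟨T, ⟨C, hC⟩, h⟩ := body.fix fun _ _ _ _ => trivial
  refine ⟨37 * C, h _ fun p _ => ?_⟩
  have h1 := Nat.lt_pow_succ_log_self one_lt_two (ms p - 3)
  have h2 := (ms_le p).2
  have h3 : T p ≤ 37 * C * 2 ^ Nat.log 2 (ms p - 3) := by
    refine (hC p trivial).trans ?_
    have h4 : 1 ≤ 2 ^ Nat.log 2 (ms p - 3) := Nat.one_le_two_pow
    rw [Nat.pow_succ] at h1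
    rw [mul_comm 37, mul_assoc]
    exact Nat.mul_le_mul_left _ (by omega)
  split_ifs with h5
  · simpa using h3.trans (V_ge _ _)
  · have h6 : Nat.log 2 (ms p - 3) = Nat.log 2 ((ms p - 3) / 2) + 1 :=
      Nat.log_of_one_lt_of_le one_lt_two (by omega)
    have h7 : ∀ q, ms q ≤ hh p + 1 →
        V (37 * C) (Nat.log 2 (ms q - 3)) ≤ V (37 * C) (Nat.log 2 ((ms p - 3) / 2)) :=
      fun q hq => V_mono _ (Nat.log_mono_right (by unfold hh at hq; omega))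
    obtain ⟨g1, g2, g3⟩ := ms_call p
    have g4 := h7 _ g1
    have g5 := h7 _ g2
    have g6 := h7 _ g3
    rw [h6] at h3 ⊢
    simp only [List.map_cons, List.map_nil, List.sum_cons, List.sum_nil, V]
    omega

end Kara

variable {ι : Type} [Enc ι] {𝒯 : Cls ι} [Dom 𝒯]

open Kara in
theorem Tm.kmul {f g b : ι → ℕ} (hf : Tm 𝒯 f) (hg : Tm 𝒯 g)
    (h1 : ∀ i, 𝒯.dom i → f i < 2 ^ b i ∧ g i < 2 ^ b i) (h2 : 𝒯.mem (fun i => kc (b i))) :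
    Tm 𝒯 (fun i => f i * g i) := by
  obtain ⟨A, hA⟩ := main
  refine hA.compB (hf.pair hg) (fun _ _ => trivial) (Cls.lin h2 (3 * A) 0 fun i hi => ?_)
  have h3 := V_eq A (Nat.log 2 (ms (f i, g i) - 3))
  have h4 : Nat.log 2 (ms (f i, g i) - 3) ≤ Nat.clog 2 (b i) :=
    (Nat.log_le_clog _ _).trans (Nat.clog_mono_right 2
      ((Nat.sub_le _ _).trans (ms_le_of (h1 i hi))))
  have h5 : 3 ^ Nat.log 2 (ms (f i, g i) - 3) ≤ kc (b i) := Nat.pow_le_pow_right (by norm_num) h4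
  calc _ ≤ A * 3 ^ (Nat.log 2 (ms (f i, g i) - 3) + 1) := by omega
    _ = 3 * A * 3 ^ Nat.log 2 (ms (f i, g i) - 3) := by ring
    _ ≤ _ := Nat.mul_le_mul_left _ h5

theorem Tm.kzmul {x y : ι → ℤ} {b : ι → ℕ} (hx : Tm 𝒯 x) (hy : Tm 𝒯 y)
    (h1 : ∀ i, 𝒯.dom i → (x i).natAbs < 2 ^ b i ∧ (y i).natAbs < 2 ^ b i)
    (h2 : 𝒯.mem (fun i => kc (b i))) : Tm 𝒯 (fun i => x i * y i) := by
  have h3 := (hx.natAbs.kmul hy.natAbs h1 h2).natCast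
  have h4 := hx.zlt (Tm.const 0)
  have h5 := hy.zlt (Tm.const 0)
  refine (Tm.ite h4 (Tm.ite h5 h3 h3.zneg) (Tm.ite h5 h3.zneg h3)).congr fun i _ => ?_
  push_cast
  split_ifs with h6 h7 h7
  · rw [abs_of_neg h6, abs_of_neg h7]
    ring
  · rw [abs_of_neg h6, abs_of_nonneg (not_lt.1 h7)]
    ring
  · rw [abs_of_nonneg (not_lt.1 h6), abs_of_neg h7]
    ring
  · rw [abs_of_nonneg (not_lt.1 h6), abs_of_nonneg (not_lt.1 h7)]

end Vale.Agent.P338
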