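import Mathlib

/-! Auxiliary facts for the rational frames: reduction of rationals modulo `m`, idempotent
matrices. -/

namespace Vale.Agent.P338.Lab1Aux

open Matrix

/-- `x` is the residue of the rational number `q` modulo `m`. -/
def Rel (m : ℕ) (q : ℚ) (x : ZMod m) : Prop :=
  ∃ (a : ℤ) (b : ℕ), b ≠ 0 ∧ IsUnit (b : ZMod m) ∧ q * b = a ∧ x * b = a

variable {m : ℕ}

theorem Rel.int (a : ℤ) : Rel m a a := ⟨a, 1, one_ne_zero, by simp, by simp, by simp⟩

theorem Rel.nat (a : ℕ) : Rel m a a := by simpa using Rel.int (m := m) a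

theorem Rel.zero : Rel m 0 0 := by simpa using Rel.int (m := m) 0

theorem Rel.add {q q' : ℚ} {x x' : ZMod m} (h : Rel m q x) (h' : Rel m q' x') :
    Rel m (q + q') (x + x') := by
  obtain ⟨a, b, h0, h1, h2, h3⟩ := h
  obtain ⟨a', b', h0', h1', h2', h3'⟩ := h'
  refine ⟨a * b' + a' * b, b * b', mul_ne_zero h0 h0', by simpa using h1.mul h1', ?_, ?_⟩
  · push_cast; rw [← h2, ← h2']; ring
  · push_cast; rw [← h3, ← h3']; ring

theorem Rel.mul {q q' : ℚ} {x x' : ZMod m} (h : Rel m q x) (h' : Rel m q' x') :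
    Rel m (q * q') (x * x') := by
  obtain ⟨a, b, h0, h1, h2, h3⟩ := h
  obtain ⟨a', b', h0', h1', h2', h3'⟩ := h'
  refine ⟨a * a', b * b', mul_ne_zero h0 h0', by simpa using h1.mul h1', ?_, ?_⟩
  · push_cast; rw [← h2, ← h2']; ring
  · push_cast; rw [← h3, ← h3']; ring

theorem Rel.neg {q : ℚ} {x : ZMod m} (h : Rel m q x) : Rel m (-q) (-x) := by
  simpa using (Rel.int (m := m) (-1)).mul h

theorem Rel.sum {ι : Type*} (s : Finset ι) {q : ι → ℚ} {x : ι → ZMod m}
    (h : ∀ i ∈ s, Rel m (q i) (x i)) : Rel m (∑ i ∈ s, q i) (∑ i ∈ s, x i) := by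
  classical
  induction s using Finset.induction_on with
  | empty => simpa using Rel.zero
  | insert a s ha ih =>
    rw [Finset.sum_insert ha, Finset.sum_insert ha]
    exact (h a (by simp)).add (ih fun i hi => h i (by simp [hi]))

theorem Rel.unique {q : ℚ} {x x' : ZMod m} (h : Rel m q x) (h' : Rel m q x') : x = x' := by
  obtain ⟨a, b, _, h1, h2, h3⟩ := h
  obtain ⟨a', b', _, h1', h2', h3'⟩ := h'
  have e : a * b' = a' * b := by
    have : (a : ℚ) * b' = a' * b := by rw [← h2, ← h2']; ring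
    exact_mod_cast this
  have e' : (a : ZMod m) * b' = a' * b := by exact_mod_cast congrArg (Int.cast : ℤ → ZMod m) e
  apply (h1.mul h1').mul_right_cancel
  calc x * (b * b') = x * b * b' := by ring
    _ = a' * b := by rw [h3, e']
    _ = x' * (b * b') := by rw [← h3']; ring

theorem exists_lift (x : ZMod m) : ∃ q, Rel m q x := by
  obtain ⟨a, rfl⟩ := ZMod.intCast_surjective x
  exact ⟨a, Rel.int a⟩

theorem inv_mul {N p : ℕ} (hm : N.factorial ∣ m + 1) (h0 : 0 < p) (hp : p ≤ N) :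
    ((((m + 1) / p : ℕ) : ZMod m)) * p = 1 := by
  have hd : p ∣ m + 1 := (Nat.dvd_factorial h0 hp).trans hm
  rw [← Nat.cast_mul, Nat.div_mul_cancel hd]
  simp

theorem Rel.inv {N p : ℕ} (hm : N.factorial ∣ m + 1) (h0 : 0 < p) (hp : p ≤ N) :
    Rel m (p : ℚ)⁻¹ (((m + 1) / p : ℕ) : ZMod m) := by
  have h := inv_mul hm h0 hp
  refine ⟨1, p, h0.ne', IsUnit.of_mul_eq_one_right _ h, ?_, by simpa using h⟩
  have : (p : ℚ) ≠ 0 := by exact_mod_cast h0.ne'
  simp [this]

theorem Rel.rat {N : ℕ} (hm : N.factorial ∣ m + 1) {c : ℚ} (hc : c.den ≤ N) :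
    Rel m c ((c.num : ZMod m) * (((m + 1) / c.den : ℕ) : ZMod m)) := by
  have h := (Rel.int (m := m) c.num).mul (Rel.inv hm c.den_pos hc)
  rwa [← div_eq_mul_inv, Rat.num_div_den] at h

open Classical in
/-- The residue of a rational number. -/
noncomputable def red (m : ℕ) (q : ℚ) : ZMod m := if h : ∃ x, Rel m q x then h.choose else 0

theorem rel_red {q : ℚ} (h : ∃ x, Rel m q x) : Rel m q (red m q) := by
  rw [red, dif_pos h]; exact h.choose_spec

/-- The map `g` is the reduction of the map `f`. -/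
def RelF (m : ℕ) {ι : Type} (f : (ι → ℚ) → (ι → ℚ)) (g : (ι → ZMod m) → (ι → ZMod m)) : Prop :=
  ∀ u z, (∀ i, Rel m (u i) (z i)) → ∀ i, Rel m (f u i) (g z i)

theorem RelF.comp {ι : Type} {f f' : (ι → ℚ) → (ι → ℚ)} {g g' : (ι → ZMod m) → (ι → ZMod m)}
    (h : RelF m f g) (h' : RelF m f' g') : RelF m (fun u => f (f' u)) (fun z => g (g' z)) :=
  fun u z hu => h _ _ (h' u z hu)

theorem RelF.id {ι : Type} : RelF m (fun u : ι → ℚ => u) (fun z => z) := fun _ _ h => h

theorem RelF.perm {ι : Type} (σ : ι → ι) : RelF m (fun u : ι → ℚ => u ∘ σ) (fun z => z ∘ σ) :=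
  fun _ _ h i => h (σ i)

theorem RelF.eq {ι : Type} {f f' : (ι → ℚ) → (ι → ℚ)} {g g' : (ι → ZMod m) → (ι → ZMod m)}
    (h : RelF m f g) (h' : RelF m f' g') (e : ∀ u, f u = f' u) (z : ι → ZMod m) : g z = g' z := by
  choose u hu using fun i => exists_lift (z i)
  funext i
  exact (h u z hu i).unique (e u ▸ h' u z hu i)

theorem RelF.mulVec {ι : Type} [Fintype ι] {M : Matrix ι ι ℚ} (h : ∀ i j, ∃ x, Rel m (M i j) x) :
    RelF m (fun u => M *ᵥ u) (fun z => M.map (red m) *ᵥ z) := by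
  intro u z hu i
  exact Rel.sum _ fun j _ => (rel_red (h i j)).mul (hu j)

theorem eventually_good {ι : Type} [Fintype ι] (M : Matrix ι ι ℚ) :
    ∀ᶠ N : ℕ in Filter.atTop, ∀ m, N.factorial ∣ m + 1 → ∀ i j, ∃ x, Rel m (M i j) x := by
  have h : ∀ᶠ N : ℕ in Filter.atTop, ∀ i j, (M i j).den ≤ N := by
    simp only [Filter.eventually_all]
    exact fun i j => Filter.eventually_ge_atTop _
  filter_upwards [h] with N hN m hm i j
  exact ⟨_, Rel.rat hm (hN i j)⟩

theorem idem_eq_zero {I : Type} [Fintype I] [DecidableEq I] {D : Matrix I I ℚ} (h : D * D = D)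
    (ht : trace D = 0) : D = 0 := by
  have h1 : IsIdempotentElem (Matrix.toLin' D) := by
    unfold IsIdempotentElem
    rw [Module.End.mul_eq_comp, ← Matrix.toLin'_mul, h]
  have h2 := (LinearMap.IsIdempotentElem.trace_eq_zero_iff h1).1 (by simpa using ht)
  exact Matrix.toLin'.injective (by simpa using h2)

theorem idem_split {I : Type} [Fintype I] [DecidableEq I] {D : Matrix I I ℚ} (h : D * D = D)
    (h0 : D ≠ 0) : ∃ (b c : I → ℚ) (D' : Matrix I I ℚ), c ⬝ᵥ b = 1 ∧ D' * D' = D' ∧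
      D' * vecMulVec b c = 0 ∧ D = D' + vecMulVec b c := by
  obtain ⟨i, j, hij⟩ : ∃ i j, D i j ≠ 0 := by
    by_contra hn
    push Not at hn
    exact h0 (Matrix.ext hn)
  set b : I → ℚ := fun k => D k j with hb
  set c : I → ℚ := fun k => D i k / D i j with hc
  have hDb : D *ᵥ b = b := by
    funext k
    exact congrFun (congrFun h k) j
  have hcD : c ᵥ* D = c := by
    funext k
    have := congrFun (congrFun h i) k
    simp only [Matrix.mul_apply] at this
    simp only [Matrix.vecMul, dotProduct, hc, div_mul_eq_mul_div, ← Finset.sum_div, this]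
  have hcb : c ⬝ᵥ b = 1 := by
    have := congrFun (congrFun h i) j
    simp only [Matrix.mul_apply] at this
    simp only [dotProduct, hc, hb, div_mul_eq_mul_div, ← Finset.sum_div, this, div_self hij]
  have e1 : D * vecMulVec b c = vecMulVec b c := by rw [mul_vecMulVec, hDb]
  have e2 : vecMulVec b c * D = vecMulVec b c := by rw [vecMulVec_mul, hcD]
  have e3 : vecMulVec b c * vecMulVec b c = vecMulVec b c := by
    rw [vecMulVec_mul_vecMulVec, hcb, one_smul]
  refine ⟨b, c, D - vecMulVec b c, hcb, ?_, ?_, by simp⟩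
  · rw [sub_mul, mul_sub, mul_sub, h, e1, e2, e3]; simp
  · rw [sub_mul, e1, e3, sub_self]

/-- A change of frame by an idempotent of trace `r`. -/
def Step {I : Type} [Fintype I] (r : ℕ) (P P' : Matrix I I ℚ) : Prop :=
  ∃ D : Matrix I I ℚ, D * D = D ∧ trace D = r ∧
    ((P * D = 0 ∧ P' = P + D) ∨ (P * D = D ∧ P = P' + D))

end Vale.Agent.P338.Lab1Aux
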