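import Vale.Agent.P338.Net
import Vale.Agent.P338.Lab1Aux

/-! Frames for the exchange of two index digits: idempotent rational matrices. -/

namespace Vale.Agent.P338

open Vale.Agent.P344 (Tr H17)
open Function

/-- Positions of the digits. -/
abbrev J : Type := Fin (289 + 289)

/-- The partner of a digit. -/
def hsw (d : J) : J := if h : d.1 < 289 then ⟨d.1 + 289, by omega⟩ else ⟨d.1 - 289, by omega⟩

/-- Elementary index maps. -/
inductive Gen : Type
  | shear : J → J → ℚ → Gen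
  | scale : J → ℕ → Gen
  | unscale : J → ℕ → Gen
  | neg : J → Gen
  | swap : J → J → Gen

/-- Admissible generators: earlier digits act on later ones, constants are at most `N`. -/
def Gen.ok (N : ℕ) : Gen → Prop
  | .shear i j c => i < j ∧ c.den ≤ N
  | .scale _ p => 0 < p ∧ p ≤ N
  | .unscale _ p => 0 < p ∧ p ≤ N
  | .neg _ => True
  | .swap i j => i < j

/-- Number of recursive calls. -/
def Gen.cost : Gen → ℕ
  | .swap _ _ => 1
  | _ => 0

/-- A rational number modulo `m`, when its denominator divides `m + 1`. -/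
def qc (m : ℕ) (c : ℚ) : ZMod m := (c.num : ZMod m) * (((m + 1) / c.den : ℕ) : ZMod m)

/-- Action on tuples of digits. -/
def Gen.act (m : ℕ) : Gen → (J → ZMod m) → (J → ZMod m)
  | .shear i j c, z => update z j (z j + qc m c * z i)
  | .scale j p, z => update z j ((p : ZMod m) * z j)
  | .unscale j p, z => update z j ((((m + 1) / p : ℕ) : ZMod m) * z j)
  | .neg j, z => update z j (- z j)
  | .swap i j, z => update (update z i (z j)) j (z i)

/-- Orthogonal triples. -/
def orth1 (S T : Tr) : Prop := (S.1 ∩ T.1).card = 1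

theorem design1 (Cf : ZMod 2 → Prop) (h : ∀ c, Cf c) : Nonempty (Design (ZMod 2) H17 Cf orth1) := by
  refine ⟨⟨fun S i => if i ∈ S.1 then 1 else 0, fun i T => if i ∈ T.1 then 1 else 0,
    fun S T => (if S = T then 1 else 0) -
      ∑ i, (if i ∈ S.1 then 1 else 0) * (if i ∈ T.1 then 1 else 0),
    fun _ _ => rfl, fun S T hn => ?_, fun _ _ => h _, fun _ _ => h _, fun _ _ => h _, h _, h _,
    by simp⟩⟩
  have e : ∑ i, (if i ∈ S.1 then (1 : ZMod 2) else 0) * (if i ∈ T.1 then 1 else 0)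
      = ((S.1 ∩ T.1).card : ZMod 2) := by
    simp only [ite_mul, one_mul, zero_mul]
    rw [Finset.sum_ite_mem, Finset.univ_inter, Finset.sum_ite_mem, Finset.sum_const]
    simp
  rw [e]
  have h3 : (S.1 ∩ T.1).card ≤ 3 :=
    (Finset.card_le_card Finset.inter_subset_left).trans (le_of_eq S.2)
  by_cases hST : S = T
  · subst hST
    rw [if_pos rfl, Finset.inter_self, S.2]; decide
  · have h1 : (S.1 ∩ T.1).card ≠ 3 := by
      intro h1
      apply hST
      have hs : S.1 ∩ T.1 = S.1 :=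
        Finset.eq_of_subset_of_card_le Finset.inter_subset_left (by rw [h1, S.2])
      have ht : S.1 ∩ T.1 = T.1 :=
        Finset.eq_of_subset_of_card_le Finset.inter_subset_right (by rw [h1, T.2])
      exact Subtype.ext (hs.symm.trans ht)
    unfold orth1 at hn
    have : (S.1 ∩ T.1).card = 0 ∨ (S.1 ∩ T.1).card = 2 := by omega
    rw [if_neg hST]
    rcases this with h2 | h2 <;> rw [h2] <;> decide

namespace Lab1Aux

open Matrix Kronecker

/-- Rational action of the generators. -/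
def actQ : Gen → (J → ℚ) → (J → ℚ)
  | .shear i j c, z => update z j (z j + c * z i)
  | .scale j p, z => update z j ((p : ℚ) * z j)
  | .unscale j p, z => update z j ((p : ℚ)⁻¹ * z j)
  | .neg j, z => update z j (- z j)
  | .swap i j, z => update (update z i (z j)) j (z i)

theorem ok_mono {g : Gen} {N N' : ℕ} (h : g.ok N) (hN : N ≤ N') : g.ok N' := by
  cases g with
  | shear i j c => exact ⟨h.1, h.2.trans hN⟩
  | scale j p => exact ⟨h.1, h.2.trans hN⟩
  | unscale j p => exact ⟨h.1, h.2.trans hN⟩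
  | neg j => trivial
  | swap i j => exact h

theorem rel_update {m : ℕ} {u : J → ℚ} {z : J → ZMod m} (h : ∀ i, Rel m (u i) (z i)) (j : J)
    {q : ℚ} {x : ZMod m} (hq : Rel m q x) (i : J) : Rel m (update u j q i) (update z j x i) := by
  by_cases e : i = j
  · subst e; simpa using hq
  · simpa [e] using h i

theorem relF_gen {m N : ℕ} (hm : N.factorial ∣ m + 1) {g : Gen} (h : g.ok N) :
    RelF m (actQ g) (g.act m) := by
  intro u z hu
  cases g with
  | shear i j c => exact rel_update hu j ((hu j).add ((Rel.rat hm h.2).mul (hu i)))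
  | scale j p => exact rel_update hu j ((Rel.nat p).mul (hu j))
  | unscale j p => exact rel_update hu j ((Rel.inv hm h.1 h.2).mul (hu j))
  | neg j => exact rel_update hu j (hu j).neg
  | swap i j => exact rel_update (rel_update hu i (hu j)) j (hu i)

theorem relF_word {m N : ℕ} (hm : N.factorial ∣ m + 1) {w : List Gen} (h : ∀ g ∈ w, g.ok N) :
    RelF m (fun u => w.foldr actQ u) (fun z => w.foldr (Gen.act m) z) := by
  induction w with
  | nil => exact RelF.id
  | cons g w ih => exact (relF_gen hm (h g (by simp))).comp (ih fun g hg => h g (by simp [hg]))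

/-- `f` is the action of a word of cost at most `r`. -/
def Word (r : ℕ) (f : (J → ℚ) → (J → ℚ)) : Prop :=
  ∃ (N : ℕ) (w : List Gen), (∀ g ∈ w, g.ok N) ∧ (w.map Gen.cost).sum ≤ r ∧
    ∀ u, w.foldr actQ u = f u

theorem Word.congr {r r' : ℕ} {f f' : (J → ℚ) → (J → ℚ)} (h : Word r f) (hr : r ≤ r')
    (e : ∀ u, f u = f' u) : Word r' f' := by
  obtain ⟨N, w, h1, h2, h3⟩ := h
  exact ⟨N, w, h1, h2.trans hr, fun u => (h3 u).trans (e u)⟩

theorem Word.id : Word 0 (fun u => u) := ⟨0, [], by simp, by simp, fun _ => rfl⟩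

theorem Word.comp {r r' : ℕ} {f f' : (J → ℚ) → (J → ℚ)} (h : Word r f) (h' : Word r' f') :
    Word (r + r') (fun u => f (f' u)) := by
  obtain ⟨N, w, h1, h2, h3⟩ := h
  obtain ⟨N', w', h1', h2', h3'⟩ := h'
  refine ⟨max N N', w ++ w', fun g hg => ?_, ?_, fun u => ?_⟩
  · rcases List.mem_append.1 hg with hg | hg
    · exact ok_mono (h1 g hg) (le_max_left _ _)
    · exact ok_mono (h1' g hg) (le_max_right _ _)
  · rw [List.map_append, List.sum_append]; omega
  · rw [List.foldr_append, h3', h3]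

theorem Word.gen {g : Gen} {N : ℕ} (h : g.ok N) : Word g.cost (actQ g) :=
  ⟨N, [g], by simpa using h, by simp, fun _ => rfl⟩

theorem Word.shear {i j : J} (hij : i < j) (c : ℚ) :
    Word 0 (fun z => update z j (z j + c * z i)) :=
  Word.gen (g := .shear i j c) (N := c.den) ⟨hij, le_rfl⟩

theorem Word.swap {i j : J} (hij : i < j) :
    Word 1 (fun z => update (update z i (z j)) j (z i)) :=
  Word.gen (g := .swap i j) (N := 0) hij

theorem Word.scalePos (j : J) {q : ℚ} (hq : 0 < q) : Word 0 (fun z => update z j (q * z j)) := by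
  have hn : 0 < q.num.toNat := by have := Rat.num_pos.2 hq; omega
  have h1 := Word.gen (g := .scale j q.num.toNat) (N := q.num.toNat) ⟨hn, le_rfl⟩
  have h2 := Word.gen (g := .unscale j q.den) (N := q.den) ⟨q.den_pos, le_rfl⟩
  refine (h1.comp h2).congr le_rfl fun u => ?_
  have e : ((q.num.toNat : ℕ) : ℚ) = (q.num : ℚ) := by
    have : ((q.num.toNat : ℕ) : ℤ) = q.num := Int.toNat_of_nonneg (Rat.num_pos.2 hq).le
    exact_mod_cast congrArg (Int.cast : ℤ → ℚ) this
  simp only [actQ, update_self, update_idem, e]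
  rw [← mul_assoc, ← div_eq_mul_inv, Rat.num_div_den]

theorem Word.scaleQ (j : J) {q : ℚ} (hq : q ≠ 0) : Word 0 (fun z => update z j (q * z j)) := by
  rcases lt_or_gt_of_ne hq with h | h
  · have h1 := Word.gen (g := .neg j) (N := 0) trivial
    refine (h1.comp (Word.scalePos j (q := -q) (by linarith))).congr le_rfl fun u => ?_
    simp [actQ]
  · exact Word.scalePos j h

theorem Word.colS (i : J) (a : J → ℚ) (s : Finset J) (hs : ∀ j ∈ s, i < j) :
    Word 0 (fun u j => if j ∈ s then u j + u i * a j else u j) := by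
  induction s using Finset.induction_on with
  | empty => exact Word.id.congr le_rfl fun u => by simp
  | insert j s hj ih =>
    have hij := hs j (by simp)
    have his : i ∉ s := fun h => lt_irrefl _ (hs i (by simp [h]))
    refine ((Word.shear hij (a j)).comp (ih fun j hj => hs j (by simp [hj]))).congr le_rfl
      fun u => ?_
    funext k
    by_cases e : k = j
    · subst e; simp [hj, his, mul_comm]
    · simp [e]

theorem Word.col (i : J) {a : J → ℚ} (ha : ∀ j, j ≤ i → a j = 0) :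
    Word 0 (fun u => u + u i • a) := by
  refine (Word.colS i a (Finset.univ.filter fun j => i < j) (by simp)).congr le_rfl fun u => ?_
  funext k
  by_cases e : i < k
  · simp [e]
  · simp [e, ha k (not_lt.1 e)]

theorem Word.rowS (j : J) (a : J → ℚ) (ha : a j ≠ 0) (s : Finset J) (hs : ∀ i ∈ s, i < j) :
    Word 0 (fun u => update u j (a j * u j + ∑ i ∈ s, a i * u i)) := by
  induction s using Finset.induction_on with
  | empty => exact (Word.scaleQ j ha).congr le_rfl fun u => by simp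
  | insert i s hi ih =>
    have hij := hs i (by simp)
    refine ((Word.shear hij (a i)).comp (ih fun j hj => hs j (by simp [hj]))).congr le_rfl
      fun u => ?_
    simp only [update_self, update_idem, update_of_ne hij.ne, Finset.sum_insert hi]
    congr 1
    ring

theorem Word.row (j : J) {a : J → ℚ} (ha : a j ≠ 0) (h0 : ∀ i, j < i → a i = 0) :
    Word 0 (fun u => update u j (a ⬝ᵥ u)) := by
  refine (Word.rowS j a ha (Finset.univ.filter fun i => i < j) (by simp)).congr le_rfl fun u => ?_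
  refine congrArg (update u j) ?_
  rw [dotProduct, ← Finset.add_sum_erase _ _ (Finset.mem_univ j)]
  refine congrArg (a j * u j + ·) ?_
  apply Finset.sum_subset
  · intro i hi
    simp only [Finset.mem_filter, Finset.mem_univ, true_and] at hi
    simp [hi.ne]
  · intro i hi hi'
    simp only [Finset.mem_filter, Finset.mem_univ, true_and, not_lt] at hi'
    have : j < i := lt_of_le_of_ne hi' (Finset.ne_of_mem_erase hi).symm
    rw [h0 i this, zero_mul]

theorem dot_update (a v : J → ℚ) (i : J) (x : ℚ) :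
    a ⬝ᵥ update v i x = a ⬝ᵥ v + a i * (x - v i) := by
  have : update v i x = v + Pi.single i (x - v i) := by
    funext k
    by_cases e : k = i
    · subst e; simp
    · simp [e]
  rw [this, dotProduct_add, dotProduct_single]

theorem Word.mid {i j : J} (hij : i < j) {ρ : J → ℚ} (hi : ρ i ≠ 0) (hj : ρ j ≠ 0)
    (h0 : ∀ k, j < k → ρ k = 0) : Word 1 (fun v => update v i (ρ ⬝ᵥ v)) := by
  set σ : J → ℚ := (ρ j)⁻¹ • (Pi.single i (1 + ρ i) + Pi.single j (ρ j - ρ i) - ρ) with hσ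
  have hσj : σ j ≠ 0 := by
    simp [hσ, Pi.single_eq_of_ne hij.ne', hi, hj]
  have hσ0 : ∀ k, j < k → σ k = 0 := by
    intro k hk
    simp [hσ, Pi.single_eq_of_ne hk.ne', Pi.single_eq_of_ne (hij.trans hk).ne', h0 k hk]
  refine ((Word.row j hσj hσ0).comp ((Word.swap hij).comp (Word.row j hj h0))).congr le_rfl
    fun v => ?_
  simp only [update_self, update_idem, update_of_ne hij.ne]
  rw [update_comm hij.ne' (ρ ⬝ᵥ v) (ρ ⬝ᵥ v) v, update_idem, update_idem, update_eq_self_iff,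
    update_of_ne hij.ne', hσ, smul_dotProduct, sub_dotProduct, add_dotProduct,
    single_dotProduct, single_dotProduct, dot_update, dot_update, update_self,
    update_of_ne hij.ne, update_self, update_of_ne hij.ne', smul_eq_mul]
  field_simp
  ring

theorem Word.rankOne {β γ : J → ℚ} {i j : J} (hij : i < j) (hi : β i ≠ 0) (hj : γ j ≠ 0)
    (h : γ ⬝ᵥ β = -2) : Word 1 (fun u => u + (γ ⬝ᵥ u) • β) := by
  obtain ⟨i0, hi0, hmin⟩ := Finset.exists_min_image (Finset.univ.filter fun k => β k ≠ 0)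
    (fun k => k) ⟨i, by simpa using hi⟩
  obtain ⟨j0, hj0, hmax⟩ := Finset.exists_max_image (Finset.univ.filter fun k => γ k ≠ 0)
    (fun k => k) ⟨j, by simpa using hj⟩
  simp only [Finset.mem_filter, Finset.mem_univ, true_and] at hi0 hj0 hmin hmax
  have hlt : i0 < j0 := (hmin i hi).trans_lt (hij.trans_le (hmax j hj))
  set a : J → ℚ := (β i0)⁻¹ • β - Pi.single i0 1 with ha
  have ha0 : a i0 = 0 := by simp [ha, hi0]
  have hale : ∀ k, k ≤ i0 → a k = 0 := by
    intro k hk
    rcases hk.eq_or_lt with e | e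
    · rw [e, ha0]
    · have : β k = 0 := by
        by_contra hn
        exact absurd (hmin k hn) (not_le.2 e)
      simp [ha, this, Pi.single_eq_of_ne e.ne]
  have hga : γ ⬝ᵥ a = (β i0)⁻¹ * (-2) - γ i0 := by
    rw [ha, dotProduct_sub, dotProduct_smul, h, dotProduct_single, smul_eq_mul, mul_one]
  set ρ : J → ℚ := Pi.single i0 (1 + β i0 * (γ ⬝ᵥ a)) + β i0 • γ with hρ
  have hρi : ρ i0 ≠ 0 := by
    have : ρ i0 = -1 := by
      simp only [hρ, Pi.add_apply, Pi.single_eq_same, Pi.smul_apply, smul_eq_mul, hga]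
      field_simp
      ring
    rw [this]; norm_num
  have hρj : ρ j0 ≠ 0 := by simp [hρ, Pi.single_eq_of_ne hlt.ne', hi0, hj0]
  have hρ0 : ∀ k, j0 < k → ρ k = 0 := by
    intro k hk
    have : γ k = 0 := by
      by_contra hn
      exact absurd (hmax k hn) (not_le.2 hk)
    simp [hρ, this, Pi.single_eq_of_ne (hlt.trans hk).ne']
  refine ((Word.col i0 hale).comp ((Word.mid hlt hρi hρj hρ0).comp
    (Word.col i0 (a := -a) (fun k hk => by simp [hale k hk])))).congr le_rfl fun u => ?_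
  have hs : ρ ⬝ᵥ (u + u i0 • -a) = u i0 + β i0 * (γ ⬝ᵥ u) := by
    rw [hρ, add_dotProduct, single_dotProduct, smul_dotProduct, dotProduct_add, dotProduct_smul,
      dotProduct_neg]
    simp only [Pi.add_apply, Pi.smul_apply, Pi.neg_apply, ha0, smul_eq_mul]
    ring
  rw [hs, update_self]
  funext k
  by_cases e : k = i0
  · subst e
    simp [ha0, mul_comm]
  · simp only [Pi.add_apply, update_of_ne e, Pi.smul_apply, Pi.neg_apply, smul_eq_mul, ha,
      Pi.sub_apply, Pi.single_eq_of_ne e]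
    field_simp
    ring

/-- Index set of the frames. -/
abbrev I : Type := H17 × H17

/-- Position of the first digit of an index. -/
def xi (a : I) : J := ⟨a.2.1 + 17 * a.1.1, by have := a.1.2; have := a.2.2; omega⟩

/-- Position of the second digit of an index. -/
def yi (a : I) : J := ⟨a.2.1 + 17 * a.1.1 + 289, by have := a.1.2; have := a.2.2; omega⟩

theorem xi_lt (a a' : I) : xi a < yi a' := by
  have := a.1.2; have := a.2.2
  change a.2.1 + 17 * a.1.1 < a'.2.1 + 17 * a'.1.1 + 289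
  omega

theorem xi_inj {a a' : I} : xi a = xi a' ↔ a = a' := by
  refine ⟨fun h => ?_, fun h => h ▸ rfl⟩
  have h1 : a.2.1 + 17 * a.1.1 = a'.2.1 + 17 * a'.1.1 := congrArg Fin.val h
  have := a.2.2; have := a'.2.2
  exact Prod.ext (Fin.ext (by omega)) (Fin.ext (by omega))

theorem yi_inj {a a' : I} : yi a = yi a' ↔ a = a' := by
  refine ⟨fun h => ?_, fun h => h ▸ rfl⟩
  have h1 : a.2.1 + 17 * a.1.1 + 289 = a'.2.1 + 17 * a'.1.1 + 289 := congrArg Fin.val h
  have := a.2.2; have := a'.2.2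
  exact Prod.ext (Fin.ext (by omega)) (Fin.ext (by omega))

theorem hsw_xi (a : I) : hsw (xi a) = yi a := by
  have := a.1.2; have := a.2.2
  have h : (xi a).1 < 289 := by change a.2.1 + 17 * a.1.1 < 289; omega
  rw [hsw, dif_pos h]
  rfl

theorem hsw_yi (a : I) : hsw (yi a) = xi a := by
  have h : ¬ (yi a).1 < 289 := by change ¬ a.2.1 + 17 * a.1.1 + 289 < 289; omega
  rw [hsw, dif_neg h]
  apply Fin.ext
  change a.2.1 + 17 * a.1.1 + 289 - 289 = a.2.1 + 17 * a.1.1
  omega

theorem cover (j : J) : ∃ a, j = xi a ∨ j = yi a := by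
  have hj := j.2
  by_cases h : j.1 < 289
  · refine ⟨(⟨j.1 / 17, by omega⟩, ⟨j.1 % 17, by omega⟩), Or.inl (Fin.ext ?_)⟩
    change j.1 = j.1 % 17 + 17 * (j.1 / 17)
    omega
  · refine ⟨(⟨(j.1 - 289) / 17, by omega⟩, ⟨(j.1 - 289) % 17, by omega⟩), Or.inr (Fin.ext ?_)⟩
    change j.1 = (j.1 - 289) % 17 + 17 * ((j.1 - 289) / 17) + 289
    omega

/-- The embedding `v ↦ (v, -v)`. -/
def EE : Matrix J I ℚ :=
  Matrix.of fun j a => (if j = xi a then 1 else 0) - (if j = yi a then 1 else 0)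

/-- The difference of the two halves. -/
def FF : Matrix I J ℚ :=
  Matrix.of fun a j => (if j = yi a then 1 else 0) - (if j = xi a then 1 else 0)

theorem FF_mulVec (u : J → ℚ) (a : I) : (FF *ᵥ u) a = u (yi a) - u (xi a) := by
  simp only [FF, mulVec, dotProduct, of_apply, sub_mul, ite_mul, one_mul, zero_mul,
    Finset.sum_sub_distrib, Finset.sum_ite_eq', Finset.mem_univ, if_true]

theorem EE_xi (v : I → ℚ) (a : I) : (EE *ᵥ v) (xi a) = v a := by
  simp only [EE, mulVec, dotProduct, of_apply, sub_mul, ite_mul, one_mul, zero_mul, xi_inj,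
    (xi_lt a _).ne, if_false, sub_zero, Finset.sum_ite_eq, Finset.mem_univ, if_true]

theorem EE_yi (v : I → ℚ) (a : I) : (EE *ᵥ v) (yi a) = -v a := by
  simp only [EE, mulVec, dotProduct, of_apply, sub_mul, ite_mul, one_mul, zero_mul, yi_inj,
    (xi_lt _ a).ne', if_false, zero_sub, neg_mul, Finset.sum_neg_distrib, Finset.sum_ite_eq,
    Finset.mem_univ, if_true]

theorem vecMul_FF (c : I → ℚ) (a : I) : (c ᵥ* FF) (yi a) = c a := by
  simp only [FF, vecMul, dotProduct, of_apply, mul_ite, mul_one, mul_zero, yi_inj,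
    (xi_lt _ a).ne', if_false, sub_zero, Finset.sum_ite_eq, Finset.mem_univ, if_true]

theorem FF_EE (v : I → ℚ) : FF *ᵥ (EE *ᵥ v) = (-2 : ℚ) • v := by
  funext a
  rw [FF_mulVec, EE_xi, EE_yi]
  simp only [Pi.smul_apply, smul_eq_mul]
  ring

/-- The matrix of a frame. -/
def NM (P : Matrix I I ℚ) : Matrix J J ℚ := 1 + EE * P * FF

theorem NM_mulVec (P : Matrix I I ℚ) (u : J → ℚ) :
    NM P *ᵥ u = u + EE *ᵥ (P *ᵥ (FF *ᵥ u)) := by
  rw [NM, add_mulVec, one_mulVec, mulVec_mulVec, mulVec_mulVec]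

theorem NM_NM (P D : Matrix I I ℚ) (u : J → ℚ) :
    NM P *ᵥ (NM D *ᵥ u) = NM (P + D - (2 : ℚ) • (P * D)) *ᵥ u := by
  rw [NM_mulVec, NM_mulVec, NM_mulVec, mulVec_add, FF_EE, mulVec_add, mulVec_smul, mulVec_mulVec _ P D,
    sub_mulVec, add_mulVec, smul_mulVec, mulVec_sub, mulVec_add, mulVec_add, mulVec_smul,
    mulVec_smul]
  module

theorem NM_zero (u : J → ℚ) : NM 0 *ᵥ u = u := by
  rw [NM_mulVec, zero_mulVec, mulVec_zero, add_zero]

theorem NM_one (u : J → ℚ) : NM 1 *ᵥ u = u ∘ hsw := by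
  rw [NM_mulVec, one_mulVec]
  funext j
  obtain ⟨a, rfl | rfl⟩ := cover j
  · rw [Pi.add_apply, EE_xi, FF_mulVec, Function.comp_apply, hsw_xi]; ring
  · rw [Pi.add_apply, EE_yi, FF_mulVec, Function.comp_apply, hsw_yi]; ring

theorem word_one {b c : I → ℚ} (h : c ⬝ᵥ b = 1) : Word 1 (fun u => NM (vecMulVec b c) *ᵥ u) := by
  obtain ⟨a, ha⟩ : ∃ a, c a * b a ≠ 0 := by
    by_contra hn
    push Not at hn
    rw [dotProduct, Finset.sum_eq_zero fun a _ => hn a] at h
    exact zero_ne_one h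
  refine (Word.rankOne (β := EE *ᵥ b) (γ := c ᵥ* FF) (xi_lt a a) ?_ ?_ ?_).congr le_rfl fun u => ?_
  · rw [EE_xi]; exact right_ne_zero_of_mul ha
  · rw [vecMul_FF]; exact left_ne_zero_of_mul ha
  · rw [← dotProduct_mulVec, FF_EE, dotProduct_smul, h]; simp
  · rw [NM_mulVec, vecMulVec_mulVec, op_smul_eq_smul, mulVec_smul, dotProduct_mulVec]

theorem word_idem (r : ℕ) : ∀ D : Matrix I I ℚ, D * D = D → trace D = r →
    Word r (fun u => NM D *ᵥ u) := by
  induction r with
  | zero =>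
    intro D h ht
    rw [idem_eq_zero h (by simpa using ht)]
    exact Word.id.congr le_rfl fun u => (NM_zero u).symm
  | succ r ih =>
    intro D h ht
    by_cases h0 : D = 0
    · rw [h0]
      exact Word.id.congr (Nat.zero_le _) fun u => (NM_zero u).symm
    · obtain ⟨b, c, D', h1, h2, h3, h4⟩ := idem_split h h0
      have ht' : trace D' = r := by
        rw [h4, trace_add, trace_vecMulVec, dotProduct_comm, h1] at ht
        push_cast at ht
        linarith
      refine ((ih D' h2 ht').comp (word_one h1)).congr le_rfl fun u => ?_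
      rw [NM_NM, h3, smul_zero, sub_zero, ← h4]

/-- Rational form of a move. -/
def MvQ (r : ℕ) (P P' : Matrix I I ℚ) : Prop :=
  ∃ f, Word r f ∧ ∀ u, NM P *ᵥ f u = NM P' *ᵥ u

theorem Step.mvQ {r : ℕ} {P P' : Matrix I I ℚ} (h : Step r P P') : MvQ r P P' := by
  obtain ⟨D, h1, h2, h3⟩ := h
  refine ⟨_, word_idem r D h1 h2, fun u => ?_⟩
  rw [NM_NM]
  rcases h3 with ⟨h3, h4⟩ | ⟨h3, h4⟩
  · rw [h3, h4, smul_zero, sub_zero]
  · rw [h3, h4]
    congr 2
    module

/-- The action of a frame on residues. -/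
noncomputable def nact (P : Matrix I I ℚ) (m : ℕ) (z : J → ZMod m) : J → ZMod m :=
  (NM P).map (red m) *ᵥ z

theorem ev_nact (P : Matrix I I ℚ) : ∀ᶠ N : ℕ in Filter.atTop, ∀ m, N.factorial ∣ m + 1 →
    RelF m (fun u => NM P *ᵥ u) (nact P m) := by
  filter_upwards [eventually_good (NM P)] with N hN m hm
  exact RelF.mulVec (hN m hm)

/-- Moves on residues. -/
def MvN (N r : ℕ) (P P' : Matrix I I ℚ) : Prop :=
  ∃ w : List Gen, (∀ g ∈ w, g.ok N) ∧ (w.map Gen.cost).sum ≤ r ∧
    ∀ m, N.factorial ∣ m + 1 → ∀ z, nact P m (w.foldr (Gen.act m) z) = nact P' m z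

theorem ev_mv (P P' : Matrix I I ℚ) :
    ∀ᶠ N : ℕ in Filter.atTop, ∀ r, MvQ r P P' → MvN N r P P' := by
  classical
  by_cases h : ∃ r, MvQ r P P'
  · obtain ⟨f, ⟨N0, w, h1, h2, h3⟩, h4⟩ := Nat.find_spec h
    filter_upwards [ev_nact P, ev_nact P', Filter.eventually_ge_atTop N0] with N e1 e2 hN r hr
    have hw : ∀ g ∈ w, g.ok N := fun g hg => ok_mono (h1 g hg) hN
    refine ⟨w, hw, h2.trans (Nat.find_min' h hr), fun m hm z => ?_⟩
    exact ((e1 m hm).comp (relF_word hm hw)).eq (e2 m hm) (fun u => by rw [h3, h4]) z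
  · exact Filter.Eventually.of_forall fun N r hr => absurd ⟨r, hr⟩ h

/-- Indicator vector of a triple. -/
def bS (S : Tr) : H17 → ℚ := fun i => if i ∈ S.1 then 1 else 0

/-- Dual vector of a triple. -/
def cS (S : Tr) : H17 → ℚ := fun i => ((if i ∈ S.1 then 1 else 0) - 1 / 3) / 2

theorem cS_bS (S T : Tr) : cS S ⬝ᵥ bS T = (((S.1 ∩ T.1).card : ℚ) - 1) / 2 := by
  simp only [cS, bS, dotProduct, mul_ite, mul_one, mul_zero]
  rw [Finset.sum_ite_mem, Finset.univ_inter, ← Finset.sum_div, Finset.sum_sub_distrib,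
    Finset.sum_ite_mem, Finset.sum_const, Finset.sum_const, T.2, Finset.inter_comm]
  simp

/-- The rank one idempotent of a triple. -/
def LS (S : Tr) : Matrix H17 H17 ℚ := vecMulVec (bS S) (cS S)

theorem cS_bS_self (S : Tr) : cS S ⬝ᵥ bS S = 1 := by
  rw [cS_bS, Finset.inter_self, S.2]; norm_num

theorem LS_LS (S : Tr) : LS S * LS S = LS S := by
  rw [LS, vecMulVec_mul_vecMulVec, cS_bS_self, one_smul]

theorem LS_orth {S T : Tr} (h : orth1 S T) : LS S * LS T = 0 := by
  unfold orth1 at h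
  rw [LS, LS, vecMulVec_mul_vecMulVec, cS_bS, h]
  simp

theorem orth_symm {S T : Tr} (h : orth1 S T) : orth1 T S := by
  unfold orth1 at h ⊢
  rwa [Finset.inter_comm]

theorem trace_LS (S : Tr) : trace (LS S) = 1 := by
  rw [LS, trace_vecMulVec, dotProduct_comm, cS_bS_self]

theorem trace_one17 : trace (1 : Matrix H17 H17 ℚ) = 17 := by simp

theorem trace_cL (S : Tr) : trace (1 - LS S) = 16 := by
  rw [trace_sub, trace_one17, trace_LS]; norm_num

theorem cL_cL (S : Tr) : (1 - LS S) * (1 - LS S) = 1 - LS S := by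
  rw [sub_mul, mul_sub, mul_sub, LS_LS]; simp

theorem L_cL (S : Tr) : LS S * (1 - LS S) = 0 := by rw [mul_sub, LS_LS]; simp

theorem cL_L (S : Tr) : (1 - LS S) * LS S = 0 := by rw [sub_mul, LS_LS]; simp

/-- The matrices of the names. -/
def lh : LH → Matrix H17 H17 ℚ
  | .zero => 0
  | .one => 1
  | .L S => LS S
  | .cL S => 1 - LS S

theorem step_E {S T : Tr} (h : orth1 S T) : Step 15 (LS T) (1 - LS S) := by
  have h1 := LS_orth h
  have h2 := LS_orth (orth_symm h)
  refine ⟨1 - LS S - LS T, ?_, ?_, Or.inl ⟨?_, by abel⟩⟩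
  · simp only [sub_mul, mul_sub, LS_LS, h1, h2, one_mul, mul_one]
    abel
  · rw [trace_sub, trace_cL, trace_LS]; norm_num
  · simp only [mul_sub, LS_LS, h2, mul_one]
    abel

theorem step0 {r : ℕ} {a b : LH} (h : Mv0 orth1 r a b) : Step r (lh a) (lh b) := by
  cases h with
  | A T => exact ⟨LS T, LS_LS T, by simp [trace_LS], Or.inl ⟨by simp [lh], by simp [lh]⟩⟩
  | B S => exact ⟨1 - LS S, cL_cL S, trace_cL S, Or.inl ⟨L_cL S, by simp [lh]⟩⟩
  | C => exact ⟨1, by simp, by simp, Or.inr ⟨by simp [lh], by simp [lh]⟩⟩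
  | C' => exact ⟨1, by simp, by simp, Or.inl ⟨by simp [lh], by simp [lh]⟩⟩
  | D S => exact ⟨1 - LS S, cL_cL S, trace_cL S, Or.inl ⟨by simp [lh], by simp [lh]⟩⟩
  | E S T h => exact step_E h
  | E' S T h => exact step_E (orth_symm h)
  | F S => exact ⟨LS S, LS_LS S, by simp [trace_LS], Or.inl ⟨cL_L S, by simp [lh]⟩⟩

theorem sub_kron (A B C : Matrix H17 H17 ℚ) : (A - B) ⊗ₖ C = A ⊗ₖ C - B ⊗ₖ C := by
  ext ⟨i, j⟩ ⟨k, l⟩
  simp [sub_mul]

theorem kron_sub (A B C : Matrix H17 H17 ℚ) : A ⊗ₖ (B - C) = A ⊗ₖ B - A ⊗ₖ C := by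
  ext ⟨i, j⟩ ⟨k, l⟩
  simp [mul_sub]

/-- The labels. -/
def Lam : Labels (Matrix I I ℚ) where
  lab1 := fun g n => lh n ⊗ₖ LS g
  lab2 := fun g n => (1 - LS g) ⊗ₖ (1 : Matrix H17 H17 ℚ) + LS g ⊗ₖ lh n
  l0 := 0
  l1 := 1
  lX := fun a => LS a.1 ⊗ₖ LS a.2
  lX' := fun a => 1 - LS a.1 ⊗ₖ LS a.2

theorem lX_idem (a : Tr × Tr) : Lam.lX a * Lam.lX a = Lam.lX a := by
  change LS a.1 ⊗ₖ LS a.2 * LS a.1 ⊗ₖ LS a.2 = LS a.1 ⊗ₖ LS a.2
  rw [← mul_kronecker_mul, LS_LS, LS_LS]

theorem moves_step : Moves Step orth1 Lam where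
  st1 := by
    intro g r a b h
    obtain ⟨d, h1, h2, h3⟩ := step0 h
    refine ⟨d ⊗ₖ LS g, by rw [← mul_kronecker_mul, h1, LS_LS],
      by rw [trace_kronecker, h2, trace_LS, mul_one], ?_⟩
    simp only [Lam, ← mul_kronecker_mul, LS_LS]
    rcases h3 with ⟨h3, h4⟩ | ⟨h3, h4⟩
    · exact Or.inl ⟨by rw [h3, zero_kronecker], by rw [h4, add_kronecker]⟩
    · exact Or.inr ⟨by rw [h3], by rw [h4, add_kronecker]⟩
  st2 := by
    intro g r a b h
    obtain ⟨d, h1, h2, h3⟩ := step0 h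
    refine ⟨LS g ⊗ₖ d, by rw [← mul_kronecker_mul, h1, LS_LS],
      by rw [trace_kronecker, h2, trace_LS, one_mul], ?_⟩
    simp only [Lam, add_mul, ← mul_kronecker_mul, LS_LS, cL_L, zero_kronecker, zero_add]
    rcases h3 with ⟨h3, h4⟩ | ⟨h3, h4⟩
    · exact Or.inl ⟨by rw [h3, kronecker_zero], by rw [h4, kronecker_add, add_assoc]⟩
    · exact Or.inr ⟨by rw [h3], by rw [h4, kronecker_add, add_assoc]⟩
  mX := by
    intro S T
    refine ⟨(1 - LS S) ⊗ₖ (1 - LS T), by rw [← mul_kronecker_mul, cL_cL, cL_cL],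
      by rw [trace_kronecker, trace_cL, trace_cL]; norm_num, Or.inl ⟨?_, ?_⟩⟩
    · simp only [Lam, lh, ← mul_kronecker_mul, L_cL, kronecker_zero]
    · simp only [Lam, lh, sub_kron, kron_sub]
      abel
  mY := by
    intro S T
    refine ⟨(1 - LS S) ⊗ₖ (1 - LS T), by rw [← mul_kronecker_mul, cL_cL, cL_cL],
      by rw [trace_kronecker, trace_cL, trace_cL]; norm_num, Or.inl ⟨?_, ?_⟩⟩
    · simp only [Lam, lh, ← mul_kronecker_mul, L_cL, kronecker_zero]
    · simp only [Lam, lh, sub_kron, kron_sub, kronecker_zero]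
      abel
  mZ := by
    intro g
    refine ⟨(1 : Matrix H17 H17 ℚ) ⊗ₖ (1 - LS g), by rw [← mul_kronecker_mul, cL_cL, one_mul],
      by rw [trace_kronecker, trace_cL, trace_one17]; norm_num, Or.inl ⟨?_, ?_⟩⟩
    · simp only [Lam, lh, ← mul_kronecker_mul, L_cL, kronecker_zero]
    · simp only [Lam, lh, kron_sub, one_kronecker_one]
      abel
  mZ' := by
    intro g
    refine ⟨(1 - LS g) ⊗ₖ (1 : Matrix H17 H17 ℚ), by rw [← mul_kronecker_mul, cL_cL, one_mul],
      by rw [trace_kronecker, trace_cL, trace_one17]; norm_num, Or.inl ⟨?_, ?_⟩⟩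
    · simp only [Lam, zero_mul]
    · simp only [Lam, lh, kronecker_zero, zero_add, add_zero]
  mL := by
    intro a
    refine ⟨LS a.1 ⊗ₖ LS a.2, lX_idem a,
      by rw [trace_kronecker, trace_LS, trace_LS]; norm_num, Or.inr ⟨?_, ?_⟩⟩
    · simp only [Lam, one_mul]
    · simp only [Lam, sub_add_cancel]
  full := by
    refine ⟨1, one_mul _, by rw [trace_one, Fintype.card_prod, Fintype.card_fin], Or.inl ⟨?_, ?_⟩⟩
    · simp only [Lam, zero_mul]
    · simp only [Lam, zero_add]
  e1 := fun _ _ => rfl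
  e2 := fun g => by simp only [Lam, lh, zero_kronecker]
  e3 := fun g => by
    simp only [Lam, lh, sub_kron, one_kronecker_one]
    abel
  e4 := fun g S => by
    simp only [Lam, lh, sub_kron, kron_sub, one_kronecker_one]
    abel

theorem finite_LH : Finite LH := by
  refine Finite.of_surjective (fun x : Bool ⊕ Tr ⊕ Tr => match x with
    | .inl false => LH.zero
    | .inl true => LH.one
    | .inr (.inl S) => LH.L S
    | .inr (.inr S) => LH.cL S) ?_
  rintro (_ | _ | S | S)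
  · exact ⟨.inl false, rfl⟩
  · exact ⟨.inl true, rfl⟩
  · exact ⟨.inr (.inl S), rfl⟩
  · exact ⟨.inr (.inr S), rfl⟩

/-- The finite set of labels in use. -/
def Used : Set (Matrix I I ℚ) :=
  {0, 1} ∪ (Set.range (fun p : Tr × LH => Lam.lab1 p.1 p.2) ∪
    Set.range (fun p : Tr × LH => Lam.lab2 p.1 p.2))

theorem used_finite : Used.Finite := by
  have := finite_LH
  exact (Set.toFinite _).union ((Set.finite_range _).union (Set.finite_range _))

theorem used0 : Lam.l0 ∈ Used := Or.inl (Or.inl rfl)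
theorem used1 : Lam.l1 ∈ Used := Or.inl (Or.inr rfl)
theorem used_1 (g : Tr) (a : LH) : Lam.lab1 g a ∈ Used := Or.inr (Or.inl ⟨(g, a), rfl⟩)
theorem used_2 (g : Tr) (a : LH) : Lam.lab2 g a ∈ Used := Or.inr (Or.inr ⟨(g, a), rfl⟩)
theorem used_X (a : Tr × Tr) : Lam.lX a ∈ Used := used_1 a.2 (.L a.1)
theorem used_X' (a : Tr × Tr) : Lam.lX' a ∈ Used := moves_step.e4 a.1 a.2 ▸ used_2 a.1 (.cL a.2)

end Lab1Aux

open Lab1Aux Matrix in
theorem lab1_exists : ∃ (N : ℕ) (Lab : Type)
    (nact : Lab → ∀ m : ℕ, (J → ZMod m) → (J → ZMod m)) (Λ : Labels Lab),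
    Moves (fun r P P' => ∃ w : List Gen, (∀ g ∈ w, g.ok N) ∧ (w.map Gen.cost).sum ≤ r ∧
      ∀ m, N.factorial ∣ m + 1 → ∀ z, nact P m (w.foldr (Gen.act m) z) = nact P' m z) orth1 Λ ∧
    ∀ m, N.factorial ∣ m + 1 → (∀ z, nact Λ.l0 m z = z) ∧ (∀ z, nact Λ.l1 m z = z ∘ hsw) ∧
      ∀ a z, nact (Λ.lX a) m (nact (Λ.lX a) m z) = z ∧
        nact (Λ.lX' a) m z = nact (Λ.lX a) m (z ∘ hsw) := by
  have e1 : ∀ᶠ N : ℕ in Filter.atTop, ∀ P ∈ Used, ∀ P' ∈ Used, ∀ r, MvQ r P P' → MvN N r P P' :=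
    (Filter.eventually_all_finite used_finite).2 fun P _ =>
      (Filter.eventually_all_finite used_finite).2 fun P' _ => ev_mv P P'
  have e2 : ∀ᶠ N : ℕ in Filter.atTop, ∀ P ∈ Used, ∀ m, N.factorial ∣ m + 1 →
      RelF m (fun u => NM P *ᵥ u) (nact P m) :=
    (Filter.eventually_all_finite used_finite).2 fun P _ => ev_nact P
  obtain ⟨N, h1, h2⟩ := (e1.and e2).exists
  have hs := moves_step
  refine ⟨N, Matrix I I ℚ, nact, Lam, ?_, fun m hm => ⟨fun z => ?_, fun z => ?_, fun a z =>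
    ⟨?_, ?_⟩⟩⟩
  · exact ⟨fun g r a b h => h1 _ (used_1 g a) _ (used_1 g b) r (hs.st1 g r a b h).mvQ,
      fun g r a b h => h1 _ (used_2 g a) _ (used_2 g b) r (hs.st2 g r a b h).mvQ,
      fun S T => h1 _ (used_1 _ _) _ (used_2 _ _) _ (hs.mX S T).mvQ,
      fun S T => h1 _ (used_1 _ _) _ (used_2 _ _) _ (hs.mY S T).mvQ,
      fun g => h1 _ (used_1 _ _) _ used1 _ (hs.mZ g).mvQ,
      fun g => h1 _ used0 _ (used_2 _ _) _ (hs.mZ' g).mvQ,
      fun a => h1 _ used1 _ (used_X' a) _ (hs.mL a).mvQ,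
      h1 _ used0 _ used1 _ hs.full.mvQ, hs.e1, hs.e2, hs.e3, hs.e4⟩
  · exact (h2 _ used0 m hm).eq RelF.id NM_zero z
  · exact (h2 _ used1 m hm).eq (RelF.perm hsw) NM_one z
  · refine ((h2 _ (used_X a) m hm).comp (h2 _ (used_X a) m hm)).eq RelF.id (fun u => ?_) z
    rw [NM_NM, lX_idem, two_smul, sub_self, NM_zero]
  · refine (h2 _ (used_X' a) m hm).eq ((h2 _ (used_X a) m hm).comp (RelF.perm hsw)) (fun u => ?_) z
    rw [← NM_one, NM_NM, mul_one, two_smul]
    congr 2
    change 1 - Lam.lX a = _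
    abel

end Vale.Agent.P338
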