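import Vale.Agent.P338.Defs

/-! Structured programs over six stacks of tokens, with recursion and a step count. -/

namespace Vale.Agent.P338

open Function

/-- Tokens. -/
inductive Tk : Type
  | bit : Bool → Tk
  | sep : Tk
  | op : Tk
  | cl : Tk
  deriving DecidableEq

/-- Stack names: input, output, main, and three auxiliary stacks. -/
inductive K : Type
  | i | o | m | x | y | z
  deriving DecidableEq

/-- Programs. `call` runs the innermost enclosing `fix`. -/
inductive Prog : Type
  | push : K → Tk → Prog
  | pop : K → Prog
  | seq : Prog → Prog → Prog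
  | ite : K → Tk → Prog → Prog → Prog
  | loop : K → Tk → Prog → Prog
  | call : Prog
  | fix : Prog → Prog

/-- States: the top of a stack is the head of its list. -/
abbrev St : Type := K → List Tk

/-- Big-step semantics with an upper bound on the number of steps; the first argument is the
body of the innermost recursion. -/
inductive Run : Prog → Prog → St → St → ℕ → Prop
  | push (b : Prog) (k : K) (a : Tk) (s : St) : Run b (.push k a) s (update s k (a :: s k)) 1
  | pop (b : Prog) (k : K) (s : St) : Run b (.pop k) s (update s k (s k).tail) 1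
  | seq {b p q : Prog} {s s' s'' : St} {t t' : ℕ} : Run b p s s' t → Run b q s' s'' t' →
      Run b (.seq p q) s s'' (t + t')
  | iteT {b p q : Prog} {k : K} {a : Tk} {s s' : St} {t : ℕ} : (s k).head? = some a →
      Run b p s s' t → Run b (.ite k a p q) s s' (t + 1)
  | iteF {b p q : Prog} {k : K} {a : Tk} {s s' : St} {t : ℕ} : (s k).head? ≠ some a →
      Run b q s s' t → Run b (.ite k a p q) s s' (t + 1)
  | loopF {b p : Prog} {k : K} {a : Tk} {s : St} : (s k).head? ≠ some a →
      Run b (.loop k a p) s s 1
  | loopT {b p : Prog} {k : K} {a : Tk} {s s' s'' : St} {t t' : ℕ} : (s k).head? = some a →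
      Run b p s s' t → Run b (.loop k a p) s' s'' t' → Run b (.loop k a p) s s'' (t + t' + 1)
  | call {b : Prog} {s s' : St} {t : ℕ} : Run b b s s' t → Run b .call s s' (t + 1)
  | fix {b p : Prog} {s s' : St} {t : ℕ} : Run p p s s' t → Run b (.fix p) s s' (t + 1)
  | weaken {b p : Prog} {s s' : St} {t t' : ℕ} : Run b p s s' t → t ≤ t' → Run b p s s' t'

theorem Run.congr {b p : Prog} {s s' s'' : St} {t t' : ℕ} (h : Run b p s s' t) (e : s' = s'')
    (ht : t ≤ t') : Run b p s s'' t' := e ▸ h.weaken ht

theorem Run.len_le {b p : Prog} {s s' : St} {t : ℕ} (h : Run b p s s' t) (k : K) :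
    (s' k).length ≤ (s k).length + t := by
  induction h with
  | push b k' a s =>
    by_cases e : k = k'
    · subst e; simp
    · simp [update_of_ne e]
  | pop b k' s =>
    by_cases e : k = k'
    · subst e; simp; omega
    · simp [update_of_ne e]
  | _ => omega

/-- States given by their six stacks. -/
def st (i o m x y z : List Tk) : St
  | .i => i
  | .o => o
  | .m => m
  | .x => x
  | .y => y
  | .z => z

section
variable (i o m x y z l : List Tk)
@[simp] theorem st_i : st i o m x y z .i = i := rfl
@[simp] theorem st_o : st i o m x y z .o = o := rfl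
@[simp] theorem st_m : st i o m x y z .m = m := rfl
@[simp] theorem st_x : st i o m x y z .x = x := rfl
@[simp] theorem st_y : st i o m x y z .y = y := rfl
@[simp] theorem st_z : st i o m x y z .z = z := rfl
@[simp] theorem up_i : update (st i o m x y z) .i l = st l o m x y z := by
  funext k; cases k <;> simp
@[simp] theorem up_o : update (st i o m x y z) .o l = st i l m x y z := by
  funext k; cases k <;> simp
@[simp] theorem up_m : update (st i o m x y z) .m l = st i o l x y z := by
  funext k; cases k <;> simp
@[simp] theorem up_x : update (st i o m x y z) .x l = st i o m l y z := by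
  funext k; cases k <;> simp
@[simp] theorem up_y : update (st i o m x y z) .y l = st i o m x l z := by
  funext k; cases k <;> simp
@[simp] theorem up_z : update (st i o m x y z) .z l = st i o m x y l := by
  funext k; cases k <;> simp
end

/-- `p` replaces the word `w` on top of the main stack by `w'` within `t` steps, and leaves
everything else unchanged. -/
def Cmp (b p : Prog) (w w' : List Tk) (t : ℕ) : Prop :=
  ∀ i o m x y z, Run b p (st i o (w ++ m) x y z) (st i o (w' ++ m) x y z) t

theorem Cmp.weaken {b p : Prog} {w w' : List Tk} {t t' : ℕ} (h : Cmp b p w w' t) (ht : t ≤ t') :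
    Cmp b p w w' t' := fun i o m x y z => (h i o m x y z).weaken ht

theorem Cmp.seq {b p q : Prog} {w w' w'' : List Tk} {t t' : ℕ} (h : Cmp b p w w' t)
    (h' : Cmp b q w' w'' t') : Cmp b (.seq p q) w w'' (t + t') :=
  fun i o m x y z => (h i o m x y z).seq (h' i o m x y z)

theorem Cmp.frame {b p : Prog} {w w' : List Tk} {t : ℕ} (h : Cmp b p w w' t) (u : List Tk) :
    Cmp b p (w ++ u) (w' ++ u) t := fun i o m x y z => by
  simpa only [List.append_assoc] using h i o (u ++ m) x y z

theorem Cmp.len_le {b p : Prog} {w w' : List Tk} {t : ℕ} (h : Cmp b p w w' t) :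
    w'.length ≤ w.length + t := by
  simpa using (h [] [] [] [] [] []).len_le .m

/-- The tape symbol of a token. -/
def Tk.sym {Λ : Type} : Tk → Sym (Bool ⊕ Λ)
  | .bit b => .bit b
  | .sep => .sep
  | .op => .work (.inl true)
  | .cl => .work (.inl false)

end Vale.Agent.P338
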