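import Vale.Agent.P338.CfOps
import Vale.Agent.P338.Apx
import Vale.Agent.P338.Circ

/-! The tables of the diagonal layers. -/

namespace Vale.Agent.P338

open Finset

section
variable {ι : Type} [Enc ι] {𝒯 : Cls ι} [Dom 𝒯] [Mulc 𝒯] {a q t d α : ι → ℕ} {x : ι → ℤ}

theorem tb_rev (ha : Tm 𝒯 a) (hm : 𝒯.mem a) (ht : Tm 𝒯 t) :
    Tm 𝒯 (fun i => rev (a i) (t i)) := by
  unfold rev
  refine Tm.sumRange (u := fun i j => if (t i).testBit j then 2 ^ (a i - 1 - j) else 0) ha hm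
    fun D => ?_
  have h1 := ha.lift (fun i (k : ℕ) => k < a i)
  have h2 := ht.lift (fun i (k : ℕ) => k < a i)
  have h3 : Tm (𝒯.ext fun i (k : ℕ) => k < a i) (fun p => 2 ^ (a p.2 - 1 - p.1)) :=
    Tm.pow2 ((h1.sub (Tm.const 1)).sub Tm.id.fst) (Cls.ext_of_le hm fun b i _ _ => by
      dsimp only; omega)
  exact Tm.ite (h2.testBit Tm.id.fst).isTrue h3 (Tm.const 0)

theorem tb_chirp (hq : Tm 𝒯 q) (h0 : ∀ i, 𝒯.dom i → 0 < q i) (hx : Tm 𝒯 x) :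
    Apx 𝒯 (fun i => chirp (q i) (x i)) :=
  (Apx.rt ((hq.add (Tm.const 1)).half.natCast.zmul (hx.zmul hx)) hq h0).congr fun i _ => by
    rw [chirp, sq]

theorem tb_chirpI (hq : Tm 𝒯 q) (h0 : ∀ i, 𝒯.dom i → 0 < q i) (hx : Tm 𝒯 x) :
    Apx 𝒯 (fun i => chirpI (q i) (x i)) :=
  (Apx.rt ((hq.add (Tm.const 1)).half.natCast.zmul (hx.zmul hx)).zneg hq h0).congr fun i _ => by
    rw [chirpI, sq]

theorem tb_inv (hq : Tm 𝒯 q) (h0 : ∀ i, 𝒯.dom i → 0 < q i) :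
    Apx 𝒯 (fun i => ((q i : ℕ) : ℂ)⁻¹) :=
  (Apx.ofNat hq).inv fun i hi => by
    rw [Complex.norm_natCast]
    exact_mod_cast h0 i hi

theorem tb_kern (hq : Tm 𝒯 q) (h0 : ∀ i, 𝒯.dom i → 0 < q i) (hd : Tm 𝒯 d) (hx : Tm 𝒯 x) :
    Apx 𝒯 (fun i => kern (q i) (d i) (x i)) :=
  (Apx.ite (hd.eq (Tm.const 1)) (tb_chirp hq h0 hx)
    ((tb_chirpI hq h0 hx).neg.mul (tb_inv hq h0))).congr fun i _ => by
    rw [kern, div_eq_mul_inv]

theorem tb_rat (n : ℤ) (m : ℕ) {z : ℂ} (h : (n : ℂ) / ((m : ℂ) + 1) = z) :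
    Apx 𝒯 (fun _ => z) :=
  Apx.const (n, 0, m) (by rw [← h, GQ.val]; simp)

theorem tb_one : Apx 𝒯 (fun _ => (1 : ℂ)) := tb_rat 1 0 (by simp)

theorem tb_eig (ha : Tm 𝒯 a) (hm : 𝒯.mem a) (hq : Tm 𝒯 q) (hqm : 𝒯.mem q)
    (h0 : ∀ i, 𝒯.dom i → 0 < q i) (hd : Tm 𝒯 d) (hα : Tm 𝒯 α) (ht : Tm 𝒯 t) :
    Apx 𝒯 (fun i => eig (a i) (q i) (d i) (α i) (t i)) := by
  have h1 : Apx 𝒯 (fun i => ∑ n ∈ range (2 * q i - 1),
      kern (q i) (d i) ((n : ℤ) - (q i - 1 : ℕ)) *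
        rt (t i * ((n : ℤ) - (q i - 1 : ℕ))) (2 ^ a i)) := by
    refine Apx.sum (u := fun i n => kern (q i) (d i) ((n : ℤ) - (q i - 1 : ℕ)) *
      rt (t i * ((n : ℤ) - (q i - 1 : ℕ))) (2 ^ a i)) (hq.dbl.sub (Tm.const 1))
      (Cls.lin hqm 2 0 fun i _ => by omega) fun D => ?_
    have k1 := hq.lift (fun i (k : ℕ) => k < 2 * q i - 1)
    have k2 := hd.lift (fun i (k : ℕ) => k < 2 * q i - 1)
    have k3 := ht.lift (fun i (k : ℕ) => k < 2 * q i - 1)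
    have k4 := (ha.pow2 hm).lift (fun i (k : ℕ) => k < 2 * q i - 1)
    have k5 := Tm.zdiff (Tm.id.fst) (k1.sub (Tm.const 1))
    exact (tb_kern k1 (fun p hp => h0 p.2 hp.1) k2 k5).mul
      (Apx.rt (k3.natCast.zmul k5) k4 fun p _ => Nat.two_pow_pos _)
  have h2 : Apx 𝒯 (fun i => (2 * q i + 2 : ℂ)) :=
    (Apx.ofNat (hq.dbl.add (Tm.const 2))).congr fun i _ => by push_cast; ring
  exact ((h1.add (Apx.ite (hα.eq (Tm.const 0)) h2 h2.neg)).mul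
    (tb_rat 1 1 (z := (2 : ℂ)⁻¹) (by norm_num))).congr fun i _ => by rw [eig, div_eq_mul_inv]

theorem tb_dval {fl : ι → Bool} {k : ι → Code} (ha : Tm 𝒯 a) (hL : 𝒯.mem fun i => 2 ^ a i)
    (hq : Tm 𝒯 q) (h0 : ∀ i, 𝒯.dom i → 0 < q i) (h4 : ∀ i, 𝒯.dom i → 4 * q i ≤ 2 ^ a i)
    (hfl : Tm 𝒯 fl) (hk : Tm 𝒯 k) (ht : Tm 𝒯 t) (htl : ∀ i, 𝒯.dom i → t i < 2 ^ (a i + 1)) :
    Apx 𝒯 (fun i => dval (a i) (q i) (fl i) (k i) (t i)) := by
  have hm : 𝒯.mem a := 𝒯.mono hL fun i _ => Nat.lt_two_pow_self.le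
  have hqm : 𝒯.mem q := 𝒯.mono hL fun i hi => by have := h4 i hi; omega
  have k1 := hk.fst
  have k2 := hk.snd.fst
  have k3 := hk.snd.snd
  have hb := (ht.testBit k2).isTrue
  have hhi := ht.shr ha
  have hlo := ht.low ha
  have hres := (hlo.mod hq).natCast
  have hsq : Apx 𝒯 (fun i => rt (((t i % 2 ^ a i % q i : ℕ) : ℤ) ^ 2) (q i)) :=
    (Apx.rt (hres.zmul hres) hq h0).congr fun i _ => by rw [sq]
  have he := tb_eig ha hm hq hqm h0 k2 k3 (tb_rev ha hm hlo)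
  have hns : Tm 𝒯 (fun i => nseg (a i) (q i) * q i) :=
    (((ha.pow2 hm).div hq).sub (Tm.const 1)).half.dbl.mul hq
  unfold dval
  refine Apx.ite (k1.eq (Tm.const 1)) ?_ (Apx.ite (k1.eq (Tm.const 2)) ?_
    (Apx.ite (k1.eq (Tm.const 3)) ?_ (Apx.ite (k1.eq (Tm.const 4)) ?_
    (Apx.ite (k1.eq (Tm.const 5)) ?_ (Apx.ite (k1.eq (Tm.const 6)) ?_
    (Apx.ite (k2.eq (Tm.const 0)) ?_ (Apx.ite (k2.eq (Tm.const 1)) ?_ ?_)))))))
  · refine (Apx.ite hb (Apx.const (0, 1, 0) (by simp [GQ.val])) tb_one).mul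
      (Apx.ite (k3.eq (Tm.const 0)) tb_one (Apx.ite (k3.eq (Tm.const 1))
        (Apx.const (1, -1, 1) ?_) (Apx.const (1, -1, 3) ?_)))
    · rw [GQ.val]; push_cast; ring
    · rw [GQ.val]; push_cast; ring
  · refine Apx.iteR hb ?_ tb_one
    have j1 := (ht.low k2).natCast
    refine Apx.rt ((Tm.ite (k3.eq (Tm.const 0)) j1 j1.zneg).res _)
      (Tm.pow2 ((k2.add (Tm.const 1)).res _) ?_) fun _ _ => Nat.two_pow_pos _
    refine Cls.lin (Cls.res_mem hm) 1 1 fun i hi => ?_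
    have e1 := htl i hi.1
    have e2 := Nat.ge_two_pow_of_testBit hi.2
    have e3 := (Nat.pow_lt_pow_iff_right (a := 2) (by omega)).1 (lt_of_le_of_lt e2 e1)
    omega
  · exact Apx.ite (hhi.eq (Tm.const 0))
      (Apx.ite (k2.eq (Tm.const 3)) (tb_rat 1 7 (by norm_num)) tb_one)
      (Apx.ite (k2.eq (Tm.const 0)) (tb_rat (-5) 2 (by norm_num))
        (Apx.ite (k2.eq (Tm.const 1)) (tb_rat (-2) 0 (by norm_num))
          (Apx.ite (k2.eq (Tm.const 2)) (tb_rat 3 0 (by norm_num))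
            (tb_rat (-1) 9 (by norm_num)))))
  · exact Apx.ite (hlo.lt hns)
      (Apx.ite ((k2.eq (Tm.const 1)).and ((hlo.div hq).par.eq (Tm.const 1)))
        (tb_rat (-1) 0 (by norm_num)) tb_one) (tb_rat 0 0 (by norm_num))
  · exact Apx.ite (hhi.eq k2) he tb_one
  · exact Apx.ite (hhi.eq k2) (he.inv fun i hi => (norm_eig (h0 i hi) _ _ _).1) tb_one
  · exact Apx.ite (hhi.eq (Tm.const 0)) tb_one hsq
  · exact tb_chirp hq h0 hres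
  · have j1 : Apx 𝒯 (fun i => ∑ r ∈ range (q i), chirpI (q i) r) :=
      Apx.sum (u := fun i r => chirpI (q i) r) hq hqm fun D =>
        tb_chirpI (hq.lift _) (fun p hp => h0 p.2 hp.1) Tm.id.fst.natCast
    have j2 : Apx 𝒯 (fun i => 1 / ((q i : ℕ) : ℂ)) :=
      (tb_inv hq h0).congr fun i _ => one_div _
    exact (j1.neg.mul (Apx.ite hfl.isTrue j2 tb_one)).mul
      (Apx.ite (hhi.eq (Tm.const 0)) hsq tb_one)

theorem tb_prod {c : ι → Cf} (hc : CfT 𝒯 c) {y r : ι → ℕ} {fl : ι → Bool} {k : ι → Code}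
    (hy : Tm 𝒯 y) (hr : Tm 𝒯 r) (hfl : Tm 𝒯 fl) (hk : Tm 𝒯 k) :
    Apx 𝒯 (fun i => ∏ f ∈ range (c i).m, dval (c i).a ((c i).q (r i * (c i).m + f)) (fl i) (k i)
      (y i / 2 ^ ((c i).F * f) % 2 ^ ((c i).a + 1))) := by
  refine Apx.prod (u := fun i f => dval (c i).a ((c i).q (r i * (c i).m + f)) (fl i) (k i)
      (y i / 2 ^ ((c i).F * f) % 2 ^ ((c i).a + 1))) hc.m hc.mem_m fun D => ?_
  have h2 := hc.ext (fun i (f : ℕ) => f < (c i).m)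
  exact tb_dval (a := fun p : ℕ × ι => (c p.2).a)
    (q := fun p => (c p.2).q (r p.2 * (c p.2).m + p.1))
    (t := fun p => y p.2 / 2 ^ ((c p.2).F * p.1) % 2 ^ ((c p.2).a + 1))
    (fl := fun p => fl p.2) (k := fun p => k p.2) h2.tm.cf_a h2.mem_L
    (h2.tm.cf_q (((hr.lift _).mul h2.m).add Tm.id.fst))
    (fun p hp => (h2.ok p hp).q_pos _) (fun p hp => (h2.ok p hp).q4 _) (hfl.lift _) (hk.lift _)
    (((hy.lift _).shr (h2.tm.cf_F.mul Tm.id.fst)).low (h2.tm.cf_a.add (Tm.const 1)))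
    (fun p _ => Nat.mod_lt _ (Nat.two_pow_pos _))

end

/-- Fixed point values of the diagonal of layer `θ.2.2` in round `θ.1`, as a function of the
digit that holds the fields. -/
theorem exists_table : ∃ D : ℕ × Cf × (ℕ × Bool × Code) → ℤ × ℤ, Tm (cp (ℕ × Bool × Code)) D ∧
    ∀ (y : ℕ) (c : Cf) (r : ℕ) (fl : Bool) (k : Code),
      (cp (ℕ × Bool × Code)).dom (y, c, r, fl, k) →
      ‖(((D (y, c, r, fl, k)).1 : ℂ) + ((D (y, c, r, fl, k)).2 : ℂ) * Complex.I) - 2 ^ c.w *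
        ∏ f ∈ range c.m, dval c.a (c.q (r * c.m + f)) fl k (y / 2 ^ (c.F * f) % 2 ^ (c.a + 1))‖
        ≤ 3 := by
  have hc : CfT (cp (ℕ × Bool × Code)) (fun p => p.2.1) := cp_cfT
  have h1 := tb_prod hc (y := fun p => p.1) (r := fun p => p.2.2.1) (fl := fun p => p.2.2.2.1)
    (k := fun p => p.2.2.2.2) Tm.id.fst Tm.id.snd.snd.fst Tm.id.snd.snd.snd.fst
    Tm.id.snd.snd.snd.snd
  obtain ⟨D, hD, hD'⟩ := h1.round hc.tm.cf_w hc.mem_w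
  exact ⟨D, hD, fun y c r fl k h => hD' (y, c, r, fl, k) h⟩

section
variable {ι : Type} [Enc ι] {𝒯 : Cls ι} [Dom 𝒯] {a : ι → ℕ}

theorem tb_hgate (ha : Tm 𝒯 a) (h : ℕ) : Tm 𝒯 (fun i => hgate (a i) h) := by
  unfold hgate
  fun_prop

theorem tb_sh1 (ha : Tm 𝒯 a) (d : ℕ) : Tm 𝒯 (fun i => sh1 (a i) d) := by
  have h := tb_hgate ha 0
  unfold sh1
  split_ifs <;> fun_prop

variable [Mulc 𝒯]

theorem tb_fft (ha : Tm 𝒯 a) (hm : 𝒯.mem a) : Tm 𝒯 (fun i => fft (a i)) :=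
  (Tm.mapE (g := fun _ j => hgate j 0 ++ [((2, j, 0) : Code)]) (ha.rangeP hm).reverse fun _ =>
    (tb_hgate Tm.id.fst 0).append
      (((Tm.const 2).pair (Tm.id.fst.pair (Tm.const 0))).cons (Tm.const []))).flatten

theorem tb_ifft (ha : Tm 𝒯 a) (hm : 𝒯.mem a) : Tm 𝒯 (fun i => ifft (a i)) :=
  (Tm.mapE (g := fun _ j => ((2, j, 1) : Code) :: hgate j 1) (ha.rangeP hm) fun _ =>
    ((Tm.const 2).pair (Tm.id.fst.pair (Tm.const 1))).cons (tb_hgate Tm.id.fst 1)).flatten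

theorem tb_cshear (ha : Tm 𝒯 a) (hm : 𝒯.mem a) (d α : ℕ) :
    Tm 𝒯 (fun i => cshear (a i) d α) :=
  ((((Tm.const _).cons (tb_fft ha hm)).append ((Tm.const _).cons (tb_sh1 ha d))).append
    ((Tm.const _).cons (tb_ifft ha hm))).append (Tm.const _)

theorem tb_kshear (ha : Tm 𝒯 a) (hm : 𝒯.mem a) (d : ℕ) : Tm 𝒯 (fun i => kshear (a i) d) :=
  (tb_cshear ha hm d 0).append (tb_cshear ha hm d 1)

theorem tb_mswap (ha : Tm 𝒯 a) (hm : 𝒯.mem a) : Tm 𝒯 (fun i => mswap (a i)) :=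
  ((tb_kshear ha hm 1).append (tb_kshear ha hm 0)).append (tb_kshear ha hm 1)

theorem tb_circ (ha : Tm 𝒯 a) (hm : 𝒯.mem a) : Tm 𝒯 (fun i => circ (a i)) :=
  (((Tm.const _).cons ((Tm.const _).cons (tb_mswap ha hm))).append
    ((Tm.const _).cons (tb_mswap ha hm))).append (Tm.const _)

end

theorem CfT.circ {ι : Type} [Enc ι] {𝒯 : Cls ι} [Dom 𝒯] {c : ι → Cf} (h : CfT 𝒯 c) :
    Tm 𝒯 (fun i => circ (c i).a) := by
  have D : Dom (poly (fun _ : ℕ => True) (fun a => a)) :=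
    ⟨Cls.lin (poly_self _ _) 4 2 fun a _ => sz_nat_le a⟩
  have h1 : Tm (poly (fun _ : ℕ => True) (fun a => a)) (fun a => P338.circ a) :=
    tb_circ Tm.id (poly_self _ _)
  refine h1.compP h.tm.cf_a (Cls.pays_poly (fun _ _ => trivial) fun n =>
    h.mem_le 1 (5 * n) fun i hi => ?_)
  rw [one_mul, pow_mul]
  refine Nat.pow_le_pow_left ?_ n
  have e1 := (h.ok i hi).a_le
  have e2 : (c i).a < 2 ^ (c i).a := Nat.lt_two_pow_self
  have e3 : (c i).s ^ 5 ≤ ((c i).s + 1) ^ 5 := Nat.pow_le_pow_left (by omega) 5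
  omega

end Vale.Agent.P338
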