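import Vale.Agent.P338.Gten
import Vale.Agent.P338.Table

/-! Running the circuit on an array, with error bounds. -/

namespace Vale.Agent.P338

namespace Layers

open Finset

/-- One layer of the circuit. -/
def layer (mulW : ℕ → ℤ × ℤ → ℕ → ℕ) (D : ℕ × Cf × (ℕ × Bool × Code) → ℤ × ℤ) (c : Cf) (r : ℕ)
    (fl : Bool) (k : Code) (l : List ℕ) : List ℕ :=
  if k.1 = 0 then gten c k.2.1 0 c.m (l.map (shlW c.w c.m))
  else mapD c.R (c.R * c.R) (fun y x => mulW c.w (D (y, c, r, fl, k)) x) l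

/-- The array approximates `v` at the indices that matter. -/
def Inv (c : Cf) (l : List ℕ) (v : ℕ → ℂ) (β η : ℕ) : Prop :=
  ∀ i < l.length, c.Safe i → i / c.R % c.R < c.M → Near c.w (gt l i) (v i) β η

variable {c : Cf} {r : ℕ} {k : Code} {l : List ℕ}

theorem a_le (h : c.ok) : c.a ≤ c.s ∧ c.a * c.m ≤ c.s := by
  have h1 := h.e'_le
  have h2 : c.a ≤ c.F := by unfold Cf.F; omega
  exact ⟨by omega, (Nat.mul_le_mul_right _ h2).trans h.fm⟩

theorem sz_code (h : c.ok) (hr : r < c.ρ) (hk : k ∈ circ c.a) (fl : Bool) :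
    sz (r, fl, k) ≤ 100 * (c.s + 1) := by
  have h1 := mem_circ hk
  have h2 := a_le h
  have h3 := h.rho_le
  have := sz_nat_le r
  have := sz_bool fl
  have := sz_nat_le k.1
  have := sz_nat_le k.2.1
  have := sz_nat_le k.2.2
  rw [sz_pair, sz_pair, sz_prod k, sz_prod k.2]
  omega

theorem cp_dom (h : c.ok) (hr : r < c.ρ) (hk : k ∈ circ c.a) (fl : Bool) {y : ℕ} (hy : y < c.R) :
    (cp (ℕ × Bool × Code)).dom (y, c, r, fl, k) :=
  ⟨h, hy.trans_le (Nat.pow_le_pow_right two_pos (by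
    have := h.e'_le
    simp only [Cf.b]
    omega)), sz_code h hr hk fl⟩

theorem norm_diag (h : c.ok) (r : ℕ) (fl : Bool) (k : Code) (t : ℕ → ℕ) :
    ‖∏ f ∈ range c.m, dval c.a (c.q (r * c.m + f)) fl k (t f)‖ ≤ 2 ^ (c.a * c.m) := by
  rw [norm_prod, pow_mul]
  exact (prod_le_prod (fun _ _ => norm_nonneg _) fun f _ =>
    norm_dval (h.q_pos _) (h.q4 _) fl k _).trans_eq (by simp)

theorem abs_lt {w g : ℕ} (hw : 0 < w) (hg : g ≤ w) {d : ℤ × ℤ} {δ : ℂ} (h1 : ‖δ‖ ≤ 2 ^ g)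
    (h2 : ‖((d.1 : ℂ) + (d.2 : ℂ) * Complex.I) - 2 ^ w * δ‖ ≤ 3) :
    d.1.natAbs < 2 ^ (2 * w + 1) ∧ d.2.natAbs < 2 ^ (2 * w + 1) := by
  have h3 := norm_sub_norm_le ((d.1 : ℂ) + (d.2 : ℂ) * Complex.I) (2 ^ w * δ)
  have h4 : ‖(2 : ℂ) ^ w * δ‖ ≤ 2 ^ (2 * w) := by
    rw [norm_mul, norm_pow, Complex.norm_two, two_mul, pow_add]
    exact mul_le_mul_of_nonneg_left (h1.trans (pow_le_pow_right₀ one_le_two hg)) (by positivity)
  have h5 : (2 : ℝ) ^ 2 ≤ 2 ^ (2 * w) := pow_le_pow_right₀ one_le_two (by omega)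
  have h6 : ‖(d.1 : ℂ) + (d.2 : ℂ) * Complex.I‖ < 2 ^ (2 * w + 1) := by
    rw [pow_succ]
    linarith
  have h7 := (Complex.abs_re_le_norm _).trans_lt h6
  have h8 := (Complex.abs_im_le_norm _).trans_lt h6
  simp only [Complex.add_re, Complex.add_im, Complex.mul_re, Complex.mul_im, Complex.I_re,
    Complex.I_im, Complex.intCast_re, Complex.intCast_im, mul_zero, mul_one, add_zero, zero_add,
    sub_zero] at h7 h8
  rw [← Int.cast_abs, Int.abs_eq_natAbs] at h7 h8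
  exact ⟨by exact_mod_cast h7, by exact_mod_cast h8⟩

theorem full_shl (hl : c.Full l) : c.Full (l.map (shlW c.w c.m)) :=
  ⟨by rw [List.length_map, hl.1], fun x hx => by
    obtain ⟨y, -, rfl⟩ := List.mem_map.1 hx
    exact shlW_lt _ _ _⟩

theorem inv_gate (h : c.ok) (hl : c.Full l) {j : ℕ} (hj : j ≤ c.a) {v : ℕ → ℂ} {β η : ℕ}
    (hv : Inv c l v β η) : Inv c (gten c j 0 c.m (l.map (shlW c.w c.m)))
      (gall Complex.I 1 (c.pos j) 0 c.m v) (β + 2 * c.m) (η + 2 * c.m) := by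
  intro i hi h1 h2
  rw [length_gten] at hi
  have e : (fun i => (gt (l.map (shlW c.w c.m)) i : ZMod (Pm c.w))) =
      fun i => (gt l i : ZMod (Pm c.w)) * 2 ^ c.m := by
    funext i
    rcases lt_or_ge i l.length with h | h
    · rw [gt_eq (by rwa [List.length_map]), gt_eq h, List.getElem_map, shlW_cast]
    · rw [gt_of_le (by rwa [List.length_map]), gt_of_le h, Nat.cast_zero, zero_mul]
  have hw : 0 < c.w := by have := h.e'_le; omega
  rw [gten, gt_tab _ hi, if_pos h1, e, gall_half _ _ (two_hm hw)]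
  rw [List.length_map] at hi
  refine near_gall (fun i => i < l.length ∧ c.Safe i ∧ i / c.R % c.R < c.M) _ _
    (fun f hf i hi => ?_) _ _ (fun i hi => hv i hi.1 hi.2.1 hi.2.2) ⟨hi, h1, h2⟩
  obtain ⟨h3, h4, h5⟩ := h.safe_bit hj hf i
  have h6 : 0 < c.R * c.R * c.R := by have := c.R_pos; positivity
  have h7 : l.length = c.E * (c.R * c.R * c.R) := by rw [hl.1]; ring
  refine ⟨?_, h3.2 hi.2.1, h4 ▸ hi.2.2⟩
  rw [h7, ← Nat.div_lt_iff_lt_mul h6, h5, Nat.div_lt_iff_lt_mul h6, ← h7]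
  exact hi.1

theorem le_cost (c : Cf) (n : ℕ) : n * (c.b + 1) * c.gc ≤ n * ((c.b + 1) * c.gc + kc c.b) ∧
    n * (c.b + 1) * c.sw ≤ n * (c.b + 1) * c.gc ∧ n * (c.b + 1) ≤ n * (c.b + 1) * c.gc :=
  ⟨by rw [mul_assoc]; exact Nat.mul_le_mul_left _ (Nat.le_add_right _ _),
    Nat.mul_le_mul_left _ c.sw_le_gc, Nat.le_mul_of_pos_right _ (c.one_le_sw.trans c.sw_le_gc)⟩

section
variable {ι : Type} [Enc ι] {𝒯 : Cls ι} [Dom 𝒯] {c : ι → Cf} {l : ι → List ℕ}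

theorem tm_shl (ha : CArr 𝒯 c l) : Tm 𝒯 fun i => (l i).map (shlW (c i).w (c i).m) := by
  let P' : ℕ × ℕ × ℕ → Prop := fun p => p.1 < Pm p.2.1 ∧ p.2.2 ≤ 2 * p.2.1
  let τ' : ℕ × ℕ × ℕ → ℕ := fun p => sz p + p.2.1
  have : Dom (big P' τ') := ⟨big_of_le 1 0 fun q _ => by simp only [τ']; omega⟩
  have hg : Tm (big P' τ') fun p => shlW p.2.1 p.2.2 p.1 :=
    Tm.id.snd.fst.shlW (big_of_le 1 0 fun q _ => by simp only [τ']; omega) Tm.id.snd.snd
      Tm.id.fst fun _ hp => hp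
  refine Tm.congr (Tm.mapU hg ha.tl (ha.tc.cf_w.pair ha.cfT.m) (c := fun i => 13 * ((c i).b + 1))
    (fun i hi x hx => ?_) (Cls.lin ha.arr.cost 13 0 fun q _ => le_of_eq (by ring))) fun _ _ => rfl
  have h1 := (ha.ok i hi).e'_le
  have h2 := (ha.good i hi).2 x hx
  have h3 := sz_nat_lt (h2.trans_le (c i).P_le)
  have h4 := sz_nat_le (c i).w
  have h5 := sz_nat_le (c i).m
  refine ⟨⟨h2, by simp only; omega⟩, ?_⟩
  simp only [τ', sz_pair, Cf.b] at h3 ⊢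
  omega

theorem tm_diag {Θ : Type} [Enc Θ] {mulW : ℕ → ℤ × ℤ → ℕ → ℕ} {D : ℕ × Cf × Θ → ℤ × ℤ}
    (hm : ∀ {ι : Type} [Enc ι] {𝒯 : Cls ι} [Dom 𝒯] {w x : ι → ℕ} {d : ι → ℤ × ℤ}, Tm 𝒯 w →
      Tm 𝒯 x → Tm 𝒯 d → (∀ i, 𝒯.dom i → x i < Pm (w i) ∧ (d i).1.natAbs < 2 ^ (2 * w i + 1) ∧
        (d i).2.natAbs < 2 ^ (2 * w i + 1)) → 𝒯.mem (fun i => kc (2 * w i + 1)) →
      Tm 𝒯 fun i => mulW (w i) (d i) (x i))
    (hD : Tm (cp Θ) D) (ha : CArr 𝒯 c l) {θ : ι → Θ} (hθ : Tm 𝒯 θ)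
    (h : ∀ i, 𝒯.dom i → (l i).length = (c i).E * (c i).R * (c i).R * (c i).R ∧ ∀ v < (c i).R,
      (cp Θ).dom (v, c i, θ i) ∧ (D (v, c i, θ i)).1.natAbs < 2 ^ (2 * (c i).w + 1) ∧
        (D (v, c i, θ i)).2.natAbs < 2 ^ (2 * (c i).w + 1))
    (hk : 𝒯.mem fun i => (l i).length * kc (c i).b) :
    Tm 𝒯 fun i => mapD (c i).R ((c i).R * (c i).R)
      (fun y x => mulW (c i).w (D (y, c i, θ i)) x) (l i) := by
  let Q : ℕ × (ℤ × ℤ) × ℕ → Prop := fun p => p.1 < Pm p.2.2 ∧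
    p.2.1.1.natAbs < 2 ^ (2 * p.2.2 + 1) ∧ p.2.1.2.natAbs < 2 ^ (2 * p.2.2 + 1)
  let σ : ℕ × (ℤ × ℤ) × ℕ → ℕ := fun p => sz p + kc (2 * p.2.2 + 1)
  have : Dom (big Q σ) := ⟨big_of_le 1 0 fun q _ => by simp only [σ]; omega⟩
  have hg : Tm (big Q σ) fun p => mulW p.2.2 p.2.1 p.1 :=
    hm Tm.id.snd.snd Tm.id.fst Tm.id.snd.fst (fun _ hp => hp)
      (big_of_le 1 0 fun q _ => by simp only [σ]; omega)
  refine Tm.congr (Tm.mapD (A := fun i => (c i).E) (k := fun i => (c i).s) ha.arr ha.cfT.R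
    ha.cfT.RR (fun i hi => ⟨by rw [(h i hi).1]; ring, Cf.E_pos _, Cf.R_pos _,
      Nat.mul_pos (Cf.R_pos _) (Cf.R_pos _)⟩) (hD.pair Tm.id.snd.fst.cf_w) (ha.tc.pair hθ)
    (fun i hi v hv => ⟨((h i hi).2 v hv).1, le_rfl⟩)
    (fun n => 𝒯.mono (ha.mem_poly n) fun i hi => Nat.mul_le_mul_right _ ?_) hg
    (c := fun i => 16 * ((c i).b + 1) + kc (c i).b) (fun i hi v hv x hx => ?_)
    (𝒯.mono (𝒯.add (Cls.cmul ha.arr.cost 16) hk) fun i _ => le_of_eq (by ring))) fun _ _ => rfl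
  · rw [(h i hi).1, Nat.mul_div_cancel _ (Cf.R_pos _)]
    exact Nat.le_mul_of_pos_right _ (Cf.R_pos _)
  · have h2 := (ha.good i hi).2 x hx
    have h3 := sz_nat_lt (h2.trans_le (c i).P_le)
    have h4 := sz_nat_le (c i).w
    have h5 := ((h i hi).2 v hv).2
    have h6 := sz_int_lt h5.1
    have h7 := sz_int_lt h5.2
    refine ⟨⟨h2, h5⟩, ?_⟩
    simp only [σ, sz_pair, Cf.b, sz_prod (D _)] at h3 ⊢
    omega

end

end Layers

open Layers

theorem exists_run : ∃ run : Cf → ℕ → Bool → List ℕ → List ℕ,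
    (∀ (c : Cf) (r : ℕ) (fl : Bool) (l : List ℕ), c.ok → r < c.ρ → c.Full l →
      c.Full (run c r fl l) ∧ ∀ (v : ℕ → ℂ) (β η : ℕ), 2 ≤ η → η ≤ β → β + c.T + 4 ≤ c.w →
      (∀ i < l.length, c.Safe i → i / c.R % c.R < c.M → Near c.w (gt l i) (v i) β η) →
      ∀ i < l.length, c.Safe i → i / c.R % c.R < c.M → Near c.w (gt (run c r fl l) i)
        ((circ c.a).foldl (fun v k => lactM (2 * c.s) c.F c.a c.m (fun f => c.q (r * c.m + f))
          fl k v) v i) (β + c.T) (η + c.T)) ∧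
    ∀ {ι : Type} [Enc ι] {𝒯 : Cls ι} [Dom 𝒯] {c : ι → Cf} {l : ι → List ℕ} {r : ι → ℕ}
      {fl : ι → Bool}, Tm 𝒯 c → Tm 𝒯 l → Tm 𝒯 r → Tm 𝒯 fl →
      (∀ i, 𝒯.dom i → (c i).ok ∧ r i < (c i).ρ ∧ (c i).Full (l i)) →
      𝒯.mem (fun i => (l i).length * (c i).rc) →
      Tm 𝒯 (fun i => run (c i) (r i) (fl i) (l i)) := by
  obtain ⟨mulW, cmulW, outW, m1, -, -, m2, -, -, m3⟩ := exists_mulW
  obtain ⟨D, hD, d1⟩ := exists_table
  have full : ∀ (c : Cf) r fl k l, c.Full l → c.Full (layer mulW D c r fl k l) := by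
    intro c r fl k l hl
    unfold layer
    split_ifs
    · exact ⟨by rw [length_gten, List.length_map, hl.1], bd_gten _ _ _ _ _⟩
    · exact ⟨by rw [length_mapD, hl.1], bd_tab fun _ _ => m1 _ _ _⟩
  refine ⟨fun c r fl l => (circ c.a).foldl (fun l k => layer mulW D c r fl k l) l,
    fun c r fl l h hr hl => ?_, ?_⟩
  · have key : ∀ L : List Code, (∀ k ∈ L, k ∈ circ c.a) → ∀ l, c.Full l →
        c.Full (L.foldl (fun l k => layer mulW D c r fl k l) l) ∧ ∀ v β η, 2 ≤ η → η ≤ β →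
          β + L.length * ((c.a + 2) * c.m + 1) + 4 ≤ c.w → Inv c l v β η →
          Inv c (L.foldl (fun l k => layer mulW D c r fl k l) l) (L.foldl (fun v k =>
            lactM (2 * c.s) c.F c.a c.m (fun f => c.q (r * c.m + f)) fl k v) v)
            (β + L.length * ((c.a + 2) * c.m + 1)) (η + L.length * ((c.a + 2) * c.m + 1)) := by
      intro L
      induction L with
      | nil => exact fun _ l hl => ⟨hl, fun v β η _ _ _ hv => by simpa using hv⟩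
      | cons k L ih =>
        intro hL l hl
        obtain ⟨h1, h2⟩ := ih (fun k hk => hL k (by simp [hk])) _ (full c r fl k l hl)
        refine ⟨h1, fun v β η h3 h4 h5 hv => ?_⟩
        have hk := hL k (by simp)
        rw [List.length_cons, add_mul, one_mul, add_comm (L.length * _), ← add_assoc] at h5 ⊢
        rw [← add_assoc η]
        refine h2 _ _ _ (by omega) (by omega) h5 fun i hi h6 h7 => ?_
        rw [add_mul] at h5 ⊢
        beta_reduce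
        unfold layer at hi ⊢
        unfold lactM
        split_ifs at hi ⊢ with h0
        · exact (inv_gate h hl ((mem_circ hk).2.2.2 h0) hv i hi h6 h7).mono (by omega) (by omega)
        · rw [length_mapD] at hi
          beta_reduce
          rw [gt_mapD _ _ _ hi, Finset.prod_congr rfl fun f hf => by
            rw [h.fld_eq (Finset.mem_range.1 hf), Nat.div_div_eq_div_mul i]]
          exact (m2 _ _ _ _ _ _ _ _ (hl.2.gt c.P_pos i) (hv i hi h6 h7) h3 h4 (by omega)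
            (norm_diag h r fl k _) (d1 _ _ _ _ _ (cp_dom h hr hk fl (Nat.mod_lt _ c.R_pos)))).mono
            (by omega) (by omega)
    obtain ⟨h1, h2⟩ := key _ (fun _ hk => hk) l hl
    have h3 : (circ c.a).length * ((c.a + 2) * c.m + 1) ≤ c.T :=
      Nat.mul_le_mul_right _ (length_circ _)
    exact ⟨h1, fun v β η h4 h5 h6 hv i hi h7 h8 =>
      (h2 v β η h4 h5 (by omega) hv i (by rwa [h1.1, ← hl.1]) h7 h8).mono (by omega) (by omega)⟩
  intro ι _ 𝒯 _ c l r fl hc hl hr hfl h hm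
  let P : Code × List ℕ × Cf × ℕ × Bool → Prop := fun q =>
    q.2.2.1.ok ∧ q.2.2.2.1 < q.2.2.1.ρ ∧ q.2.2.1.Full q.2.1 ∧ q.1 ∈ circ q.2.2.1.a
  let τ : Code × List ℕ × Cf × ℕ × Bool → ℕ := fun q =>
    sz q + q.2.1.length * ((q.2.2.1.b + 1) * q.2.2.1.gc + kc q.2.2.1.b)
  have : Dom (big P τ) := ⟨big_of_le 1 0 fun q _ => by simp only [τ]; omega⟩
  have tc : Tm (big P τ) fun q => q.2.2.1 := Tm.id.snd.snd.fst
  have ha : CArr (big P τ) (fun q => q.2.2.1) fun q => q.2.1 :=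
    ⟨tc, Tm.id.snd.fst, fun _ hq => hq.1, fun _ hq => hq.2.2.1.good, big_of_le 1 0 fun q _ => by
      have := le_cost q.2.2.1 q.2.1.length
      simp only [τ]
      omega⟩
  have t1 := tm_shl ha
  have t2 := tm_diag (mulW := mulW) (fun a b c d e => (m3 a (Tm.const 0) b b c
      (fun i hi => ⟨(d i hi).1, (d i hi).1, Nat.zero_le _, (d i hi).2⟩) e).1) hD ha
    (Tm.id.snd.snd.snd.fst.pair (Tm.id.snd.snd.snd.snd.pair Tm.id.fst))
    (fun q hq => ⟨hq.2.2.1.1, fun v hv => ⟨cp_dom hq.1 hq.2.1 hq.2.2.2 _ hv,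
      abs_lt (by have := hq.1.e'_le; omega) ((a_le hq.1).2.trans hq.1.e'_le.2.2.2.2.2.2.1)
        (norm_diag hq.1 _ _ _ _) (d1 _ _ _ _ _ (cp_dom hq.1 hq.2.1 hq.2.2.2 q.2.2.2.2 hv))⟩⟩)
    (big_of_le 1 0 fun q _ => by
      simp only [τ, mul_add]
      omega)
  have hg : Tm (big P τ) fun q => layer mulW D q.2.2.1 q.2.2.2.1 q.2.2.2.2 q.1 q.2.1 :=
    Tm.congr (Tm.iteR Tm.id.fst.fst.isZero (Tm.gten (tc.res _) (t1.res _) Tm.id.fst.snd.fst
      (fun q hq => ⟨hq.1.1, full_shl hq.1.2.2.1, (mem_circ hq.1.2.2.2).2.2.2 hq.2⟩)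
      (Cls.res_mem (big_of_le 1 0 fun q _ => by
        have := le_cost q.2.2.1 q.2.1.length
        simp only [τ, List.length_map]
        omega))) (t2.res _)) fun _ _ => rfl
  have hb : ∀ i, (l i).length * (((c i).b + 1) * (c i).gc + kc (c i).b) ≤
      (l i).length * (c i).rc := fun i =>
    Nat.mul_le_mul_left _ (Nat.le_mul_of_pos_left _ (Nat.succ_pos _))
  have hC : CfT 𝒯 c := CArr.cfT ⟨hc, hl, fun i hi => (h i hi).1, fun i hi => (h i hi).2.2.good,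
    𝒯.mono hm fun i _ => by
      have := le_cost (c i) (l i).length
      have := hb i
      omega⟩
  obtain ⟨C, hsz⟩ := Cf.ok.sz_le
  refine Tm.congr (Tm.foldlU hg hC.circ hl (hc.pair (hr.pair hfl)) (fun i y => (c i).Full y)
    (c := fun i => (C + 102) * ((c i).s + 1) ^ 6 +
      5 * ((l i).length * (((c i).b + 1) * (c i).gc + kc (c i).b))) (fun i hi => (h i hi).2.2)
    (fun i hi k hk y hy => ⟨⟨(h i hi).1, (h i hi).2.1, hy, hk⟩, ?_, full _ _ _ _ _ hy⟩)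
    (𝒯.mono (𝒯.add (Cls.cmul (hC.mem 7) (300 * (C + 102))) (Cls.cmul hm 1500)) fun i hi => ?_))
    fun _ _ => rfl
  · have h1 := sz_code (h i hi).1 (h i hi).2.1 hk (fl i)
    have h2 := hsz _ (h i hi).1
    have h3 := (hy.2.mono (c i).P_le).sz_le
    have h4 := le_cost (c i) y.length
    have h5 : (c i).s + 1 ≤ ((c i).s + 1) ^ 6 := Nat.le_self_pow (by omega) _
    have h6 : y.length * (4 * (c i).b + 2) ≤ 4 * (y.length * ((c i).b + 1)) := by
      rw [mul_left_comm]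
      exact Nat.mul_le_mul_left _ (by omega)
    rw [(h i hi).2.2.1, ← hy.1, add_mul C]
    simp only [τ, sz_pair] at h1 ⊢
    omega
  · have h1 := length_circ (c i).a
    have h2 := (a_le (h i hi).1).1
    rw [mul_add]
    refine add_le_add ((Nat.mul_le_mul_right _ (h1.trans (Nat.mul_le_mul_left _
      (Nat.succ_le_succ h2)))).trans_eq (by simp only [Nat.succ_eq_add_one]; ring))
      ((Nat.mul_le_mul_right _ h1).trans_eq (by rw [Cf.rc]; ring))

end Vale.Agent.P338
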