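import Vale.Agent.P338.Calc

/-! In-place list primitives and loop lemmas used by the list rules. -/

namespace Vale.Agent.P338

variable {α β γ ε σ ι : Type}

theorem trace_fst (step : α × σ → β × σ) (l : List α) (s : σ) :
    (trace step l s).map Prod.fst = l := by
  induction l generalizing s with
  | nil => rfl
  | cons a l ih => simp [trace, ih]

theorem trace_length (step : α × σ → β × σ) (l : List α) (s : σ) :
    (trace step l s).length = l.length := by
  have := congrArg List.length (trace_fst step l s)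
  simpa using this

theorem mapAcc_fst (step : α × σ → β × σ) (l : List α) (s : σ) :
    (mapAcc step l s).1 = (trace step l s).map fun q => (step q).1 := by
  induction l generalizing s with
  | nil => rfl
  | cons a l ih => simp [trace, mapAcc, ih]

theorem mapAcc_length (step : α × σ → β × σ) (l : List α) (s : σ) :
    (mapAcc step l s).1.length = l.length := by
  rw [mapAcc_fst, List.length_map, trace_length]

theorem trace_sum_fst (step : α × σ → β × σ) (l : List α) (s : σ) (τ : α → ℕ) :
    ((trace step l s).map fun q => τ q.1).sum = (l.map τ).sum := by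
  conv_rhs => rw [← trace_fst step l s, List.map_map]
  rfl

theorem sum_le_of_big {L : List α} {T τ : α → ℕ} {C : ℕ} (h : ∀ q ∈ L, T q ≤ C * (τ q + 1)) :
    (L.map T).sum ≤ C * (L.map τ).sum + C * L.length := by
  induction L with
  | nil => simp
  | cons a L ih =>
    have h1 := h a (by simp)
    have h2 := ih fun q hq => h q (by simp [hq])
    simp only [List.map_cons, List.sum_cons, List.length_cons, mul_add] at h1 ⊢
    omega

theorem sum_le_of_forall {L : List α} {T : α → ℕ} {c : ℕ} (h : ∀ q ∈ L, T q ≤ c) :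
    (L.map T).sum ≤ L.length * c := by
  induction L with
  | nil => simp
  | cons a L ih =>
    have h1 := h a (by simp)
    have h2 := ih fun q hq => h q (by simp [hq])
    simp only [List.map_cons, List.sum_cons, List.length_cons, add_mul] at h1 ⊢
    omega

theorem units_eq (u : List Unit) : u = List.replicate u.length () :=
  List.eq_replicate_iff.2 ⟨rfl, fun _ _ => rfl⟩

theorem sz_units (u : List Unit) : sz u = 2 * u.length + 2 := by
  induction u with
  | nil => rfl
  | cons a u ih => simp [ih]; omega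

/-- Costs of order `τ + 1` everywhere. -/
abbrev ipc (τ : α → ℕ) : Cls α := big (fun _ => True) τ

variable [Enc α] [Enc β] [Enc γ] [Enc ε] [Enc σ] [Enc ι]

theorem sz_append' (l l' : List α) : sz (l ++ l') + 2 = sz l + sz l' := by
  induction l with
  | nil => simp; omega
  | cons a l ih => simp only [List.cons_append, sz_cons]; omega

theorem sz_flatten' (L : List (List α)) : sz L.flatten + 2 * L.length = sz L := by
  induction L with
  | nil => simp
  | cons a L ih =>
    have := sz_append' a L.flatten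
    simp only [List.flatten_cons, sz_cons, List.length_cons]; omega

theorem Tm.thenI {𝒯 : Cls α} {τ : β → ℕ} {g : β → γ} {f : α → β} (hf : Tm 𝒯 f)
    (hg : Tm (ipc τ) g) (h : 𝒯.mem (fun a => τ (f a))) : Tm 𝒯 (fun a => g (f a)) :=
  hg.compB hf (fun _ _ => trivial) h

theorem Tm.firstI {τ : α → ℕ} {f : α → β} (hf : Tm (ipc τ) f) :
    Tm (ipc fun p : α × σ => τ p.1) (fun p => (f p.1, p.2)) :=
  hf.first (Cls.pays_big (fun _ _ => trivial) (big_self _ _))

theorem Tm.secondI {τ : σ → ℕ} {f : σ → β} (hf : Tm (ipc τ) f) :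
    Tm (ipc fun p : α × σ => sz p.1 + τ p.2) (fun p => (p.1, f p.2)) :=
  hf.second (Cls.pays_big (fun _ _ => trivial) (big_of_le 1 0 fun _ _ => by omega))
    (big_of_le 1 0 fun _ _ => by omega)

theorem Tm.pushI {𝒯 : Cls α} {f : α → β} (hf : Tm 𝒯 f) (c : γ) : Tm 𝒯 (fun a => (c, f a)) :=
  hf.thenI (Tm.pushP (𝒯 := ipc fun _ => 0) c) (𝒯.const 0)

theorem Tm.assocL {𝒯 : Cls ι} {f : ι → α × β × γ} (hf : Tm 𝒯 f) :
    Tm 𝒯 (fun i => (((f i).1, (f i).2.1), (f i).2.2)) :=
  hf.ofEnc' fun i _ => by simp only [enc_prod (f i), enc_prod (f i).2, enc_pair, List.append_assoc]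

theorem Tm.assocR {𝒯 : Cls ι} {f : ι → (α × β) × γ} (hf : Tm 𝒯 f) :
    Tm 𝒯 (fun i => ((f i).1.1, (f i).1.2, (f i).2)) :=
  hf.ofEnc' fun i _ => by simp only [enc_prod (f i), enc_prod (f i).1, enc_pair, List.append_assoc]

theorem Tm.isTrueL {𝒯 : Cls ι} {b : ι → Bool} (hb : Tm 𝒯 b) : Tm 𝒯 (fun i => b i = true) :=
  hb.ofEnc' fun i _ => by rw [enc_prop]; simp

theorem Tm.bnot {𝒯 : Cls ι} [Dom 𝒯] {b : ι → Bool} (hb : Tm 𝒯 b) : Tm 𝒯 (fun i => !b i) :=
  (Tm.ite hb.isTrueL (Tm.const false) (Tm.const true)).congr fun i _ => by cases b i <;> rfl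

theorem Tm.bitsL {𝒯 : Cls ι} {n : ι → ℕ} (hn : Tm 𝒯 n) : Tm 𝒯 (fun i => (n i).bits) :=
  hn.ofEnc' fun _ _ => rfl

/-- A function on an empty domain type. -/
theorem Tm.ofEmpty {𝒯 : Cls ι} {f : ι → β} (h : ∀ i, ¬ 𝒯.dom i) : Tm 𝒯 f :=
  ⟨fun _ => 0, skip, 𝒯.const 0, fun _ a ha => (h a ha).elim⟩

theorem Tm.toBig {𝒯 : Cls α} {f : α → β} (hf : Tm 𝒯 f) : ∃ T, 𝒯.mem T ∧ Tm (big 𝒯.dom T) f := by
  obtain ⟨T, p, hT, hp⟩ := hf
  exact ⟨T, hT, T, p, big_self _ _, hp⟩

theorem Tm.mapAccPB {𝒯 : Cls (List α × σ)} {P : α × σ → Prop} {τ : α × σ → ℕ}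
    {step : α × σ → β × σ} (hs : Tm (big P τ) step)
    (h1 : ∀ p, 𝒯.dom p → ∀ q ∈ trace step p.1 p.2, P q)
    (h2 : 𝒯.mem (fun p => ((trace step p.1 p.2).map τ).sum))
    (h3 : 𝒯.mem (fun p => sz p.1)) (h4 : 𝒯.mem (fun p => sz (P338.mapAcc step p.1 p.2).1)) :
    Tm 𝒯 (fun p => P338.mapAcc step p.1 p.2) :=
  Tm.mapAccP hs h1 (fun T ⟨C, hC⟩ => 𝒯.mono (𝒯.add (Cls.cmul h2 C) (Cls.cmul h3 C)) fun p hp => by
    have e1 := sum_le_of_big (L := trace step p.1 p.2) (T := T) (τ := τ) (C := C)
      fun q hq => hC q (h1 p hp q hq)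
    rw [trace_length] at e1
    have e2 := length_le_sz p.1
    have e3 : C * p.1.length ≤ C * sz p.1 := Nat.mul_le_mul_left _ (by omega)
    omega) h3 h4

theorem Tm.mapAccB {𝒯 : Cls ι} [Dom 𝒯] {P : α × σ → Prop} {τ : α × σ → ℕ}
    {step : α × σ → β × σ} {l : ι → List α} {s : ι → σ} (hs : Tm (big P τ) step) (hl : Tm 𝒯 l)
    (hs0 : Tm 𝒯 s) (h1 : ∀ i, 𝒯.dom i → ∀ q ∈ trace step (l i) (s i), P q)
    (h2 : 𝒯.mem (fun i => ((trace step (l i) (s i)).map τ).sum))
    (h4 : 𝒯.mem (fun i => sz (P338.mapAcc step (l i) (s i)).1)) :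
    Tm 𝒯 (fun i => P338.mapAcc step (l i) (s i)) :=
  Tm.mapAcc hs hl hs0 h1 (fun T ⟨C, hC⟩ =>
    𝒯.mono (𝒯.add (Cls.cmul h2 C) (Cls.cmul hl.szb C)) fun i hi => by
    have e1 := sum_le_of_big (L := trace step (l i) (s i)) (T := T) (τ := τ) (C := C)
      fun q hq => hC q (h1 i hi q hq)
    rw [trace_length] at e1
    have e2 := length_le_sz (l i)
    have e3 : C * (l i).length ≤ C * sz (l i) := Nat.mul_le_mul_left _ (by omega)
    omega) h4

/-! Map with an environment. -/

omit [Enc α] [Enc β] [Enc ε] in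
theorem trace_env (g : α × ε → β) (l : List α) (e : ε) :
    trace (fun q => (g q, q.2)) l e = l.map fun x => (x, e) := by
  induction l with
  | nil => rfl
  | cons a l ih => simp [trace, ih]

theorem Tm.mapG {𝒯 : Cls ι} [Dom 𝒯] {𝒮 : Cls (α × ε)} [Dom 𝒮] {g : α × ε → β} (hg : Tm 𝒮 g)
    {l : ι → List α} {e : ι → ε} (hl : Tm 𝒯 l) (he : Tm 𝒯 e)
    (h1 : ∀ i, 𝒯.dom i → ∀ x ∈ l i, 𝒮.dom (x, e i))
    (h2 : ∀ T, 𝒮.mem T → 𝒯.mem (fun i => ((l i).map fun x => T (x, e i)).sum)) :
    Tm 𝒯 (fun i => (l i).map fun x => g (x, e i)) := by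
  have hout : ∀ i, (P338.mapAcc (fun q => (g q, q.2)) (l i) (e i)).1
      = (l i).map fun x => g (x, e i) := by
    intro i
    rw [mapAcc_fst, trace_env, List.map_map]
    rfl
  have key := Tm.mapAcc (step := fun q => (g q, q.2)) (hg.pair Tm.id.snd) hl he
    (fun i hi q hq => by
      rw [trace_env] at hq
      obtain ⟨x, hx, rfl⟩ := List.mem_map.1 hq
      exact h1 i hi x hx)
    (fun T hT => by
      refine 𝒯.mono (h2 T hT) fun i _ => ?_
      rw [trace_env, List.map_map]
      exact le_rfl)
    (Cls.lin (h2 _ hg.szb) 1 2 fun i _ => by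
      rw [hout, sz_list, List.map_map, one_mul]
      exact le_rfl)
  exact key.fst.congr fun i _ => (hout i).symm

theorem Tm.mapZ {𝒯 : Cls ι} [Dom 𝒯] {g : α → β} {l : ι → List α} (hg : Tm (lin α) g)
    (hl : Tm 𝒯 l) : Tm 𝒯 (fun i => (l i).map g) := by
  refine Tm.mapG (𝒮 := lin (α × Unit)) (g := fun p => g p.1) (hg.comp Tm.id.fst) hl
    (Tm.const ()) (fun _ _ _ _ => trivial) fun T ⟨C, hC⟩ => ?_
  refine Cls.lin hl.szb (4 * C) 0 fun i _ => ?_
  have e1 := sum_le_of_big (L := l i) (T := fun x => T (x, ())) (τ := fun x => 3 * sz x) (C := C)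
    fun q _ => (hC (q, ()) trivial).trans (Nat.mul_le_mul_left _ (by
      have := two_le_sz q
      simp only [sz_pair, sz_unit]; omega))
  rw [List.sum_map_mul_left] at e1
  have e2 := length_le_sz (l i)
  have e3 := sz_list (l i)
  have e4 : C * (3 * ((l i).map sz).sum) + C * (l i).length ≤ 4 * C * sz (l i) := by
    rw [← mul_add, mul_comm 4 C, mul_assoc]
    exact Nat.mul_le_mul_left _ (by omega)
  omega

/-! Reversal, concatenation. -/

/-- One round of list reversal. -/
def revStep (p : α × List α) : Unit × List α := ((), p.1 :: p.2)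

omit [Enc α] in
theorem mapAcc_rev (l s : List α) : (mapAcc revStep l s).2 = l.reverse ++ s := by
  induction l generalizing s with
  | nil => rfl
  | cons a l ih => simp [mapAcc, revStep, ih]

omit [Enc σ] in
theorem sz_mapAcc_unit (step : α × σ → Unit × σ) (l : List α) (s : σ) :
    sz (mapAcc step l s).1 ≤ sz l := by
  rw [sz_units, mapAcc_length]
  exact length_le_sz l

theorem ipc_revAppend :
    Tm (ipc fun p : List α × List α => sz p.1) (fun p => p.1.reverse ++ p.2) := by
  have h0 : Tm (ipc fun p : α × List α => sz p.1) revStep :=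
    (Tm.consP (big_self _ _)).pushI ()
  have h1 : Tm (ipc fun p : List α × List α => sz p.1) (fun p => mapAcc revStep p.1 p.2) :=
    Tm.mapAccPB h0 (fun _ _ _ _ => trivial)
      (big_of_le 1 0 fun p _ => by rw [trace_sum_fst, sz_list p.1]; omega) (big_self _ _)
      (big_of_le 1 0 fun p _ => by have := sz_mapAcc_unit revStep p.1 p.2; omega)
  refine (h1.thenI (Tm.dropP (big_self _ _))
    (big_of_le 1 0 fun p _ => by have := sz_mapAcc_unit revStep p.1 p.2; omega)).congr
    fun p _ => (mapAcc_rev _ _).symm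

theorem Tm.reverseL {𝒯 : Cls ι} [Dom 𝒯] {l : ι → List α} (hl : Tm 𝒯 l) :
    Tm 𝒯 (fun i => (l i).reverse) :=
  ((hl.pair (Tm.const [])).thenI ipc_revAppend hl.szb).congr fun i _ => by simp

theorem Tm.appendL {𝒯 : Cls ι} [Dom 𝒯] {l l' : ι → List α} (hl : Tm 𝒯 l) (hl' : Tm 𝒯 l') :
    Tm 𝒯 (fun i => l i ++ l' i) :=
  ((hl.reverseL.pair hl').thenI ipc_revAppend hl.reverseL.szb).congr fun i _ => by simp

/-- One round of flattening. -/
def flatStep (p : List α × List α) : Unit × List α := ((), p.1.reverse ++ p.2)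

omit [Enc α] in
theorem mapAcc_flat (L : List (List α)) (s : List α) :
    (mapAcc flatStep L s).2 = L.flatten.reverse ++ s := by
  induction L generalizing s with
  | nil => rfl
  | cons a l ih => simp [mapAcc, flatStep, ih]

theorem Tm.flattenL {𝒯 : Cls ι} [Dom 𝒯] {l : ι → List (List α)} (hl : Tm 𝒯 l) :
    Tm 𝒯 (fun i => (l i).flatten) := by
  have h0 : Tm (ipc fun p : List α × List α => sz p.1) flatStep := ipc_revAppend.pushI ()
  have h1 := Tm.mapAccB h0 hl (Tm.const []) (fun _ _ _ _ => trivial)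
    (Cls.lin hl.szb 1 0 fun i _ => by rw [trace_sum_fst, sz_list (l i)]; omega)
    (𝒯.mono hl.szb fun i _ => sz_mapAcc_unit _ _ _)
  exact h1.snd.reverseL.congr fun i _ => by rw [mapAcc_flat]; simp

/-! Removing the first element. -/

theorem ipc_popF : Tm (ipc fun l : List α => sz (l.take 1)) (fun l => (l.take 1, l.tail)) := by
  refine ⟨fun l => 18 * sz (l.take 1) + 9, .seq (.pop .m) (.ite .m .op
    (.seq (xferN .m [.x] (Enc.n α)) (.seq (.push .m .op) (.seq (.push .m .cl)
      (.seq (xferN .x [.m] (Enc.n α)) (.push .m .op)))))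
    (pushW [.op, .cl, .op])),
    big_of_le 18 9 fun _ _ => le_rfl, fun b l _ i o m x y z => ?_⟩
  cases l with
  | nil =>
    refine ((Run.pop _ _ _).seq (Run.iteF (t := 5) (by simp [enc_list]) ?_)).weaken
      (by simp)
    have := run_pushW b [.op, .cl, .op] i o (.cl :: m) x y z
    simpa [enc_list, enc_pair, sz] using this
  | cons a l =>
    obtain ⟨v, hv⟩ := enc_head a
    have h1 := Enc.items a
    have e1 := mv_mx (b := b) h1 i o (l.flatMap enc ++ .cl :: m) x y z
    have e2 := mv_xm (b := b) h1 i o (.cl :: .op :: (l.flatMap enc ++ .cl :: m)) x y z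
    have e3 := Run.push b .m .op (st i o (l.flatMap enc ++ .cl :: m) (mir (enc a) ++ x) y z)
    have e4 := Run.push b .m .cl
      (st i o (.op :: (l.flatMap enc ++ .cl :: m)) (mir (enc a) ++ x) y z)
    have e5 := Run.push b .m .op
      (st i o (enc a ++ .cl :: .op :: (l.flatMap enc ++ .cl :: m)) x y z)
    simp only [st_m, up_m] at e3 e4 e5
    refine ((Run.pop _ _ _).seq (Run.iteT (t := 18 * sz a + 7) (by simp [enc_list, hv])
      ?_)).weaken (by simp; omega)
    simpa [enc_list, enc_pair] using (e1.seq (e3.seq (e4.seq (e2.seq e5)))).weaken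
      (t' := 18 * sz a + 7) (by unfold sz; omega)

theorem sz_take_le (n : ℕ) (l : List α) : sz (l.take n) ≤ sz l := by
  have h := sz_append' (l.take n) (l.drop n)
  rw [List.take_append_drop] at h
  have := two_le_sz (l.drop n)
  omega

theorem Tm.tailL {𝒯 : Cls ι} [Dom 𝒯] {l : ι → List α} (hl : Tm 𝒯 l) :
    Tm 𝒯 (fun i => (l i).tail) :=
  (hl.thenI ipc_popF (𝒯.mono hl.szb fun _ _ => sz_take_le _ _)).snd

theorem Tm.nonEmpty {𝒯 : Cls ι} [Dom 𝒯] {l : ι → List α} (hl : Tm 𝒯 l) :
    Tm 𝒯 (fun i => !(l i).isEmpty) :=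
  (hl.thenI (Tm.neP (𝒯 := ipc fun _ => 0)) (𝒯.const 0)).fst

theorem Tm.isEmptyL {𝒯 : Cls ι} [Dom 𝒯] {l : ι → List α} (hl : Tm 𝒯 l) :
    Tm 𝒯 (fun i => (l i).isEmpty) :=
  hl.nonEmpty.bnot.congr fun i _ => by simp

theorem Tm.headC {𝒯 : Cls ι} [Dom 𝒯] {l : ι → List α} (hl : Tm 𝒯 l) (d : α) :
    Tm 𝒯 (fun i => (l i).headD d) :=
  (hl.thenI (Tm.popP d (big_self _ _)) (Cls.lin hl.szb 1 (sz d) fun i _ => by
    cases l i with
    | nil => simp
    | cons a t => simp; omega)).fst

theorem Tm.headDL {𝒯 : Cls ι} [Dom 𝒯] {l : ι → List α} {d : ι → α} (hl : Tm 𝒯 l) (hd : Tm 𝒯 d) :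
    Tm 𝒯 (fun i => (l i).headD (d i)) := by
  by_cases h : Nonempty α
  · obtain ⟨d0⟩ := h
    refine (Tm.ite hl.isEmptyL.isTrueL hd (hl.headC d0)).congr fun i _ => ?_
    cases l i <;> simp
  · exact Tm.ofEmpty fun i _ => h ⟨d i⟩

/-! Walking along two lists. -/

/-- One round of the simultaneous walk. -/
def puStep (p : α × List β) : (α × List β) × List β := ((p.1, p.2.take 1), p.2.tail)

omit [Enc α] [Enc β] in
theorem mapAcc_pu_snd (l : List α) (s : List β) : (mapAcc puStep l s).2 = s.drop l.length := by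
  induction l generalizing s with
  | nil => rfl
  | cons a l ih => cases s <;> simp [mapAcc, puStep, ih]

omit [Enc α] [Enc β] in
theorem mapAcc_pu_take (l : List α) (s : List β) :
    ((mapAcc puStep l s).1.map Prod.snd).flatten = s.take l.length := by
  induction l generalizing s with
  | nil => simp [mapAcc]
  | cons a l ih => cases s <;> simp [mapAcc, puStep, ih]

omit [Enc α] [Enc β] in
theorem mapAcc_pu_zip (d : β) (l : List α) (s : List β) :
    ((mapAcc puStep l s).1.map fun p =>
      if p.2.isEmpty = true then [] else [(p.1, p.2.headD d)]).flatten = l.zip s := by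
  induction l generalizing s with
  | nil => simp [mapAcc]
  | cons a l ih =>
    have h := ih s.tail
    cases s with
    | nil => simpa [mapAcc, puStep] using h
    | cons b s => simpa [mapAcc, puStep] using h

theorem sz_mapAcc_pu (l : List α) (s : List β) :
    sz (mapAcc puStep l s).1 + 2 = sz l + sz (s.take l.length) + 2 * l.length := by
  induction l generalizing s with
  | nil => simp [mapAcc]
  | cons a l ih =>
    have h := ih s.tail
    cases s with
    | nil => simp [mapAcc, puStep] at h ⊢; omega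
    | cons b s => simp [mapAcc, puStep] at h ⊢; omega

theorem ipc_pu : Tm (ipc fun p : List α × List β => sz p.1 + sz (p.2.take p.1.length))
    (fun p => mapAcc puStep p.1 p.2) := by
  have h0 : Tm (ipc fun p : α × List β => sz (puStep p).1) puStep :=
    (Tm.id.thenI (Tm.secondI (α := α) ipc_popF)
      (big_of_le 1 0 fun p _ => by simp [puStep])).assocL
  have h4 : (ipc fun p : List α × List β => sz p.1 + sz (p.2.take p.1.length)).mem
      (fun p => sz (mapAcc puStep p.1 p.2).1) :=
    big_of_le 2 0 fun p _ => by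
      have := sz_mapAcc_pu p.1 p.2
      have := length_le_sz p.1
      omega
  refine Tm.mapAccPB h0 (fun _ _ _ _ => trivial) (Cls.mono _ h4 fun p _ => ?_)
    (big_of_le 1 0 fun _ _ => by omega) h4
  rw [mapAcc_fst, sz_list, List.map_map]
  exact Nat.le_add_right _ _

theorem ipc_split : Tm (ipc fun p : List α × List β => sz p.1 + sz (p.2.take p.1.length))
    (fun p => (p.2.take p.1.length, p.2.drop p.1.length)) := by
  have h1 : Tm (lin (List (α × List β))) (fun L => (L.map Prod.snd).flatten) :=
    (Tm.mapZ Tm.id.snd Tm.id).flattenL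
  refine (ipc_pu.thenI h1.firstI (big_of_le 2 0 fun p _ => ?_)).congr fun p _ => ?_
  · have := sz_mapAcc_pu p.1 p.2
    have := length_le_sz p.1
    omega
  · rw [mapAcc_pu_take, mapAcc_pu_snd]

theorem Tm.splitL {𝒯 : Cls ι} [Dom 𝒯] {u : ι → List α} {l : ι → List β} (hu : Tm 𝒯 u)
    (hl : Tm 𝒯 l) : Tm 𝒯 (fun i => ((l i).take (u i).length, (l i).drop (u i).length)) :=
  (hu.pair hl).thenI ipc_split (𝒯.mono (𝒯.add hu.szb hl.szb) fun i _ => by
    have := sz_take_le (u i).length (l i)
    dsimp only
    omega)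

theorem Tm.zipL {𝒯 : Cls ι} [Dom 𝒯] {l : ι → List α} {l' : ι → List β} (hl : Tm 𝒯 l)
    (hl' : Tm 𝒯 l') : Tm 𝒯 (fun i => (l i).zip (l' i)) := by
  by_cases h : Nonempty β
  · obtain ⟨d⟩ := h
    have h1 := ((hl.pair hl').thenI ipc_pu (𝒯.mono (𝒯.add hl.szb hl'.szb) fun i _ => by
      have := sz_take_le (l i).length (l' i)
      dsimp only
      omega)).fst
    have h2 : Tm (lin (α × List β)) (fun p =>
        if p.2.isEmpty = true then [] else [(p.1, p.2.headD d)]) :=
      Tm.ite Tm.id.snd.isEmptyL.isTrueL (Tm.const [])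
        ((Tm.id.fst.pair (Tm.id.snd.headC d)).cons (Tm.const []))
    exact (Tm.mapZ h2 h1).flattenL.congr fun i _ => (mapAcc_pu_zip d _ _).symm
  · refine (Tm.const []).congr fun i _ => ?_
    cases e : l' i with
    | nil => simp
    | cons b t => exact (h ⟨b⟩).elim

/-! Unary and binary numbers. -/

/-- One round of halving a unary number. -/
def hStep (q : Unit × Bool) : List Unit × Bool := (if q.2 = true then [()] else [], !q.2)

theorem mapAcc_h (u : List Unit) (b : Bool) :
    (mapAcc hStep u b).1.flatten.length = (u.length + b.toNat) / 2 ∧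
      (mapAcc hStep u b).2 = (u.length + b.toNat).bodd := by
  induction u generalizing b with
  | nil => cases b <;> simp [mapAcc]
  | cons a u ih =>
    cases b with
    | false =>
      have := ih true
      simpa [mapAcc, hStep] using this
    | true =>
      have := ih false
      simp only [mapAcc, hStep, if_true, Bool.not_true, List.flatten_cons, List.length_append,
        List.length_cons, List.length_nil, Bool.toNat_true, Bool.toNat_false, add_zero] at this ⊢
      refine ⟨by omega, ?_⟩
      rw [this.2]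
      simp

theorem lin_half : Tm (lin (List Unit))
    (fun u => (List.replicate (u.length / 2) (), u.length.bodd)) := by
  have h0 : Tm (lin (Unit × Bool)) hStep :=
    (Tm.ite Tm.id.snd.isTrueL (Tm.const [()]) (Tm.const [])).pair Tm.id.snd.bnot
  have h1 : Tm (lin (List Unit)) (fun u => mapAcc hStep u false) := by
    refine Tm.mapAccB h0 Tm.id (Tm.const false) (fun _ _ _ _ => trivial)
      (big_of_le 3 0 fun u _ => ?_) (big_of_le 2 0 fun u _ => ?_)
    · have e := sum_le_of_forall (L := trace hStep u false) (T := sz) (c := 6) fun q _ => by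
        have := sz_bool q.2
        rw [sz_prod, sz_unit]; omega
      rw [trace_length] at e
      rw [sz_units]; omega
    · have e := sz_le_of_forall (mapAcc hStep u false).1 (B := 4) fun a ha => by
        rw [mapAcc_fst] at ha
        obtain ⟨q, _, rfl⟩ := List.mem_map.1 ha
        unfold hStep
        split_ifs <;> simp
      rw [mapAcc_length] at e
      rw [sz_units u]; omega
  refine (h1.fst.flattenL.pair h1.snd).congr fun u _ => ?_
  have := mapAcc_h u false
  simp only [Bool.toNat_false, add_zero] at this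
  rw [← this.1, ← this.2, ← units_eq]

/-- One round of the conversion from unary to binary. -/
def lenStep (q : Unit × List Unit) : List Bool × List Unit :=
  (if q.2.isEmpty = true then [] else [q.2.length.bodd], List.replicate (q.2.length / 2) ())

theorem bits_pos {n : ℕ} (h : n ≠ 0) : n.bits = n.bodd :: (n / 2).bits := by
  have e := Nat.bits_append_bit n.div2 n.bodd (fun h0 => by
    have h1 := Nat.bodd_add_div2 n
    rw [h0] at h1
    cases hb : n.bodd
    · rw [hb] at h1; simp at h1; omega
    · rfl)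
  rw [Nat.bit_bodd_div2, Nat.div2_val] at e
  exact e

theorem mapAcc_len (F u : List Unit) (h : u.length < 2 ^ F.length) :
    (mapAcc lenStep F u).1.flatten = u.length.bits := by
  induction F generalizing u with
  | nil =>
    have : u.length = 0 := by simpa using h
    simp [mapAcc, this]
  | cons a F ih =>
    have h2 := ih (List.replicate (u.length / 2) ()) (by
      rw [List.length_cons, pow_succ] at h
      rw [List.length_replicate]; omega)
    rw [List.length_replicate] at h2
    simp only [mapAcc, lenStep, List.flatten_cons] at h2 ⊢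
    rw [h2]
    cases u with
    | nil => simp
    | cons b u => rw [bits_pos (n := (b :: u).length) (by simp)]; simp

theorem trace_len (F u : List Unit) :
    ((trace lenStep F u).map sz).sum ≤ 4 * u.length + 4 * F.length := by
  induction F generalizing u with
  | nil => simp [trace]
  | cons a F ih =>
    have h2 := ih (List.replicate (u.length / 2) ())
    rw [List.length_replicate] at h2
    simp only [trace, lenStep, List.map_cons, List.sum_cons, sz_pair, sz_unit, sz_units u,
      List.length_cons] at h2 ⊢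
    omega

theorem lin_lenU : Tm (lin (List Unit)) (fun u => u.length) := by
  have h0 : Tm (lin (Unit × List Unit)) lenStep :=
    (Tm.ite Tm.id.snd.isEmptyL.isTrueL (Tm.const [])
      ((lin_half.comp Tm.id.snd).snd.cons (Tm.const []))).pair (lin_half.comp Tm.id.snd).fst
  have h1 : Tm (lin (List Unit)) (fun u => mapAcc lenStep u u) := by
    refine Tm.mapAccB h0 Tm.id Tm.id (fun _ _ _ _ => trivial)
      (big_of_le 4 0 fun u _ => ?_) (big_of_le 3 0 fun u _ => ?_)
    · have e := trace_len u u
      rw [sz_units u]; omega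
    · have e := sz_le_of_forall (mapAcc lenStep u u).1 (B := 6) fun a ha => by
        rw [mapAcc_fst] at ha
        obtain ⟨q, _, rfl⟩ := List.mem_map.1 ha
        unfold lenStep
        have := sz_bool q.2.length.bodd
        split_ifs <;> simp
        omega
      rw [mapAcc_length] at e
      rw [sz_units u]; omega
  refine h1.fst.flattenL.ofEnc' fun u _ => ?_
  rw [mapAcc_len u u Nat.lt_two_pow_self, enc_nat]

theorem Tm.units {𝒯 : Cls ι} [Dom 𝒯] {l : ι → List α} (hl : Tm 𝒯 l) :
    Tm 𝒯 (fun i => List.replicate (l i).length ()) :=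
  (Tm.mapZ (g := fun _ => ()) (Tm.const ()) hl).congr fun i _ => by simp

theorem Tm.lengthL {𝒯 : Cls ι} [Dom 𝒯] {l : ι → List α} (hl : Tm 𝒯 l) :
    Tm 𝒯 (fun i => (l i).length) :=
  (lin_lenU.comp hl.units).congr fun i _ => by simp

/-- One round of the conversion from binary to unary. -/
def unStep (q : Bool × List Unit) : Unit × List Unit :=
  ((), q.2 ++ q.2 ++ if q.1 = true then [()] else [])

theorem mapAcc_un (bs : List Bool) (u : List Unit) :
    (mapAcc unStep bs u).2.length = bs.foldl (fun m b => 2 * m + b.toNat) u.length := by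
  induction bs generalizing u with
  | nil => rfl
  | cons b bs ih =>
    simp only [mapAcc, List.foldl_cons, ih]
    refine congrArg (fun m => List.foldl _ m bs) ?_
    cases b <;> simp [unStep] <;> omega

theorem trace_un (bs : List Bool) (u : List Unit) :
    ((trace unStep bs u).map sz).sum + 2 * u.length
      ≤ 6 * bs.length + 2 * (mapAcc unStep bs u).2.length := by
  induction bs generalizing u with
  | nil => simp [trace, mapAcc]
  | cons b bs ih =>
    have h2 := ih (unStep (b, u)).2
    have h3 : 2 * u.length ≤ (unStep (b, u)).2.length := by simp [unStep]; omega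
    have h4 := sz_bool b
    simp only [trace, mapAcc, List.map_cons, List.sum_cons, sz_pair, sz_units u,
      List.length_cons] at h2 ⊢
    omega

theorem foldr_bits (n : ℕ) : n.bits.foldr (fun b m => 2 * m + b.toNat) 0 = n := by
  induction n using Nat.strong_induction_on with
  | _ n ih =>
    by_cases h : n = 0
    · subst h; rfl
    · rw [bits_pos h, List.foldr_cons, ih (n / 2) (by omega)]
      have := Nat.bodd_add_div2 n
      rw [Nat.div2_val] at this
      omega

theorem Tm.unaryL {𝒯 : Cls ι} [Dom 𝒯] {n : ι → ℕ} (hn : Tm 𝒯 n) (h : 𝒯.mem n) :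
    Tm 𝒯 (fun i => List.replicate (n i) ()) := by
  have h0 : Tm (lin (Bool × List Unit)) unStep :=
    (Tm.const ()).pair ((Tm.id.snd.appendL Tm.id.snd).appendL
      (Tm.ite Tm.id.fst.isTrueL (Tm.const [()]) (Tm.const [])))
  have hb := hn.bitsL.reverseL
  have hlen : ∀ i, (P338.mapAcc unStep (n i).bits.reverse []).2.length = n i := by
    intro i
    rw [mapAcc_un, List.foldl_reverse]
    exact foldr_bits (n i)
  have h1 := Tm.mapAccB h0 hb (Tm.const []) (fun _ _ _ _ => trivial)
    (𝒯.mono (𝒯.add (Cls.cmul hb.szb 3) (Cls.cmul h 2)) fun i _ => by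
      have e := trace_un (n i).bits.reverse []
      have e2 := length_le_sz (n i).bits.reverse
      rw [hlen] at e
      omega)
    (𝒯.mono hb.szb fun i _ => sz_mapAcc_unit _ _ _)
  refine h1.snd.congr fun i _ => ?_
  rw [units_eq (P338.mapAcc unStep (n i).bits.reverse []).2, hlen]

/-- A unary number that may replace `n` when cutting the list `l`. -/
def umin (n : ℕ) (l : List α) : List Unit :=
  if n.size ≤ l.length.size then List.replicate n () else List.replicate l.length ()

omit [Enc α] in
theorem umin_spec (n : ℕ) (l : List α) :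
    (umin n l).length = n ∨ ((umin n l).length = l.length ∧ l.length ≤ n) := by
  unfold umin
  split_ifs with h
  · left; simp
  · right
    refine ⟨by simp, ?_⟩
    have h1 : 2 ^ l.length.size ≤ n := Nat.lt_size.1 (by omega)
    have h2 := Nat.lt_size_self l.length
    omega

theorem le_of_size_le {n m : ℕ} (h : n.size ≤ m.size) : n ≤ 2 * m := by
  rcases Nat.eq_zero_or_pos m with rfl | hm
  · have : n.size = 0 := by simpa using h
    rw [Nat.size_eq_zero] at this
    omega
  · have h0 : 0 < m.size := Nat.size_pos.2 hm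
    have h1 : 2 ^ (m.size - 1) ≤ m := Nat.lt_size.1 (by omega)
    have h2 : n < 2 ^ m.size := Nat.size_le.1 h
    have h3 : 2 ^ m.size = 2 * 2 ^ (m.size - 1) := by
      rw [← pow_succ']
      exact congrArg _ (by omega)
    omega

theorem Tm.umin {𝒯 : Cls ι} [Dom 𝒯] {n : ι → ℕ} {l : ι → List α} (hn : Tm 𝒯 n) (hl : Tm 𝒯 l) :
    Tm 𝒯 (fun i => umin (n i) (l i)) := by
  have hc : Tm 𝒯 (fun i => (n i).size ≤ (l i).length.size) := by
    refine (hl.lengthL.bitsL.splitL hn.bitsL).snd.isEmptyL.isTrueL.congr fun i _ => ?_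
    simp [Nat.size_eq_bits_len]
  refine Tm.iteR hc ((hn.res _).unaryL ⟨_, hl.szb, fun i _ hi => ?_⟩) (hl.res _).units
  have := le_of_size_le hi
  have := length_le_sz (l i)
  omega

end Vale.Agent.P338
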