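import Vale.Agent.P338.ListAux

/-! Linear time list operations and loop rules. -/

namespace Vale.Agent.P338

variable {α β γ ε σ ι : Type}

/-- Extension of a class by a further component satisfying `G`; costs are bounded in terms of
the old argument. -/
def Cls.ext (𝒯 : Cls ι) (G : ι → β → Prop) : Cls (β × ι) where
  dom := fun p => 𝒯.dom p.2 ∧ G p.2 p.1
  mem := fun T => ∃ T', 𝒯.mem T' ∧ ∀ p : β × ι, 𝒯.dom p.2 → G p.2 p.1 → T p ≤ T' p.2
  const := fun c => ⟨_, 𝒯.const c, fun _ _ _ => le_rfl⟩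
  add := fun ⟨_, h, g⟩ ⟨_, h', g'⟩ => ⟨_, 𝒯.add h h', fun a ha hq =>
    Nat.add_le_add (g a ha hq) (g' a ha hq)⟩
  mono := fun ⟨T, h, g⟩ h' => ⟨T, h, fun a ha hq => (h' a ⟨ha, hq⟩).trans (g a ha hq)⟩

instance (𝒯 : Cls ι) [h : Mulc 𝒯] (G : ι → β → Prop) : Mulc (𝒯.ext G) :=
  ⟨fun ⟨_, h1, g⟩ ⟨_, h2, g'⟩ => ⟨_, h.mul h1 h2, fun a ha hq =>
    Nat.mul_le_mul (g a ha hq) (g' a ha hq)⟩⟩

theorem Cls.ext_mem {𝒯 : Cls ι} (G : ι → β → Prop) {T : ι → ℕ} (h : 𝒯.mem T) :
    (𝒯.ext G).mem (fun p => T p.2) := ⟨T, h, fun _ _ _ => le_rfl⟩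

theorem Cls.ext_of_le {𝒯 : Cls ι} {G : ι → β → Prop} {T : ι → ℕ} {U : β × ι → ℕ} (h : 𝒯.mem T)
    (hU : ∀ b i, 𝒯.dom i → G i b → U (b, i) ≤ T i) : (𝒯.ext G).mem U :=
  ⟨T, h, fun p h1 h2 => hU p.1 p.2 h1 h2⟩

theorem Cls.pays_ext (𝒯 : Cls ι) (G : ι → β → Prop) : (𝒯.ext G).Pays 𝒯 Prod.snd :=
  ⟨fun _ h => h.1, fun _ h => Cls.ext_mem G h⟩

theorem Cls.pays_ext' {𝒯 : Cls ι} {G : ι → β → Prop} {f : ι → β}
    (h : ∀ i, 𝒯.dom i → G i (f i)) : 𝒯.Pays (𝒯.ext G) (fun i => (f i, i)) :=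
  ⟨fun i hi => ⟨hi, h i hi⟩, fun _ ⟨_, h1, h2⟩ => 𝒯.mono h1 fun i hi => h2 _ hi (h i hi)⟩

/-- Pieces of length `n` (the last one may be shorter). -/
def chunks (n : ℕ) (l : List α) : List (List α) :=
  (List.range ((l.length + n - 1) / n)).map fun i => (l.drop (i * n)).take n

theorem chunks_zero (l : List α) : chunks 0 l = [] := by simp [chunks]

theorem chunks_nil (n : ℕ) : chunks n ([] : List α) = [] := by
  have : (n - 1) / n = 0 := by
    rcases Nat.eq_zero_or_pos n with rfl | h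
    · simp
    · exact Nat.div_eq_of_lt (by omega)
  simp [chunks, this]

theorem chunks_cons {n : ℕ} (hn : 0 < n) {l : List α} (hl : l ≠ []) :
    chunks n l = l.take n :: chunks n (l.drop n) := by
  have hlen : 0 < l.length := List.length_pos_iff.2 hl
  have e : (l.length + n - 1) / n = ((l.drop n).length + n - 1) / n + 1 := by
    rw [List.length_drop]
    by_cases h : l.length ≤ n
    · have h1 : (l.length + n - 1) / n = 1 := Nat.div_eq_of_lt_le (by omega) (by omega)
      have h2 : (l.length - n + n - 1) / n = 0 := Nat.div_eq_of_lt (by omega)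
      omega
    · have h1 : l.length + n - 1 = (l.length - n + n - 1) + n := by omega
      rw [h1, Nat.add_div_right _ hn]
  unfold chunks
  rw [e, List.range_succ_eq_map, List.map_cons, List.map_map]
  simp only [zero_mul, List.drop_zero, List.drop_drop]
  refine congrArg _ (List.map_congr_left fun i _ => ?_)
  simp only [Function.comp_apply, Nat.succ_eq_add_one, add_mul, one_mul]
  rw [add_comm]

theorem length_chunks_le (n : ℕ) (l : List α) : (chunks n l).length ≤ l.length := by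
  rcases Nat.eq_zero_or_pos n with rfl | hn
  · simp [chunks_zero]
  · simp only [chunks, List.length_map, List.length_range]
    rcases Nat.eq_zero_or_pos l.length with h | h
    · rw [h, Nat.div_eq_of_lt (by omega)]
    · refine Nat.div_le_of_le_mul ?_
      obtain ⟨a, ha⟩ : ∃ a, l.length = a + 1 := ⟨l.length - 1, by omega⟩
      obtain ⟨b, rfl⟩ : ∃ b, n = b + 1 := ⟨n - 1, by omega⟩
      rw [ha]
      have : (b + 1) * (a + 1) = b * a + a + b + 1 := by ring
      omega

theorem chunks_of_le {n : ℕ} {l : List α} (h : l.length ≤ n) : chunks n l = chunks l.length l := by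
  by_cases hl : l = []
  · subst hl; rw [chunks_nil, chunks_nil]
  · have hlen : 0 < l.length := List.length_pos_iff.2 hl
    rw [chunks_cons (by omega) hl, chunks_cons hlen hl, List.take_of_length_le h,
      List.drop_of_length_le h, List.take_length, List.drop_length, chunks_nil, chunks_nil]

theorem chunks_flatten {n : ℕ} (hn : 0 < n) {L : List (List α)} (h : ∀ x ∈ L, x.length = n) :
    chunks n L.flatten = L := by
  induction L with
  | nil => exact chunks_nil n
  | cons x L ih =>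
    have hx : x.length = n := h x (by simp)
    have hne : (x :: L).flatten ≠ [] := by
      intro e
      have := congrArg List.length e
      simp only [List.flatten_cons, List.length_append, List.length_nil] at this
      omega
    rw [chunks_cons hn hne, List.flatten_cons, List.take_left' hx, List.drop_left' hx,
      ih fun y hy => h y (by simp [hy])]

theorem flatten_chunks {n : ℕ} (hn : 0 < n) (l : List α) : (chunks n l).flatten = l := by
  induction h : l.length using Nat.strong_induction_on generalizing l with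
  | _ k ih =>
    by_cases hl : l = []
    · subst hl; rw [chunks_nil]; rfl
    · have hlen : 0 < l.length := List.length_pos_iff.2 hl
      rw [chunks_cons hn hl, List.flatten_cons,
        ih (l.drop n).length (by rw [List.length_drop]; omega) _ rfl, List.take_append_drop]

theorem length_chunks {n k : ℕ} (hn : 0 < n) {l : List α} (h : l.length = k * n) :
    (chunks n l).length = k := by
  simp only [chunks, List.length_map, List.length_range, h]
  exact Nat.div_eq_of_lt_le (by omega) (by rw [add_mul]; omega)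

theorem length_of_mem_chunks {n k : ℕ} (hn : 0 < n) {l : List α} (h : l.length = k * n) :
    ∀ x ∈ chunks n l, x.length = n := by
  intro x hx
  have hk := length_chunks hn h
  simp only [chunks, List.length_map, List.length_range] at hk
  simp only [chunks, hk, List.mem_map, List.mem_range] at hx
  obtain ⟨i, hi, rfl⟩ := hx
  have : (i + 1) * n ≤ k * n := Nat.mul_le_mul_right _ hi
  rw [add_mul] at this
  rw [List.length_take, List.length_drop, h]
  omega

theorem mem_of_mem_chunks {n : ℕ} {l x : List α} (h : x ∈ chunks n l) : ∀ a ∈ x, a ∈ l := by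
  intro a ha
  simp only [chunks, List.mem_map] at h
  obtain ⟨i, _, rfl⟩ := h
  exact List.mem_of_mem_drop (List.mem_of_mem_take ha)

variable [Enc α] [Enc β] [Enc γ] [Enc ε] [Enc σ] [Enc ι]

theorem Cls.dom_ext {𝒯 : Cls ι} [Dom 𝒯] {G : ι → β → Prop} {B : ι → ℕ} (hB : 𝒯.mem B)
    (h : ∀ i b, 𝒯.dom i → G i b → sz b ≤ B i) : Dom (𝒯.ext G) :=
  ⟨Cls.ext_of_le (𝒯.add hB Dom.sz) fun b i hi hG => by
    have := h i b hi hG
    rw [sz_pair]; omega⟩

theorem Tm.lift {𝒯 : Cls ι} (G : ι → β → Prop) [Dom (𝒯.ext G)] {f : ι → γ} (hf : Tm 𝒯 f) :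
    Tm (𝒯.ext G) (fun p => f p.2) :=
  hf.compP Tm.id.snd (𝒯.pays_ext G)

/-- Sharing: compute `f` once, then use it under the knowledge `G`. -/
theorem Tm.letG {𝒯 : Cls ι} [Dom 𝒯] (G : ι → β → Prop) {f : ι → β} {g : β → ι → γ} (hf : Tm 𝒯 f)
    (hG : ∀ i, 𝒯.dom i → G i (f i)) (hg : Tm (𝒯.ext G) (fun p => g p.1 p.2)) :
    Tm 𝒯 (fun i => g (f i) i) :=
  Tm.let' (g := fun p => g p.1 p.2) hf hg (Cls.pays_ext' hG)

theorem sz_append (l l' : List α) : sz (l ++ l') + 2 = sz l + sz l' := sz_append' l l'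
@[simp] theorem sz_reverse (l : List α) : sz l.reverse = sz l := by
  rw [sz_list, sz_list, List.map_reverse, List.sum_reverse]
theorem sz_sublist {l l' : List α} (h : l.Sublist l') : sz l ≤ sz l' := by
  induction h with
  | slnil => exact le_rfl
  | cons a _ ih => rw [sz_cons]; omega
  | cons_cons a _ ih => rw [sz_cons, sz_cons]; omega
theorem sz_flatten (L : List (List α)) : sz L.flatten ≤ sz L := by
  have := sz_flatten' L
  omega
theorem sz_replicate (n : ℕ) (a : α) : sz (List.replicate n a) = n * sz a + 2 := by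
  rw [sz_list, List.map_replicate, List.sum_replicate, smul_eq_mul]
theorem sz_chunks (n : ℕ) (l : List α) : sz (chunks n l) ≤ 2 * sz l := by
  rcases Nat.eq_zero_or_pos n with rfl | hn
  · have := two_le_sz l
    rw [chunks_zero, sz_nil]; omega
  · have h1 := sz_flatten' (chunks n l)
    rw [flatten_chunks hn] at h1
    have h2 := length_chunks_le n l
    have h3 := length_le_sz l
    omega

/-- One round of cutting a list into pieces. -/
def chStep (q : Unit × Bool × List Unit × List α) : List (List α) × Bool × List Unit × List α :=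
  if q.2.1 = true then
    ([q.2.2.2.take q.2.2.1.length],
      (!(q.2.2.2.drop q.2.2.1.length).isEmpty, q.2.2.1, q.2.2.2.drop q.2.2.1.length))
  else ([], (false, q.2.2))

/-- The cost of one round of cutting. -/
def chCost (q : Unit × Bool × List Unit × List α) : ℕ :=
  if q.2.1 = true then sz q.2.2.1 + sz (q.2.2.2.take q.2.2.1.length) else 0

theorem ipc_chStep : Tm (ipc (chCost (α := α))) (chStep (α := α)) := by
  let τ : List Unit × List α → ℕ := fun p => sz p.1 + sz (p.2.take p.1.length)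
  have a1 : Tm (ipc τ) (fun p => (p.1, p.1, p.2)) :=
    (Tm.id.thenI (Tm.firstI (σ := List α) (Tm.dupP (𝒯 := lin (List Unit)) (big_self _ _)))
      (big_of_le 1 0 fun p _ => by simp only [τ]; omega)).assocR
  have a2 : Tm (ipc τ) (fun p => ((p.1, p.2.take p.1.length), p.2.drop p.1.length)) :=
    (a1.thenI (Tm.secondI (α := List Unit) ipc_split)
      (big_of_le 2 0 fun p _ => by simp only [τ]; omega)).assocL
  have a3 : Tm (ipc τ) (fun p => (((p.1, p.2.take p.1.length), !(p.2.drop p.1.length).isEmpty),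
      p.2.drop p.1.length)) :=
    (a2.thenI (Tm.secondI (α := List Unit × List α) (Tm.neP (𝒯 := ipc fun _ => 0)))
      (big_of_le 1 0 fun p _ => by simp only [τ, sz_pair]; omega)).assocL
  have b0 : Tm (lin ((List Unit × List α) × Bool)) (fun r => ([r.1.2], r.2, r.1.1)) :=
    (Tm.id.fst.snd.cons (Tm.const [])).pair (Tm.id.snd.pair Tm.id.fst.fst)
  have a4 : Tm (ipc τ) (fun p => (([p.2.take p.1.length], !(p.2.drop p.1.length).isEmpty, p.1),
      p.2.drop p.1.length)) :=
    a3.thenI (Tm.firstI (σ := List α) b0) (big_of_le 1 4 fun p _ => by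
      have := sz_bool (!(p.2.drop p.1.length).isEmpty)
      simp only [τ, sz_pair]; omega)
  have a5 : Tm (ipc τ) (fun p => ([p.2.take p.1.length],
      (!(p.2.drop p.1.length).isEmpty, p.1, p.2.drop p.1.length))) :=
    a4.ofEnc' fun p _ => by simp only [enc_pair, List.append_assoc]
  have a6 : Tm (ipc fun _ : List Unit × List α => 0)
      (fun p => (([] : List (List α)), (false, p))) := (Tm.id.pushI false).pushI []
  have a7 := Tm.condP (𝒯 := ipc fun s : Bool × List Unit × List α => if s.1 = true then τ s.2 else 0)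
    a5 a6 (Cls.pays_big (fun _ _ => trivial) ⟨_, big_self _ _, fun a _ h => by simp [h]⟩)
    (Cls.pays_big (fun _ _ => trivial) (Cls.const _ 0))
  have a8 : Tm (ipc (chCost (α := α))) (fun q => q.2) :=
    Tm.dropP (big_of_le 0 2 fun _ _ => by simp)
  exact a8.thenI a7 (big_self _ _)

omit [Enc α] in
theorem mapAcc_ch (F u : List Unit) (hu : u ≠ []) (r : List α) (h : r.length ≤ F.length) :
    (mapAcc chStep F (!r.isEmpty, u, r)).1.flatten = chunks u.length r := by
  have hn : 0 < u.length := List.length_pos_iff.2 hu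
  induction F generalizing r with
  | nil =>
    have : r = [] := List.length_eq_zero_iff.1 (by simpa using h)
    subst this
    simp [mapAcc, chunks_nil]
  | cons a F ih =>
    cases r with
    | nil =>
      have := ih [] (by simp)
      simpa [mapAcc, chStep] using this
    | cons b r =>
      have := ih ((b :: r).drop u.length) (by
        rw [List.length_drop]; simp only [List.length_cons] at h ⊢; omega)
      rw [chunks_cons hn (List.cons_ne_nil b r), ← this]
      simp [mapAcc, chStep]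

theorem trace_ch (F u : List Unit) (hu : u ≠ []) (r : List α) :
    ((trace chStep F (!r.isEmpty, u, r)).map chCost).sum
      ≤ if r = [] then 0 else sz r + 6 * r.length + sz u := by
  have hn : 0 < u.length := List.length_pos_iff.2 hu
  induction F generalizing r with
  | nil => simp [trace]
  | cons a F ih =>
    cases r with
    | nil =>
      have := ih []
      simpa [trace, chStep, chCost] using this
    | cons b r =>
      have h1 := ih ((b :: r).drop u.length)
      have h2 := sz_append' ((b :: r).take u.length) ((b :: r).drop u.length)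
      rw [List.take_append_drop] at h2
      have h3 := two_le_sz ((b :: r).drop u.length)
      have h4 := sz_units u
      have e : ((trace chStep (a :: F) (!(b :: r).isEmpty, u, b :: r)).map chCost).sum
          = sz u + sz ((b :: r).take u.length) + ((trace chStep F
            (!((b :: r).drop u.length).isEmpty, u, (b :: r).drop u.length)).map chCost).sum := by
        simp [trace, chStep, chCost]
      rw [e, if_neg (List.cons_ne_nil b r)]
      by_cases h5 : (b :: r).drop u.length = []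
      · rw [if_pos h5] at h1
        omega
      · rw [if_neg h5, List.length_drop] at h1
        have h6 : u.length < (b :: r).length := by
          by_contra h7
          exact h5 (List.drop_of_length_le (by omega))
        omega

theorem Tm.chunksU {𝒯 : Cls ι} [Dom 𝒯] {u : ι → List Unit} {l : ι → List α} (hu : Tm 𝒯 u)
    (hl : Tm 𝒯 l) : Tm 𝒯 (fun i => chunks (u i).length (l i)) := by
  have key : Tm (𝒯.res fun i => ¬ (u i).isEmpty = true) (fun i => chunks (u i).length (l i)) := by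
    have hu' := hu.res fun i => ¬ (u i).isEmpty = true
    have hl' := hl.res fun i => ¬ (u i).isEmpty = true
    have hne : ∀ i, (𝒯.res fun i => ¬ (u i).isEmpty = true).dom i → u i ≠ [] := fun i hi e =>
      hi.2 (by rw [e]; rfl)
    have h1 := Tm.mapAccB ipc_chStep hl'.units (hl'.nonEmpty.pair (hu'.pair hl'))
      (fun _ _ _ _ => trivial)
      (Cls.mono _ (Cls.add _ (Cls.cmul hl'.szb 4) hu'.szb) fun i hi => by
        have e := trace_ch (List.replicate (l i).length ()) (u i) (hne i hi) (l i)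
        have e2 := length_le_sz (l i)
        split_ifs at e <;> omega)
      (Cls.lin hl'.szb 3 0 fun i hi => by
        have e := sz_flatten' (P338.mapAcc chStep (List.replicate (l i).length ())
          (!(l i).isEmpty, u i, l i)).1
        rw [mapAcc_ch _ _ (hne i hi) _ (by simp), mapAcc_length, List.length_replicate] at e
        have e2 := sz_chunks (u i).length (l i)
        have e3 := length_le_sz (l i)
        omega)
    exact h1.fst.flattenL.congr fun i hi => (mapAcc_ch _ _ (hne i hi) _ (by simp)).symm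
  refine (Tm.iteR hu.isEmptyL.isTrueL (Tm.const []) key).congr fun i _ => ?_
  cases u i with
  | nil => simp [chunks_zero]
  | cons a t => simp

omit [Enc α] [Enc σ] [Enc ε] in
theorem mapAcc_fold (g : α × σ × ε → σ) (l : List α) (s : σ) (e : ε) :
    (mapAcc (fun q : α × σ × ε => ((), g q, q.2.2)) l (s, e)).2.1
      = l.foldl (fun y x => g (x, y, e)) s := by
  induction l generalizing s with
  | nil => rfl
  | cons a l ih => simp only [mapAcc, List.foldl_cons, ih]

omit [Enc α] [Enc σ] [Enc ε] in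
theorem trace_fold (g : α × σ × ε → σ) (P : α × σ × ε → Prop) (τ : α × σ × ε → ℕ) (e : ε)
    (l : List α) : ∀ (s : σ) (I : ℕ → σ → Prop) (c : ℕ → ℕ), I 0 s →
    (∀ n, ∀ x ∈ l[n]?, ∀ y, I n y → P (x, y, e) ∧ τ (x, y, e) ≤ c n ∧ I (n + 1) (g (x, y, e))) →
    (∀ q ∈ trace (fun q : α × σ × ε => ((), g q, q.2.2)) l (s, e), P q) ∧
    ((trace (fun q : α × σ × ε => ((), g q, q.2.2)) l (s, e)).map τ).sum
      ≤ ∑ n ∈ Finset.range l.length, c n := by
  induction l with
  | nil => intro s I c _ _; simp [trace]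
  | cons a l ih =>
    intro s I c h0 h1
    obtain ⟨k1, k2, k3⟩ := h1 0 a (by simp) s h0
    obtain ⟨k4, k5⟩ := ih (g (a, s, e)) (fun n => I (n + 1)) (fun n => c (n + 1)) k3
      fun n x hx y hy => h1 (n + 1) x (by simpa using hx) y hy
    refine ⟨fun q hq => ?_, ?_⟩
    · simp only [trace, List.mem_cons] at hq
      rcases hq with rfl | hq
      · exact k1
      · exact k4 q hq
    · simp only [trace, List.map_cons, List.sum_cons, List.length_cons, Finset.sum_range_succ']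
      omega

section
variable {𝒯 : Cls ι} [Dom 𝒯]

@[fun_prop] theorem Tm.headD {l : ι → List α} {d : ι → α} (hl : Tm 𝒯 l) (hd : Tm 𝒯 d) :
    Tm 𝒯 (fun i => (l i).headD (d i)) := hl.headDL hd
@[fun_prop] theorem Tm.tail {l : ι → List α} (hl : Tm 𝒯 l) : Tm 𝒯 (fun i => (l i).tail) := hl.tailL
@[fun_prop] theorem Tm.isEmpty {l : ι → List α} (hl : Tm 𝒯 l) :
    Tm 𝒯 (fun i => (l i).isEmpty) := hl.isEmptyL
@[fun_prop] theorem Tm.reverse {l : ι → List α} (hl : Tm 𝒯 l) :
    Tm 𝒯 (fun i => (l i).reverse) := hl.reverseL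
@[fun_prop] theorem Tm.append {l l' : ι → List α} (hl : Tm 𝒯 l) (hl' : Tm 𝒯 l') :
    Tm 𝒯 (fun i => l i ++ l' i) := hl.appendL hl'
@[fun_prop] theorem Tm.flatten {l : ι → List (List α)} (hl : Tm 𝒯 l) :
    Tm 𝒯 (fun i => (l i).flatten) := hl.flattenL
@[fun_prop] theorem Tm.zip {l : ι → List α} {l' : ι → List β} (hl : Tm 𝒯 l) (hl' : Tm 𝒯 l') :
    Tm 𝒯 (fun i => (l i).zip (l' i)) := hl.zipL hl'
@[fun_prop] theorem Tm.length {l : ι → List α} (hl : Tm 𝒯 l) :
    Tm 𝒯 (fun i => (l i).length) := hl.lengthL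
theorem Tm.unary {n : ι → ℕ} (hn : Tm 𝒯 n) (h : 𝒯.mem n) :
    Tm 𝒯 (fun i => List.replicate (n i) ()) := hn.unaryL h
theorem Tm.replicate {n : ι → ℕ} {x : ι → α} (hn : Tm 𝒯 n) (hx : Tm 𝒯 x)
    (h : 𝒯.mem (fun i => n i * sz (x i))) : Tm 𝒯 (fun i => List.replicate (n i) (x i)) := by
  have hn' : 𝒯.mem n := 𝒯.mono h fun i _ =>
    Nat.le_mul_of_pos_right _ (lt_of_lt_of_le two_pos (two_le_sz (x i)))
  refine (Tm.mapG (𝒮 := lin (Unit × α)) (g := fun p => p.2) Tm.id.snd (hn.unary hn') hx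
    (fun _ _ _ _ => trivial) fun T ⟨C, hC⟩ => ?_).congr fun i _ => by simp
  refine Cls.lin h (3 * C) 0 fun i _ => ?_
  have e1 := hC ((), x i) trivial
  have e2 := two_le_sz (x i)
  rw [sz_pair, sz_unit] at e1
  have e3 : T ((), x i) ≤ 3 * C * sz (x i) := by
    rw [mul_comm 3 C, mul_assoc]
    exact e1.trans (Nat.mul_le_mul_left _ (by omega))
  rw [List.map_replicate, List.sum_replicate, smul_eq_mul, add_zero, mul_left_comm]
  exact Nat.mul_le_mul_left _ e3
@[fun_prop] theorem Tm.take {n : ι → ℕ} {l : ι → List α} (hn : Tm 𝒯 n) (hl : Tm 𝒯 l) :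
    Tm 𝒯 (fun i => (l i).take (n i)) := by
  refine ((hn.umin hl).splitL hl).fst.congr fun i _ => ?_
  rcases umin_spec (n i) (l i) with h | ⟨h, h'⟩
  · rw [h]
  · rw [h, List.take_length, List.take_of_length_le h']
@[fun_prop] theorem Tm.drop {n : ι → ℕ} {l : ι → List α} (hn : Tm 𝒯 n) (hl : Tm 𝒯 l) :
    Tm 𝒯 (fun i => (l i).drop (n i)) := by
  refine ((hn.umin hl).splitL hl).snd.congr fun i _ => ?_
  rcases umin_spec (n i) (l i) with h | ⟨h, h'⟩
  · rw [h]
  · rw [h, List.drop_length, List.drop_of_length_le h']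
@[fun_prop] theorem Tm.getD {n : ι → ℕ} {l : ι → List α} {d : ι → α} (hl : Tm 𝒯 l) (hn : Tm 𝒯 n)
    (hd : Tm 𝒯 d) : Tm 𝒯 (fun i => (l i).getD (n i) (d i)) :=
  ((hn.drop hl).headD hd).congr fun i _ => by simp [List.head?_drop]
@[fun_prop] theorem Tm.chunks {n : ι → ℕ} {l : ι → List α} (hn : Tm 𝒯 n) (hl : Tm 𝒯 l) :
    Tm 𝒯 (fun i => chunks (n i) (l i)) := by
  refine ((hn.umin hl).chunksU hl).congr fun i _ => ?_
  rcases umin_spec (n i) (l i) with h | ⟨h, h'⟩
  · rw [h]
  · rw [h, chunks_of_le h']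

/-- Map with a small environment, general form. -/
theorem Tm.map {𝒮 : Cls (α × ε)} [Dom 𝒮] {g : α × ε → β} (hg : Tm 𝒮 g) {l : ι → List α}
    {e : ι → ε} (hl : Tm 𝒯 l) (he : Tm 𝒯 e) (h1 : ∀ i, 𝒯.dom i → ∀ x ∈ l i, 𝒮.dom (x, e i))
    (h2 : ∀ T, 𝒮.mem T → 𝒯.mem (fun i => ((l i).map fun x => T (x, e i)).sum)) :
    Tm 𝒯 (fun i => (l i).map fun x => g (x, e i)) := Tm.mapG hg hl he h1 h2
theorem Tm.mapB {P : α × ε → Prop} {τ : α × ε → ℕ} [Dom (big P τ)] {g : α × ε → β}
    (hg : Tm (big P τ) g) {l : ι → List α} {e : ι → ε} (hl : Tm 𝒯 l) (he : Tm 𝒯 e)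
    (h1 : ∀ i, 𝒯.dom i → ∀ x ∈ l i, P (x, e i))
    (h2 : 𝒯.mem (fun i => ((l i).map fun x => τ (x, e i)).sum)) :
    Tm 𝒯 (fun i => (l i).map fun x => g (x, e i)) :=
  Tm.map hg hl he h1 fun T ⟨C, hC⟩ =>
    𝒯.mono (𝒯.add (Cls.cmul h2 C) (Cls.cmul hl.szb C)) fun i hi => by
      have e1 := sum_le_of_big (L := l i) (T := fun x => T (x, e i)) (τ := fun x => τ (x, e i))
        (C := C) fun q hq => hC _ (h1 i hi q hq)
      have e2 := length_le_sz (l i)
      have e3 : C * (l i).length ≤ C * sz (l i) := Nat.mul_le_mul_left _ (by omega)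
      omega
/-- Uniform cost bound `c i` per element. -/
theorem Tm.mapU {P : α × ε → Prop} {τ : α × ε → ℕ} [Dom (big P τ)] {g : α × ε → β}
    (hg : Tm (big P τ) g) {l : ι → List α} {e : ι → ε} (hl : Tm 𝒯 l) (he : Tm 𝒯 e) {c : ι → ℕ}
    (h1 : ∀ i, 𝒯.dom i → ∀ x ∈ l i, P (x, e i) ∧ τ (x, e i) ≤ c i)
    (h2 : 𝒯.mem (fun i => (l i).length * c i)) :
    Tm 𝒯 (fun i => (l i).map fun x => g (x, e i)) :=
  Tm.mapB hg hl he (fun i hi x hx => (h1 i hi x hx).1)
    (𝒯.mono h2 fun i hi => sum_le_of_forall fun x hx => (h1 i hi x hx).2)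
/-- Linear time body with a small environment. -/
theorem Tm.mapL {g : α × ε → β} (hg : Tm (lin (α × ε)) g) {l : ι → List α} {e : ι → ε}
    (hl : Tm 𝒯 l) (he : Tm 𝒯 e) (h2 : 𝒯.mem (fun i => (l i).length * sz (e i))) :
    Tm 𝒯 (fun i => (l i).map fun x => g (x, e i)) :=
  Tm.mapB hg hl he (fun _ _ _ _ => trivial) (𝒯.mono (𝒯.add hl.szb h2) fun i _ => by
    have e1 := sz_list (l i)
    simp only [sz_pair, List.sum_map_add, List.map_const', List.sum_replicate, smul_eq_mul]
    omega)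
/-- Polynomial time body. -/
theorem Tm.mapP {P : α × ε → Prop} {κ : α × ε → ℕ} [Dom (poly P κ)] {g : α × ε → β}
    (hg : Tm (poly P κ) g) {l : ι → List α} {e : ι → ε} (hl : Tm 𝒯 l) (he : Tm 𝒯 e) {k : ι → ℕ}
    (h1 : ∀ i, 𝒯.dom i → ∀ x ∈ l i, P (x, e i) ∧ κ (x, e i) ≤ k i)
    (h2 : ∀ c, 𝒯.mem (fun i => (l i).length * (k i + 1) ^ c)) :
    Tm 𝒯 (fun i => (l i).map fun x => g (x, e i)) :=
  Tm.map hg hl he (fun i hi x hx => (h1 i hi x hx).1) fun T ⟨c, C, hC⟩ =>
    𝒯.mono (Cls.cmul (h2 c) C) fun i hi => by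
      rw [mul_left_comm]
      exact sum_le_of_forall fun x hx => (hC _ (h1 i hi x hx).1).trans
        (Nat.mul_le_mul_left _ (Nat.pow_le_pow_left (Nat.succ_le_succ (h1 i hi x hx).2) _))
/-- Linear time body without environment. -/
@[fun_prop] theorem Tm.map0 {g : α → β} {l : ι → List α} (hg : Tm (lin α) g) (hl : Tm 𝒯 l) :
    Tm 𝒯 (fun i => (l i).map g) := Tm.mapZ hg hl
/-- Map inside a class closed under products; the body sees the whole argument. -/
theorem Tm.mapE [Mulc 𝒯] {g : ι → α → β} {l : ι → List α} (hl : Tm 𝒯 l)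
    (hg : Dom (𝒯.ext fun i x => x ∈ l i) → Tm (𝒯.ext fun i x => x ∈ l i) (fun p => g p.2 p.1)) :
    Tm 𝒯 (fun i => (l i).map (g i)) := by
  have D : Dom (𝒯.ext fun i x => x ∈ l i) := Cls.dom_ext hl.szb fun _ _ _ hx => sz_mem hx
  refine Tm.map (hg D) hl Tm.id (fun i hi x hx => ⟨hi, hx⟩) fun T ⟨T', h1, h2⟩ => ?_
  refine 𝒯.mono (Mulc.mul hl.szb h1) fun i hi => ?_
  have e1 := length_le_sz (l i)
  exact (sum_le_of_forall fun x hx => h2 (x, i) hi hx).trans (Nat.mul_le_mul_right _ (by omega))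
theorem Tm.filterE [Mulc 𝒯] {g : ι → α → Bool} {l : ι → List α} (hl : Tm 𝒯 l)
    (hg : Dom (𝒯.ext fun i x => x ∈ l i) → Tm (𝒯.ext fun i x => x ∈ l i) (fun p => g p.2 p.1)) :
    Tm 𝒯 (fun i => (l i).filter (g i)) := by
  have h1 : Tm 𝒯 (fun i => (l i).map fun x => if g i x = true then [x] else []) :=
    Tm.mapE (g := fun i x => if g i x = true then [x] else []) hl fun D =>
      Tm.ite (hg D).isTrueL (Tm.id.fst.cons (Tm.const [])) (Tm.const [])
  refine h1.flatten.congr fun i _ => ?_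
  induction l i with
  | nil => rfl
  | cons a t ih =>
    by_cases h : g i a = true
    · simp [h, ih]
    · simp [h, ih]
@[fun_prop] theorem Tm.zipWith0 {g : α → β → γ} {l : ι → List α} {l' : ι → List β}
    (hg : Tm (lin (α × β)) (fun p => g p.1 p.2)) (hl : Tm 𝒯 l) (hl' : Tm 𝒯 l') :
    Tm 𝒯 (fun i => List.zipWith g (l i) (l' i)) :=
  (Tm.map0 hg (hl.zip hl')).congr fun i _ => by
    rw [List.zip_eq_zipWith, List.map_zipWith]
theorem Tm.zipWithU {P : (α × β) × ε → Prop} {τ : (α × β) × ε → ℕ} [Dom (big P τ)]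
    {g : ε → α → β → γ} (hg : Tm (big P τ) (fun p => g p.2 p.1.1 p.1.2)) {l : ι → List α}
    {l' : ι → List β} {e : ι → ε} (hl : Tm 𝒯 l) (hl' : Tm 𝒯 l') (he : Tm 𝒯 e) {c : ι → ℕ}
    (h1 : ∀ i, 𝒯.dom i → ∀ x ∈ l i, ∀ y ∈ l' i, P ((x, y), e i) ∧ τ ((x, y), e i) ≤ c i)
    (h2 : 𝒯.mem (fun i => (l i).length * c i)) :
    Tm 𝒯 (fun i => List.zipWith (g (e i)) (l i) (l' i)) := by
  refine (Tm.mapU hg (hl.zip hl') he (c := c) (fun i hi x hx => ?_)
    (𝒯.mono h2 fun i _ => Nat.mul_le_mul_right _ ?_)).congr fun i _ => ?_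
  · obtain ⟨k1, k2⟩ := List.of_mem_zip (a := x.1) (b := x.2) hx
    exact h1 i hi x.1 k1 x.2 k2
  · rw [List.length_zip]; exact min_le_left _ _
  · rw [List.zip_eq_zipWith, List.map_zipWith]
/-- Keep the elements at which the mask is true. -/
@[fun_prop] theorem Tm.select {l : ι → List (Bool × α)} (hl : Tm 𝒯 l) :
    Tm 𝒯 (fun i => ((l i).filter Prod.fst).map Prod.snd) := by
  have h1 : Tm (lin (Bool × α)) (fun p => if p.1 = true then [p.2] else []) :=
    Tm.ite Tm.id.fst.isTrueL (Tm.id.snd.cons (Tm.const [])) (Tm.const [])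
  refine (Tm.map0 h1 hl).flatten.congr fun i _ => ?_
  induction l i with
  | nil => rfl
  | cons a t ih =>
    by_cases h : a.1 = true
    · simp [h, ih]
    · simp [h, ih]

theorem Tm.foldlAux {P : α × σ × ε → Prop} {τ : α × σ × ε → ℕ} [Dom (big P τ)]
    {g : α × σ × ε → σ} (hg : Tm (big P τ) g) {l : ι → List α} {s : ι → σ} {e : ι → ε}
    (hl : Tm 𝒯 l) (hs : Tm 𝒯 s) (he : Tm 𝒯 e) (I : ι → ℕ → σ → Prop) {c : ι → ℕ → ℕ}
    (h0 : ∀ i, 𝒯.dom i → I i 0 (s i))
    (h1 : ∀ i, 𝒯.dom i → ∀ n, ∀ x ∈ (l i)[n]?, ∀ y, I i n y →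
      P (x, y, e i) ∧ τ (x, y, e i) ≤ c i n ∧ I i (n + 1) (g (x, y, e i)))
    (h2 : 𝒯.mem (fun i => ∑ n ∈ Finset.range (l i).length, c i n)) :
    Tm 𝒯 (fun i => (l i).foldl (fun y x => g (x, y, e i)) (s i)) := by
  have k := fun i (hi : 𝒯.dom i) =>
    trace_fold g P τ (e i) (l i) (s i) (I i) (c i) (h0 i hi) (h1 i hi)
  have key := Tm.mapAccB (step := fun q : α × σ × ε => ((), g q, q.2.2))
    ((Tm.const ()).pair (hg.pair Tm.id.snd.snd)) hl (hs.pair he) (fun i hi => (k i hi).1)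
    (𝒯.mono h2 fun i hi => (k i hi).2) (𝒯.mono hl.szb fun i _ => sz_mapAcc_unit _ _ _)
  exact key.snd.fst.congr fun i _ => (mapAcc_fold g _ _ _).symm

/-- Fold with an invariant `I` and a uniform cost bound `c i` per round. -/
theorem Tm.foldlU {P : α × σ × ε → Prop} {τ : α × σ × ε → ℕ} [Dom (big P τ)] {g : α × σ × ε → σ}
    (hg : Tm (big P τ) g) {l : ι → List α} {s : ι → σ} {e : ι → ε} (hl : Tm 𝒯 l) (hs : Tm 𝒯 s)
    (he : Tm 𝒯 e) (I : ι → σ → Prop) {c : ι → ℕ} (h0 : ∀ i, 𝒯.dom i → I i (s i))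
    (h1 : ∀ i, 𝒯.dom i → ∀ x ∈ l i, ∀ y, I i y →
      P (x, y, e i) ∧ τ (x, y, e i) ≤ c i ∧ I i (g (x, y, e i)))
    (h2 : 𝒯.mem (fun i => (l i).length * c i)) :
    Tm 𝒯 (fun i => (l i).foldl (fun y x => g (x, y, e i)) (s i)) :=
  Tm.foldlAux hg hl hs he (fun i _ => I i) (c := fun i _ => c i) h0
    (fun i hi _ x hx y hy => h1 i hi x (List.mem_of_getElem? hx) y hy)
    (𝒯.mono h2 fun i _ => by simp)
/-- The same with an invariant that depends on the number of rounds done. -/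
theorem Tm.foldlN {P : α × σ × ε → Prop} {τ : α × σ × ε → ℕ} [Dom (big P τ)] {g : α × σ × ε → σ}
    (hg : Tm (big P τ) g) {l : ι → List α} {s : ι → σ} {e : ι → ε} (hl : Tm 𝒯 l) (hs : Tm 𝒯 s)
    (he : Tm 𝒯 e) (I : ι → ℕ → σ → Prop) {c : ι → ℕ → ℕ} (h0 : ∀ i, 𝒯.dom i → I i 0 (s i))
    (h1 : ∀ i, 𝒯.dom i → ∀ n, ∀ x ∈ (l i)[n]?, ∀ y, I i n y →
      P (x, y, e i) ∧ τ (x, y, e i) ≤ c i n ∧ I i (n + 1) (g (x, y, e i)))
    (h2 : 𝒯.mem (fun i => ∑ n ∈ Finset.range (l i).length, c i n)) :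
    Tm 𝒯 (fun i => (l i).foldl (fun y x => g (x, y, e i)) (s i)) :=
  Tm.foldlAux hg hl hs he I h0 h1 h2
/-- Fold inside a class closed under products; `B` bounds the size of the state. -/
theorem Tm.foldlE [Mulc 𝒯] {g : ι → σ → α → σ} {l : ι → List α} {s : ι → σ} (hl : Tm 𝒯 l)
    (hs : Tm 𝒯 s) (I : ι → ℕ → σ → Prop) {B : ι → ℕ} (hB : 𝒯.mem B)
    (h0 : ∀ i, 𝒯.dom i → I i 0 (s i))
    (h1 : ∀ i, 𝒯.dom i → ∀ n, ∀ x ∈ (l i)[n]?, ∀ y, I i n y → I i (n + 1) (g i y x))
    (h2 : ∀ i, 𝒯.dom i → ∀ n ≤ (l i).length, ∀ y, I i n y → sz y ≤ B i)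
    (hg : Dom (𝒯.ext fun i (p : α × σ) => ∃ n, p.1 ∈ (l i)[n]? ∧ I i n p.2) →
      Tm (𝒯.ext fun i (p : α × σ) => ∃ n, p.1 ∈ (l i)[n]? ∧ I i n p.2)
        (fun p => g p.2 p.1.2 p.1.1)) :
    Tm 𝒯 (fun i => (l i).foldl (g i) (s i)) := by
  have hy : ∀ i, 𝒯.dom i → ∀ n, ∀ x ∈ (l i)[n]?, ∀ y, I i n y → sz x ≤ sz (l i) ∧ sz y ≤ B i :=
    fun i hi n x hx y hI => ⟨sz_mem (List.mem_of_getElem? hx),
      h2 i hi n (List.getElem?_eq_some_iff.1 hx).1.le y hI⟩
  have D : Dom (𝒯.ext fun i (p : α × σ) => ∃ n, p.1 ∈ (l i)[n]? ∧ I i n p.2) :=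
    Cls.dom_ext (𝒯.add hl.szb hB) fun i p hi ⟨n, k1, k2⟩ => by
      have := hy i hi n p.1 k1 p.2 k2
      rw [sz_prod]; omega
  obtain ⟨T, ⟨T', k1, k2⟩, k3⟩ := (hg D).toBig
  let P : α × σ × ι → Prop := fun q => 𝒯.dom q.2.2 ∧ ∃ n, q.1 ∈ (l q.2.2)[n]? ∧ I q.2.2 n q.2.1
  let τ : α × σ × ι → ℕ := fun q => T' q.2.2 + sz q
  have D' : Dom (big P τ) := ⟨big_of_le 1 0 fun q _ => by simp only [τ]; omega⟩
  have k4 : Tm (big P τ) (fun q => g q.2.2 q.2.1 q.1) :=
    k3.compB Tm.id.assocL (fun q hq => hq) (big_of_le 1 0 fun q hq => by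
      have := k2 ((q.1, q.2.1), q.2.2) hq.1 hq.2
      simp only [τ] at this ⊢
      omega)
  refine Tm.foldlN k4 hl hs Tm.id I (c := fun i _ => T' i + (sz (l i) + B i + sz i)) h0
    (fun i hi n x hx y hI => ⟨⟨hi, n, hx, hI⟩, ?_, h1 i hi n x hx y hI⟩) ?_
  · have := hy i hi n x hx y hI
    simp only [τ, sz_pair]
    omega
  · refine 𝒯.mono (Mulc.mul hl.szb (𝒯.add k1 (𝒯.add (𝒯.add hl.szb hB) Dom.sz))) fun i _ => ?_
    have e1 := length_le_sz (l i)
    rw [Finset.sum_const, Finset.card_range, smul_eq_mul]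
    exact Nat.mul_le_mul_right _ (by omega)

end

end Vale.Agent.P338
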