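import Vale.Agent.P338.Pack
import Vale.Agent.P338.Asym
import Vale.Agent.P338.Compile

/-! The multiplication machine. -/

namespace Vale.Agent.P338

/-- The target running time. -/
noncomputable def tgt (n : ℕ) : ℝ := n * (Real.log n) ^ (1 - (1 : ℝ) / 2 ^ 100)

theorem le_tgt {n : ℕ} (hn : 2 ≤ n) : (n : ℝ) ≤ 2 * tgt n := by
  have h2 : (2 : ℝ) ≤ n := by exact_mod_cast hn
  have h1 : (1 / 2 : ℝ) ≤ Real.log n :=
    le_trans (by have := Real.log_two_gt_d9; linarith) (Real.log_le_log (by norm_num) h2)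
  have e0 : (0 : ℝ) ≤ 1 - 1 / 2 ^ 100 := by norm_num
  have e1 : (1 : ℝ) - 1 / 2 ^ 100 ≤ 1 := by norm_num
  unfold tgt
  generalize (1 : ℝ) - 1 / 2 ^ 100 = e at *
  have h3 : (1 / 2 : ℝ) ^ e ≤ (Real.log n) ^ e := Real.rpow_le_rpow (by norm_num) h1 e0
  have h4 : (1 / 2 : ℝ) ^ (1 : ℝ) ≤ (1 / 2 : ℝ) ^ e :=
    Real.rpow_le_rpow_of_exponent_ge (by norm_num) (by norm_num) e1
  rw [Real.rpow_one] at h4
  nlinarith

/-- Costs of the target order. -/
def top : Cls (List Bool × List Bool) where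
  dom := fun p => p.2.length = p.1.length ∧ 1 ≤ p.1.length
  mem := fun T => ∃ C : ℝ, ∀ p : List Bool × List Bool, p.2.length = p.1.length →
    2 ≤ p.1.length → (T p : ℝ) ≤ C * tgt p.1.length
  const := fun c => ⟨c, fun p _ hp => by
    have h := le_tgt hp
    have h2 : (2 : ℝ) ≤ p.1.length := by exact_mod_cast hp
    exact le_mul_of_one_le_right (by positivity) (by linarith)⟩
  add := fun ⟨C, h⟩ ⟨D, h'⟩ => ⟨C + D, fun p h1 h2 => by
    have := h p h1 h2; have := h' p h1 h2; push_cast; rw [add_mul]; linarith⟩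
  mono := fun ⟨C, h⟩ h' => ⟨C, fun p h1 h2 =>
    le_trans (by exact_mod_cast h' p ⟨h1, by omega⟩) (h p h1 h2)⟩

theorem top_len : top.mem fun p => p.1.length := ⟨2, fun _ _ h => le_tgt h⟩

theorem sz_bits (x : List Bool) : sz x ≤ x.length * 4 + 2 :=
  sz_le_of_forall x fun a _ => sz_bool a

instance : Dom top := ⟨Cls.lin top_len 8 4 fun p hp => by
  have h1 := sz_bits p.1
  have h2 := sz_bits p.2
  have h3 := hp.1
  rw [sz_prod]; omega⟩

theorem size_pow_le (c : ℕ) : ∃ C, ∀ n : ℕ, (n.size + 1) ^ c ≤ C * n + C := by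
  refine ⟨4 ^ c * (c + 1) ^ c, fun n => ?_⟩
  rcases Nat.eq_zero_or_pos n with rfl | hn
  · simpa using Nat.one_le_iff_ne_zero.2 (by positivity)
  have h1 : 2 ^ (n.size - 1) ≤ n := Nat.lt_size.1 (by have := Nat.size_pos.2 hn; omega)
  have h0 := Nat.size_pos.2 hn
  generalize n.size = k at *
  have h2 : (k - 1) / (c + 1) < 2 ^ ((k - 1) / (c + 1)) := Nat.lt_two_pow_self
  have h3 : k - 1 < (c + 1) * ((k - 1) / (c + 1) + 1) := Nat.lt_mul_div_succ _ (by omega)
  have h4 : (k - 1) / (c + 1) * c ≤ k - 1 :=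
    le_trans (Nat.mul_le_mul_left _ (Nat.le_succ c)) (Nat.div_mul_le_self _ _)
  generalize (k - 1) / (c + 1) = u at *
  have h5 : k + 1 ≤ 4 * (c + 1) * 2 ^ u := by
    have : (c + 1) * (u + 1) ≤ (c + 1) * 2 ^ u := Nat.mul_le_mul_left (c + 1) h2
    have h6 : 0 < (c + 1) * 2 ^ u := by positivity
    rw [mul_assoc]; omega
  calc (k + 1) ^ c ≤ (4 * (c + 1) * 2 ^ u) ^ c := Nat.pow_le_pow_left h5 c
    _ = 4 ^ c * (c + 1) ^ c * 2 ^ (u * c) := by rw [mul_pow, mul_pow, pow_mul]
    _ ≤ 4 ^ c * (c + 1) ^ c * n :=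
      Nat.mul_le_mul_left _ ((Nat.pow_le_pow_right two_pos h4).trans h1)
    _ ≤ _ := Nat.le_add_right _ _

theorem top_mul : Tm top fun p => val p.1 * val p.2 := by
  obtain ⟨C, n0, cf, hcf, hfit⟩ := exists_params
  obtain ⟨C', hC'⟩ := cost_bound C
  have hc : Tm top fun p => n0 ≤ p.1.length := by fun_prop
  have hx : Tm top fun p => val p.1 := Tm.val (by fun_prop)
  have hy : Tm top fun p => val p.2 := Tm.val (by fun_prop)
  have big1 : Tm (top.res fun p => n0 ≤ p.1.length) fun p => val p.1 * val p.2 := by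
    have h1 : Tm (top.res fun p => n0 ≤ p.1.length) fun p => cf p.1.length := by
      refine hcf.compP (f := fun p : List Bool × List Bool => p.1.length) (by fun_prop)
        (Cls.pays_poly (fun p hp => hp.2) fun c => ?_)
      obtain ⟨D, hD⟩ := size_pow_le c
      exact Cls.res_mem (Cls.lin top_len D D fun p _ => hD _)
    refine Tm.fastmul h1 (hx.res _) (hy.res _) (fun p hp => ?_) ?_
    · have hf := hfit _ hp.2
      refine ⟨hf.ok, (val_lt _).trans_le (Nat.pow_le_pow_right two_pos hf.room),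
        (val_lt _).trans_le (Nat.pow_le_pow_right two_pos ?_)⟩
      rw [hp.1.1]; exact hf.room
    · refine ⟨fun p => if n0 ≤ p.1.length then (cf p.1.length).E * (cf p.1.length).R *
        (cf p.1.length).R * (cf p.1.length).R * (cf p.1.length).tc else 0,
        ⟨max C' 0, fun p _ h2 => ?_⟩, fun p _ hq => by simp only [hq, if_true]; exact le_rfl⟩
      have h3 : 0 ≤ tgt p.1.length := by
        have := le_tgt h2
        have : (0 : ℝ) ≤ p.1.length := by positivity
        linarith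
      beta_reduce
      split_ifs with hq
      · refine (hC' _ _ h2 (hfit _ hq)).trans ?_
        rw [mul_assoc]
        exact mul_le_mul_of_nonneg_right (le_max_left _ _) h3
      · simpa using mul_nonneg (le_max_right C' 0) h3
  have small : Tm (top.res fun p => ¬ n0 ≤ p.1.length) fun p => val p.1 * val p.2 := by
    refine Tm.mulR (hx.res _) (hy.res _) (Cls.mono _ (Cls.const _ (2 ^ n0 * (n0 + n0))) ?_)
    intro p hp
    have h1 : val p.1 < 2 ^ n0 :=
      (val_lt _).trans_le (Nat.pow_le_pow_right two_pos (by have := hp.2; omega))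
    have h2 : val p.2 < 2 ^ n0 :=
      (val_lt _).trans_le (Nat.pow_le_pow_right two_pos (by have := hp.2; have := hp.1.1; omega))
    exact Nat.mul_le_mul h1.le (Nat.add_le_add (Nat.size_le.2 h1) (Nat.size_le.2 h2))
  exact (hc.iteR big1 small).congr fun p _ => (ite_self _).symm

theorem exists_machine : ∃ A : TM, A.Multiplies ∧ ∃ C : ℝ, ∀ n : ℕ, 2 ≤ n →
    (A.T n : ℝ) ≤ C * tgt n := by
  have h : Tm top fun p => bin (2 * p.1.length) (val p.1 * val p.2) :=
    Tm.bin (by fun_prop) top_mul (Cls.cmul top_len 2)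
  obtain ⟨A, T, c, hT, hA⟩ := h.machine
  obtain ⟨C, hC⟩ : top.mem fun p => c * (T p + p.1.length + p.1.length + 1) :=
    Cls.cmul (top.add (top.add (top.add hT top_len) top_len) (top.const 1)) c
  refine ⟨A, fun n hn x y hx hy => ?_, C, fun n hn => ?_⟩
  · obtain ⟨t, -, h1, h2⟩ := hA x y ⟨hy.trans hx.symm, hx ▸ hn⟩
    exact ⟨t, h1, by rw [h2]; simp only [hx]⟩
  · obtain ⟨p, -, hp⟩ := Finset.exists_mem_eq_sup (Finset.univ : Finset ((Fin n → Bool) ×
      (Fin n → Bool))) Finset.univ_nonempty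
      fun p => A.time (inputWord (List.ofFn p.1) (List.ofFn p.2))
    rw [TM.T, hp]
    obtain ⟨t, h0, h1, -⟩ := hA (List.ofFn p.1) (List.ofFn p.2) ⟨by simp, by simp; omega⟩
    have h2 := hC (List.ofFn p.1, List.ofFn p.2) (by simp) (by simpa using hn)
    have h3 : A.time (inputWord (List.ofFn p.1) (List.ofFn p.2)) ≤ t := Nat.sInf_le h1
    simp only [List.length_ofFn] at h0 h2
    exact le_trans (by exact_mod_cast h3.trans h0) h2

theorem not_lower {T : ℕ → ℕ} {C c : ℝ} {N : ℕ} (hc : 0 < c)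
    (h1 : ∀ n : ℕ, 2 ≤ n → (T n : ℝ) ≤ C * tgt n)
    (h2 : ∀ n : ℕ, N ≤ n → c * n * Real.log n ≤ T n) : False := by
  have e0 : (0 : ℝ) < 1 / 2 ^ 100 := by positivity
  unfold tgt at h1
  generalize (1 : ℝ) / 2 ^ 100 = e at *
  have h3 : Filter.Tendsto (fun n : ℕ => (Real.log n) ^ e) Filter.atTop Filter.atTop :=
    (tendsto_rpow_atTop e0).comp (Real.tendsto_log_atTop.comp tendsto_natCast_atTop_atTop)
  obtain ⟨n, h4, h5, h6⟩ := ((h3.eventually_gt_atTop (C / c)).and
    ((Filter.eventually_ge_atTop 2).and (Filter.eventually_ge_atTop N))).exists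
  have h7 : (2 : ℝ) ≤ n := by exact_mod_cast h5
  have h8 : 0 < Real.log n := Real.log_pos (by linarith)
  have h9 : Real.log n = Real.log n ^ e * Real.log n ^ (1 - e) := by
    rw [← Real.rpow_add h8]; simp
  have h10 : 0 < (n : ℝ) * Real.log n ^ (1 - e) := by positivity
  have h11 := (h2 n h6).trans (h1 n h5)
  rw [div_lt_iff₀ hc] at h4
  have h12 := mul_lt_mul_of_pos_right h4 h10
  have h13 : c * n * Real.log n = Real.log n ^ e * c * (n * Real.log n ^ (1 - e)) := by
    conv_lhs => rw [h9]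
    ring
  linarith

end Vale.Agent.P338
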