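import Vale.Agent.P338.ListOps

/-! Arithmetic in linear time. -/

namespace Vale.Agent.P338

/-- Value of a list of bits, least significant bit first. -/
def ofB (l : List Bool) : ℕ := l.foldr Nat.bit 0

@[simp] theorem ofB_nil : ofB [] = 0 := rfl
theorem ofB_cons (b : Bool) (l : List Bool) : ofB (b :: l) = 2 * ofB l + b.toNat :=
  Nat.bit_val b (ofB l)

theorem ofB_bits (n : ℕ) : ofB n.bits = n := by
  induction n using Nat.binaryRec' with
  | zero => rfl
  | bit b n h ih => rw [Nat.bits_append_bit n b h]; exact congrArg (Nat.bit b) ih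
theorem ofB_lt (l : List Bool) : ofB l < 2 ^ l.length := by
  induction l with
  | nil => simp
  | cons b l ih =>
    have := Bool.toNat_le b
    rw [ofB_cons, List.length_cons, pow_succ]; omega
theorem ofB_append (l l' : List Bool) : ofB (l ++ l') = ofB l + 2 ^ l.length * ofB l' := by
  induction l with
  | nil => simp
  | cons b l ih => rw [List.cons_append, ofB_cons, ofB_cons, ih, List.length_cons]; ring
theorem testBit_ofB (l : List Bool) (j : ℕ) : (ofB l).testBit j = l.getD j false := by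
  induction l generalizing j with
  | nil => simp
  | cons b l ih =>
    change (Nat.bit b (ofB l)).testBit j = _
    cases j with
    | zero => simp
    | succ j => rw [Nat.testBit_bit_succ, ih]; simp

theorem ofB_false {β : Type} (l : List β) : ofB (l.map fun _ => false) = 0 := by
  induction l with
  | nil => rfl
  | cons b l ih => rw [List.map_cons, ofB_cons, ih]; rfl

theorem ofB_drop (l : List Bool) (k : ℕ) : ofB (l.drop k) = ofB l / 2 ^ k :=
  Nat.eq_of_testBit_eq fun j => by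
    rw [Nat.testBit_div_two_pow, testBit_ofB, testBit_ofB]
    simp [List.getD_eq_getElem?_getD, add_comm]

theorem ofB_take (l : List Bool) (k : ℕ) : ofB (l.take k) = ofB l % 2 ^ k :=
  Nat.eq_of_testBit_eq fun j => by
    rw [Nat.testBit_mod_two_pow, testBit_ofB, testBit_ofB]
    by_cases h : j < k <;> simp [List.getD_eq_getElem?_getD, h]

theorem bits_ofB_true (l : List Bool) : (ofB (l ++ [true])).bits = l ++ [true] := by
  induction l with
  | nil => rfl
  | cons b l ih =>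
    change (Nat.bit b (ofB (l ++ [true]))).bits = _
    rw [Nat.bits_append_bit _ _ fun h => ?_, ih, List.cons_append]
    rw [h] at ih
    simp at ih

/-- Marks the bits from the first true one on. -/
def stripSt (q : Bool × Bool) : (Bool × Bool) × Bool := ((q.1 || q.2, q.1), q.1 || q.2)

theorem strip_true (r : List Bool) :
    ((mapAcc stripSt r true).1.filter Prod.fst).map Prod.snd = r := by
  induction r with
  | nil => rfl
  | cons b r ih => simpa [mapAcc, stripSt] using ih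

theorem strip_false (r : List Bool) :
    (((mapAcc stripSt r false).1.filter Prod.fst).map Prod.snd).reverse = (ofB r.reverse).bits := by
  induction r with
  | nil => rfl
  | cons b r ih =>
    cases b
    · rw [List.reverse_cons, ofB_append]
      simpa [mapAcc, stripSt, ofB_cons] using ih
    · rw [List.reverse_cons, bits_ofB_true]
      simp [mapAcc, stripSt, strip_true]

/-- Full adder. -/
def addSt (q : (Bool × Bool) × Bool) : Bool × Bool :=
  (xor (xor q.1.1 q.1.2) q.2, (q.1.1 && q.1.2) || (q.2 && (q.1.1 || q.1.2)))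

/-- Full subtractor. -/
def subSt (q : (Bool × Bool) × Bool) : Bool × Bool :=
  (xor (xor q.1.1 q.1.2) q.2, (!q.1.1 && q.1.2) || (q.2 && (!q.1.1 || q.1.2)))

theorem nl_length_mapAcc {α β σ : Type} (step : α × σ → β × σ) (l : List α) (s : σ) :
    (mapAcc step l s).1.length = l.length := by
  induction l generalizing s with
  | nil => rfl
  | cons a l ih => simp [mapAcc, ih]

theorem nl_length_trace {α β σ : Type} (step : α × σ → β × σ) (l : List α) (s : σ) :
    (trace step l s).length = l.length := by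
  induction l generalizing s with
  | nil => rfl
  | cons a l ih => simp [trace, ih]

theorem nl_mapAcc_fst {α β σ : Type} (step : α × σ → β × σ) (l : List α) (s : σ) :
    (mapAcc step l s).1 = (trace step l s).map fun q => (step q).1 := by
  induction l generalizing s with
  | nil => rfl
  | cons a l ih => simp [mapAcc, trace, ih]

theorem add_spec (L : List (Bool × Bool)) (c : Bool) :
    ofB ((mapAcc addSt L c).1 ++ [(mapAcc addSt L c).2]) =
      ofB (L.map Prod.fst) + ofB (L.map Prod.snd) + c.toNat := by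
  induction L generalizing c with
  | nil => simp [mapAcc, ofB_cons]
  | cons a L ih =>
    obtain ⟨a, b⟩ := a
    simp only [mapAcc, List.cons_append, ofB_cons, ih, List.map_cons]
    cases a <;> cases b <;> cases c <;> simp [addSt] <;> omega

theorem sub_spec (L : List (Bool × Bool)) (c : Bool) :
    ofB (mapAcc subSt L c).1 + ofB (L.map Prod.snd) + c.toNat =
      ofB (L.map Prod.fst) + 2 ^ L.length * (mapAcc subSt L c).2.toNat := by
  induction L generalizing c with
  | nil => simp [mapAcc]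
  | cons a L ih =>
    obtain ⟨a, b⟩ := a
    have := ih (subSt ((a, b), c)).2
    simp only [mapAcc, ofB_cons, List.map_cons, List.length_cons, pow_succ', mul_assoc]
    generalize 2 ^ L.length * (mapAcc subSt L (subSt ((a, b), c)).2).2.toNat = t at this ⊢
    generalize ofB (mapAcc subSt L (subSt ((a, b), c)).2).1 = u at this ⊢
    cases a <;> cases b <;> cases c <;> simp [subSt] at this ⊢ <;> omega

theorem xor_spec (L : List (Bool × Bool)) :
    ofB (L.map fun p => xor p.1 p.2) = ofB (L.map Prod.fst) ^^^ ofB (L.map Prod.snd) := by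
  induction L with
  | nil => simp
  | cons a L ih =>
    change Nat.bit _ (ofB _) = Nat.bit _ (ofB _) ^^^ Nat.bit _ (ofB _)
    rw [Nat.xor_bit, ih]

/-- The bits of two numbers side by side. -/
def bits2 (a b : ℕ) : List (Bool × Bool) :=
  (a.bits ++ b.bits.map fun _ => false).zip (b.bits ++ a.bits.map fun _ => false)

theorem bits2_fst (a b : ℕ) : ofB ((bits2 a b).map Prod.fst) = a := by
  rw [bits2, List.map_fst_zip (by simp; omega), ofB_append, ofB_false, ofB_bits]; rfl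

theorem bits2_snd (a b : ℕ) : ofB ((bits2 a b).map Prod.snd) = b := by
  rw [bits2, List.map_snd_zip (by simp; omega), ofB_append, ofB_false, ofB_bits]; rfl

theorem sub_eq_scan (a b : ℕ) : a - b =
    if (mapAcc subSt (bits2 a b) false).2 = true then 0
    else ofB (mapAcc subSt (bits2 a b) false).1 := by
  have h := sub_spec (bits2 a b) false
  have h2 := ofB_lt (mapAcc subSt (bits2 a b) false).1
  rw [bits2_fst, bits2_snd] at h
  rw [nl_length_mapAcc] at h2
  cases hc : (mapAcc subSt (bits2 a b) false).2 <;> simp [hc] at h ⊢ <;> omega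

/-- Counting loop. -/
def nlCnt (q : Unit × ℕ) : ℕ × ℕ := (q.2, q.2 + 1)

theorem nlCnt_trace (n s : ℕ) :
    trace nlCnt (List.replicate n ()) s = (List.range' s n).map fun k => ((), k) := by
  induction n generalizing s with
  | zero => rfl
  | succ n ih => simp [List.replicate_succ, trace, nlCnt, List.range'_succ, ← ih]

theorem nlCnt_spec (n : ℕ) : (mapAcc nlCnt (List.replicate n ()) 0).1 = List.range n := by
  rw [nl_mapAcc_fst, nlCnt_trace, List.range_eq_range']
  simp [nlCnt, Function.comp_def]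

theorem foldl_add_replicate (n g s : ℕ) :
    (List.replicate n ()).foldl (fun y _ => y + g) s = s + n * g := by
  induction n generalizing s with
  | zero => simp
  | succ n ih => rw [List.replicate_succ, List.foldl_cons, ih]; ring

theorem le_mul_size (n : ℕ) : n ≤ n * n.size := by
  rcases n.eq_zero_or_pos with rfl | h
  · simp
  · exact Nat.le_mul_of_pos_right _ (Nat.size_pos.2 h)

theorem nl_sum_map_le {β : Type} (l : List β) (T : β → ℕ) {c : ℕ} (h : ∀ q ∈ l, T q ≤ c) :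
    (l.map T).sum ≤ l.length * c := by
  simpa using List.sum_le_card_nsmul (l.map T) c (by simpa using h)

variable {α β σ ι : Type} [Enc α] [Enc β] [Enc σ] [Enc ι] {𝒯 : Cls ι} [Dom 𝒯]

omit [Dom 𝒯] in
@[fun_prop] theorem Tm.isTrue {u : ι → Bool} (hu : Tm 𝒯 u) : Tm 𝒯 (fun i => u i = true) :=
  hu.ofEnc' fun i _ => by rw [enc_prop]; simp

theorem Tm.boolCases {u : ι → Bool} (g : Bool → ι → β) (hu : Tm 𝒯 u) (hg : ∀ b, Tm 𝒯 (g b)) :
    Tm 𝒯 (fun i => g (u i) i) :=
  (hu.isTrue.ite (hg true) (hg false)).congr fun i _ => by cases u i <;> simp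

theorem Tm.bool2 {u v : ι → Bool} (g : Bool → Bool → β) (hu : Tm 𝒯 u) (hv : Tm 𝒯 v) :
    Tm 𝒯 (fun i => g (u i) (v i)) :=
  Tm.boolCases (fun a i => g a (v i)) hu fun a =>
    Tm.boolCases (fun b _ => g a b) hv fun _ => Tm.const _

theorem Tm.bool3 {u v w : ι → Bool} (g : Bool → Bool → Bool → β) (hu : Tm 𝒯 u) (hv : Tm 𝒯 v)
    (hw : Tm 𝒯 w) : Tm 𝒯 (fun i => g (u i) (v i) (w i)) :=
  Tm.boolCases (fun a i => g a (v i) (w i)) hu fun a => Tm.bool2 (g a) hv hw

/-- A loop with bounded letters and states. -/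
theorem Tm.scanB {step : α × σ → β × σ} (hs : Tm (lin (α × σ)) step) {B : ℕ}
    (hB : ∀ q : α × σ, sz q ≤ B) {l : ι → List α} (hl : Tm 𝒯 l) (s : σ) :
    Tm 𝒯 (fun i => P338.mapAcc step (l i) s) := by
  have key : ∀ T, (lin (α × σ)).mem T → 𝒯.mem fun i => ((trace step (l i) s).map T).sum :=
    fun T ⟨C, hC⟩ => Cls.lin hl.szb (C * (B + 1)) 0 fun i _ => by
      have h1 := nl_sum_map_le (trace step (l i) s) T (c := C * (B + 1)) fun q _ =>
        (hC q trivial).trans (Nat.mul_le_mul_left _ (Nat.succ_le_succ (hB q)))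
      have h2 := length_le_sz (l i)
      rw [nl_length_trace, mul_comm] at h1
      exact h1.trans (Nat.mul_le_mul_left _ (by omega))
  refine Tm.mapAcc hs hl (Tm.const s) (fun _ _ _ _ => trivial) key ?_
  refine Cls.lin (key _ hs.fst.szb) 1 2 fun i _ => ?_
  rw [nl_mapAcc_fst, sz_list, List.map_map, one_mul]
  rfl

theorem nl_sz_bool2 (q : Bool × Bool) : sz q ≤ 8 := by
  have := sz_bool q.1; have := sz_bool q.2; rw [sz_prod]; omega
theorem nl_sz_bool3 (q : (Bool × Bool) × Bool) : sz q ≤ 12 := by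
  have := nl_sz_bool2 q.1; have := sz_bool q.2; rw [sz_prod]; omega

theorem lin_bool2 (g : Bool × Bool → β) : Tm (lin (Bool × Bool)) g :=
  Tm.bool2 (fun a b => g (a, b)) Tm.id.fst Tm.id.snd
theorem lin_bool3 (g : (Bool × Bool) × Bool → β) : Tm (lin ((Bool × Bool) × Bool)) g :=
  Tm.bool3 (fun a b c => g ((a, b), c)) Tm.id.fst.fst Tm.id.fst.snd Tm.id.snd

section lin
variable {f g : ι → ℕ} {c d : ι → Prop} {x y : ι → ℤ}

omit [Dom 𝒯] in
@[fun_prop] theorem Tm.bits (hf : Tm 𝒯 f) : Tm 𝒯 (fun i => (f i).bits) :=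
  hf.ofEnc' fun _ _ => rfl
@[fun_prop] theorem Tm.ofB {l : ι → List Bool} (hl : Tm 𝒯 l) : Tm 𝒯 (fun i => ofB (l i)) :=
  (Tm.scanB (lin_bool2 stripSt) nl_sz_bool2 hl.reverse false).fst.select.reverse.ofEnc' fun i _ => by
    rw [strip_false, List.reverse_reverse]; rfl
@[fun_prop] theorem Tm.size (hf : Tm 𝒯 f) : Tm 𝒯 (fun i => (f i).size) :=
  hf.bits.length.congr fun _ _ => (Nat.size_eq_bits_len _).symm
theorem Tm.bits2 (hf : Tm 𝒯 f) (hg : Tm 𝒯 g) : Tm 𝒯 (fun i => bits2 (f i) (g i)) :=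
  (hf.bits.append (Tm.map0 (Tm.const _) hg.bits)).zip
    (hg.bits.append (Tm.map0 (Tm.const _) hf.bits))
@[fun_prop] theorem Tm.add (hf : Tm 𝒯 f) (hg : Tm 𝒯 g) : Tm 𝒯 (fun i => f i + g i) := by
  have h := Tm.scanB (lin_bool3 addSt) nl_sz_bool3 (hf.bits2 hg) false
  exact (h.fst.append (h.snd.cons (Tm.const []))).ofB.congr fun i _ => by
    rw [add_spec, bits2_fst, bits2_snd]; rfl
@[fun_prop] theorem Tm.sub (hf : Tm 𝒯 f) (hg : Tm 𝒯 g) : Tm 𝒯 (fun i => f i - g i) := by
  have h := Tm.scanB (lin_bool3 subSt) nl_sz_bool3 (hf.bits2 hg) false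
  exact (h.snd.isTrue.ite (Tm.const 0) h.fst.ofB).congr fun i _ => sub_eq_scan _ _
@[fun_prop] theorem Tm.xor (hf : Tm 𝒯 f) (hg : Tm 𝒯 g) : Tm 𝒯 (fun i => f i ^^^ g i) :=
  (Tm.map0 (lin_bool2 fun p => Bool.xor p.1 p.2) (hf.bits2 hg)).ofB.congr fun i _ => by
    rw [xor_spec, bits2_fst, bits2_snd]
theorem Tm.isZero (hf : Tm 𝒯 f) : Tm 𝒯 (fun i => f i = 0) :=
  hf.bits.isEmpty.isTrue.congr fun i _ => propext (by
    rw [List.isEmpty_iff, ← List.length_eq_zero_iff, Nat.size_eq_bits_len, Nat.size_eq_zero])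
@[fun_prop] theorem Tm.and (hc : Tm 𝒯 c) (hd : Tm 𝒯 d) : Tm 𝒯 (fun i => c i ∧ d i) := by
  classical
  exact (hc.ite hd (Tm.const False)).congr fun i _ => by by_cases h : c i <;> simp [h]
@[fun_prop] theorem Tm.or (hc : Tm 𝒯 c) (hd : Tm 𝒯 d) : Tm 𝒯 (fun i => c i ∨ d i) := by
  classical
  exact (hc.ite (Tm.const True) hd).congr fun i _ => by by_cases h : c i <;> simp [h]
@[fun_prop] theorem Tm.not (hc : Tm 𝒯 c) : Tm 𝒯 (fun i => ¬ c i) := by
  classical
  exact (hc.ite (Tm.const False) (Tm.const True)).congr fun i _ => by by_cases h : c i <;> simp [h]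
@[fun_prop] theorem Tm.le (hf : Tm 𝒯 f) (hg : Tm 𝒯 g) : Tm 𝒯 (fun i => f i ≤ g i) :=
  (hf.sub hg).isZero.congr fun _ _ => propext Nat.sub_eq_zero_iff_le.symm
@[fun_prop] theorem Tm.lt (hf : Tm 𝒯 f) (hg : Tm 𝒯 g) : Tm 𝒯 (fun i => f i < g i) :=
  (hg.le hf).not.congr fun _ _ => propext not_le.symm
@[fun_prop] theorem Tm.eq (hf : Tm 𝒯 f) (hg : Tm 𝒯 g) : Tm 𝒯 (fun i => f i = g i) :=
  ((hf.le hg).and (hg.le hf)).congr fun _ _ => propext le_antisymm_iff
@[fun_prop] theorem Tm.ne (hf : Tm 𝒯 f) (hg : Tm 𝒯 g) : Tm 𝒯 (fun i => f i ≠ g i) :=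
  (hf.eq hg).not
@[fun_prop] theorem Tm.min (hf : Tm 𝒯 f) (hg : Tm 𝒯 g) : Tm 𝒯 (fun i => min (f i) (g i)) :=
  ((hf.le hg).ite hf hg).congr fun _ _ => min_def _ _
@[fun_prop] theorem Tm.max (hf : Tm 𝒯 f) (hg : Tm 𝒯 g) : Tm 𝒯 (fun i => max (f i) (g i)) :=
  ((hf.le hg).ite hg hf).congr fun _ _ => max_def _ _
@[fun_prop] theorem Tm.eqBool {u v : ι → Bool} (hu : Tm 𝒯 u) (hv : Tm 𝒯 v) :
    Tm 𝒯 (fun i => u i = v i) := Tm.bool2 (fun a b => a = b) hu hv
@[fun_prop] theorem Tm.toNatB {u : ι → Bool} (hu : Tm 𝒯 u) : Tm 𝒯 (fun i => (u i).toNat) :=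
  Tm.boolCases (fun a _ => a.toNat) hu fun _ => Tm.const _
@[fun_prop] theorem Tm.testBit (hf : Tm 𝒯 f) (hg : Tm 𝒯 g) :
    Tm 𝒯 (fun i => (f i).testBit (g i)) :=
  (hf.bits.getD hg (Tm.const false)).congr fun i _ => by rw [← testBit_ofB, ofB_bits]
@[fun_prop] theorem Tm.shr (hf : Tm 𝒯 f) (hg : Tm 𝒯 g) : Tm 𝒯 (fun i => f i / 2 ^ g i) :=
  (hg.drop hf.bits).ofB.congr fun i _ => by rw [ofB_drop, ofB_bits]
@[fun_prop] theorem Tm.low (hf : Tm 𝒯 f) (hg : Tm 𝒯 g) : Tm 𝒯 (fun i => f i % 2 ^ g i) :=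
  (hg.take hf.bits).ofB.congr fun i _ => by rw [ofB_take, ofB_bits]
@[fun_prop] theorem Tm.half (hf : Tm 𝒯 f) : Tm 𝒯 (fun i => f i / 2) :=
  (hf.shr (Tm.const 1)).congr fun _ _ => by rw [pow_one]
@[fun_prop] theorem Tm.par (hf : Tm 𝒯 f) : Tm 𝒯 (fun i => f i % 2) :=
  (hf.low (Tm.const 1)).congr fun _ _ => by rw [pow_one]
theorem Tm.cmul (c : ℕ) (hf : Tm 𝒯 f) : Tm 𝒯 (fun i => c * f i) := by
  induction c with
  | zero => exact (Tm.const 0).congr fun _ _ => zero_mul _
  | succ c ih => exact (ih.add hf).congr fun _ _ => Nat.succ_mul _ _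
@[fun_prop] theorem Tm.dbl (hf : Tm 𝒯 f) : Tm 𝒯 (fun i => 2 * f i) := Tm.cmul 2 hf
@[fun_prop] theorem Tm.shlU {u : ι → List Unit} (hf : Tm 𝒯 f) (hu : Tm 𝒯 u) :
    Tm 𝒯 (fun i => f i * 2 ^ (u i).length) :=
  ((Tm.map0 (Tm.const false) hu).append hf.bits).ofB.congr fun i _ => by
    rw [ofB_append, ofB_false, ofB_bits, List.length_map, zero_add, mul_comm]
@[fun_prop] theorem Tm.pow2U {u : ι → List Unit} (hu : Tm 𝒯 u) :
    Tm 𝒯 (fun i => 2 ^ (u i).length) :=
  ((Tm.const 1).shlU hu).congr fun _ _ => (one_mul _).symm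
theorem Tm.shl (hf : Tm 𝒯 f) (hg : Tm 𝒯 g) (h : 𝒯.mem g) : Tm 𝒯 (fun i => f i * 2 ^ g i) :=
  (hf.shlU (hg.unary h)).congr fun _ _ => by rw [List.length_replicate]
theorem Tm.pow2 (hg : Tm 𝒯 g) (h : 𝒯.mem g) : Tm 𝒯 (fun i => 2 ^ g i) :=
  (hg.unary h).pow2U.congr fun _ _ => by rw [List.length_replicate]
theorem Tm.range (hf : Tm 𝒯 f) (h : 𝒯.mem (fun i => f i * (f i).size)) :
    Tm 𝒯 (fun i => List.range (f i)) := by
  have hm : 𝒯.mem f := 𝒯.mono h fun i _ => le_mul_size _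
  have hs : Tm (lin (Unit × ℕ)) nlCnt := Tm.id.snd.pair (Tm.id.snd.add (Tm.const 1))
  have key : ∀ T, (lin (Unit × ℕ)).mem T →
      𝒯.mem fun i => ((trace nlCnt (List.replicate (f i) ()) 0).map T).sum :=
    fun T ⟨C, hC⟩ => Cls.lin h (9 * C) 0 fun i _ => by
      have h1 := nl_sum_map_le (trace nlCnt (List.replicate (f i) ()) 0) T
        (c := C * (4 * (f i).size + 5)) fun q hq => by
          refine (hC q trivial).trans (Nat.mul_le_mul_left _ ?_)
          rw [nlCnt_trace] at hq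
          obtain ⟨k, hk, rfl⟩ := List.mem_map.1 hq
          have := sz_nat_lt (n := k) (b := (f i).size)
            (lt_trans (by simpa using hk) (Nat.lt_size_self _))
          simp; omega
      have h2 := Nat.mul_le_mul_left C (le_mul_size (f i))
      rw [nl_length_trace, List.length_replicate] at h1
      nlinarith
  refine (Tm.mapAcc hs (hf.unary hm) (Tm.const 0) (fun _ _ _ _ => trivial) key ?_).fst.congr
    fun i _ => (nlCnt_spec _).symm
  refine Cls.lin (key _ hs.fst.szb) 1 2 fun i _ => ?_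
  rw [nl_mapAcc_fst, sz_list, List.map_map, one_mul]
  rfl
/-- Product by repeated addition. -/
theorem Tm.mulR (hf : Tm 𝒯 f) (hg : Tm 𝒯 g)
    (h : 𝒯.mem (fun i => f i * ((f i).size + (g i).size))) : Tm 𝒯 (fun i => f i * g i) := by
  have hle : ∀ i, f i ≤ f i * ((f i).size + (g i).size) := fun i =>
    (le_mul_size _).trans (Nat.mul_le_mul_left _ (Nat.le_add_right _ _))
  have hm : 𝒯.mem f := 𝒯.mono h fun i _ => hle i
  have hs : Tm (lin (Unit × ℕ × ℕ)) (fun q => q.2.1 + q.2.2) := Tm.id.snd.fst.add Tm.id.snd.snd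
  refine (Tm.foldlN hs (hf.unary hm) (Tm.const 0) hg (fun i n y => y = n * g i)
    (c := fun i _ => 8 * ((f i).size + (g i).size) + 6) (fun _ _ => (zero_mul _).symm)
    (fun i _ n x hx y hy => ⟨trivial, ?_, by rw [hy, Nat.succ_mul]⟩) ?_).congr
    fun i _ => by rw [foldl_add_replicate, zero_add]
  · have hn : n < f i := by
      simpa using (List.getElem?_eq_some_iff.1 (Option.mem_def.1 hx)).1
    have h1 : y < 2 ^ ((f i).size + (g i).size) := by
      rw [hy, pow_add]
      exact Nat.mul_lt_mul'' (hn.trans (Nat.lt_size_self _)) (Nat.lt_size_self _)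
    have h2 := sz_nat_lt h1
    have h3 := sz_nat (g i)
    simp; omega
  · refine Cls.lin h 14 0 fun i _ => ?_
    have := hle i
    simp only [List.length_replicate, Finset.sum_const, Finset.card_range, smul_eq_mul]
    nlinarith

omit [Dom 𝒯] in
theorem Tm.zpair (hx : Tm 𝒯 x) : Tm 𝒯 (fun i => ((x i).toNat, (- x i).toNat)) :=
  hx.ofEnc' fun _ _ => rfl
theorem Tm.zdiff (hf : Tm 𝒯 f) (hg : Tm 𝒯 g) : Tm 𝒯 (fun i => (f i : ℤ) - g i) :=
  ((hf.sub hg).pair (hg.sub hf)).ofEnc' fun i _ => by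
    rw [enc_int, neg_sub, Int.toNat_sub, Int.toNat_sub]
@[fun_prop] theorem Tm.natCast (hf : Tm 𝒯 f) : Tm 𝒯 (fun i => (f i : ℤ)) :=
  (hf.zdiff (Tm.const 0)).congr fun _ _ => by simp
@[fun_prop] theorem Tm.toNat (hx : Tm 𝒯 x) : Tm 𝒯 (fun i => (x i).toNat) := hx.zpair.fst
theorem Tm.negPart (hx : Tm 𝒯 x) : Tm 𝒯 (fun i => (- x i).toNat) := hx.zpair.snd
@[fun_prop] theorem Tm.natAbs (hx : Tm 𝒯 x) : Tm 𝒯 (fun i => (x i).natAbs) :=
  (hx.toNat.add hx.negPart).congr fun _ _ => by omega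
@[fun_prop] theorem Tm.zneg (hx : Tm 𝒯 x) : Tm 𝒯 (fun i => - x i) :=
  (hx.negPart.zdiff hx.toNat).congr fun _ _ => by omega
@[fun_prop] theorem Tm.zadd (hx : Tm 𝒯 x) (hy : Tm 𝒯 y) : Tm 𝒯 (fun i => x i + y i) :=
  ((hx.toNat.add hy.toNat).zdiff (hx.negPart.add hy.negPart)).congr fun _ _ => by omega
@[fun_prop] theorem Tm.zsub (hx : Tm 𝒯 x) (hy : Tm 𝒯 y) : Tm 𝒯 (fun i => x i - y i) :=
  (hx.zadd hy.zneg).congr fun _ _ => sub_eq_add_neg _ _
@[fun_prop] theorem Tm.zle (hx : Tm 𝒯 x) (hy : Tm 𝒯 y) : Tm 𝒯 (fun i => x i ≤ y i) :=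
  (hx.zsub hy).toNat.isZero.congr fun _ _ => propext (by omega)
@[fun_prop] theorem Tm.zlt (hx : Tm 𝒯 x) (hy : Tm 𝒯 y) : Tm 𝒯 (fun i => x i < y i) :=
  (hy.zle hx).not.congr fun _ _ => propext not_le.symm
@[fun_prop] theorem Tm.zeq (hx : Tm 𝒯 x) (hy : Tm 𝒯 y) : Tm 𝒯 (fun i => x i = y i) :=
  ((hx.zle hy).and (hy.zle hx)).congr fun _ _ => propext le_antisymm_iff

end lin

theorem sz_int_eq (z : ℤ) : sz z = sz z.natAbs + 2 := by
  rw [sz_int]
  rcases le_total 0 z with h | h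
  · rw [show (-z).toNat = 0 by omega, show z.toNat = z.natAbs by omega]; rfl
  · rw [show z.toNat = 0 by omega, show (-z).toNat = z.natAbs by omega, add_comm]; rfl
theorem sz_int_le (z : ℤ) : sz z ≤ sz z.natAbs + 2 := (sz_int_eq z).le
theorem sz_natAbs_le (z : ℤ) : sz z.natAbs ≤ sz z := by rw [sz_int_eq]; omega
theorem sz_int_lt {z : ℤ} {b : ℕ} (h : z.natAbs < 2 ^ b) : sz z ≤ 4 * b + 4 := by
  have := sz_nat_lt h
  rw [sz_int_eq]; omega

end Vale.Agent.P338
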