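import Vale.Agent.P344.Rank

/-! The exchange network, over an abstract system of available values. -/

namespace Vale.Agent.P338

open Vale.Agent.P344 (Tr H17)

/-- Number of wires. -/
def Wn : ℕ := 2 ^ 30
/-- Number of recursive calls. -/
def Nn : ℕ := 289 * 2 ^ 30 - 1

/-- A system of computed values: `Has A M v` says that `v`, seen in the frame `M`, is available
in the state `A`; `cost A N` says that `A` is reached with at most `N` calls. -/
structure Sys (k V Lab : Type) [CommRing k] [AddCommGroup V] [Module k V] : Type 1 where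
  St : Type
  le : St → St → Prop
  cost : St → ℕ → Prop
  Has : St → Lab → V → Prop
  Mv : ℕ → Lab → Lab → Prop
  Cf : k → Prop
  le_refl : ∀ A, le A A
  le_trans : ∀ {A B C}, le A B → le B C → le A C
  has_mono : ∀ {A B M v}, le A B → Has A M v → Has B M v
  cost_mono : ∀ {A N N'}, cost A N → N ≤ N' → cost A N'
  move : ∀ {A N M M' v r}, cost A N → Has A M v → Mv r M M' →
    ∃ A', le A A' ∧ cost A' (N + r) ∧ Has A' M' v
  zero : ∀ {A N} (M), cost A N → ∃ A', le A A' ∧ cost A' N ∧ Has A' M 0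
  axpy : ∀ {A N M v w c}, cost A N → Cf c → Has A M v → Has A M w →
    ∃ A', le A A' ∧ cost A' N ∧ Has A' M (v + c • w)

/-- The identity matrix as a low rank part plus a part supported on orthogonal pairs. -/
structure Design (k Hc : Type) [CommRing k] [Fintype Hc] (Cf : k → Prop)
    (orth : Tr → Tr → Prop) : Type where
  al : Tr → Hc → k
  be : Hc → Tr → k
  ee : Tr → Tr → k
  ee_eq : ∀ S T, ee S T = (if S = T then 1 else 0) - ∑ i, al S i * be i T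
  ee_zero : ∀ S T, ¬ orth S T → ee S T = 0
  cf_al : ∀ S i, Cf (al S i)
  cf_be : ∀ i S, Cf (be i S)
  cf_ee : ∀ S T, Cf (ee S T)
  cf_one : Cf 1
  cf_neg : Cf (-1)
  card : Fintype.card Hc ≤ 18

/-- Names of the frames of one stage. -/
inductive LH : Type
  | zero : LH
  | one : LH
  | L : Tr → LH
  | cL : Tr → LH

/-- The changes of frame inside one stage, with their ranks. -/
inductive Mv0 (orth : Tr → Tr → Prop) : ℕ → LH → LH → Prop
  | A (T) : Mv0 orth 1 .zero (.L T)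
  | B (S) : Mv0 orth 16 (.L S) .one
  | C : Mv0 orth 17 .one .zero
  | C' : Mv0 orth 17 .zero .one
  | D (S) : Mv0 orth 16 .zero (.cL S)
  | E (S T) : orth S T → Mv0 orth 15 (.L T) (.cL S)
  | E' (S T) : orth S T → Mv0 orth 15 (.L S) (.cL T)
  | F (S) : Mv0 orth 1 (.cL S) .one

/-- The labels used by the network. -/
structure Labels (Lab : Type) : Type where
  lab1 : Tr → LH → Lab
  lab2 : Tr → LH → Lab
  l0 : Lab
  l1 : Lab
  lX : Tr × Tr → Lab
  lX' : Tr × Tr → Lab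

/-- All changes of frame used by the network. -/
structure Moves {Lab : Type} (Mv : ℕ → Lab → Lab → Prop) (orth : Tr → Tr → Prop)
    (Λ : Labels Lab) : Prop where
  st1 : ∀ g r a b, Mv0 orth r a b → Mv r (Λ.lab1 g a) (Λ.lab1 g b)
  st2 : ∀ g r a b, Mv0 orth r a b → Mv r (Λ.lab2 g a) (Λ.lab2 g b)
  mX : ∀ S T, Mv 256 (Λ.lab1 T .one) (Λ.lab2 S (.L T))
  mY : ∀ S T, Mv 256 (Λ.lab1 T (.cL S)) (Λ.lab2 S .zero)
  mZ : ∀ g, Mv 272 (Λ.lab1 g .one) Λ.l1
  mZ' : ∀ g, Mv 272 Λ.l0 (Λ.lab2 g .zero)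
  mL : ∀ a, Mv 1 Λ.l1 (Λ.lX' a)
  full : Mv 289 Λ.l0 Λ.l1
  e1 : ∀ g S, Λ.lab1 g (.L S) = Λ.lX (S, g)
  e2 : ∀ g, Λ.lab1 g .zero = Λ.l0
  e3 : ∀ g, Λ.lab2 g .one = Λ.l1
  e4 : ∀ g S, Λ.lab2 g (.cL S) = Λ.lX' (g, S)

theorem Moves.mono {Lab : Type} {Mv Mv' : ℕ → Lab → Lab → Prop} {orth : Tr → Tr → Prop}
    {Λ : Labels Lab} (h : Moves Mv orth Λ) (h' : ∀ r a b, Mv r a b → Mv' r a b) :
    Moves Mv' orth Λ :=
  ⟨fun g r a b x => h' _ _ _ (h.st1 g r a b x), fun g r a b x => h' _ _ _ (h.st2 g r a b x),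
    fun S T => h' _ _ _ (h.mX S T), fun S T => h' _ _ _ (h.mY S T), fun g => h' _ _ _ (h.mZ g),
    fun g => h' _ _ _ (h.mZ' g), fun a => h' _ _ _ (h.mL a), h' _ _ _ h.full,
    h.e1, h.e2, h.e3, h.e4⟩

section net

open Finset
open Vale.Agent.P344 (card_Tr)

variable {k V Lab Hc : Type} [CommRing k] [AddCommGroup V] [Module k V] [Fintype Hc]
  {S : Sys k V Lab} {orth : Tr → Tr → Prop}

/-- The order of states. -/
def Sys.Le (S : Sys k V Lab) (A B : S.St) : Prop := S.le A B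

/-- Availability. -/
def Sys.Hs (S : Sys k V Lab) (A : S.St) (M : Lab) (v : V) : Prop := S.Has A M v

theorem Sys.Le.trans {A B C : S.St} (h : S.Le A B) (h' : S.Le B C) : S.Le A C := S.le_trans h h'

theorem Sys.Hs.mono {A B : S.St} {M : Lab} {v : V} (h : S.Hs A M v) (h' : S.Le A B) :
    S.Hs B M v := S.has_mono h' h

theorem Sys.Hs.of_eq {A : S.St} {M : Lab} {v w : V} (h : S.Hs A M v) (h' : v = w) :
    S.Hs A M w := h' ▸ h

/-- Orthogonal pairs. -/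
abbrev Pr (orth : Tr → Tr → Prop) := {p : Tr × Tr // orth p.1 p.2}

noncomputable instance : Fintype (Pr orth) := Fintype.ofFinite _

theorem card_Pr : Fintype.card (Pr orth) ≤ 680 * 680 := by
  have := Fintype.card_le_of_injective (fun p : Pr orth => p.1) Subtype.val_injective
  rwa [Fintype.card_prod, card_Tr] at this

theorem Design.orth_of_ee (D : Design k Hc S.Cf orth) {T T' : Tr} (h : D.ee T T' ≠ 0) :
    orth T T' := by
  by_contra h'
  exact h (D.ee_zero _ _ h')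

theorem Design.design_id (D : Design k Hc S.Cf orth) (Y : Tr → V) (T' : Tr) :
    ∑ T, D.ee T' T • Y T + ∑ i, D.al T' i • ∑ T, D.be i T • Y T = Y T' := by
  simp only [D.ee_eq, sub_smul, sum_sub_distrib, smul_sum, sum_smul, mul_smul]
  rw [sum_comm (f := fun i T => D.al T' i • D.be i T • Y T)]
  simp [ite_smul]

theorem step_all {ι : Type} [Fintype ι] {A : S.St} {s : ℕ} (hA : S.cost A s) (M : ι → Lab)
    (v : ι → V) (r : ℕ) (h : ∀ i B N, S.Le A B → S.cost B N →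
      ∃ B', S.Le B B' ∧ S.cost B' (N + r) ∧ S.Hs B' (M i) (v i)) :
    ∃ A', S.Le A A' ∧ S.cost A' (s + Fintype.card ι * r) ∧ ∀ i, S.Hs A' (M i) (v i) := by
  classical
  have : ∀ t : Finset ι, ∃ A', S.Le A A' ∧ S.cost A' (s + t.card * r) ∧
      ∀ i ∈ t, S.Hs A' (M i) (v i) := by
    intro t
    induction t using Finset.induction_on with
    | empty => exact ⟨A, S.le_refl A, by simpa using hA, by simp⟩
    | insert i t hi ih =>
      obtain ⟨B, h1, h2, h3⟩ := ih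
      obtain ⟨B', h4, h5, h6⟩ := h i B _ h1 h2
      refine ⟨B', h1.trans h4, by rwa [card_insert_of_notMem hi, add_mul, one_mul, ← add_assoc],
        fun j hj => ?_⟩
      rcases mem_insert.1 hj with rfl | hj
      · exact h6
      · exact (h3 j hj).mono h4
  obtain ⟨A', h1, h2, h3⟩ := this univ
  exact ⟨A', h1, h2, fun i => h3 i (mem_univ i)⟩

theorem step_move {ι : Type} [Fintype ι] {A : S.St} {s : ℕ} (hA : S.cost A s) (M M' : ι → Lab)
    (v : ι → V) (r : ℕ) (h : ∀ i, S.Hs A (M i) (v i)) (hr : ∀ i, S.Mv r (M i) (M' i)) :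
    ∃ A', S.Le A A' ∧ S.cost A' (s + Fintype.card ι * r) ∧ ∀ i, S.Hs A' (M' i) (v i) :=
  step_all hA M' v r fun i _ _ hB hN => S.move hN ((h i).mono hB) (hr i)

theorem step_lin {ι κ : Type} [Fintype ι] [Fintype κ] {A : S.St} {s : ℕ} (hA : S.cost A s)
    (M : ι → Lab) (c : ι → κ → k) (hc : ∀ i j, S.Cf (c i j)) (v : ι → κ → V)
    (h : ∀ i j, c i j ≠ 0 → S.Hs A (M i) (v i j)) :
    ∃ A', S.Le A A' ∧ S.cost A' s ∧ ∀ i, S.Hs A' (M i) (∑ j, c i j • v i j) := by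
  classical
  refine step_all hA M _ 0 fun i B N hB hN => ?_
  induction (univ : Finset κ) using Finset.induction_on with
  | empty => exact S.zero _ hN
  | insert j t hj ih =>
    obtain ⟨B', h1, h2, h3⟩ := ih
    rw [sum_insert hj, add_comm (c i j • v i j)]
    by_cases h0 : c i j = 0
    · exact ⟨B', h1, h2, h3.of_eq (by simp [h0])⟩
    · obtain ⟨B'', h4, h5⟩ := S.axpy h2 (hc i j) h3 ((h i j h0).mono (hB.trans h1))
      exact ⟨B'', h1.trans h4, h5⟩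

theorem step_add (h1 : S.Cf 1) {ι : Type} [Fintype ι] {A : S.St} {s : ℕ} (hA : S.cost A s)
    (M : ι → Lab) (v w : ι → V) (hv : ∀ i, S.Hs A (M i) (v i)) (hw : ∀ i, S.Hs A (M i) (w i)) :
    ∃ A', S.Le A A' ∧ S.cost A' s ∧ ∀ i, S.Hs A' (M i) (v i + w i) :=
  step_all hA M _ 0 fun i _ _ hB hN =>
    one_smul k (w i) ▸ S.axpy hN h1 ((hv i).mono hB) ((hw i).mono hB)

theorem step_sub (h1 : S.Cf (-1)) {ι : Type} [Fintype ι] {A : S.St} {s : ℕ} (hA : S.cost A s)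
    (M : ι → Lab) (v w : ι → V) (hv : ∀ i, S.Hs A (M i) (v i)) (hw : ∀ i, S.Hs A (M i) (w i)) :
    ∃ A', S.Le A A' ∧ S.cost A' s ∧ ∀ i, S.Hs A' (M i) (v i - w i) :=
  step_all hA M _ 0 fun i _ _ hB hN => by
    rw [sub_eq_add_neg, ← neg_one_smul k (w i)]
    exact S.axpy hN h1 ((hv i).mono hB) ((hw i).mono hB)

theorem stage_fwd (D : Design k Hc S.Cf orth) {Γ : Type} [Fintype Γ] {A : S.St} {s : ℕ}
    (hA : S.cost A s) (lab : Γ → LH → Lab)
    (hlab : ∀ g r a b, Mv0 orth r a b → S.Mv r (lab g a) (lab g b))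
    (X Y : Γ → Tr → V) (Z : Γ → Tr → Tr → V)
    (hX : ∀ g T, S.Hs A (lab g (.L T)) (X g T)) (hY : ∀ g T, S.Hs A (lab g .zero) (Y g T))
    (hZ : ∀ g (p : Pr orth), S.Hs A (lab g .zero) (Z g p.1.1 p.1.2)) :
    ∃ A', S.Le A A' ∧ S.cost A' (s + Fintype.card Γ *
        (17 * Fintype.card (Pr orth) + 32 * 680 + 17 * Fintype.card Hc)) ∧
      (∀ g T, S.Hs A' (lab g .one) (X g T)) ∧ (∀ g T, S.Hs A' (lab g (.cL T)) (Y g T + X g T)) ∧
      (∀ g (p : Pr orth), S.Hs A' (lab g .one) (Z g p.1.1 p.1.2)) := by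
  obtain ⟨A1, s1, c1, h1⟩ := step_lin hA (fun i : Γ × Tr => lab i.1 .zero)
    (fun i T => D.ee i.2 T) (fun _ _ => D.cf_ee _ _)
    (fun i T => Z i.1 i.2 T) (fun i T h => hZ i.1 ⟨(i.2, T), D.orth_of_ee h⟩)
  obtain ⟨A2, s2, c2, h2⟩ := step_move c1 (fun i : Γ × Pr orth => lab i.1 .zero)
    (fun i => lab i.1 (.L i.2.1.2)) (fun i => Z i.1 i.2.1.1 i.2.1.2) 1
    (fun i => (hZ i.1 i.2).mono s1) (fun i => hlab _ _ _ _ (.A _))
  have t2 := s1.trans s2
  obtain ⟨A3, s3, c3, h3⟩ := step_add D.cf_one c2 (fun i : Γ × Pr orth => lab i.1 (.L i.2.1.2))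
    (fun i => Z i.1 i.2.1.1 i.2.1.2) (fun i => X i.1 i.2.1.2) h2 (fun i => (hX _ _).mono t2)
  have t3 := t2.trans s3
  obtain ⟨A4, s4, c4, h4⟩ := step_move c3 (fun i : Γ × Tr => lab i.1 (.L i.2))
    (fun i => lab i.1 .one) (fun i => X i.1 i.2) 16
    (fun i => (hX _ _).mono t3) (fun i => hlab _ _ _ _ (.B _))
  obtain ⟨A5, s5, c5, h5⟩ := step_lin c4 (fun i : Γ × Hc => lab i.1 .one)
    (fun i T => D.be i.2 T) (fun _ _ => D.cf_be _ _)
    (fun i T => X i.1 T) (fun i T _ => h4 (i.1, T))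
  obtain ⟨A6, s6, c6, h6⟩ := step_move c5 (fun i : Γ × Hc => lab i.1 .one)
    (fun i => lab i.1 .zero) _ 17 h5 (fun i => hlab _ _ _ _ .C)
  obtain ⟨A7, s7, c7, h7⟩ := step_lin c6 (fun i : Γ × Tr => lab i.1 .zero)
    (fun i j => D.al i.2 j) (fun _ _ => D.cf_al _ _)
    (fun i j => ∑ T, D.be j T • X i.1 T) (fun i j _ => h6 (i.1, j))
  have u7 : S.Le A3 A7 := s4.trans (s5.trans (s6.trans s7))
  obtain ⟨A8, s8, c8, h8⟩ := step_sub D.cf_neg c7 (fun i : Γ × Tr => lab i.1 .zero)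
    (fun i => Y i.1 i.2) _ (fun i => (hY _ _).mono (t3.trans u7))
    (fun i => (h1 i).mono (s2.trans (s3.trans u7)))
  obtain ⟨A9, s9, c9, h9⟩ := step_add D.cf_one c8 (fun i : Γ × Tr => lab i.1 .zero)
    _ _ h8 (fun i => (h7 i).mono s8)
  obtain ⟨A10, s10, c10, h10⟩ := step_move c9 (fun i : Γ × Tr => lab i.1 .zero)
    (fun i => lab i.1 (.cL i.2)) _ 16 h9 (fun i => hlab _ _ _ _ (.D _))
  have u10 : S.Le A3 A10 := u7.trans (s8.trans (s9.trans s10))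
  obtain ⟨A11, s11, c11, h11⟩ := step_move c10 (fun i : Γ × Pr orth => lab i.1 (.L i.2.1.2))
    (fun i => lab i.1 (.cL i.2.1.1)) _ 15 (fun i => (h3 i).mono u10)
    (fun i => hlab _ _ _ _ (.E _ _ i.2.2))
  obtain ⟨A12, s12, c12, h12⟩ := step_lin c11 (fun i : Γ × Tr => lab i.1 (.cL i.2))
    (fun i T => D.ee i.2 T) (fun _ _ => D.cf_ee _ _)
    (fun i T => Z i.1 i.2 T + X i.1 T)
    (fun i T h => h11 (i.1, ⟨(i.2, T), D.orth_of_ee h⟩))
  obtain ⟨A13, s13, c13, h13⟩ := step_add D.cf_one c12 (fun i : Γ × Tr => lab i.1 (.cL i.2))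
    _ _ (fun i => (h10 i).mono (s11.trans s12)) h12
  obtain ⟨A14, s14, c14, h14⟩ := step_move c13 (fun i : Γ × Pr orth => lab i.1 (.cL i.2.1.1))
    (fun i => lab i.1 .one) _ 1 (fun i => (h11 i).mono (s12.trans s13))
    (fun i => hlab _ _ _ _ (.F _))
  have u14 : S.Le A4 A14 := s5.trans (s6.trans (s7.trans (s8.trans (s9.trans (s10.trans
    (s11.trans (s12.trans (s13.trans s14))))))))
  obtain ⟨A15, s15, c15, h15⟩ := step_sub D.cf_neg c14 (fun i : Γ × Pr orth => lab i.1 .one)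
    _ (fun i => X i.1 i.2.1.2) h14 (fun i => (h4 (i.1, i.2.1.2)).mono u14)
  refine ⟨A15, t3.trans (s4.trans (u14.trans s15)), S.cost_mono c15 (le_of_eq ?_),
    fun g T => (h4 (g, T)).mono (u14.trans s15), fun g T => ?_, fun g p => ?_⟩
  · simp only [Fintype.card_prod, card_Tr]
    ring
  · refine ((h13 (g, T)).mono (s14.trans s15)).of_eq (Eq.symm ?_)
    simp only [smul_add, Finset.sum_add_distrib]
    rw [← D.design_id (X g) T]
    abel
  · simpa using h15 (g, p)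

theorem stage_rev (D : Design k Hc S.Cf orth) {Γ : Type} [Fintype Γ] {A : S.St} {s : ℕ}
    (hA : S.cost A s) (lab : Γ → LH → Lab)
    (hlab : ∀ g r a b, Mv0 orth r a b → S.Mv r (lab g a) (lab g b))
    (X Y : Γ → Tr → V) (Z : Γ → Tr → Tr → V)
    (hX : ∀ g T, S.Hs A (lab g (.L T)) (X g T)) (hY : ∀ g T, S.Hs A (lab g .zero) (Y g T))
    (hZ : ∀ g (p : Pr orth), S.Hs A (lab g .zero) (Z g p.1.1 p.1.2)) :
    ∃ A', S.Le A A' ∧ S.cost A' (s + Fintype.card Γ *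
        (17 * Fintype.card (Pr orth) + 32 * 680 + 17 * Fintype.card Hc)) ∧
      (∀ g T, S.Hs A' (lab g .one) (Y g T - X g T)) ∧ (∀ g T, S.Hs A' (lab g (.cL T)) (Y g T)) ∧
      (∀ g (p : Pr orth), S.Hs A' (lab g .one) (Z g p.1.1 p.1.2)) := by
  obtain ⟨A1, s1, c1, h1⟩ := step_add D.cf_one hA (fun i : Γ × Pr orth => lab i.1 .zero)
    (fun i => Z i.1 i.2.1.1 i.2.1.2) (fun i => Y i.1 i.2.1.2) (fun i => hZ _ _) (fun i => hY _ _)
  obtain ⟨A2, s2, c2, h2⟩ := step_lin c1 (fun i : Γ × Hc => lab i.1 .zero)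
    (fun i T => D.be i.2 T) (fun _ _ => D.cf_be _ _)
    (fun i T => Y i.1 T) (fun i T _ => (hY _ _).mono s1)
  obtain ⟨A3, s3, c3, h3⟩ := step_move c2 (fun i : Γ × Hc => lab i.1 .zero)
    (fun i => lab i.1 .one) _ 17 h2 (fun i => hlab _ _ _ _ .C')
  obtain ⟨A4, s4, c4, h4⟩ := step_move c3 (fun i : Γ × Pr orth => lab i.1 .zero)
    (fun i => lab i.1 (.L i.2.1.1)) _ 1 (fun i => (h1 i).mono (s2.trans s3))
    (fun i => hlab _ _ _ _ (.A _))
  obtain ⟨A5, s5, c5, h5⟩ := step_lin c4 (fun i : Γ × Tr => lab i.1 (.L i.2))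
    (fun i T => D.ee i.2 T) (fun _ _ => D.cf_ee _ _)
    (fun i T => Z i.1 i.2 T + Y i.1 T)
    (fun i T h => h4 (i.1, ⟨(i.2, T), D.orth_of_ee h⟩))
  have t5 : S.Le A A5 := s1.trans (s2.trans (s3.trans (s4.trans s5)))
  obtain ⟨A6, s6, c6, h6⟩ := step_sub D.cf_neg c5 (fun i : Γ × Tr => lab i.1 (.L i.2))
    _ (fun i => X i.1 i.2) h5 (fun i => (hX _ _).mono t5)
  obtain ⟨A7, s7, c7, h7⟩ := step_move c6 (fun i : Γ × Tr => lab i.1 (.L i.2))
    (fun i => lab i.1 .one) _ 16 h6 (fun i => hlab _ _ _ _ (.B _))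
  obtain ⟨A8, s8, c8, h8⟩ := step_move c7 (fun i : Γ × Pr orth => lab i.1 (.L i.2.1.1))
    (fun i => lab i.1 (.cL i.2.1.2)) _ 15 (fun i => (h4 i).mono (s5.trans (s6.trans s7)))
    (fun i => hlab _ _ _ _ (.E' _ _ i.2.2))
  have t8 : S.Le A A8 := t5.trans (s6.trans (s7.trans s8))
  obtain ⟨A9, s9, c9, h9⟩ := step_move c8 (fun i : Γ × Tr => lab i.1 .zero)
    (fun i => lab i.1 (.cL i.2)) (fun i => Y i.1 i.2) 16 (fun i => (hY _ _).mono t8)
    (fun i => hlab _ _ _ _ (.D _))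
  obtain ⟨A10, s10, c10, h10⟩ := step_sub D.cf_neg c9 (fun i : Γ × Pr orth => lab i.1 (.cL i.2.1.2))
    _ (fun i => Y i.1 i.2.1.2) (fun i => (h8 i).mono s9) (fun i => h9 (i.1, i.2.1.2))
  obtain ⟨A11, s11, c11, h11⟩ := step_move c10 (fun i : Γ × Pr orth => lab i.1 (.cL i.2.1.2))
    (fun i => lab i.1 .one) (fun i => Z i.1 i.2.1.1 i.2.1.2) 1 (fun i => by simpa using h10 i)
    (fun i => hlab _ _ _ _ (.F _))
  obtain ⟨A12, s12, c12, h12⟩ := step_lin c11 (fun i : Γ × Tr => lab i.1 .one)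
    (fun i T => D.ee i.2 T) (fun _ _ => D.cf_ee _ _)
    (fun i T => Z i.1 i.2 T)
    (fun i T h => h11 (i.1, ⟨(i.2, T), D.orth_of_ee h⟩))
  have u12 : S.Le A7 A12 := s8.trans (s9.trans (s10.trans (s11.trans s12)))
  obtain ⟨A13, s13, c13, h13⟩ := step_lin c12 (fun i : Γ × Tr => lab i.1 .one)
    (fun i j => D.al i.2 j) (fun _ _ => D.cf_al _ _)
    (fun i j => ∑ T, D.be j T • Y i.1 T)
    (fun i j _ => (h3 (i.1, j)).mono (s4.trans (s5.trans (s6.trans (s7.trans u12)))))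
  obtain ⟨A14, s14, c14, h14⟩ := step_sub D.cf_neg c13 (fun i : Γ × Tr => lab i.1 .one)
    _ _ (fun i => (h7 i).mono (u12.trans s13)) (fun i => (h12 i).mono s13)
  obtain ⟨A15, s15, c15, h15⟩ := step_add D.cf_one c14 (fun i : Γ × Tr => lab i.1 .one)
    _ _ h14 (fun i => (h13 i).mono s14)
  have u15 : S.Le A11 A15 := s12.trans (s13.trans (s14.trans s15))
  refine ⟨A15, t8.trans (s9.trans (s10.trans (s11.trans u15))), S.cost_mono c15 (le_of_eq ?_),
    fun g T => ?_, fun g T => (h9 (g, T)).mono (s10.trans (s11.trans u15)),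
    fun g p => (h11 (g, p)).mono u15⟩
  · simp only [Fintype.card_prod, card_Tr]
    ring
  · refine (h15 (g, T)).of_eq (Eq.symm ?_)
    simp only [smul_add, Finset.sum_add_distrib]
    conv_lhs => rw [← D.design_id (Y g) T]
    abel

/-- The wires of the network. -/
abbrev Wires (orth : Tr → Tr → Prop) (e : ℕ) :=
  (Tr × Tr) ⊕ (Tr × Tr) ⊕ (Tr × Pr orth) ⊕ (Tr × Pr orth) ⊕ Fin e

theorem card_Wires (e : ℕ) : Fintype.card (Wires orth e) =
    2 * 680 * 680 + 2 * 680 * Fintype.card (Pr orth) + e := by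
  simp only [Fintype.card_prod, Fintype.card_sum, card_Tr, Fintype.card_fin]
  omega

/-- The wires of the first bank. -/
def Wires.kind {e : ℕ} : Wires orth e → Option (Tr × Tr)
  | .inl a => some a
  | .inr _ => none

theorem network_aux (D : Design k Hc S.Cf orth) {Λ : Labels Lab} (hM : Moves S.Mv orth Λ) (e : ℕ)
    (x : Wires orth e → V) (A : S.St) (c0 : S.cost A 0)
    (hx : ∀ w, S.Hs A (w.kind.elim Λ.l0 Λ.lX) (x w)) :
    ∃ A', S.cost A' (289 * Fintype.card (Wires orth e) - 1) ∧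
      ∀ w, S.Hs A' (w.kind.elim Λ.l1 Λ.lX') (x w) := by
  classical
  let X : Tr × Tr → V := fun a => x (.inl a)
  let Y : Tr × Tr → V := fun a => x (.inr (.inl a))
  let Z : Tr → Tr → Tr → V := fun g T T' =>
    if h : orth T T' then x (.inr (.inr (.inl (g, ⟨(T, T'), h⟩)))) else 0
  let Z' : Tr → Tr → Tr → V := fun g T T' =>
    if h : orth T T' then x (.inr (.inr (.inr (.inl (g, ⟨(T, T'), h⟩))))) else 0
  have hZ1 : ∀ g (p : Pr orth), Z g p.1.1 p.1.2 = x (.inr (.inr (.inl (g, p)))) :=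
    fun g p => dif_pos p.2
  have hZ2 : ∀ g (p : Pr orth), Z' g p.1.1 p.1.2 = x (.inr (.inr (.inr (.inl (g, p))))) :=
    fun g p => dif_pos p.2
  obtain ⟨A1, s1, c1, h1X, h1Y, h1Z⟩ := stage_fwd D c0 Λ.lab1 hM.st1
    (fun g T => X (T, g)) (fun g T => Y (T, g)) Z
    (fun g T => hM.e1 g T ▸ hx (.inl (T, g))) (fun g T => hM.e2 g ▸ hx (.inr (.inl (T, g))))
    (fun g p => hM.e2 g ▸ (hx (.inr (.inr (.inl (g, p))))).of_eq (hZ1 g p).symm)
  obtain ⟨A2, s2, c2, h2⟩ := step_move c1 (fun a : Tr × Tr => Λ.lab1 a.2 .one)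
    (fun a => Λ.lab2 a.1 (.L a.2)) X 256 (fun a => h1X a.2 a.1) (fun a => hM.mX _ _)
  obtain ⟨A3, s3, c3, h3⟩ := step_move c2 (fun a : Tr × Tr => Λ.lab1 a.2 (.cL a.1))
    (fun a => Λ.lab2 a.1 .zero) (fun a => Y a + X a) 256 (fun a => (h1Y a.2 a.1).mono s2)
    (fun a => hM.mY _ _)
  obtain ⟨A4, s4, c4, h4⟩ := step_move c3 (fun a : Tr × Pr orth => Λ.lab1 a.1 .one)
    (fun _ => Λ.l1) (fun a => Z a.1 a.2.1.1 a.2.1.2) 272
    (fun a => (h1Z a.1 a.2).mono (s2.trans s3)) (fun a => hM.mZ _)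
  have t4 := s1.trans (s2.trans (s3.trans s4))
  obtain ⟨A5, s5, c5, h5⟩ := step_move c4 (fun _ : Tr × Pr orth => Λ.l0)
    (fun a => Λ.lab2 a.1 .zero) (fun a => Z' a.1 a.2.1.1 a.2.1.2) 272
    (fun a => ((hx (.inr (.inr (.inr (.inl a))))).of_eq (hZ2 a.1 a.2).symm).mono t4)
    (fun a => hM.mZ' _)
  obtain ⟨A6, s6, c6, h6X, h6Y, h6Z⟩ := stage_rev D c5 Λ.lab2 hM.st2
    (fun g T => X (g, T)) (fun g T => Y (g, T) + X (g, T)) Z'
    (fun g T => (h2 (g, T)).mono (s3.trans (s4.trans s5)))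
    (fun g T => (h3 (g, T)).mono (s4.trans s5)) (fun g p => h5 (g, p))
  have h6Y' : ∀ a : Tr × Tr, S.Hs A6 Λ.l1 (Y a) := fun a =>
    hM.e3 a.1 ▸ (h6X a.1 a.2).of_eq (add_sub_cancel_right _ _)
  obtain ⟨A7, s7, c7, h7⟩ := step_move c6 (fun _ : Tr × Tr => Λ.l1) Λ.lX' Y 1 h6Y' hM.mL
  obtain ⟨A8, s8, c8, h8⟩ := step_sub D.cf_neg c7 Λ.lX' (fun a => Y a + X a) Y
    (fun a => (hM.e4 a.1 a.2 ▸ h6Y a.1 a.2 :).mono s7) h7
  have u8 := s5.trans (s6.trans (s7.trans s8))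
  obtain ⟨A9, s9, c9, h9⟩ := step_move c8 (fun _ : Fin e => Λ.l0) (fun _ => Λ.l1)
    (fun a => x (.inr (.inr (.inr (.inr a))))) 289
    (fun a => (hx (.inr (.inr (.inr (.inr a))))).mono (t4.trans u8)) (fun _ => hM.full)
  refine ⟨A9, S.cost_mono c9 ?_, ?_⟩
  · have := D.card
    simp only [card_Wires, Fintype.card_prod, card_Tr, Fintype.card_fin]
    omega
  · rintro (a | a | a | a | a)
    · exact ((h8 a).of_eq (add_sub_cancel_left _ _)).mono s9
    · exact (h6Y' a).mono (s7.trans (s8.trans s9))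
    · exact ((h4 a).of_eq (hZ1 a.1 a.2)).mono (u8.trans s9)
    · exact ((hM.e3 a.1 ▸ h6Z a.1 a.2 :).of_eq (hZ2 a.1 a.2)).mono (s7.trans (s8.trans s9))
    · exact h9 a

end net

theorem network {k V Lab Hc : Type} [CommRing k] [AddCommGroup V] [Module k V] [Fintype Hc]
    (S : Sys k V Lab) {orth : Tr → Tr → Prop} (D : Design k Hc S.Cf orth) {Λ : Labels Lab}
    (hM : Moves S.Mv orth Λ) : ∃ kind : Fin Wn → Option (Tr × Tr),
      ∀ (v : Fin Wn → V) (A : S.St), S.cost A 0 →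
        (∀ w, S.Has A ((kind w).elim Λ.l0 Λ.lX) (v w)) →
        ∃ A', S.cost A' Nn ∧ ∀ w, S.Has A' ((kind w).elim Λ.l1 Λ.lX') (v w) := by
  obtain ⟨e, he⟩ : ∃ e, Fintype.card (Wires orth e) = Wn := by
    have := card_Pr (orth := orth)
    refine ⟨Wn - (2 * 680 * 680 + 2 * 680 * Fintype.card (Pr orth)), ?_⟩
    rw [card_Wires, Wn]
    omega
  let φ := Fintype.equivFinOfCardEq he
  refine ⟨fun w => (φ.symm w).kind, fun v A hA h => ?_⟩
  obtain ⟨A', h1, h2⟩ := network_aux D hM e (fun w => v (φ w)) A hA fun w => by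
    simpa only [Equiv.symm_apply_apply, Sys.Hs] using h (φ w)
  rw [he] at h1
  exact ⟨A', h1, fun w => by simpa only [Equiv.apply_symm_apply, Sys.Hs] using h2 (φ.symm w)⟩

end Vale.Agent.P338
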