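import Vale.Agent.P338.Net
import Vale.Agent.P338.ListOps

/-! The exchange network run on lists, with a counted number of recursive calls. -/

namespace Vale.Agent.P338

open Vale.Agent.P344 (Tr H17)

section
variable {α β γ δ σ : Type} [Enc α] [Enc β] [Enc γ] [Enc δ] [Enc σ]

/-- `f` is computed at a cost in `𝒯` plus at most `N` calls of `g` on arguments satisfying `Q`. -/
def TmN (g : γ → δ) (𝒯 : Cls α) (Q : α → γ → Prop) (N : ℕ) (f : α → β) : Prop :=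
  ∃ k, TmO g 𝒯 k f ∧ ∀ a, 𝒯.dom a → (k a).length ≤ N ∧ ∀ x ∈ k a, Q a x

variable {g : γ → δ} {𝒯 : Cls α} {Q : α → γ → Prop}

theorem Tm.toN {f : α → β} (h : Tm 𝒯 f) : TmN g 𝒯 Q 0 f :=
  ⟨_, h.toO, fun _ _ => ⟨le_rfl, by simp⟩⟩
theorem TmN.mono {f : α → β} {N N' : ℕ} (h : TmN g 𝒯 Q N f) (hN : N ≤ N') : TmN g 𝒯 Q N' f := by
  obtain ⟨k, h1, h2⟩ := h
  exact ⟨k, h1, fun a ha => ⟨(h2 a ha).1.trans hN, (h2 a ha).2⟩⟩
theorem TmN.congr {f f' : α → β} {N : ℕ} (h : TmN g 𝒯 Q N f) (e : ∀ a, 𝒯.dom a → f' a = f a) :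
    TmN g 𝒯 Q N f' := by
  obtain ⟨k, h1, h2⟩ := h
  exact ⟨k, h1.congr e, h2⟩
theorem TmN.call {f : α → γ} (h : Tm 𝒯 f) (hQ : ∀ a, 𝒯.dom a → Q a (f a)) :
    TmN g 𝒯 Q 1 (fun a => g (f a)) := by
  refine ⟨_, TmO.compP (TmO.call (𝒯 := ipc fun _ => 0)) h.toO
    (Cls.pays_big (fun _ _ => trivial) (𝒯.const 0)), fun a ha => ⟨by simp, fun x hx => ?_⟩⟩
  have : x = f a := by simpa using hx
  exact this ▸ hQ a ha
theorem TmN.compP {𝒮 : Cls β} {Q' : β → γ → Prop} {N N' : ℕ} {h : β → σ} {f : α → β}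
    (hh : TmN g 𝒮 Q' N' h) (hf : TmN g 𝒯 Q N f) (hp : 𝒯.Pays 𝒮 f)
    (hQ : ∀ a, 𝒯.dom a → ∀ x, Q' (f a) x → Q a x) : TmN g 𝒯 Q (N + N') (fun a => h (f a)) := by
  obtain ⟨k, h1, h2⟩ := hf
  obtain ⟨k', h3, h4⟩ := hh
  refine ⟨_, TmO.compP h3 h1 hp, fun a ha => ⟨?_, fun x hx => ?_⟩⟩
  · rw [List.length_append]
    exact Nat.add_le_add (h2 a ha).1 (h4 _ (hp.1 a ha)).1
  · rcases List.mem_append.1 hx with hx | hx
    · exact (h2 a ha).2 x hx
    · exact hQ a ha x ((h4 _ (hp.1 a ha)).2 x hx)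
/-- Sharing. -/
theorem TmN.letG [Dom 𝒯] (G : α → β → Prop) {N N' : ℕ} {f : α → β} {h : β × α → σ}
    (hf : TmN g 𝒯 Q N f) (hG : ∀ a, 𝒯.dom a → G a (f a))
    (hh : TmN g (𝒯.ext G) (fun p => Q p.2) N' h) : TmN g 𝒯 Q (N + N') (fun a => h (f a, a)) := by
  obtain ⟨k, h1, h2⟩ := hf
  have h3 : TmN g 𝒯 Q N (fun a => (f a, a)) := ⟨k, h1.keep, h2⟩
  exact TmN.compP hh h3 (Cls.pays_ext' hG) fun _ _ _ hx => hx

/-- A recursion with a base case and a step that makes at most `N` calls. -/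
theorem TmN.fix {𝒰 : Cls γ} [Dom 𝒰] {R : γ → γ → Prop} {c : γ → Prop} [DecidablePred c] {N : ℕ}
    (hc : Tm 𝒰 c) (h0 : Tm (𝒰.res c) g) (h1 : TmN g (𝒰.res fun a => ¬ c a) R N g)
    (hR : ∀ a x, 𝒰.dom a → ¬ c a → R a x → 𝒰.dom x) :
    ∃ T, 𝒰.mem T ∧ ∀ U : γ → ℕ, (∀ a, 𝒰.dom a → c a → T a ≤ U a) →
      (∀ a, 𝒰.dom a → ¬ c a → ∃ u, (∀ x, R a x → U x ≤ u) ∧ T a + N * u ≤ U a) →
      Tm (big 𝒰.dom U) g := by
  obtain ⟨k, h2, h3⟩ := h1
  have h4 : TmO g 𝒰 (fun a => if c a then [] else k a) g :=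
    (TmO.ite hc h0.toO h2).congr fun a _ => by simp
  obtain ⟨T, hT, h5⟩ := h4.fix fun a ha x hx => by
    by_cases hca : c a
    · simp [hca] at hx
    · rw [if_neg hca] at hx
      exact hR a x ha hca ((h3 a ⟨ha, hca⟩).2 x hx)
  refine ⟨T, hT, fun U k1 k2 => h5 U fun a ha => ?_⟩
  by_cases hca : c a
  · simpa [hca] using k1 a ha hca
  · rw [if_neg hca]
    obtain ⟨u, k3, k4⟩ := k2 a ha hca
    have e1 : ((k a).map U).sum ≤ (k a).length * u :=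
      sum_le_of_forall fun x hx => k3 x ((h3 a ⟨ha, hca⟩).2 x hx)
    have e2 : (k a).length * u ≤ N * u := Nat.mul_le_mul_right _ (h3 a ⟨ha, hca⟩).1
    omega

end

/-- Wires are lists depending on the argument `a`; `Rep a l v` says that `l` holds `v`. -/
structure Impl (ι γ δ k V Lab : Type) [Enc ι] [Enc γ] [Enc δ] [CommRing k] [AddCommGroup V]
    [Module k V] : Type where
  g : γ → δ
  𝒯 : Cls ι
  Q : ι → γ → Prop
  G : ι → List ℕ → Prop
  Rep : ι → List ℕ → V → Prop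
  U : Lab → V →ₗ[k] V
  B : ι → ℕ
  z : ι → List ℕ
  dom : Dom 𝒯
  memB : 𝒯.mem B
  szG : ∀ a l, 𝒯.dom a → G a l → sz l ≤ B a
  repG : ∀ a l v, 𝒯.dom a → Rep a l v → G a l
  tz : Tm 𝒯 z
  repz : ∀ a, 𝒯.dom a → Rep a (z a) 0

variable {ι γ δ k V Lab : Type} [Enc ι] [Enc γ] [Enc δ] [CommRing k] [AddCommGroup V] [Module k V]
  (I : Impl ι γ δ k V Lab)

/-- The map `φ` is implemented on one wire with at most `r` calls. -/
def Impl.Op (r : ℕ) (φ : V → V) : Prop :=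
  ∃ op : List ℕ × ι → List ℕ, TmN I.g (I.𝒯.ext I.G) (fun p => I.Q p.2) r op ∧
    (∀ a l, I.𝒯.dom a → I.G a l → I.G a (op (l, a))) ∧
    ∀ a l v, I.𝒯.dom a → I.Rep a l v → I.Rep a (op (l, a)) (φ v)

/-- Change of frame with at most `r` calls. -/
def Impl.Mv (r : ℕ) (M M' : Lab) : Prop :=
  ∃ φ, I.Op r φ ∧ ∀ a l v, I.𝒯.dom a → I.Rep a l (φ (I.U M v)) → I.Rep a l (I.U M' v)

/-- Implemented coefficients. -/
def Impl.Cf (c : k) : Prop :=
  ∃ op : (List ℕ × List ℕ) × ι → List ℕ,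
    Tm (I.𝒯.ext fun a (p : List ℕ × List ℕ) => I.G a p.1 ∧ I.G a p.2) op ∧
    ∀ a l l' v v', I.𝒯.dom a → I.Rep a l v → I.Rep a l' v' → I.Rep a (op ((l, l'), a)) (v + c • v')

theorem Impl.domG : Dom (I.𝒯.ext I.G) :=
  have := I.dom
  Cls.dom_ext I.memB fun a l ha hl => I.szG a l ha hl
theorem Impl.domG2 : Dom (I.𝒯.ext fun a (p : List ℕ × List ℕ) => I.G a p.1 ∧ I.G a p.2) :=
  have := I.dom
  Cls.dom_ext (I.𝒯.add I.memB I.memB) fun a p ha hl => by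
    have h1 := I.szG a p.1 ha hl.1
    have h2 := I.szG a p.2 ha hl.2
    rw [sz_prod]; omega

theorem Impl.op_word {X : Type} (c : X → ℕ) (act : X → V → V) (w : List X) {r : ℕ}
    (h : ∀ x ∈ w, I.Op (c x) (act x)) (hr : (w.map c).sum ≤ r) :
    I.Op r (fun v => w.foldl (fun v x => act x v) v) := by
  have := I.domG
  induction w generalizing r with
  | nil =>
    exact ⟨fun p => p.1, Tm.id.fst.toN.mono (Nat.zero_le _), fun _ _ _ hl => hl,
      fun _ _ _ _ hl => hl⟩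
  | cons x w ih =>
    obtain ⟨op1, k1, k2, k3⟩ := h x (by simp)
    obtain ⟨op2, k4, k5, k6⟩ := ih (r := (w.map c).sum) (fun y hy => h y (by simp [hy])) le_rfl
    have D : Dom ((I.𝒯.ext I.G).ext fun p y => I.G p.2 y) :=
      Cls.dom_ext (Cls.ext_mem I.G I.memB) fun p y hp hy => I.szG _ _ hp.1 hy
    have k7 : TmN I.g ((I.𝒯.ext I.G).ext fun p y => I.G p.2 y) (fun q => I.Q q.2.2)
        (0 + (w.map c).sum) (fun q => op2 (q.1, q.2.2)) :=
      TmN.compP k4 (Tm.id.fst.pair Tm.id.snd.snd).toN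
        ⟨fun q hq => ⟨hq.1.1, hq.2⟩, fun T ⟨T', e1, e2⟩ =>
          ⟨fun p => T' p.2, Cls.ext_mem _ e1, fun q hq hy => e2 (q.1, q.2.2) hq.1 hy⟩⟩
        fun _ _ _ hx => hx
    refine ⟨fun p => op2 (op1 p, p.2), (TmN.letG _ k1 (fun p hp => k2 p.2 p.1 hp.1 hp.2) k7).mono
      (by simpa using hr), fun a l ha hl => k5 a _ ha (k2 a l ha hl), fun a l v ha hl => ?_⟩
    exact k6 a _ _ ha (k3 a l v ha hl)

/-- The cost of a list of computed wires. -/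
def Impl.cost (A : List (ι → List ℕ)) (N : ℕ) : Prop :=
  TmN I.g I.𝒯 I.Q N (fun a => A.map fun w => w a) ∧ ∀ w ∈ A, ∀ a, I.𝒯.dom a → I.G a (w a)

/-- The class in which the list of computed wires is available. -/
def Impl.cls (A : List (ι → List ℕ)) : Cls (List (List ℕ) × ι) :=
  I.𝒯.ext fun a L => L = A.map fun w => w a

theorem Impl.dom_cls {A : List (ι → List ℕ)} (h : ∀ w ∈ A, ∀ a, I.𝒯.dom a → I.G a (w a)) :
    Dom (I.cls A) :=
  have := I.dom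
  Cls.dom_ext (B := fun a => A.length * I.B a + 2)
    (I.𝒯.add (Cls.cmul I.memB _) (I.𝒯.const 2)) fun a L ha hL => by
    have := sz_le_of_forall L (B := I.B a) fun l hl => by
      rw [hL] at hl
      obtain ⟨w, hw, rfl⟩ := List.mem_map.1 hl
      exact I.szG a _ ha (h w hw a ha)
    rw [hL, List.length_map] at this
    rw [hL]
    exact this

theorem Impl.get_cls {A : List (ι → List ℕ)} (h : ∀ w ∈ A, ∀ a, I.𝒯.dom a → I.G a (w a))
    {w : ι → List ℕ} (hw : w ∈ A) : Tm (I.cls A) (fun p => w p.2) := by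
  have := I.dom_cls h
  obtain ⟨j, hj, rfl⟩ := List.getElem_of_mem hw
  refine (Tm.getD Tm.id.fst (Tm.const j) (Tm.const [])).congr fun p hp => ?_
  have e : p.1 = A.map fun w => w p.2 := hp.2
  simp [e, hj]

theorem Impl.step {A : List (ι → List ℕ)} {N r : ℕ} (hA : I.cost A N) {w : ι → List ℕ}
    (hw : TmN I.g (I.cls A) (fun p => I.Q p.2) r (fun p => w p.2))
    (hG : ∀ a, I.𝒯.dom a → I.G a (w a)) : I.cost (w :: A) (N + r) := by
  have := I.dom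
  have := I.dom_cls hA.2
  have D : Dom ((I.cls A).ext fun p y => I.G p.2 y) :=
    Cls.dom_ext (Cls.ext_mem _ I.memB) fun p y hp hy => I.szG _ _ hp.1 hy
  have k1 : TmN I.g (I.cls A) (fun p => I.Q p.2) (r + 0) (fun p => w p.2 :: p.1) :=
    TmN.letG (fun p y => I.G p.2 y) (h := fun q => q.1 :: q.2.1) hw (fun p hp => hG _ hp.1)
      (Tm.id.fst.cons Tm.id.snd.fst).toN
  refine ⟨TmN.letG (fun a L => L = A.map fun w => w a) (h := fun p => w p.2 :: p.1) hA.1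
    (fun _ _ => rfl) k1, fun w' hw' => ?_⟩
  rcases List.mem_cons.1 hw' with rfl | hw'
  · exact hG
  · exact hA.2 w' hw'

/-- The system of lists of computed wires. -/
def Impl.sys : Sys k V Lab where
  St := List (ι → List ℕ)
  le := fun A B => ∀ w ∈ A, w ∈ B
  cost := I.cost
  Has := fun A M v => ∃ w ∈ A, ∀ a, I.𝒯.dom a → I.Rep a (w a) (I.U M v)
  Mv := I.Mv
  Cf := I.Cf
  le_refl := fun _ _ h => h
  le_trans := fun h1 h2 w hw => h2 w (h1 w hw)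
  has_mono := fun h ⟨w, hw, e⟩ => ⟨w, h w hw, e⟩
  cost_mono := fun h hN => ⟨h.1.mono hN, h.2⟩
  move := by
    rintro A N M M' v r hA ⟨w, hw, e⟩ ⟨φ, ⟨op, k1, k2, k3⟩, k4⟩
    have := I.dom_cls hA.2
    have k5 : TmN I.g (I.cls A) (fun p => I.Q p.2) (0 + r) (fun p => op (w p.2, p.2)) :=
      TmN.compP k1 ((I.get_cls hA.2 hw).pair Tm.id.snd).toN
        ⟨fun p hp => ⟨hp.1, hA.2 w hw _ hp.1⟩, fun T ⟨T', e1, e2⟩ =>
          ⟨T', e1, fun p hp _ => e2 (w p.2, p.2) hp (hA.2 w hw _ hp)⟩⟩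
        fun _ _ _ hx => hx
    refine ⟨(fun a => op (w a, a)) :: A, fun _ h => List.mem_cons_of_mem _ h,
      I.step hA (k5.mono (by omega)) fun a ha => k2 a _ ha (hA.2 w hw a ha),
      _, List.mem_cons_self, fun a ha => k4 a _ v ha (k3 a _ _ ha (e a ha))⟩
  zero := by
    intro A N M hA
    have : Dom (I.𝒯.ext fun a L => L = A.map fun w => w a) := I.dom_cls hA.2
    refine ⟨I.z :: A, fun _ h => List.mem_cons_of_mem _ h,
      I.step (r := 0) hA (Tm.lift _ I.tz).toN fun a ha => I.repG a _ _ ha (I.repz a ha),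
      _, List.mem_cons_self, fun a ha => ?_⟩
    rw [map_zero]
    exact I.repz a ha
  axpy := by
    rintro A N M v v' c hA ⟨op, k1, k2⟩ ⟨w, hw, e⟩ ⟨w', hw', e'⟩
    have := I.dom_cls hA.2
    have k5 : Tm (I.cls A) (fun p => op ((w p.2, w' p.2), p.2)) :=
      k1.compP (((I.get_cls hA.2 hw).pair (I.get_cls hA.2 hw')).pair Tm.id.snd)
        ⟨fun p hp => ⟨hp.1, hA.2 w hw _ hp.1, hA.2 w' hw' _ hp.1⟩, fun T ⟨T', e1, e2⟩ =>
          ⟨T', e1, fun p hp _ => e2 ((w p.2, w' p.2), p.2) hp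
            ⟨hA.2 w hw _ hp, hA.2 w' hw' _ hp⟩⟩⟩
    have k6 : ∀ a, I.𝒯.dom a → I.Rep a (op ((w a, w' a), a)) (I.U M (v + c • v')) := by
      intro a ha
      rw [map_add, map_smul]
      exact k2 a _ _ _ _ ha (e a ha) (e' a ha)
    exact ⟨(fun a => op ((w a, w' a), a)) :: A, fun _ h => List.mem_cons_of_mem _ h,
      I.step (r := 0) hA k5.toN fun a ha => I.repG a _ _ ha (k6 a ha),
      _, List.mem_cons_self, k6⟩

theorem Tm.listOf {α β : Type} [Enc α] [Enc β] {𝒯 : Cls α} [Dom 𝒯] (A : List (α → β))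
    (h : ∀ w ∈ A, Tm 𝒯 w) : Tm 𝒯 (fun a => A.map fun w => w a) := by
  induction A with
  | nil => exact Tm.const []
  | cons w A ih => exact (h w (by simp)).cons (ih fun w' hw' => h w' (by simp [hw']))

theorem Tm.ofFnL {α β : Type} [Enc α] [Enc β] {𝒯 : Cls α} [Dom 𝒯] {n : ℕ} (f : Fin n → α → β)
    (h : ∀ w, Tm 𝒯 (f w)) : Tm 𝒯 (fun a => List.ofFn fun w => f w a) := by
  refine (Tm.listOf (List.ofFn f) fun w hw => ?_).congr fun a _ => ?_
  · obtain ⟨j, rfl⟩ := List.mem_ofFn.1 hw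
    exact h j
  · rw [List.map_ofFn]
    rfl

theorem Impl.start {n : ℕ} (inp : Fin n → ι → List ℕ) (h : ∀ w, Tm I.𝒯 (inp w))
    (hG : ∀ w a, I.𝒯.dom a → I.G a (inp w a)) : I.cost (List.ofFn inp) 0 := by
  have := I.dom
  refine ⟨(Tm.listOf _ fun w hw => ?_).toN, fun w hw => ?_⟩
  · obtain ⟨j, rfl⟩ := List.mem_ofFn.1 hw
    exact h j
  · obtain ⟨j, rfl⟩ := List.mem_ofFn.1 hw
    exact hG j

theorem Impl.finish {n N : ℕ} {A : List (ι → List ℕ)} (hA : I.cost A N)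
    (out : Fin n → ι → List ℕ) (h : ∀ w, out w ∈ A) :
    TmN I.g I.𝒯 I.Q N (fun a => (List.ofFn fun w => out w a).flatten) := by
  have := I.dom
  have := I.dom_cls hA.2
  have k1 : Tm (I.cls A) (fun p => (List.ofFn fun w => out w p.2).flatten) :=
    (Tm.ofFnL (fun w (p : List (List ℕ) × ι) => out w p.2) fun w => I.get_cls hA.2 (h w)).flatten
  exact TmN.letG (N' := 0) (fun a L => L = A.map fun w => w a)
    (h := fun p => (List.ofFn fun w => out w p.2).flatten) hA.1 (fun _ _ => rfl) k1.toN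

theorem Impl.net {Hc : Type} [Fintype Hc] {orth : Tr → Tr → Prop} (D : Design k Hc I.Cf orth)
    {Λ : Labels Lab} (hM : Moves I.Mv orth Λ) : ∃ kind : Fin Wn → Option (Tr × Tr),
      ∀ (inp : Fin Wn → ι → List ℕ) (v : Fin Wn → V), (∀ w, Tm I.𝒯 (inp w)) →
        (∀ w a, I.𝒯.dom a → I.Rep a (inp w a) (I.U ((kind w).elim Λ.l0 Λ.lX) (v w))) →
        ∃ out : Fin Wn → ι → List ℕ,
          TmN I.g I.𝒯 I.Q Nn (fun a => (List.ofFn fun w => out w a).flatten) ∧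
          ∀ w a, I.𝒯.dom a → I.Rep a (out w a) (I.U ((kind w).elim Λ.l1 Λ.lX') (v w)) := by
  obtain ⟨kind, hk⟩ := network I.sys D hM
  refine ⟨kind, fun inp v h1 h2 => ?_⟩
  obtain ⟨A, hA, h3⟩ := hk v (List.ofFn inp)
    (I.start inp h1 fun w a ha => I.repG a _ _ ha (h2 w a ha))
    fun w => ⟨inp w, List.mem_ofFn.2 ⟨w, rfl⟩, h2 w⟩
  choose out h4 h5 using h3
  exact ⟨out, I.finish hA out h4, h5⟩

end Vale.Agent.P338
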