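import Vale.Agent.P338.Conv
import Vale.Agent.P338.Bits

/-! Integer multiplication through the convolution. -/

namespace Vale.Agent.P338

open Finset

theorem pk_sw (s t : Finset ℕ) (F : ℕ → ℕ → ℕ) (w : ℕ → ℕ) :
    ∑ z ∈ s, (∑ k ∈ t, F z k) * w z = ∑ k ∈ t, ∑ z ∈ s, F z k * w z := by
  simp only [Finset.sum_mul]
  exact Finset.sum_comm

theorem pk_cut {n n' : ℕ} (h : n' ≤ n) (F : ℕ → ℕ) (hF : ∀ a, n' ≤ a → F a = 0) :
    ∑ a ∈ range n, F a = ∑ a ∈ range n', F a :=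
  (Finset.sum_subset (Finset.range_mono h) fun a _ ha =>
    hF a (by simpa using ha)).symm

theorem pk_rot {M a : ℕ} (ha : a < M) (F : ℕ → ℕ → ℕ) :
    ∑ y ∈ range M, F ((y + M - a) % M) y = ∑ b ∈ range M, F b ((a + b) % M) := by
  have hM : 0 < M := by omega
  have k1 : ∀ y < M, (a + (y + M - a) % M) % M = y := fun y hy => by
    rw [Nat.add_mod_mod, show a + (y + M - a) = y + M by omega, Nat.add_mod_right,
      Nat.mod_eq_of_lt hy]
  have k2 : ∀ b < M, ((a + b) % M + M - a) % M = b := fun b hb => by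
    rw [show (a + b) % M + M - a = (a + b) % M + (M - a) by omega, Nat.mod_add_mod,
      show a + b + (M - a) = b + M by omega, Nat.add_mod_right, Nat.mod_eq_of_lt hb]
  refine Finset.sum_nbij' (fun y => (y + M - a) % M) (fun b => (a + b) % M) ?_ ?_ ?_ ?_ ?_
  · intro y _
    exact mem_range.2 (Nat.mod_lt _ hM)
  · intro y _
    exact mem_range.2 (Nat.mod_lt _ hM)
  · intro y hy
    exact k1 y (mem_range.1 hy)
  · intro y hy
    exact k2 y (mem_range.1 hy)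
  · intro y hy
    rw [k1 y (mem_range.1 hy)]

/-- A cyclic convolution without wrap evaluates to the product. -/
theorem pk_cyc {M M' : ℕ} (B : ℕ) (hM : 2 * M' ≤ M + 1) (f g : ℕ → ℕ)
    (hf : ∀ a, M' ≤ a → f a = 0) (hg : ∀ a, M' ≤ a → g a = 0) :
    ∑ y ∈ range M, (∑ a ∈ range M, f a * g ((y + M - a) % M)) * B ^ y =
      (∑ a ∈ range M', f a * B ^ a) * ∑ a ∈ range M', g a * B ^ a := by
  have h1 : M' ≤ M := by omega
  rw [pk_sw, pk_cut h1 _ (fun a ha => by simp [hf a ha]), Finset.sum_mul_sum]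
  refine Finset.sum_congr rfl fun a ha => ?_
  have ha' := mem_range.1 ha
  rw [pk_rot (show a < M by omega) (fun b y => f a * g b * B ^ y),
    pk_cut h1 _ (fun b hb => by simp [hg b hb])]
  refine Finset.sum_congr rfl fun b hb => ?_
  have hb' := mem_range.1 hb
  rw [Nat.mod_eq_of_lt (show a + b < M by omega), pow_add]
  ring

/-- A truncated convolution without loss evaluates to the product. -/
theorem pk_lin {E E' : ℕ} (B : ℕ) (hE : 2 * E' ≤ E + 1) (f g : ℕ → ℕ)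
    (hf : ∀ a, E' ≤ a → f a = 0) (hg : ∀ a, E' ≤ a → g a = 0) :
    ∑ e ∈ range E, (∑ a ∈ range (e + 1), f a * g (e - a)) * B ^ e =
      (∑ a ∈ range E', f a * B ^ a) * ∑ a ∈ range E', g a * B ^ a := by
  have h1 : E' ≤ E := by omega
  have h2 : ∑ e ∈ range E, (∑ a ∈ range (e + 1), f a * g (e - a)) * B ^ e =
      ∑ e ∈ range E, ∑ a ∈ range (e + 1), (f a * B ^ a) * (g (e - a) * B ^ (e - a)) := by
    refine Finset.sum_congr rfl fun e _ => ?_
    rw [Finset.sum_mul]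
    refine Finset.sum_congr rfl fun a ha => ?_
    have ha' := mem_range.1 ha
    have : B ^ e = B ^ a * B ^ (e - a) := by rw [← pow_add]; congr 1; omega
    rw [this]
    ring
  rw [h2, Finset.sum_range_diag_flip E (fun a b => (f a * B ^ a) * (g b * B ^ b)),
    pk_cut h1 _ (fun a ha => by simp [hf a ha]), Finset.sum_mul_sum]
  refine Finset.sum_congr rfl fun a ha => ?_
  have ha' := mem_range.1 ha
  exact pk_cut (by omega) _ (fun b hb => by simp [hg b hb])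

/-- Evaluation of a function of four digits. -/
def pkEv (E M B1 B2 B3 B4 : ℕ) (f : ℕ → ℕ → ℕ → ℕ → ℕ) : ℕ :=
  ∑ e ∈ range E, (∑ y ∈ range M, (∑ x ∈ range M, (∑ z ∈ range M,
    f e y x z * B1 ^ z) * B2 ^ x) * B3 ^ y) * B4 ^ e

theorem pk_conv {E E' M M' : ℕ} (B1 B2 B3 B4 : ℕ) (hE : 2 * E' ≤ E + 1) (hM : 2 * M' ≤ M + 1)
    (f g : ℕ → ℕ → ℕ → ℕ → ℕ)
    (hf : ∀ e y x z, ¬ (e < E' ∧ y < M' ∧ x < M' ∧ z < M') → f e y x z = 0)
    (hg : ∀ e y x z, ¬ (e < E' ∧ y < M' ∧ x < M' ∧ z < M') → g e y x z = 0) :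
    pkEv E M B1 B2 B3 B4 (fun e y x z => ∑ e' ∈ range (e + 1), ∑ a1 ∈ range M, ∑ a2 ∈ range M,
      ∑ a3 ∈ range M, f e' a1 a2 a3 *
        g (e - e') ((y + M - a1) % M) ((x + M - a2) % M) ((z + M - a3) % M)) =
      pkEv E' M' B1 B2 B3 B4 f * pkEv E' M' B1 B2 B3 B4 g := by
  unfold pkEv
  rw [← pk_lin B4 hE _ _
    (fun a ha => by simp [fun y x z => hf a y x z (by omega)])
    (fun a ha => by simp [fun y x z => hg a y x z (by omega)])]
  refine Finset.sum_congr rfl fun e _ => congrArg (· * B4 ^ e) ?_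
  have s3 : ∀ y x, ∑ z ∈ range M, (∑ e' ∈ range (e + 1), ∑ a1 ∈ range M, ∑ a2 ∈ range M,
      ∑ a3 ∈ range M, f e' a1 a2 a3 *
        g (e - e') ((y + M - a1) % M) ((x + M - a2) % M) ((z + M - a3) % M)) * B1 ^ z =
      ∑ e' ∈ range (e + 1), ∑ a1 ∈ range M, ∑ a2 ∈ range M,
        (∑ z ∈ range M', f e' a1 a2 z * B1 ^ z) *
        ∑ z ∈ range M', g (e - e') ((y + M - a1) % M) ((x + M - a2) % M) z * B1 ^ z := by
    intro y x
    rw [pk_sw]
    refine Finset.sum_congr rfl fun e' _ => ?_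
    rw [pk_sw]
    refine Finset.sum_congr rfl fun a1 _ => ?_
    rw [pk_sw]
    refine Finset.sum_congr rfl fun a2 _ => ?_
    exact pk_cyc B1 hM _ _ (fun a ha => hf _ _ _ _ (by omega)) (fun a ha => hg _ _ _ _ (by omega))
  have s2 : ∀ y, ∑ x ∈ range M, (∑ e' ∈ range (e + 1), ∑ a1 ∈ range M, ∑ a2 ∈ range M,
        (∑ z ∈ range M', f e' a1 a2 z * B1 ^ z) *
        ∑ z ∈ range M', g (e - e') ((y + M - a1) % M) ((x + M - a2) % M) z * B1 ^ z) * B2 ^ x =
      ∑ e' ∈ range (e + 1), ∑ a1 ∈ range M,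
        (∑ x ∈ range M', (∑ z ∈ range M', f e' a1 x z * B1 ^ z) * B2 ^ x) *
        ∑ x ∈ range M', (∑ z ∈ range M', g (e - e') ((y + M - a1) % M) x z * B1 ^ z) * B2 ^ x := by
    intro y
    rw [pk_sw]
    refine Finset.sum_congr rfl fun e' _ => ?_
    rw [pk_sw]
    refine Finset.sum_congr rfl fun a1 _ => ?_
    exact pk_cyc B2 hM (fun x => ∑ z ∈ range M', f e' a1 x z * B1 ^ z)
      (fun x => ∑ z ∈ range M', g (e - e') ((y + M - a1) % M) x z * B1 ^ z)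
      (fun a ha => by simp [fun z => hf e' a1 a z (by omega)])
      (fun a ha => by simp [fun z => hg (e - e') ((y + M - a1) % M) a z (by omega)])
  simp only [s3, s2]
  rw [pk_sw]
  refine Finset.sum_congr rfl fun e' _ => ?_
  exact pk_cyc B3 hM
    (fun y => ∑ x ∈ range M', (∑ z ∈ range M', f e' y x z * B1 ^ z) * B2 ^ x)
    (fun y => ∑ x ∈ range M', (∑ z ∈ range M', g (e - e') y x z * B1 ^ z) * B2 ^ x)
    (fun a ha => by simp [fun x z => hf e' a x z (by omega)])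
    (fun a ha => by simp [fun x z => hg (e - e') a x z (by omega)])

theorem pk_split (A n B : ℕ) (D : ℕ → ℕ) :
    ∑ k ∈ range (A * n), D k * B ^ k =
      ∑ u ∈ range A, (∑ v ∈ range n, D (u * n + v) * B ^ v) * (B ^ n) ^ u := by
  induction A with
  | zero => simp
  | succ A ih =>
    rw [add_mul, one_mul, Finset.sum_range_add, ih, Finset.sum_range_succ, Finset.sum_mul]
    refine congrArg _ (Finset.sum_congr rfl fun v _ => ?_)
    rw [pow_add, ← pow_mul, mul_comm n A]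
    ring

theorem pk_ev4 (E M B : ℕ) (D : ℕ → ℕ) :
    ∑ k ∈ range (E * M * M * M), D k * B ^ k =
      pkEv E M B (B ^ M) ((B ^ M) ^ M) (((B ^ M) ^ M) ^ M)
        (fun e y x z => D (((e * M + y) * M + x) * M + z)) := by
  rw [pk_split, pk_split (E * M) M (B ^ M) (fun u => ∑ v ∈ range M, D (u * M + v) * B ^ v),
    pk_split E M ((B ^ M) ^ M)
      (fun w => ∑ x ∈ range M, (∑ v ∈ range M, D ((w * M + x) * M + v) * B ^ v) * (B ^ M) ^ x)]
  rfl

theorem pkEv_congr {E M B1 B2 B3 B4 : ℕ} {f g : ℕ → ℕ → ℕ → ℕ → ℕ}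
    (h : ∀ e < E, ∀ y < M, ∀ x < M, ∀ z < M, f e y x z = g e y x z) :
    pkEv E M B1 B2 B3 B4 f = pkEv E M B1 B2 B3 B4 g := by
  unfold pkEv
  refine Finset.sum_congr rfl fun e he => congrArg (· * B4 ^ e) ?_
  refine Finset.sum_congr rfl fun y hy => congrArg (· * B3 ^ y) ?_
  refine Finset.sum_congr rfl fun x hx => congrArg (· * B2 ^ x) ?_
  refine Finset.sum_congr rfl fun z hz => congrArg (· * B1 ^ z) ?_
  exact h e (mem_range.1 he) y (mem_range.1 hy) x (mem_range.1 hx) z (mem_range.1 hz)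

theorem pk_sum_lt {K B n : ℕ} (hB : 2 ≤ B) (hK : 0 < K) (f : ℕ → ℕ) (hf : ∀ v, f v < K) :
    ∑ v ∈ range n, f v * B ^ v < K * B ^ n := by
  induction n with
  | zero => simpa using hK
  | succ n ih =>
    rw [Finset.sum_range_succ, pow_succ]
    have h1 : f n * B ^ n ≤ K * B ^ n := Nat.mul_le_mul_right _ (hf n).le
    have h2 : K * B ^ n * 2 ≤ K * B ^ n * B := Nat.mul_le_mul_left _ hB
    rw [← mul_assoc]
    omega

theorem pk_pow_le (n : ℕ) : ∃ C, ∀ s, (s + 1) ^ n ≤ C * 2 ^ s := by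
  refine ⟨n.factorial * 2 ^ n, fun s => ?_⟩
  have h1 := Nat.pow_succ_le_ascFactorial (s + 1) n
  rw [Nat.ascFactorial_eq_factorial_mul_choose] at h1
  have h2 := Nat.choose_le_two_pow (s + n) n
  calc (s + 1) ^ n ≤ n.factorial * (s + n).choose n := h1
    _ ≤ n.factorial * 2 ^ (s + n) := Nat.mul_le_mul_left _ h2
    _ = n.factorial * 2 ^ n * 2 ^ s := by rw [pow_add]; ring

/-- One level of evaluation: every piece of length `R` is cut to length `M` and evaluated. -/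
def pkLev (R M d : ℕ) (l : List ℕ) : List ℕ :=
  (chunks R l).map fun ch => Nat.ofDigits (2 ^ d) (ch.take M)

theorem pk_ofDigits (B : ℕ) (l : List ℕ) :
    Nat.ofDigits B l = ∑ k ∈ range l.length, gt l k * B ^ k := by
  rw [← ofDigits_tab]
  refine congrArg _ (ext_gt (by simp) fun i hi => ?_)
  rw [gt_tab _ hi]

theorem pkLev_eq {A R M : ℕ} (d : ℕ) {l : List ℕ} (h : l.length = A * R) (hR : 0 < R)
    (hM : M ≤ R) :
    pkLev R M d l = tab A fun u => ∑ v ∈ range M, gt l (u * R + v) * (2 ^ d) ^ v := by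
  have h1 : (l.length + R - 1) / R = A := by
    rw [h, show A * R + R - 1 = A * R + (R - 1) by omega]
    exact idx_div (by omega)
  rw [pkLev, chunks, h1, List.map_map, tab]
  refine List.map_congr_left fun u hu => ?_
  have hu' := List.mem_range.1 hu
  have h2 : (piece R u l).length = R := length_piece h hu'
  have h3 : ((piece R u l).take M).length = M := by rw [List.length_take, h2]; omega
  change Nat.ofDigits (2 ^ d) ((piece R u l).take M) = _
  rw [pk_ofDigits, h3]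
  refine Finset.sum_congr rfl fun v hv => congrArg (· * (2 ^ d) ^ v) ?_
  have hv' := mem_range.1 hv
  rw [← gt_piece l (show v < R by omega)]
  simp [gt, List.getD_eq_getElem?_getD, hv']

theorem length_pkLev {A R M : ℕ} (d : ℕ) {l : List ℕ} (h : l.length = A * R) (hR : 0 < R)
    (hM : M ≤ R) : (pkLev R M d l).length = A := by
  rw [pkLev_eq d h hR hM, length_tab]

theorem gt_pkLev {A R M : ℕ} (d : ℕ) {l : List ℕ} (h : l.length = A * R) (hR : 0 < R)
    (hM : M ≤ R) {u : ℕ} (hu : u < A) :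
    gt (pkLev R M d l) u = ∑ v ∈ range M, gt l (u * R + v) * (2 ^ d) ^ v := by
  rw [pkLev_eq d h hR hM, gt_tab _ hu]

theorem bd_pkLev {A R M M' d C : ℕ} {l : List ℕ} (h : l.length = A * R) (hR : 0 < R)
    (hM : M ≤ R) (hd : 0 < d) (hM' : M ≤ 2 * M') (hp : 0 < M') (hb : Bd (2 ^ (C * d)) l) :
    Bd (2 ^ ((C + 2) * (d * M'))) (pkLev R M d l) := by
  rw [pkLev_eq d h hR hM]
  refine bd_tab fun u _ => ?_
  have h2 : 2 ≤ 2 ^ d := by
    calc 2 = 2 ^ 1 := rfl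
      _ ≤ 2 ^ d := Nat.pow_le_pow_right two_pos hd
  refine (pk_sum_lt h2 (Nat.two_pow_pos (C * d)) (fun v => gt l (u * R + v))
    (fun v => hb.gt (Nat.two_pow_pos _) _)).trans_le ?_
  rw [← pow_mul, ← pow_add]
  refine Nat.pow_le_pow_right two_pos ?_
  have h3 : C * d * 1 ≤ C * d * M' := Nat.mul_le_mul_left _ hp
  have h4 : d * M ≤ d * (2 * M') := Nat.mul_le_mul_left _ hM'
  nlinarith

theorem pk_gt_pad {A R R' C : ℕ} {l : List ℕ} (hR : 0 < R) (h : l.length = A * R * C) {u v c : ℕ}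
    (hu : u < A) (hv : v < R') (hc : c < C) :
    gt (padD R R' C l) ((u * R' + v) * C + c) =
      if v < R then gt l ((u * R + v) * C + c) else 0 := by
  rw [padD, gt_dg _ hR h hu hv hc]
  split_ifs <;> rfl

theorem pk_length_pad {A R R' C : ℕ} {l : List ℕ} (hR : 0 < R) (hC : 0 < C)
    (h : l.length = A * R * C) : (padD R R' C l).length = A * R' * C := length_dg _ hR hC h

theorem pk_bd_pad {B R R' C : ℕ} {l : List ℕ} (h : Bd B l) (hB : 0 < B) : Bd B (padD R R' C l) :=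
  bd_dg _ h hB

/-- An array of shape `(E', M', M', M')` placed in the corner of the shape `(E, R, R, R)`. -/
def pkBox (E' E M' R : ℕ) (l : List ℕ) : List ℕ :=
  padD E' E (R * R * R) (padD M' R (R * R) (padD M' R R (padD M' R 1 l)))

section pkBox
variable {E' E M' R : ℕ} {l : List ℕ} (hM : 0 < M') (hR : 0 < R)
  (h : l.length = E' * M' * M' * M')
include hM hR h

omit hR in
theorem pkBox_len1 : (padD M' R 1 l).length = E' * M' * M' * R := by
  rw [pk_length_pad (A := E' * M' * M') hM one_pos (by rw [h, mul_one]), mul_one]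

theorem pkBox_len2 : (padD M' R R (padD M' R 1 l)).length = E' * M' * (R * R) := by
  rw [pk_length_pad hM hR (pkBox_len1 hM h), mul_assoc]

theorem pkBox_len3 :
    (padD M' R (R * R) (padD M' R R (padD M' R 1 l))).length = 1 * E' * (R * R * R) := by
  rw [pk_length_pad hM (Nat.mul_pos hR hR) (pkBox_len2 hM hR h)]
  ring

theorem length_pkBox (hE : 0 < E') : (pkBox E' E M' R l).length = E * R * R * R := by
  rw [pkBox, pk_length_pad hE (Nat.mul_pos (Nat.mul_pos hR hR) hR) (pkBox_len3 hM hR h)]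
  ring

theorem gt_pkBox (hE : 0 < E') {e y x z : ℕ} (he : e < E) (hy : y < R) (hx : x < R) (hz : z < R) :
    gt (pkBox E' E M' R l) (((e * R + y) * R + x) * R + z) =
      if e < E' ∧ y < M' ∧ x < M' ∧ z < M' then gt l (((e * M' + y) * M' + x) * M' + z)
      else 0 := by
  have e1 : ((e * R + y) * R + x) * R + z =
      (0 * E + e) * (R * R * R) + ((y * R + x) * R + z) := by ring
  rw [pkBox, e1, pk_gt_pad hE (pkBox_len3 hM hR h) one_pos he (idx_lt (idx_lt hy hx) hz)]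
  by_cases c1 : e < E'
  swap
  · simp [c1]
  have e2 : (0 * E' + e) * (R * R * R) + ((y * R + x) * R + z) =
      (e * R + y) * (R * R) + (x * R + z) := by ring
  rw [if_pos c1, e2, pk_gt_pad hM (pkBox_len2 hM hR h) c1 hy (idx_lt hx hz)]
  by_cases c2 : y < M'
  swap
  · simp [c2]
  have e3 : (e * M' + y) * (R * R) + (x * R + z) = ((e * M' + y) * R + x) * R + z := by ring
  rw [if_pos c2, e3, pk_gt_pad hM (pkBox_len1 hM h) (idx_lt c1 c2) hx hz]
  by_cases c3 : x < M'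
  swap
  · simp [c3]
  have e4 : ((e * M' + y) * M' + x) * R + z = (((e * M' + y) * M' + x) * R + z) * 1 + 0 := by ring
  rw [if_pos c3, e4, pk_gt_pad (A := E' * M' * M') hM (by rw [h, mul_one])
    (idx_lt (idx_lt c1 c2) c3) hz one_pos]
  by_cases c4 : z < M'
  · simp [c1, c2, c3, c4]
  · simp [c4]

end pkBox

theorem bd_pkBox {B E' E M' R : ℕ} {l : List ℕ} (h : Bd B l) (hB : 0 < B) :
    Bd B (pkBox E' E M' R l) := pk_bd_pad (pk_bd_pad (pk_bd_pad (pk_bd_pad h hB) hB) hB) hB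

/-- The digits of a number. -/
def pkDgs (x d n : ℕ) : List ℕ := tab n fun k => x / 2 ^ (d * k) % 2 ^ d

theorem length_pkDgs (x d n : ℕ) : (pkDgs x d n).length = n := length_tab _ _

theorem bd_pkDgs (x d n : ℕ) : Bd (2 ^ d) (pkDgs x d n) :=
  bd_tab fun _ _ => Nat.mod_lt _ (Nat.two_pow_pos d)

/-- Evaluation of the corner `(E, M, M, M)` of an array. -/
def pkEvl (R M M' G : ℕ) (l : List ℕ) : ℕ :=
  Nat.ofDigits (2 ^ (G * M' * M' * M'))
    (pkLev R M (G * M' * M') (pkLev R M (G * M') (pkLev R M G l)))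

theorem pkEvl_eq {E R M M' G : ℕ} {l : List ℕ} (h : l.length = E * R * R * R) (hR : 0 < R)
    (hM : M ≤ R) : pkEvl R M M' G l =
      pkEv E M (2 ^ G) ((2 ^ G) ^ M') (((2 ^ G) ^ M') ^ M') ((((2 ^ G) ^ M') ^ M') ^ M')
        fun e y x z => gt l (((e * R + y) * R + x) * R + z) := by
  have l1 := length_pkLev G h hR hM
  have l2 := length_pkLev (G * M') l1 hR hM
  have l3 := length_pkLev (G * M' * M') l2 hR hM
  rw [pkEvl, pk_ofDigits, l3, pkEv]
  simp only [← pow_mul]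
  refine Finset.sum_congr rfl fun e he => congrArg₂ (· * ·) ?_ (by simp only [mul_assoc])
  have he' := mem_range.1 he
  rw [gt_pkLev _ l2 hR hM he']
  refine Finset.sum_congr rfl fun y hy => congrArg₂ (· * ·) ?_
    (by simp only [← pow_mul, mul_assoc])
  have hy' : y < R := (mem_range.1 hy).trans_le hM
  rw [gt_pkLev _ l1 hR hM (idx_lt he' hy')]
  refine Finset.sum_congr rfl fun x hx => congrArg₂ (· * ·) ?_
    (by simp only [← pow_mul, mul_assoc])
  have hx' : x < R := (mem_range.1 hx).trans_le hM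
  rw [gt_pkLev _ h hR hM (idx_lt (idx_lt he' hy') hx')]
  simp only [← pow_mul]

theorem pkEv_dgs {E' M' G x : ℕ} (h : x < 2 ^ (G * (E' * M' * M' * M'))) :
    pkEv E' M' (2 ^ G) ((2 ^ G) ^ M') (((2 ^ G) ^ M') ^ M') ((((2 ^ G) ^ M') ^ M') ^ M')
      (fun e y x' z => if e < E' ∧ y < M' ∧ x' < M' ∧ z < M' then
        gt (pkDgs x G (E' * M' * M' * M')) (((e * M' + y) * M' + x') * M' + z) else 0) = x := by
  refine Eq.trans ?_ (sum_digs h)
  rw [pk_ev4]
  refine pkEv_congr fun e he y hy x' hx z hz => ?_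
  rw [if_pos ⟨he, hy, hx, hz⟩, pkDgs, gt_tab _ (idx_lt (idx_lt (idx_lt he hy) hx) hz)]

theorem pkEvl_conv {E E' R M M' G x y : ℕ} {o : List ℕ} (hE : 2 * E' ≤ E + 1)
    (hM : 2 * M' ≤ M + 1) (hE' : 0 < E') (hM' : 0 < M') (hMR : M ≤ R)
    (hx : x < 2 ^ (G * (E' * M' * M' * M'))) (hy : y < 2 ^ (G * (E' * M' * M' * M')))
    (ho : o.length = E * R * R * R)
    (h : ∀ e < E, ∀ y' < M, ∀ x' < M, ∀ z < M, gt o (((e * R + y') * R + x') * R + z) =
      ∑ e' ∈ range (e + 1), ∑ a1 ∈ range M, ∑ a2 ∈ range M, ∑ a3 ∈ range M,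
        gt (pkBox E' E M' R (pkDgs x G (E' * M' * M' * M'))) (((e' * R + a1) * R + a2) * R + a3) *
        gt (pkBox E' E M' R (pkDgs y G (E' * M' * M' * M')))
          ((((e - e') * R + (y' + M - a1) % M) * R + (x' + M - a2) % M) * R
            + (z + M - a3) % M)) :
    pkEvl R M M' G o = x * y := by
  have hM0 : 0 < M := by omega
  have hR : 0 < R := by omega
  rw [pkEvl_eq ho hR hMR, ← pkEv_dgs hx, ← pkEv_dgs hy,
    ← pk_conv _ _ _ _ hE hM _ _ (fun _ _ _ _ h => if_neg h) (fun _ _ _ _ h => if_neg h)]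
  refine pkEv_congr fun e he y' hy' x' hx' z hz => ?_
  rw [h e he y' hy' x' hx' z hz]
  refine Finset.sum_congr rfl fun e' he' => Finset.sum_congr rfl fun a1 h1 =>
    Finset.sum_congr rfl fun a2 h2 => Finset.sum_congr rfl fun a3 h3 => ?_
  have k0 := mem_range.1 he'
  have k1 := mem_range.1 h1
  have k2 := mem_range.1 h2
  have k3 := mem_range.1 h3
  have m1 : ∀ t, t % M < R := fun t => (Nat.mod_lt _ hM0).trans_le hMR
  rw [gt_pkBox hM' hR (length_pkDgs x _ _) hE' (show e' < E by omega) (show a1 < R by omega)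
      (show a2 < R by omega) (show a3 < R by omega),
    gt_pkBox hM' hR (length_pkDgs y _ _) hE' (show e - e' < E by omega) (m1 _) (m1 _) (m1 _)]

variable {ι : Type} [Enc ι] {𝒯 : Cls ι} [Dom 𝒯]

theorem Tm.pkLev {R M d A : ι → ℕ} {l : ι → List ℕ} (C : ℕ) (hl : Tm 𝒯 l) (hR : Tm 𝒯 R)
    (hM : Tm 𝒯 M) (hd : Tm 𝒯 d)
    (h : ∀ i, 𝒯.dom i → (l i).length = A i * R i ∧ 0 < R i ∧ M i ≤ R i ∧ 0 < d i ∧
      Bd (2 ^ (C * d i)) (l i))
    (hm : 𝒯.mem fun i => A i * (R i * d i)) : Tm 𝒯 (fun i => pkLev (R i) (M i) (d i) (l i)) := by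
  have : Dom (big (fun p : List ℕ × ℕ × ℕ => 0 < p.2.2 ∧ p.2.1 ≤ p.1.length ∧ 0 < p.1.length ∧
      Bd (2 ^ (C * p.2.2)) p.1) fun p => p.1.length * p.2.2) := by
    refine ⟨big_of_le (4 * C + 10) 6 fun p hp => ?_⟩
    obtain ⟨ch, m, k⟩ := p
    obtain ⟨h1, h2, h3, h4⟩ := hp
    dsimp only at h1 h2 h3 h4 ⊢
    have s1 := h4.sz_le
    have s2 := sz_nat_le m
    have s3 := sz_nat_le k
    have s4 : ch.length * 1 ≤ ch.length * k := Nat.mul_le_mul_left _ h1
    have s5 : 1 * k ≤ ch.length * k := Nat.mul_le_mul_right _ h3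
    rw [sz_pair, sz_pair]
    nlinarith
  have hg : Tm (big (fun p : List ℕ × ℕ × ℕ => 0 < p.2.2 ∧ p.2.1 ≤ p.1.length ∧ 0 < p.1.length ∧
      Bd (2 ^ (C * p.2.2)) p.1) fun p => p.1.length * p.2.2)
      (fun p => Nat.ofDigits (2 ^ p.2.2) (p.1.take p.2.1)) := by
    refine Tm.ofDigits C (by fun_prop) (by fun_prop) (fun p hp => ⟨hp.1, fun x hx =>
      hp.2.2.2 x (List.mem_of_mem_take hx)⟩) (big_of_le 2 0 fun p hp => ?_)
    have s4 : (p.1.take p.2.1).length + 1 ≤ 2 * p.1.length := by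
      have := hp.2.2.1
      rw [List.length_take]; omega
    have := Nat.mul_le_mul_right p.2.2 s4
    rw [mul_assoc] at this
    omega
  refine Tm.mapU hg (l := fun i => P338.chunks (R i) (l i)) (e := fun i => (M i, d i))
    (c := fun i => R i * d i) (by fun_prop) (by fun_prop) (fun i hi x hx => ?_)
    (𝒯.mono hm fun i hi => ?_)
  · obtain ⟨h1, h2, h3, h4, h5⟩ := h i hi
    have := length_of_mem_chunks h2 h1 x hx
    exact ⟨⟨h4, by simpa [this] using h3, by simpa [this] using h2,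
      fun a ha => h5 a (mem_of_mem_chunks hx a ha)⟩, by simp [this]⟩
  · obtain ⟨h1, h2, -⟩ := h i hi
    rw [length_chunks h2 h1]

section
variable {L b : ι → ℕ} (hm : 𝒯.mem fun i => L i * (b i + 1))
include hm

theorem Tm.pkMul {f g : ι → ℕ} (hf : Tm 𝒯 f) (hg : Tm 𝒯 g)
    (h : ∀ i, 𝒯.dom i → f i ≤ L i ∧ f i < 2 ^ b i ∧ g i < 2 ^ b i) :
    Tm 𝒯 (fun i => f i * g i) := by
  refine Tm.mulR hf hg (Cls.lin hm 2 0 fun i hi => ?_)
  obtain ⟨h1, h2, h3⟩ := h i hi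
  have s1 := Nat.size_le.2 h2
  have s2 := Nat.size_le.2 h3
  have := Nat.mul_le_mul h1 (show (f i).size + (g i).size ≤ 2 * (b i + 1) by omega)
  nlinarith

theorem Tm.pkPad {l : ι → List ℕ} {A R R' C : ι → ℕ} (hl : Tm 𝒯 l) (hR : Tm 𝒯 R) (hR' : Tm 𝒯 R')
    (hC : Tm 𝒯 C) (h : ∀ i, 𝒯.dom i → (l i).length = A i * R i * C i ∧ 0 < A i ∧ 0 < R i ∧
      0 < C i ∧ R i ≤ R' i ∧ A i * R' i * C i ≤ L i ∧ L i < 2 ^ b i ∧ Bd (2 ^ b i) (l i)) :
    Tm 𝒯 (fun i => P338.padD (R i) (R' i) (C i) (l i)) := by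
  have k : ∀ i, 𝒯.dom i → (l i).length ≤ L i := fun i hi => by
    obtain ⟨h1, -, -, -, h5, h6, -⟩ := h i hi
    rw [h1]
    exact (Nat.mul_le_mul_right _ (Nat.mul_le_mul_left _ h5)).trans h6
  refine Tm.padD (A := A) (b := b) ⟨hl, fun i hi => (h i hi).2.2.2.2.2.2.2,
    fun i hi => (k i hi).trans_lt (h i hi).2.2.2.2.2.2.1,
    𝒯.mono hm fun i hi => Nat.mul_le_mul_right _ (k i hi)⟩ hR hC
    (fun i hi => ⟨(h i hi).1, (h i hi).2.1, (h i hi).2.2.1, (h i hi).2.2.2.1⟩) hR'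
    (𝒯.mono hm fun i hi => Nat.mul_le_mul_right _ (h i hi).2.2.2.2.2.1)

theorem Tm.pkBox {l : ι → List ℕ} {E' E M' R : ι → ℕ} (hl : Tm 𝒯 l) (hE' : Tm 𝒯 E') (hE : Tm 𝒯 E)
    (hM' : Tm 𝒯 M') (hR : Tm 𝒯 R) (hRR : Tm 𝒯 fun i => R i * R i)
    (hRRR : Tm 𝒯 fun i => R i * R i * R i)
    (h : ∀ i, 𝒯.dom i → (l i).length = E' i * M' i * M' i * M' i ∧ 0 < E' i ∧ 0 < M' i ∧
      E' i ≤ E i ∧ M' i ≤ R i ∧ L i = E i * R i * R i * R i ∧ L i < 2 ^ b i ∧
      Bd (2 ^ b i) (l i)) :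
    Tm 𝒯 (fun i => pkBox (E' i) (E i) (M' i) (R i) (l i)) := by
  have t1 : Tm 𝒯 (fun i => P338.padD (M' i) (R i) 1 (l i)) := by
    refine Tm.pkPad hm (A := fun i => E' i * M' i * M' i) hl hM' hR (Tm.const 1) fun i hi => ?_
    obtain ⟨h1, h2, h3, h4, h5, h6, h7, h8⟩ := h i hi
    refine ⟨by rw [h1, mul_one], by positivity, h3, one_pos, h5, ?_, h7, h8⟩
    rw [h6, mul_one]
    gcongr
  have t2 : Tm 𝒯 (fun i => P338.padD (M' i) (R i) (R i) (P338.padD (M' i) (R i) 1 (l i))) := by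
    refine Tm.pkPad hm (A := fun i => E' i * M' i) t1 hM' hR hR fun i hi => ?_
    obtain ⟨h1, h2, h3, h4, h5, h6, h7, h8⟩ := h i hi
    have h0 : 0 < R i := h3.trans_le h5
    refine ⟨pkBox_len1 h3 h1, by positivity, h3, h0, h5, ?_, h7,
      pk_bd_pad h8 (Nat.two_pow_pos _)⟩
    rw [h6]
    gcongr
  have t3 : Tm 𝒯 (fun i => P338.padD (M' i) (R i) (R i * R i)
      (P338.padD (M' i) (R i) (R i) (P338.padD (M' i) (R i) 1 (l i)))) := by
    refine Tm.pkPad hm (A := E') t2 hM' hR hRR fun i hi => ?_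
    obtain ⟨h1, h2, h3, h4, h5, h6, h7, h8⟩ := h i hi
    have h0 : 0 < R i := h3.trans_le h5
    refine ⟨pkBox_len2 h3 h0 h1, h2, h3, by positivity, h5, ?_, h7,
      pk_bd_pad (pk_bd_pad h8 (Nat.two_pow_pos _)) (Nat.two_pow_pos _)⟩
    rw [h6, ← mul_assoc]
    gcongr
  refine Tm.pkPad hm (A := fun _ => 1) t3 hE' hE hRRR fun i hi => ?_
  obtain ⟨h1, h2, h3, h4, h5, h6, h7, h8⟩ := h i hi
  have h0 : 0 < R i := h3.trans_le h5
  refine ⟨pkBox_len3 h3 h0 h1, one_pos, h2, by positivity, h4, ?_, h7,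
    pk_bd_pad (pk_bd_pad (pk_bd_pad h8 (Nat.two_pow_pos _)) (Nat.two_pow_pos _)) (Nat.two_pow_pos _)⟩
  rw [h6]
  exact le_of_eq (by ring)

theorem Tm.pkEvl {l : ι → List ℕ} {E R M M' G : ι → ℕ} (hl : Tm 𝒯 l) (hR : Tm 𝒯 R) (hM : Tm 𝒯 M)
    (hG : Tm 𝒯 G) (h1 : Tm 𝒯 fun i => G i * M' i) (h2 : Tm 𝒯 fun i => G i * M' i * M' i)
    (h3 : Tm 𝒯 fun i => G i * M' i * M' i * M' i)
    (h : ∀ i, 𝒯.dom i → (l i).length = E i * R i * R i * R i ∧ 0 < E i ∧ 0 < M' i ∧ 0 < G i ∧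
      M i ≤ R i ∧ M' i ≤ R i ∧ M i ≤ 2 * M' i ∧ G i ≤ b i ∧ L i = E i * R i * R i * R i ∧
      Bd (2 ^ (25 * G i)) (l i)) :
    Tm 𝒯 (fun i => pkEvl (R i) (M i) (M' i) (G i) (l i)) := by
  have f : ∀ i, 𝒯.dom i → 0 < R i ∧
      (P338.pkLev (R i) (M i) (G i) (l i)).length = E i * R i * R i ∧
      Bd (2 ^ (27 * (G i * M' i))) (P338.pkLev (R i) (M i) (G i) (l i)) ∧
      (P338.pkLev (R i) (M i) (G i * M' i) (P338.pkLev (R i) (M i) (G i) (l i))).length = E i * R i ∧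
      Bd (2 ^ (29 * (G i * M' i * M' i)))
        (P338.pkLev (R i) (M i) (G i * M' i) (P338.pkLev (R i) (M i) (G i) (l i))) ∧
      (P338.pkLev (R i) (M i) (G i * M' i * M' i)
        (P338.pkLev (R i) (M i) (G i * M' i) (P338.pkLev (R i) (M i) (G i) (l i)))).length = E i ∧
      Bd (2 ^ (31 * (G i * M' i * M' i * M' i))) (P338.pkLev (R i) (M i) (G i * M' i * M' i)
        (P338.pkLev (R i) (M i) (G i * M' i) (P338.pkLev (R i) (M i) (G i) (l i)))) := fun i hi => by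
    obtain ⟨k1, k2, k3, k4, k5, k6, k7, k8, k9, k10⟩ := h i hi
    have h0 : 0 < R i := k3.trans_le k6
    have l1 := length_pkLev (G i) k1 h0 k5
    have l2 := length_pkLev (G i * M' i) l1 h0 k5
    have l3 := length_pkLev (G i * M' i * M' i) l2 h0 k5
    have b1 := bd_pkLev k1 h0 k5 k4 k7 k3 k10
    have b2 := bd_pkLev l1 h0 k5 (by positivity) k7 k3 b1
    have b3 := bd_pkLev l2 h0 k5 (by positivity) k7 k3 b2
    exact ⟨h0, l1, b1, l2, b2, l3, b3⟩
  have t1 : Tm 𝒯 (fun i => P338.pkLev (R i) (M i) (G i) (l i)) := by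
    refine Tm.pkLev (A := fun i => E i * R i * R i) 25 hl hR hM hG (fun i hi => ?_)
      (𝒯.mono hm fun i hi => ?_)
    · obtain ⟨k1, k2, k3, k4, k5, k6, k7, k8, k9, k10⟩ := h i hi
      exact ⟨k1, (f i hi).1, k5, k4, k10⟩
    · obtain ⟨k1, k2, k3, k4, k5, k6, k7, k8, k9, k10⟩ := h i hi
      rw [k9, ← mul_assoc]
      exact Nat.mul_le_mul_left _ (by omega)
  have t2 : Tm 𝒯 (fun i => P338.pkLev (R i) (M i) (G i * M' i)
      (P338.pkLev (R i) (M i) (G i) (l i))) := by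
    refine Tm.pkLev (A := fun i => E i * R i) 27 t1 hR hM h1 (fun i hi => ?_)
      (𝒯.mono hm fun i hi => ?_)
    · obtain ⟨k1, k2, k3, k4, k5, k6, k7, k8, k9, k10⟩ := h i hi
      exact ⟨(f i hi).2.1, (f i hi).1, k5, by positivity, (f i hi).2.2.1⟩
    · obtain ⟨k1, k2, k3, k4, k5, k6, k7, k8, k9, k10⟩ := h i hi
      rw [k9]
      calc E i * R i * (R i * (G i * M' i)) = E i * R i * R i * M' i * G i := by ring
        _ ≤ _ := by gcongr; omega
  have t3 : Tm 𝒯 (fun i => P338.pkLev (R i) (M i) (G i * M' i * M' i)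
      (P338.pkLev (R i) (M i) (G i * M' i) (P338.pkLev (R i) (M i) (G i) (l i)))) := by
    refine Tm.pkLev (A := E) 29 t2 hR hM h2 (fun i hi => ?_) (𝒯.mono hm fun i hi => ?_)
    · obtain ⟨k1, k2, k3, k4, k5, k6, k7, k8, k9, k10⟩ := h i hi
      exact ⟨(f i hi).2.2.2.1, (f i hi).1, k5, by positivity, (f i hi).2.2.2.2.1⟩
    · obtain ⟨k1, k2, k3, k4, k5, k6, k7, k8, k9, k10⟩ := h i hi
      rw [k9]
      calc E i * (R i * (G i * M' i * M' i)) = E i * R i * M' i * M' i * G i := by ring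
        _ ≤ _ := by gcongr; omega
  refine Tm.ofDigits 31 t3 h3 (fun i hi => ?_) (Cls.lin hm 2 0 fun i hi => ?_)
  · obtain ⟨k1, k2, k3, k4, k5, k6, k7, k8, k9, k10⟩ := h i hi
    exact ⟨by positivity, (f i hi).2.2.2.2.2.2⟩
  · obtain ⟨k1, k2, k3, k4, k5, k6, k7, k8, k9, k10⟩ := h i hi
    rw [(f i hi).2.2.2.2.2.1, k9, add_zero]
    calc (E i + 1) * (G i * M' i * M' i * M' i) = (E i + 1) * M' i * M' i * M' i * G i := by ring
      _ ≤ (2 * E i) * R i * R i * R i * (b i + 1) := by gcongr <;> omega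
      _ = _ := by ring

end

theorem Cf.ok.pack {c : Cf} (h : c.ok) : 0 < c.G ∧ c.G ≤ c.w ∧ c.b ≤ 25 * c.G ∧ c.M ≤ c.R ∧
    0 < (c.M + 1) / 2 ∧ (c.M + 1) / 2 ≤ c.R ∧ 0 < (c.E + 1) / 2 ∧ (c.E + 1) / 2 ≤ c.E ∧
    c.b + 1 ≤ c.tc ∧ c.w ≤ c.b := by
  have h1 := h.lg
  have h2 := h.w_eq
  have h3 := h.mr
  have h4 := h.M_pos
  have h5 := c.E_pos
  have h6 : 1 * 1 * (c.b + 1) ≤ c.E * c.E * (c.b + 1) := by gcongr <;> omega
  have h7 : c.b = 2 * c.w + 1 := rfl
  refine ⟨by omega, by omega, by omega, by omega, by omega, by omega, by omega, by omega, ?_,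
    by omega⟩
  unfold Cf.tc
  omega

theorem Tm.fastmul {c : ι → Cf} {x y : ι → ℕ} (hc : Tm 𝒯 c) (hx : Tm 𝒯 x) (hy : Tm 𝒯 y)
    (h : ∀ i, 𝒯.dom i → (c i).ok ∧
      x i < 2 ^ ((c i).G * (((c i).E + 1) / 2 * (((c i).M + 1) / 2) ^ 3)) ∧
      y i < 2 ^ ((c i).G * (((c i).E + 1) / 2 * (((c i).M + 1) / 2) ^ 3)))
    (hm : 𝒯.mem fun i => (c i).E * (c i).R * (c i).R * (c i).R * (c i).tc) :
    Tm 𝒯 (fun i => x i * y i) := by
  obtain ⟨cv, hcv, tcv⟩ := exists_conv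
  have hb : 𝒯.mem fun i => (c i).E * (c i).R * (c i).R * (c i).R * ((c i).b + 1) :=
    𝒯.mono hm fun i hi => Nat.mul_le_mul_left _ (h i hi).1.pack.2.2.2.2.2.2.2.2.1
  have hT : CfT 𝒯 c := by
    refine ⟨hc, fun i hi => (h i hi).1, fun n => ?_⟩
    obtain ⟨C, hC⟩ := pk_pow_le n
    refine Cls.lin hb C 0 fun i hi => (hC _).trans (Nat.mul_le_mul_left _ ?_)
    have h1 := (c i).E_pos
    have h2 := (c i).R_pos
    calc 2 ^ (c i).s = 1 * (c i).R * 1 * 1 * 1 := by simp [Cf.R]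
      _ ≤ _ := by gcongr <;> omega
  have tE' : Tm 𝒯 fun i => ((c i).E + 1) / 2 := (hT.E.add (Tm.const 1)).half
  have tM' : Tm 𝒯 fun i => ((c i).M + 1) / 2 := (hT.M.add (Tm.const 1)).half
  have num : ∀ i, 𝒯.dom i → ∀ u v, u ≤ (c i).E * (c i).R * (c i).R * (c i).R → v ≤ (c i).w →
      v * u < 2 ^ (c i).b := fun i hi u v hu hv => by
    have h1 := hu.trans_lt (h i hi).1.len_lt
    have h2 : v < 2 ^ (c i).w := hv.trans_lt Nat.lt_two_pow_self
    calc v * u < 2 ^ (c i).w * 2 ^ (c i).w := Nat.mul_lt_mul'' h2 h1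
      _ = 2 ^ (2 * (c i).w) := by rw [← pow_add, two_mul]
      _ ≤ _ := Nat.pow_le_pow_right two_pos (Nat.le_succ _)
  have step : ∀ {g : ι → ℕ}, Tm 𝒯 g → (∀ i, 𝒯.dom i → g i < 2 ^ (c i).b) →
      Tm 𝒯 fun i => g i * (((c i).M + 1) / 2) := fun {g} hg hl => by
    refine (Tm.pkMul hb tM' hg fun i hi => ?_).congr fun i _ => mul_comm _ _
    obtain ⟨k1, k2, k3, k4, k5, k6, k7, k8, k9, k10⟩ := (h i hi).1.pack
    have h1 := (c i).E_pos
    have h2 := (c i).R_pos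
    have h3 : ((c i).M + 1) / 2 ≤ (c i).E * (c i).R * (c i).R * (c i).R :=
      calc ((c i).M + 1) / 2 = 1 * (((c i).M + 1) / 2) * 1 * 1 := by ring
        _ ≤ _ := by gcongr <;> omega
    exact ⟨h3, by simpa using num i hi _ 1 h3 (by omega), hl i hi⟩
  have tG1 := step hT.G fun i hi => by
    obtain ⟨k1, k2, k3, k4, k5, k6, k7, k8, k9, k10⟩ := (h i hi).1.pack
    have h1 := (c i).E_pos
    have h2 := (c i).R_pos
    simpa using num i hi 1 _ (Nat.succ_le_of_lt (by positivity)) k2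
  have tG2 := step tG1 fun i hi => by
    obtain ⟨k1, k2, k3, k4, k5, k6, k7, k8, k9, k10⟩ := (h i hi).1.pack
    have h1 := (c i).E_pos
    have h2 := (c i).R_pos
    refine num i hi _ _ ?_ k2
    calc ((c i).M + 1) / 2 = 1 * (((c i).M + 1) / 2) * 1 * 1 := by ring
      _ ≤ _ := by gcongr <;> omega
  have tG3 := step tG2 fun i hi => by
    obtain ⟨k1, k2, k3, k4, k5, k6, k7, k8, k9, k10⟩ := (h i hi).1.pack
    have h1 := (c i).E_pos
    have h2 := (c i).R_pos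
    rw [mul_assoc]
    refine num i hi _ _ ?_ k2
    calc ((c i).M + 1) / 2 * (((c i).M + 1) / 2)
        = 1 * (((c i).M + 1) / 2) * (((c i).M + 1) / 2) * 1 := by ring
      _ ≤ _ := by gcongr <;> omega
  have tN1 := step tE' fun i hi => by
    obtain ⟨k1, k2, k3, k4, k5, k6, k7, k8, k9, k10⟩ := (h i hi).1.pack
    have h2 := (c i).R_pos
    refine (one_mul _).symm.trans_lt (num i hi _ 1 ?_ (by omega))
    calc ((c i).E + 1) / 2 = ((c i).E + 1) / 2 * 1 * 1 * 1 := by ring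
      _ ≤ _ := by gcongr <;> omega
  have tN2 := step tN1 fun i hi => by
    obtain ⟨k1, k2, k3, k4, k5, k6, k7, k8, k9, k10⟩ := (h i hi).1.pack
    have h2 := (c i).R_pos
    refine (one_mul _).symm.trans_lt (num i hi _ 1 ?_ (by omega))
    calc ((c i).E + 1) / 2 * (((c i).M + 1) / 2)
        = ((c i).E + 1) / 2 * (((c i).M + 1) / 2) * 1 * 1 := by ring
      _ ≤ _ := by gcongr <;> omega
  have tN := step tN2 fun i hi => by
    obtain ⟨k1, k2, k3, k4, k5, k6, k7, k8, k9, k10⟩ := (h i hi).1.pack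
    have h2 := (c i).R_pos
    refine (one_mul _).symm.trans_lt (num i hi _ 1 ?_ (by omega))
    calc ((c i).E + 1) / 2 * (((c i).M + 1) / 2) * (((c i).M + 1) / 2)
        = ((c i).E + 1) / 2 * (((c i).M + 1) / 2) * (((c i).M + 1) / 2) * 1 := by ring
      _ ≤ _ := by gcongr; omega
  have inp : ∀ {z : ι → ℕ}, Tm 𝒯 z → Tm 𝒯 fun i =>
      P338.pkBox (((c i).E + 1) / 2) (c i).E (((c i).M + 1) / 2) (c i).R (pkDgs (z i) (c i).G
        (((c i).E + 1) / 2 * (((c i).M + 1) / 2) * (((c i).M + 1) / 2) * (((c i).M + 1) / 2))) :=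
    fun {z} hz => by
    refine Tm.pkBox hb (Tm.digs hz hT.G tN (fun i hi => (h i hi).1.pack.1)
      (𝒯.mono hb fun i hi => ?_)) tE' hT.E tM' hT.R hT.RR hT.RRR fun i hi => ?_
    · obtain ⟨k1, k2, k3, k4, k5, k6, k7, k8, k9, k10⟩ := (h i hi).1.pack
      gcongr
      omega
    · obtain ⟨k1, k2, k3, k4, k5, k6, k7, k8, k9, k10⟩ := (h i hi).1.pack
      exact ⟨length_tab _ _, k7, k5, k8, k6, rfl,
        (h i hi).1.len_lt.trans_le (Nat.pow_le_pow_right two_pos k10),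
        (bd_pkDgs _ _ _).mono (Nat.pow_le_pow_right two_pos (k2.trans k10))⟩
  have shp : ∀ i, 𝒯.dom i → ∀ z, (P338.pkBox (((c i).E + 1) / 2) (c i).E (((c i).M + 1) / 2) (c i).R
      (pkDgs z (c i).G (((c i).E + 1) / 2 * (((c i).M + 1) / 2) * (((c i).M + 1) / 2) *
        (((c i).M + 1) / 2)))).length = (c i).E * (c i).R * (c i).R * (c i).R := fun i hi z =>
    length_pkBox (h i hi).1.pack.2.2.2.2.1 (c i).R_pos (length_tab _ _)
      (h i hi).1.pack.2.2.2.2.2.2.1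
  have spec := fun i hi => hcv (c i) _ _ (h i hi).1 (shp i hi (x i)) (shp i hi (y i))
    (bd_pkBox (bd_pkDgs _ _ _) (Nat.two_pow_pos _)) (bd_pkBox (bd_pkDgs _ _ _) (Nat.two_pow_pos _))
  have out := tcv hc (inp hx) (inp hy) (fun i hi => ⟨(h i hi).1, shp i hi _, shp i hi _,
    bd_pkBox (bd_pkDgs _ _ _) (Nat.two_pow_pos _), bd_pkBox (bd_pkDgs _ _ _) (Nat.two_pow_pos _)⟩)
    (𝒯.mono hm fun i hi => by rw [shp i hi])
  refine (Tm.pkEvl hb (E := fun i => (c i).E) out hT.R hT.M hT.G tG1 tG2 tG3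
    fun i hi => ?_).congr fun i hi => ?_
  · obtain ⟨k1, k2, k3, k4, k5, k6, k7, k8, k9, k10⟩ := (h i hi).1.pack
    exact ⟨(spec i hi).1.1, (c i).E_pos, k5, k1, k4, k6, by omega, k2.trans k10, rfl,
      (spec i hi).1.2.mono ((c i).P_le.trans (Nat.pow_le_pow_right two_pos k3))⟩
  · obtain ⟨k1, k2, k3, k4, k5, k6, k7, k8, k9, k10⟩ := (h i hi).1.pack
    have e : ((c i).E + 1) / 2 * (((c i).M + 1) / 2) ^ 3 =
        ((c i).E + 1) / 2 * (((c i).M + 1) / 2) * (((c i).M + 1) / 2) * (((c i).M + 1) / 2) := by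
      ring
    exact (pkEvl_conv (by omega) (by omega) k7 k5 k4 (e ▸ (h i hi).2.1) (e ▸ (h i hi).2.2)
      (spec i hi).1.1 (spec i hi).2).symm

end Vale.Agent.P338
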