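import Vale.Agent.P338.NatOps

/-! The moduli and the base of the fast exchange. -/

namespace Vale.Agent.P338

/-- One round of the greedy choice of primes. -/
def qsStep (s : ℕ) (y : List ℕ) (p : ℕ) : List ℕ :=
  if p.Prime ∧ 5 ≤ p ∧ 2 * y.prod * p ≤ 2 ^ s then p :: y else y

theorem qs_inv {s : ℕ} (hs : 0 < s) (n : ℕ) :
    (∀ q ∈ (List.range n).foldl (qsStep s) [], q.Prime ∧ 5 ≤ q ∧ q < n) ∧
      ((List.range n).foldl (qsStep s) []).Pairwise Nat.Coprime ∧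
      2 * ((List.range n).foldl (qsStep s) []).prod ≤ 2 ^ s ∧
      ((∀ p < n, p.Prime → 5 ≤ p → p ∈ (List.range n).foldl (qsStep s) []) ∨
        ∃ p < n, 2 ^ s < 2 * ((List.range n).foldl (qsStep s) []).prod * p) := by
  induction n with
  | zero => simpa using Nat.le_self_pow hs.ne' 2
  | succ n ih =>
    rw [List.range_succ, List.foldl_append, List.foldl_cons, List.foldl_nil]
    generalize (List.range n).foldl (qsStep s) [] = y at ih ⊢
    obtain ⟨h1, h2, h3, h4⟩ := ih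
    unfold qsStep
    split_ifs with h
    · refine ⟨fun q hq => ?_, List.pairwise_cons.2 ⟨fun q hq => ?_, h2⟩, ?_, ?_⟩
      · rcases List.mem_cons.1 hq with rfl | hq
        · exact ⟨h.1, h.2.1, Nat.lt_succ_self _⟩
        · exact ⟨(h1 q hq).1, (h1 q hq).2.1, Nat.lt_succ_of_lt (h1 q hq).2.2⟩
      · exact (Nat.coprime_primes h.1 (h1 q hq).1).2 (h1 q hq).2.2.ne'
      · rw [List.prod_cons, mul_comm n, ← mul_assoc]; exact h.2.2
      · rcases h4 with h4 | ⟨p, hp, h4⟩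
        · refine .inl fun p hp p1 p2 => ?_
          rcases Nat.lt_succ_iff_lt_or_eq.1 hp with hp | rfl
          exacts [List.mem_cons_of_mem _ (h4 p hp p1 p2), List.mem_cons_self]
        · refine .inr ⟨p, Nat.lt_succ_of_lt hp, h4.trans_le ?_⟩
          rw [List.prod_cons]
          gcongr
          exact Nat.le_mul_of_pos_left _ h.1.pos
    · refine ⟨fun q hq => ⟨(h1 q hq).1, (h1 q hq).2.1, Nat.lt_succ_of_lt (h1 q hq).2.2⟩, h2, h3, ?_⟩
      rcases h4 with h4 | ⟨p, hp, h4⟩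
      · by_cases hn : n.Prime ∧ 5 ≤ n
        · exact .inr ⟨n, Nat.lt_succ_self _, not_le.1 fun h5 => h ⟨hn.1, hn.2, h5⟩⟩
        · refine .inl fun p hp p1 p2 => h4 p ?_ p1 p2
          exact (Nat.lt_succ_iff_lt_or_eq.1 hp).resolve_right fun e => hn (e ▸ ⟨p1, p2⟩)
      · exact .inr ⟨p, Nat.lt_succ_of_lt hp, h4⟩

theorem qs_pow (h : ℕ) (hh : 9 ≤ h) : (2 * h + 1) ^ 2 + 1 ≤ 2 ^ h := by
  induction h, hh using Nat.le_induction with
  | base => norm_num
  | succ h hh ih => rw [pow_succ 2]; nlinarith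

theorem qs_many {s : ℕ} (hs : 18 ≤ s) : s + 1 < (Nat.primesLE (s ^ 2)).card := by
  by_contra hc
  have h0 : 0 < s ^ 2 := by positivity
  have h1 := Chebyshev.two_pow_le_mul_lcmUpto (s ^ 2)
  have h2 : Nat.lcmUpto (s ^ 2) ≤ (s ^ 2) ^ (s + 1) := by
    rw [Nat.lcmUpto_eq_prod_pow_log]
    exact (Finset.prod_le_pow_card _ _ _ fun p _ => Nat.pow_log_le_self p h0.ne').trans
      (Nat.pow_le_pow_right h0 (not_lt.1 hc))
  have h3 : s ^ 2 + 1 ≤ 2 ^ (s / 2) :=
    le_trans (by gcongr; omega) (qs_pow (s / 2) (by omega))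
  have h4 : (s ^ 2 + 1) * Nat.lcmUpto (s ^ 2) ≤ 2 ^ (s / 2 * (s + 2)) := by
    rw [pow_mul, pow_succ' _ (s + 1)]
    exact Nat.mul_le_mul h3 (h2.trans (Nat.pow_le_pow_left (by omega) _))
  have h5 := (Nat.pow_le_pow_iff_right one_lt_two).1 (h1.trans h4)
  have h6 : 2 * (s / 2) ≤ s := Nat.mul_div_le _ _
  nlinarith

theorem exists_qs : ∃ (s0 : ℕ) (qs : ℕ → List ℕ),
    Tm (poly (fun s : ℕ => s0 ≤ s) fun s => s) qs ∧ ∀ s, s0 ≤ s → (qs s).Pairwise Nat.Coprime ∧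
      (∀ q ∈ qs s, Odd q ∧ q ≤ s ^ 2) ∧ (qs s).length ≤ s ∧ 2 * (qs s).prod ≤ 2 ^ s ∧
      2 ^ s ≤ 6 * (qs s).prod := by
  refine ⟨18, fun s => 3 ^ Nat.log 3 (2 ^ s / (2 * ((List.range (s ^ 2 + 1)).foldl
    (qsStep s) []).prod)) :: (List.range (s ^ 2 + 1)).foldl (qsStep s) [], ?_, fun s hs => ?_⟩
  · set 𝒯 := poly (fun s : ℕ => 18 ≤ s) fun s => s
    have hs : 𝒯.mem fun s => s := poly_self _ _
    have : Dom 𝒯 := ⟨Cls.lin hs 4 2 fun s _ => sz_nat_le s⟩
    have hs2 : 𝒯.mem fun s => s ^ 2 + 1 := 𝒯.add (Cls.pow hs 2) (𝒯.const 1)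
    have h2 : Tm 𝒯 fun s => 2 ^ s := Tm.id.pow2 hs
    have hy : Tm 𝒯 fun s => (List.range (s ^ 2 + 1)).foldl (qsStep s) [] := by
      refine Tm.foldlE (((Tm.id.pow (Tm.const 2) (𝒯.const 2)).add (Tm.const 1)).rangeP hs2)
        (Tm.const []) (fun s n y => y.length ≤ n ∧ ∀ q ∈ y, q < s ^ 2 + 1)
        (B := fun s => (s ^ 2 + 1) * (4 * (s ^ 2 + 1) + 2) + 2)
        (𝒯.add (Mulc.mul hs2 (Cls.lin hs2 4 2 fun _ _ => le_rfl)) (𝒯.const 2))
        (fun _ _ => by simp) (fun s _ n x hx y hy => ?_) (fun s _ n hn y hy => ?_) fun _ => ?_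
      · unfold qsStep
        split_ifs
        · refine ⟨by simpa using hy.1, fun q hq => ?_⟩
          rcases List.mem_cons.1 hq with rfl | hq
          exacts [List.mem_range.1 (List.mem_of_getElem? hx), hy.2 q hq]
        · exact ⟨by omega, hy.2⟩
      · rw [List.length_range] at hn
        refine (sz_le_of_forall y (B := 4 * (s ^ 2 + 1) + 2) fun q hq => ?_).trans ?_
        · have := sz_nat_le q
          have := hy.2 q hq
          omega
        · gcongr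
          exact hy.1.trans hn
      · exact ((Tm.id.fst.fst.prime (Cls.ext_of_le hs2 fun b s _ ⟨n, hn, _⟩ =>
          (List.mem_range.1 (List.mem_of_getElem? hn)).le)).and
          (((Tm.const 5).le Tm.id.fst.fst).and
            ((Tm.id.fst.snd.prod.dbl.mul Tm.id.fst.fst).le (h2.lift _)))).ite
          (Tm.id.fst.fst.cons Tm.id.fst.snd) Tm.id.fst.snd
    refine ((Tm.const 3).pow ((Tm.const 3).log (h2.div hy.prod.dbl)) ?_).cons hy
    refine 𝒯.mono hs fun s _ => Nat.le_of_lt_succ (Nat.log_lt_of_lt_pow' (by omega) ?_)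
    exact (Nat.div_le_self _ _).trans_lt ((Nat.pow_le_pow_left (by omega) s).trans_lt
      (Nat.pow_lt_pow_right (by omega) (Nat.lt_succ_self s)))
  · obtain ⟨h1, h2, h3, h4⟩ := qs_inv (s := s) (by omega) (s ^ 2 + 1)
    beta_reduce
    generalize (List.range (s ^ 2 + 1)).foldl (qsStep s) [] = y at h1 h2 h3 h4 ⊢
    have a1 : 2 ^ y.length ≤ y.prod :=
      List.pow_card_le_prod y 2 fun q hq => (h1 q hq).1.two_le
    have a2 : y.length + 1 ≤ s := by
      rw [← Nat.pow_le_pow_iff_right one_lt_two, pow_succ]; omega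
    have a3 : 0 < 2 * y.prod := by have := Nat.two_pow_pos y.length; omega
    obtain ⟨p, hp, h5⟩ := h4.resolve_left fun h4 => by
      have b1 : Nat.primesLE (s ^ 2) ⊆ insert 2 (insert 3 y.toFinset) := fun p hp => by
        obtain ⟨p1, p2⟩ := Nat.mem_primesLE.1 hp
        simp only [Finset.mem_insert, List.mem_toFinset]
        by_cases h5 : 5 ≤ p
        · exact .inr (.inr (h4 p (by omega) p2 h5))
        · have := p2.two_le
          have : p ≠ 4 := by rintro rfl; norm_num at p2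
          omega
      have b2 := Finset.card_le_card b1
      have b3 := Finset.card_insert_le 2 (insert 3 y.toFinset)
      have b4 := Finset.card_insert_le 3 y.toFinset
      have b5 := List.toFinset_card_le y
      have b6 := qs_many hs
      omega
    have a4 : 2 ^ s / (2 * y.prod) ≠ 0 := (Nat.div_pos h3 a3).ne'
    have a5 := Nat.pow_log_le_self 3 a4
    have a6 := Nat.lt_pow_succ_log_self (b := 3) (by omega) (2 ^ s / (2 * y.prod))
    have a7 : 2 ^ s / (2 * y.prod) < p := (Nat.div_lt_iff_lt_mul a3).2 (by rwa [mul_comm p])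
    refine ⟨List.pairwise_cons.2 ⟨fun q hq => ?_, h2⟩, fun q hq => ?_, a2, ?_, ?_⟩
    · refine Nat.Coprime.pow_left _ ((Nat.coprime_primes Nat.prime_three (h1 q hq).1).2 ?_)
      have := (h1 q hq).2.1
      omega
    · rcases List.mem_cons.1 hq with rfl | hq
      · exact ⟨Odd.pow (by decide), by omega⟩
      · obtain ⟨q1, q2, q3⟩ := h1 q hq
        exact ⟨q1.odd_of_ne_two (by omega), by omega⟩
    · rw [List.prod_cons, mul_left_comm]
      exact (Nat.le_div_iff_mul_le a3).1 a5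
    · rw [List.prod_cons]
      refine ((Nat.div_lt_iff_lt_mul a3).1 a6).le.trans_eq ?_
      rw [pow_succ]; ring

theorem exists_mu {D : ℕ} (hD : 0 < D) : ∃ mu : ℕ × ℕ → ℕ,
    Tm (poly (fun p : ℕ × ℕ => p.2 ≤ p.1) fun p => p.1) mu ∧ ∀ s K, K ≤ s → 0 < K →
      (8 * D * K) ^ K ≤ 2 ^ s → D ∣ mu (s, K) + 1 ∧ 2 ≤ mu (s, K) ∧ 2 ^ s ≤ mu (s, K) ^ K ∧
        mu (s, K) ^ K ≤ 2 * 2 ^ s := by
  set 𝒯 := poly (fun p : ℕ × ℕ => p.2 ≤ p.1) fun p => p.1
  have hs : 𝒯.mem fun p => p.1 := poly_self _ _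
  have : Dom 𝒯 := ⟨Cls.lin hs 8 4 fun p (hp : p.2 ≤ p.1) => by
    have := sz_nat_le p.1
    have := sz_nat_le p.2
    rw [sz_prod]; omega⟩
  obtain ⟨r, hr, h⟩ := Tm.root (𝒯 := 𝒯) (Tm.id.fst.pow2 hs) Tm.id.snd (𝒯.mono hs fun _ hp => hp)
  refine ⟨fun p => D * (r p / D + 2) - 1,
    (((hr.div (Tm.const D)).add (Tm.const 2)).cmul D).sub (Tm.const 1), fun s K h1 h2 h3 => ?_⟩
  obtain ⟨h4, h5⟩ := h (s, K) h1 h2
  beta_reduce at h4 h5 ⊢
  generalize r (s, K) = x at h4 h5 ⊢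
  have a1 : 8 * D * K < x + 1 := lt_of_pow_lt_pow_left₀ K (Nat.zero_le _) (h3.trans_lt h5)
  have a2 := Nat.div_add_mod x D
  have a3 := Nat.mod_lt x hD
  have a4 : 0 < D * K := Nat.mul_pos hD h2
  rw [mul_assoc] at a1
  obtain ⟨m, hm⟩ : ∃ m, D * (x / D + 2) = m + 1 := ⟨D * (x / D + 2) - 1, by rw [mul_add]; omega⟩
  have a5 : x + 1 ≤ m ∧ m ≤ x + 2 * D := by rw [mul_add] at hm; omega
  rw [hm, Nat.add_sub_cancel]
  refine ⟨hm ▸ dvd_mul_right _ _, by omega, h5.le.trans (Nat.pow_le_pow_left a5.1 _),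
    le_trans ?_ (Nat.mul_le_mul_left 2 h4)⟩
  have b0 : (0 : ℝ) < m := by exact_mod_cast (by omega : 0 < m)
  have b1 : (m : ℝ) ≤ x + 2 * D := by exact_mod_cast a5.2
  have b2 : 4 * ((D : ℝ) * K) ≤ m := by exact_mod_cast (by omega : 4 * (D * K) ≤ m)
  have b3 := one_add_mul_le_pow (a := (x : ℝ) / m - 1)
    (by have : (0 : ℝ) ≤ x / m := by positivity
        linarith) K
  have b4 : (1 : ℝ) / 2 ≤ 1 + K * (x / m - 1) := by
    have : (1 : ℝ) + K * (x / m - 1) = (m + K * (x - m)) / m := by field_simp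
    rw [this, div_le_div_iff₀ two_pos b0]
    nlinarith [mul_le_mul_of_nonneg_left b1 (Nat.cast_nonneg (α := ℝ) K)]
  have b5 := b4.trans b3
  rw [add_sub_cancel, div_pow, div_le_div_iff₀ two_pos (pow_pos b0 K), one_mul, mul_comm] at b5
  exact_mod_cast b5

end Vale.Agent.P338
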