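import Vale.Agent.P338.CfOps
import Vale.Agent.P338.Primes

/-! Choice of the parameters. -/

namespace Vale.Agent.P338

/-- Size relations between `n` and the parameters, with `k` the number of bits of `n`. -/
structure Fits (C n : ℕ) (c : Cf) : Prop where
  ok : c.ok
  room : n ≤ c.G * ((c.E + 1) / 2 * ((c.M + 1) / 2) ^ 3)
  len : c.E * c.R * c.R * c.R * n.size ≤ C * n
  b : c.b + 1 ≤ C * n.size * n.size.size ^ 3
  rho : c.ρ + 1 ≤ C * n.size.size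
  a : c.a + 1 ≤ C * n.size.size
  t0 : c.t0 * 289 ^ c.r2 ≤ n.size
  mu : c.μ.size * 289 ^ c.r1 ≤ C * n.size
  r1 : c.r1 = 2 ^ 43 * c.r2
  r2 : c.r2 = Nat.log 2 n.size / 2 ^ 53

theorem pr_two_pow_size {x : ℕ} (h : 0 < x) : 2 ^ x.size ≤ 2 * x := by
  have h1 := Nat.size_pos.2 h
  have h2 : 2 ^ (x.size - 1) ≤ x := Nat.lt_size.1 (by omega)
  rw [show x.size = x.size - 1 + 1 by omega, pow_succ]; omega

theorem pr_ok (c : Cf) (l : ℕ) (ha : c.a = 3 * l + 4) (he : c.e = 2 * l + 5) (he' : c.e' = l + 2)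
    (hρ : c.ρ = 3 * c.F) (ht : c.t0 = c.s / c.F / 289 ^ c.r2) (hw : c.w = 12 * c.G)
    (hl : c.s < 2 ^ l) (hl' : 2 ^ l ≤ 8 * c.s) (hr : c.r2 ≤ c.r1)
    (hr' : 30 * (c.r1 + c.r2) ≤ 4 * c.s) (hA : 583200 * (289 ^ c.r1 * c.F) ^ 2 ≤ c.s)
    (hμ : D0 ∣ c.μ + 1 ∧ 2 ≤ c.μ ∧ 2 ^ c.s ≤ c.μ ^ 289 ^ c.r1 ∧ c.μ ^ 289 ^ c.r1 ≤ 2 * 2 ^ c.s)
    (hq : c.qs.Pairwise Nat.Coprime ∧ (∀ q ∈ c.qs, Odd q ∧ q ≤ c.s ^ 2) ∧ c.qs.length ≤ c.s ∧
      2 * c.qs.prod ≤ 2 ^ c.s ∧ 2 ^ c.s ≤ 6 * c.qs.prod) :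
    c.ok ∧ 1350 * c.s ≤ c.G ∧ c.G ≤ 5400 * c.F ^ 2 * c.s ∧ c.m ≤ c.s := by
  have hF : c.F = 5 * l + 10 := by rw [Cf.F, ha, he]; ring
  have hP : 0 < 289 ^ c.r2 := by positivity
  have hPK : 289 ^ c.r2 ≤ 289 ^ c.r1 := Nat.pow_le_pow_right (by norm_num) hr
  have hm : c.m = 289 ^ c.r2 * (c.s / (c.F * 289 ^ c.r2)) := by
    rw [Cf.m, ht, Nat.div_div_eq_div_mul]
  have hG : c.G = 2700 * c.F * (c.a + 1) * ((c.a + 2) * c.m + 1) := by
    rw [Cf.G, Cf.T, hρ]; ring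
  have hb : c.b = 24 * c.G + 1 := by rw [Cf.b, hw]; ring
  obtain ⟨μ1, μ2, μ3, μ4⟩ := hμ
  obtain ⟨q1, q2, q3, q4, q5⟩ := hq
  generalize hK : 289 ^ c.r1 = K at *
  generalize 289 ^ c.r2 = P at *
  have hF0 : 0 < c.F := by omega
  have a0 : c.F * P ≤ K * c.F := by rw [mul_comm]; gcongr
  have a1 : K * c.F ≤ (K * c.F) ^ 2 := Nat.le_self_pow two_ne_zero _
  have a2 : c.F ≤ c.F * P := Nat.le_mul_of_pos_right _ hP
  have a3 := Nat.div_add_mod c.s (c.F * P)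
  have a4 := Nat.mod_lt c.s (Nat.mul_pos hF0 hP)
  rw [mul_assoc, ← hm] at a3
  have m1 : c.F * c.m ≤ c.s := by omega
  have m2 : c.s ≤ 2 * (c.F * c.m) := by omega
  have s0 : 583200 ≤ c.s := by omega
  have m0 : 0 < c.m := Nat.pos_of_ne_zero fun h => by rw [h] at m2; omega
  have m3 : c.m ≤ c.s := (Nat.le_mul_of_pos_left _ hF0).trans m1
  have g1 : 1350 * c.s ≤ c.G := by
    rw [hG]
    calc _ ≤ 2700 * c.F * 1 * (1 * c.m + 0) := by linarith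
      _ ≤ _ := by gcongr <;> omega
  have g2 : c.G ≤ 5400 * c.F ^ 2 * c.s := by
    have : (c.a + 2) * c.m ≤ c.F * c.m := by gcongr; omega
    rw [hG]
    calc _ ≤ 2700 * c.F * c.F * (2 * c.s) := by gcongr <;> omega
      _ = _ := by ring
  have f2 : c.F ^ 2 ≤ (K * c.F) ^ 2 := by gcongr; omega
  refine ⟨⟨μ1, μ2, hK ▸ μ3, hK ▸ μ4, ?_, m0, m1, ?_, ?_, fun f => ?_, q1, fun q h => (q2 q h).1,
    ?_, q4, q5, hw, ?_, ?_, by omega, by omega, q3, by omega⟩, g1, g2, m3⟩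
  · have b1 : 1 ≤ Nat.log 2 c.μ := Nat.log_pos one_lt_two μ2
    have b2 : c.s ≤ (Nat.log 2 c.μ + 1) * K := by
      rw [← Nat.pow_le_pow_iff_right one_lt_two, pow_mul]
      exact μ3.trans (Nat.pow_le_pow_left (Nat.lt_pow_succ_log_self one_lt_two _).le _)
    generalize Nat.log 2 c.μ = x at b1 b2 ⊢
    have b3 : c.s ≤ 2 * x * K := b2.trans (by gcongr; omega)
    have b4 : 0 < 4 * K ^ 2 := by have : 0 < K := by omega
                                  positivity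
    refine Nat.le_of_mul_le_mul_left ?_ b4
    calc _ ≤ 4 * K ^ 2 * (27 * (5400 * c.F ^ 2 * c.s)) := by gcongr; omega
      _ = 583200 * (K * c.F) ^ 2 * c.s := by ring
      _ ≤ (2 * x * K) * (2 * x * K) := Nat.mul_le_mul (hA.trans b3) b3
      _ = _ := by ring
  · rw [he, he']
    have := Nat.two_pow_pos l
    calc _ ≤ 4 * 2 ^ l * (8 * 2 ^ l) := Nat.mul_le_mul (by omega) (by rw [pow_add]; omega)
      _ = _ := by ring
  · rw [he', pow_add]; omega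
  · have b1 : c.q f ≤ c.s ^ 2 := by
      rw [Cf.q, List.getD_eq_getElem?_getD]
      rcases h : c.qs[f]? with _ | q
      · exact Nat.one_le_pow _ _ (by omega)
      · exact (q2 q (List.mem_of_getElem? h)).2
    rw [ha]
    calc _ ≤ 16 * 2 ^ l * (2 ^ l) ^ 2 :=
          Nat.mul_le_mul (by omega) (b1.trans (Nat.pow_le_pow_left hl.le _))
      _ = _ := by ring
  · rw [hρ, mul_assoc]; omega
  · calc c.w ≤ (64800 * c.F ^ 2) * c.s := by rw [hw]; linarith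
      _ ≤ (c.s * c.s) * c.s := Nat.mul_le_mul_right _
        (le_trans (by omega : _ ≤ c.s) (Nat.le_mul_of_pos_left _ (by omega)))
      _ = _ := by ring
  · rw [ha]
    calc _ = 16 * (2 ^ l) ^ 3 := by ring
      _ ≤ 16 * (8 * c.s) ^ 3 := by gcongr
      _ = 8192 * 1 * c.s ^ 3 := by ring
      _ ≤ c.s * c.s * c.s ^ 3 := by gcongr <;> omega
      _ = _ := by ring

theorem pr_lin (h : ℕ) (hh : 14 ≤ h) : 1024 * (h + 1) ≤ 2 ^ h := by
  induction h, hh using Nat.le_induction with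
  | base => norm_num
  | succ h hh ih => rw [pow_succ 2]; omega

theorem pr_small {h0 n : ℕ} (h1 : 1000 ≤ h0) (hn : 2 ^ 2 ^ (1024 * h0) ≤ n) :
    h0 ≤ 2 ^ (Nat.log 2 n.size / 1024) ∧ n.size.size ≤ 2 ^ (Nat.log 2 n.size / 1024) ∧
      (2 ^ (Nat.log 2 n.size / 1024)) ^ 31 ≤ n.size := by
  have a1 : 2 ^ (1024 * h0) ≤ n.size := (Nat.lt_size.2 hn).le
  have a0 : n.size ≠ 0 := ((Nat.two_pow_pos _).trans_le a1).ne'
  have a2 : 1024 * h0 ≤ Nat.log 2 n.size := Nat.le_log_of_pow_le one_lt_two a1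
  have a3 : n.size.size ≤ Nat.log 2 n.size + 1 :=
    Nat.size_le.2 (Nat.lt_pow_succ_log_self one_lt_two _)
  have a4 := pr_lin (Nat.log 2 n.size / 1024) (by omega)
  refine ⟨by omega, by omega, le_trans ?_ (Nat.pow_log_le_self 2 a0)⟩
  rw [← pow_mul]
  exact Nat.pow_le_pow_right two_pos (by omega)

theorem pr_s {n E s : ℕ} (hE : 0 < E) (hE' : E ≤ n.size) (hk : 8 * n.size.size ≤ n.size)
    (hk' : 7 ≤ n.size) (hs : s = ((3456 * n / (E * n.size) + 1).size + 2) / 3) :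
    s ≤ n.size ∧ n.size ≤ 4 * s ∧ 3456 * n ≤ E * n.size * 2 ^ (3 * s) ∧
      E * n.size * 2 ^ (3 * s) ≤ 8 * 3457 * n := by
  have a0 : 0 < E * n.size := Nat.mul_pos hE (by omega)
  have a1 := Nat.lt_size_self n
  have a2 : 2 ^ n.size ≤ 2 * n := pr_two_pow_size (Nat.size_pos.1 (by omega))
  have a3 : E * n.size ≤ 2 ^ (2 * n.size.size) := by
    rw [two_mul, pow_add]
    exact Nat.mul_le_mul (hE'.trans (Nat.lt_size_self _).le) (Nat.lt_size_self _).le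
  have a4 : 2 ^ (2 * n.size.size + 1) ≤ 2 ^ n.size := Nat.pow_le_pow_right two_pos (by omega)
  rw [pow_succ] at a4
  have b1 := Nat.div_add_mod (3456 * n) (E * n.size)
  have b2 := Nat.mod_lt (3456 * n) a0
  have b3 := Nat.div_le_self (3456 * n) (E * n.size)
  generalize 3456 * n / (E * n.size) = x at hs b1 b3
  have c1 : x + 1 ≤ 2 ^ (3 * s) :=
    (Nat.lt_size_self _).le.trans (Nat.pow_le_pow_right two_pos (by omega))
  have c2 : 2 ^ (3 * s) ≤ 8 * (x + 1) := by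
    have := pr_two_pow_size (Nat.succ_pos x)
    refine (Nat.pow_le_pow_right two_pos (show 3 * s ≤ (x + 1).size + 2 by omega)).trans ?_
    rw [pow_add]; simp only [Nat.succ_eq_add_one] at this; omega
  have c3 : (x + 1).size ≤ n.size + 12 := Nat.size_le.2 (by rw [pow_add]; omega)
  have d1 : 3456 * n ≤ E * n.size * 2 ^ (3 * s) :=
    le_trans (by rw [mul_add]; omega) (Nat.mul_le_mul_left _ c1)
  refine ⟨by omega, ?_, d1, (Nat.mul_le_mul_left _ c2).trans ?_⟩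
  · have : 2 ^ n.size ≤ 2 ^ (2 * n.size.size + 3 * s) := by
      rw [pow_add]
      exact le_trans (by omega) (d1.trans (Nat.mul_le_mul_right _ a3))
    have := (Nat.pow_le_pow_iff_right one_lt_two).1 this
    omega
  · rw [mul_left_comm, mul_add]; omega

/-- The parameters in terms of a few numbers. -/
def prCf (μ : ℕ) (qs : List ℕ) (s J j l : ℕ) : Cf :=
  ⟨s, 12 * (3 * (3 * (3 * l + 4 + 1 + (2 * l + 5))) * (300 * (3 * l + 4 + 1) * ((3 * l + 4 + 2) *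
      (289 ^ j * (s / (3 * l + 4 + 1 + (2 * l + 5)) / 289 ^ j)) + 1))), J, μ, j,
    s / (3 * l + 4 + 1 + (2 * l + 5)) / 289 ^ j, 3 * l + 4, 2 * l + 5, l + 2,
    3 * (3 * l + 4 + 1 + (2 * l + 5)), qs⟩

theorem pr_tm {𝒯 : Cls ℕ} [Dom 𝒯] [Mulc 𝒯] {μ s J j l : ℕ → ℕ} {qs : ℕ → List ℕ} (hμ : Tm 𝒯 μ)
    (hq : Tm 𝒯 qs) (hs : Tm 𝒯 s) (hJ : Tm 𝒯 J) (hj : Tm 𝒯 j) (hl : Tm 𝒯 l) (hj' : 𝒯.mem j) :
    Tm 𝒯 fun n => prCf (μ n) (qs n) (s n) (J n) (j n) (l n) := by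
  have hP : Tm 𝒯 fun n => 289 ^ j n := (Tm.const 289).pow hj hj'
  have ha := (hl.cmul 3).add (Tm.const 4)
  have he := (hl.cmul 2).add (Tm.const 5)
  have hF := (ha.add (Tm.const 1)).add he
  have ht := (hs.div hF).div hP
  have hw := (((hF.cmul 3).cmul 3).mul (((ha.add (Tm.const 1)).cmul 300).mul
    (((ha.add (Tm.const 2)).mul (hP.mul ht)).add (Tm.const 1)))).cmul 12
  exact Tm.cf_mk ((hs.cons (hw.cons (hJ.cons (hμ.cons (hj.cons (ht.cons (ha.cons (he.cons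
    ((hl.add (Tm.const 2)).cons ((hF.cmul 3).cons (Tm.const []))))))))))).pair hq)

theorem pr_facts {h0 d n J j s : ℕ} (h1 : 1000 ≤ h0) (hn : 2 ^ 2 ^ (1024 * h0) ≤ n) (hd : 0 < d)
    (hj : j = Nat.log 2 n.size / (1024 * d)) (hJ : J = d * j)
    (hs : s = ((3456 * n / (Wn ^ (J + j) * n.size) + 1).size + 2) / 3) :
    j ≤ J ∧ 30 * (J + j) ≤ n.size ∧ h0 ≤ s ∧ 8 * h0 * 289 ^ J * 289 ^ J ≤ s ∧
      583200 * (289 ^ J * (5 * n.size.size + 10)) ^ 2 ≤ s ∧ s ≤ n.size ∧ n.size ≤ 4 * s ∧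
      3456 * n ≤ Wn ^ (J + j) * n.size * 2 ^ (3 * s) ∧
      Wn ^ (J + j) * n.size * 2 ^ (3 * s) ≤ 8 * 3457 * n := by
  obtain ⟨y1, y2, y3⟩ := pr_small h1 hn
  have a1 : j ≤ J := hJ ▸ Nat.le_mul_of_pos_left _ hd
  have a2 : J ≤ Nat.log 2 n.size / 1024 := by
    rw [hJ, hj, ← Nat.div_div_eq_div_mul]; exact Nat.mul_div_le _ _
  have a3 : 289 ^ J ≤ (2 ^ (Nat.log 2 n.size / 1024)) ^ 9 := by
    rw [← pow_mul, mul_comm, pow_mul]
    exact (Nat.pow_le_pow_left (by norm_num) _).trans (Nat.pow_le_pow_right (by norm_num) a2)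
  have a4 : 30 * (J + j) ≤ Nat.log 2 n.size := by omega
  generalize 2 ^ (Nat.log 2 n.size / 1024) = y at y1 y2 y3 a3
  have y0 : 1000 ≤ y := h1.trans y1
  have b1 : y * y ≤ n.size :=
    le_trans (by rw [← sq]; exact Nat.pow_le_pow_right (by omega) (by omega)) y3
  have b2 : 1000 * y ≤ y * y := Nat.mul_le_mul_right _ y0
  obtain ⟨s1, s2, s3, s4⟩ := pr_s (E := Wn ^ (J + j)) (by unfold Wn; positivity) (by
    rw [Wn, ← pow_mul]
    exact (Nat.pow_le_pow_right two_pos a4).trans (Nat.pow_log_le_self 2 (by omega)))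
    (by omega) (by omega) hs
  have b3 : y ^ 30 ≤ s := by
    refine le_of_mul_le_mul_left ?_ (by omega : 0 < y)
    rw [← pow_succ']
    exact y3.trans (s2.trans (Nat.mul_le_mul_right _ (by omega)))
  have b4 : ∀ i, i ≤ 30 → y ^ i ≤ s := fun i hi => (Nat.pow_le_pow_right (by omega) hi).trans b3
  refine ⟨a1, a4.trans (Nat.log_le_self _ _), y1.trans (by simpa using b4 1 (by omega)), ?_, ?_,
    s1, s2, s3, s4⟩
  · calc _ ≤ y * y * y ^ 9 * y ^ 9 := by gcongr; omega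
      _ = y ^ 20 := by ring
      _ ≤ s := b4 _ (by omega)
  · calc _ ≤ (y * y) * (y ^ 9 * (y * y)) ^ 2 := by gcongr <;> omega
      _ = y ^ 24 := by ring
      _ ≤ s := b4 _ (by omega)

theorem pr_gen (d : ℕ) (hd : 0 < d) : ∃ (C n0 : ℕ) (cf : ℕ → Cf),
    Tm (poly (fun n : ℕ => n0 ≤ n) Nat.size) cf ∧ ∀ n, n0 ≤ n → (cf n).ok ∧
      n ≤ (cf n).G * (((cf n).E + 1) / 2 * (((cf n).M + 1) / 2) ^ 3) ∧
      (cf n).E * (cf n).R * (cf n).R * (cf n).R * n.size ≤ C * n ∧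
      (cf n).b + 1 ≤ C * n.size * n.size.size ^ 3 ∧ (cf n).ρ + 1 ≤ C * n.size.size ∧
      (cf n).a + 1 ≤ C * n.size.size ∧ (cf n).t0 * 289 ^ (cf n).r2 ≤ n.size ∧
      (cf n).μ.size * 289 ^ (cf n).r1 ≤ C * n.size ∧ (cf n).r1 = d * (cf n).r2 ∧
      (cf n).r2 = Nat.log 2 n.size / (1024 * d) := by
  obtain ⟨s0, qs, tq, hq⟩ := exists_qs
  obtain ⟨mu, tμ, hμ⟩ := exists_mu D0_pos
  obtain ⟨h0, h1, h2, h3⟩ : ∃ h0, 1000 ≤ h0 ∧ s0 ≤ h0 ∧ D0 ≤ h0 :=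
    ⟨1000 + s0 + D0, by omega, by omega, by omega⟩
  obtain ⟨j, hj⟩ : ∃ j : ℕ → ℕ, j = fun n => Nat.log 2 n.size / (1024 * d) := ⟨_, rfl⟩
  obtain ⟨J, hJ⟩ : ∃ J : ℕ → ℕ, J = fun n => d * j n := ⟨_, rfl⟩
  obtain ⟨s, hs⟩ : ∃ s : ℕ → ℕ,
    s = fun n => ((3456 * n / (Wn ^ (J n + j n) * n.size) + 1).size + 2) / 3 := ⟨_, rfl⟩
  have key := fun n hn => pr_facts (n := n) h1 hn hd (congrFun hj n) (congrFun hJ n) (congrFun hs n)
  have hK : ∀ n, 2 ^ 2 ^ (1024 * h0) ≤ n → 289 ^ J n ≤ s n := fun n hn => by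
    refine le_trans (Nat.le_mul_of_pos_left _ ?_) (key n hn).2.2.2.1
    have : 0 < h0 := by omega
    positivity
  refine ⟨40000000, 2 ^ 2 ^ (1024 * h0), fun n => prCf (mu (s n, 289 ^ J n)) (qs (s n)) (s n) (J n)
    (j n) n.size.size, ?_, fun n hn => ?_⟩
  · set 𝒯 := poly (fun n : ℕ => 2 ^ 2 ^ (1024 * h0) ≤ n) Nat.size
    have hk : 𝒯.mem Nat.size := poly_self _ _
    have : Dom 𝒯 := ⟨Cls.lin hk 4 2 fun n _ => sz_nat n⟩
    have tk : Tm 𝒯 fun n => n.size := Tm.id.size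
    have tj : Tm 𝒯 j := hj ▸ ((Tm.const 2).log tk).div (Tm.const _)
    have tJ : Tm 𝒯 J := hJ ▸ tj.cmul d
    have ts : Tm 𝒯 s := hs ▸ ((((Tm.id.cmul 3456).div (((Tm.const Wn).pow (tJ.add tj)
      (𝒯.mono hk fun n hn => by have := (key n hn).2.1; omega)).mul tk)).add
        (Tm.const 1)).size.add (Tm.const 2)).div (Tm.const 3)
    have ms : 𝒯.mem s := 𝒯.mono hk fun n hn => (key n hn).2.2.2.2.2.1
    exact pr_tm (tμ.compP (ts.pair ((Tm.const 289).pow tJ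
      (𝒯.mono hk fun n hn => by have := (key n hn).2.1; omega))) (Cls.pays_poly' hK ms))
      (tq.compP ts (Cls.pays_poly' (fun n hn => h2.trans (key n hn).2.2.1) ms)) ts tJ tj tk.size
      (𝒯.mono hk fun n hn => by have := (key n hn).2.1; omega)
  · obtain ⟨k1, k2, k3, k4, k5, k6, k7, k8, k9⟩ := key n hn
    have k0 := hK n hn
    have e1 := congrFun hj n
    have e2 := congrFun hJ n
    beta_reduce at e1 e2 ⊢
    generalize j n = j at *
    generalize J n = J at *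
    generalize s n = s at *
    have hK0 : 0 < 289 ^ J := by positivity
    have m0 := hμ s (289 ^ J) k0 hK0 (by
      refine (Nat.pow_le_pow_left Nat.lt_two_pow_self.le _).trans ?_
      rw [← pow_mul]
      exact Nat.pow_le_pow_right two_pos (le_trans (by gcongr) k4))
    have l0 : 0 < n.size.size := Nat.size_pos.2 (by omega)
    set c := prCf (mu (s, 289 ^ J)) (qs s) s J j n.size.size with hc
    have hF : c.F = 5 * n.size.size + 10 := by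
      change 3 * n.size.size + 4 + 1 + (2 * n.size.size + 5) = _; ring
    obtain ⟨o1, o2, o3, o4⟩ := pr_ok c n.size.size rfl rfl rfl rfl rfl rfl
      (k6.trans_lt (Nat.lt_size_self _))
      ((pr_two_pow_size (by omega)).trans (by change _ ≤ 8 * s; omega)) k1 (k2.trans k7)
      (hF ▸ k5) m0 (hq s (h2.trans k3))
    have hR : c.R * c.R * c.R = 2 ^ (3 * s) := by change 2 ^ s * 2 ^ s * 2 ^ s = _; ring
    have hE : c.E = Wn ^ (J + j) := rfl
    change 1350 * s ≤ _ at o2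
    change _ ≤ _ * s at o3
    rw [← hE, ← hR] at k8 k9
    refine ⟨o1, ?_, ?_, ?_, ?_, ?_, ?_, ?_, e2, e1⟩
    · have r1 := o1.rm
      refine Nat.le_of_mul_le_mul_left (k8.trans ?_) (by norm_num)
      calc _ ≤ (2 * ((c.E + 1) / 2)) * c.G * ((12 * ((c.M + 1) / 2)) * (12 * ((c.M + 1) / 2)) *
            (12 * ((c.M + 1) / 2))) := by gcongr <;> omega
        _ = _ := by ring
    · calc _ = c.E * n.size * (c.R * c.R * c.R) := by ring
        _ ≤ _ := by omega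
    · have b1 : c.b = 2 * (12 * c.G) + 1 := rfl
      calc _ ≤ 25 * (5400 * c.F ^ 2 * s) := by omega
        _ ≤ 25 * (5400 * (15 * n.size.size) ^ 2 * n.size) * n.size.size := by
          refine le_trans ?_ (Nat.le_mul_of_pos_right _ l0)
          gcongr; omega
        _ = 30375000 * n.size * n.size.size ^ 3 := by ring
        _ ≤ _ := by gcongr; norm_num
    · change 3 * c.F + 1 ≤ _; omega
    · change 3 * n.size.size + 4 + 1 ≤ _; omega
    · rw [mul_comm]; exact o4.trans k6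
    · change (mu (s, 289 ^ J)).size * 289 ^ J ≤ _
      obtain ⟨-, μ2, -, μ4⟩ := m0
      generalize mu (s, 289 ^ J) = μ at μ2 μ4
      obtain ⟨x, hx⟩ : ∃ x, μ.size = x + 1 :=
        ⟨μ.size - 1, by have := Nat.size_pos.2 (show 0 < μ by omega); omega⟩
      have b1 : x * 289 ^ J ≤ s + 1 := by
        rw [← Nat.pow_le_pow_iff_right one_lt_two, pow_mul, pow_succ']
        exact (Nat.pow_le_pow_left (Nat.lt_size.1 (by omega)) _).trans μ4
      rw [hx, add_mul]; omega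

theorem exists_params : ∃ (C n0 : ℕ) (cf : ℕ → Cf),
    Tm (poly (fun n : ℕ => n0 ≤ n) Nat.size) cf ∧ ∀ n, n0 ≤ n → Fits C n (cf n) := by
  obtain ⟨C, n0, cf, h1, h2⟩ := pr_gen (2 ^ 43) (by positivity)
  refine ⟨C, n0, cf, h1, fun n hn => ?_⟩
  obtain ⟨a1, a2, a3, a4, a5, a6, a7, a8, a9, a10⟩ := h2 n hn
  exact ⟨a1, a2, a3, a4, a5, a6, a7, a8, a9, a10.trans (by norm_num)⟩

end Vale.Agent.P338
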