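import Vale.Agent.P338.Circ

/-! The circuit run on all fields at once is the composition of the transforms of the fields. -/

namespace Vale.Agent.P338

open Finset

/-- Replace the `w` bits of `i` starting at bit `p` by `t`. -/
def tnPut (p w i t : ℕ) : ℕ := 2 ^ p * (2 ^ w * (i / 2 ^ p / 2 ^ w) + t) + i % 2 ^ p

theorem tn_put_self (p w i : ℕ) : tnPut p w i (i / 2 ^ p % 2 ^ w) = i := by
  unfold tnPut
  rw [Nat.div_add_mod, Nat.div_add_mod]

theorem tn_put_bit {p w t : ℕ} (i : ℕ) (ht : t < 2 ^ w) (k : ℕ) :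
    (tnPut p w i t).testBit k =
      if p ≤ k ∧ k < p + w then t.testBit (k - p) else i.testBit k := by
  unfold tnPut
  rw [Nat.testBit_two_pow_mul_add _ (Nat.mod_lt _ (Nat.two_pow_pos p))]
  by_cases h1 : k < p
  · rw [if_pos h1, if_neg (by omega), Nat.testBit_mod_two_pow]
    simp [h1]
  · rw [if_neg h1, Nat.testBit_two_pow_mul_add _ ht]
    by_cases h2 : k - p < w
    · rw [if_pos h2, if_pos (by omega)]
    · rw [if_neg h2, if_neg (by omega), Nat.testBit_div_two_pow, Nat.testBit_div_two_pow]
      congr 1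
      omega

theorem tn_fld_bit (base F a f i k : ℕ) :
    (fld base F a f i).testBit k = (decide (k < a + 1) && i.testBit (k + (base + F * f))) := by
  unfold fld
  rw [Nat.testBit_mod_two_pow, Nat.testBit_div_two_pow]

theorem tn_fld_lt (base F a f i : ℕ) : fld base F a f i < 2 ^ (a + 1) :=
  Nat.mod_lt _ (Nat.two_pow_pos _)

theorem tn_sep {F f g j k : ℕ} (hfg : f ≠ g) (hj : j < F) (hk : k < F) :
    F * f + j ≠ F * g + k := by
  intro h
  rcases Nat.lt_or_gt_of_ne hfg with h1 | h1
  · have : F * (f + 1) ≤ F * g := Nat.mul_le_mul_left F h1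
    rw [Nat.mul_add] at this
    omega
  · have : F * (g + 1) ≤ F * f := Nat.mul_le_mul_left F h1
    rw [Nat.mul_add] at this
    omega

theorem tn_fld_put_same {base F a f t : ℕ} (i : ℕ) (ht : t < 2 ^ (a + 1)) :
    fld base F a f (tnPut (base + F * f) (a + 1) i t) = t := by
  apply Nat.eq_of_testBit_eq
  intro k
  rw [tn_fld_bit, tn_put_bit i ht]
  by_cases hk : k < a + 1
  · rw [if_pos (by omega)]
    simp [hk]
  · have : t < 2 ^ k := lt_of_lt_of_le ht (Nat.pow_le_pow_right (by omega) (by omega))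
    simp [hk, Nat.testBit_lt_two_pow this]

theorem tn_fld_put_ne {base F a f g t : ℕ} (hF : a + 1 ≤ F) (hfg : f ≠ g) (i : ℕ)
    (ht : t < 2 ^ (a + 1)) :
    fld base F a g (tnPut (base + F * f) (a + 1) i t) = fld base F a g i := by
  apply Nat.eq_of_testBit_eq
  intro k
  rw [tn_fld_bit, tn_fld_bit, tn_put_bit i ht]
  by_cases hk : k < a + 1
  · rw [if_neg]
    rintro ⟨h1, h2⟩
    exact tn_sep (F := F) hfg (j := k + (base + F * g) - (base + F * f)) (k := k) (by omega)
      (by omega) (by omega)
  · simp [hk]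

theorem tn_fld_xor_ne {base F a f g j : ℕ} (hF : a + 1 ≤ F) (hfg : f ≠ g) (hj : j ≤ a) (i : ℕ) :
    fld base F a g (i ^^^ 2 ^ (base + F * f + j)) = fld base F a g i := by
  apply Nat.eq_of_testBit_eq
  intro k
  rw [tn_fld_bit, tn_fld_bit, Nat.testBit_xor, Nat.testBit_two_pow]
  by_cases hk : k < a + 1
  · have : base + F * f + j ≠ k + (base + F * g) := by
      have := tn_sep (F := F) hfg (j := j) (k := k) (by omega) (by omega)
      omega
    simp [this]
  · simp [hk]

theorem tn_xor_lt {a j t : ℕ} (hj : j ≤ a) (ht : t < 2 ^ (a + 1)) : t ^^^ 2 ^ j < 2 ^ (a + 1) :=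
  Nat.xor_lt_two_pow ht (Nat.pow_lt_pow_right (by omega) (by omega))

theorem tn_put_xor {p a j t : ℕ} (hj : j ≤ a) (i : ℕ) (ht : t < 2 ^ (a + 1)) :
    tnPut p (a + 1) i t ^^^ 2 ^ (p + j) = tnPut p (a + 1) i (t ^^^ 2 ^ j) := by
  apply Nat.eq_of_testBit_eq
  intro k
  rw [Nat.testBit_xor, tn_put_bit i ht, tn_put_bit i (tn_xor_lt hj ht), Nat.testBit_two_pow]
  split_ifs with h
  · rw [Nat.testBit_xor, Nat.testBit_two_pow]
    congr 1
    rw [decide_eq_decide]
    omega
  · have : p + j ≠ k := by omega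
    simp [this]

/-- A layer acting on one field of the whole index. -/
noncomputable def tnLA (base F a q : ℕ) (fl : Bool) (f : ℕ) (c : Code) (v : ℕ → ℂ) : ℕ → ℂ :=
  if c.1 = 0 then gate1 Complex.I (2 ^ (base + F * f + c.2.1)) v
  else fun i => dval a q fl c (fld base F a f i) * v i

theorem tn_gate_comm (μ ν : ℕ) (v : ℕ → ℂ) :
    gate1 Complex.I μ (gate1 Complex.I ν v) = gate1 Complex.I ν (gate1 Complex.I μ v) := by
  funext i
  simp only [gate1]
  rw [Nat.xor_assoc, Nat.xor_assoc, Nat.xor_comm μ ν]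
  ring

theorem tn_LA_comm {base F a q q' f g : ℕ} (fl : Bool) (hF : a + 1 ≤ F) (hfg : f ≠ g)
    {c c' : Code} (hc : c.1 = 0 → c.2.1 ≤ a) (hc' : c'.1 = 0 → c'.2.1 ≤ a) (v : ℕ → ℂ) :
    tnLA base F a q fl f c (tnLA base F a q' fl g c' v)
      = tnLA base F a q' fl g c' (tnLA base F a q fl f c v) := by
  unfold tnLA
  by_cases h : c.1 = 0 <;> by_cases h' : c'.1 = 0
  · simp only [if_pos h, if_pos h']
    exact tn_gate_comm _ _ _
  · simp only [if_pos h, if_neg h']
    funext i
    simp only [gate1]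
    rw [tn_fld_xor_ne hF hfg (hc h)]
    ring
  · simp only [if_neg h, if_pos h']
    funext i
    simp only [gate1]
    rw [tn_fld_xor_ne hF hfg.symm (hc' h')]
    ring
  · simp only [if_neg h, if_neg h']
    funext i
    ring

theorem tn_fold_comm {V C : Type} (A : V → V) (B : C → V → V) (l : List C)
    (h : ∀ c ∈ l, ∀ v, A (B c v) = B c (A v)) (v : V) :
    A (l.foldl (fun v c => B c v) v) = l.foldl (fun v c => B c v) (A v) := by
  induction l generalizing v with
  | nil => rfl
  | cons c l ih =>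
    rw [List.foldl_cons, List.foldl_cons, ih (fun c' hc' => h c' (List.mem_cons_of_mem _ hc')),
      h c List.mem_cons_self]

theorem tn_fold_split {V C : Type} (A B : C → V → V) (l : List C)
    (h : ∀ c ∈ l, ∀ c' ∈ l, ∀ v, A c (B c' v) = B c' (A c v)) (v : V) :
    l.foldl (fun v c => A c (B c v)) v
      = l.foldl (fun v c => A c v) (l.foldl (fun v c => B c v) v) := by
  induction l generalizing v with
  | nil => rfl
  | cons c l ih =>
    rw [List.foldl_cons, List.foldl_cons, List.foldl_cons,
      ih (fun c1 h1 c2 h2 => h c1 (List.mem_cons_of_mem _ h1) c2 (List.mem_cons_of_mem _ h2)),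
      tn_fold_comm (A c) B l (fun c' hc' => h c List.mem_cons_self c' (List.mem_cons_of_mem _ hc'))]

theorem tn_fold_swap {V C : Type} (T : ℕ → C → V → V) (l : List C)
    (h : ∀ f g, f ≠ g → ∀ c ∈ l, ∀ c' ∈ l, ∀ v, T f c (T g c' v) = T g c' (T f c v))
    (m : ℕ) (v : V) :
    l.foldl (fun v c => (List.range m).foldl (fun v f => T f c v) v) v
      = (List.range m).foldl (fun v f => l.foldl (fun v c => T f c v) v) v := by
  induction m generalizing v with
  | zero =>
    simp only [List.range_zero, List.foldl_nil]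
    induction l with
    | nil => rfl
    | cons c l ih =>
      exact ih (fun f g hfg c1 h1 c2 h2 =>
        h f g hfg c1 (List.mem_cons_of_mem _ h1) c2 (List.mem_cons_of_mem _ h2))
  | succ m ih =>
    simp only [List.range_succ, List.foldl_append, List.foldl_cons, List.foldl_nil]
    rw [← ih]
    refine tn_fold_split (fun c v => T m c v)
      (fun c v => (List.range m).foldl (fun v f => T f c v) v) l (fun c hc c' hc' v => ?_) v
    exact tn_fold_comm (T m c) (fun f v => T f c' v) (List.range m)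
      (fun f hf v => h m f (List.mem_range.1 hf).ne' c hc c' hc' v) v

theorem tn_gall (pos : ℕ → ℕ) (m : ℕ) (v : ℕ → ℂ) :
    gall Complex.I 1 pos 0 m v
      = (List.range m).foldl (fun v f => gate1 Complex.I (2 ^ pos f) v) v := by
  unfold gall
  simp only [one_smul, zero_add]
  induction m generalizing v with
  | zero => rfl
  | succ m ih =>
    simp only [List.range_succ, List.foldl_append, List.foldr_append, List.foldl_cons,
      List.foldl_nil, List.foldr_cons, List.foldr_nil]
    rw [ih]
    exact (tn_fold_comm (gate1 Complex.I (2 ^ pos m)) (fun f v => gate1 Complex.I (2 ^ pos f) v)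
      (List.range m) (fun f _ v => tn_gate_comm _ _ v) v).symm

theorem tn_lactM (base F a m : ℕ) (q : ℕ → ℕ) (fl : Bool) (c : Code) (v : ℕ → ℂ) :
    lactM base F a m q fl c v
      = (List.range m).foldl (fun v f => tnLA base F a (q f) fl f c v) v := by
  unfold lactM tnLA
  by_cases h : c.1 = 0
  · simp only [if_pos h]
    exact tn_gall _ m v
  · simp only [if_neg h]
    induction m with
    | zero => simp
    | succ m ih =>
      simp only [List.range_succ, List.foldl_append, List.foldl_cons, List.foldl_nil]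
      rw [← ih]
      funext i
      rw [Finset.prod_range_succ]
      ring

theorem tn_slice {base F a q f : ℕ} (fl : Bool) (i : ℕ) (l : List Code)
    (hl : ∀ c ∈ l, c.1 = 0 → c.2.1 ≤ a) (v w : ℕ → ℂ)
    (hvw : ∀ t < 2 ^ (a + 1), v (tnPut (base + F * f) (a + 1) i t) = w t) :
    ∀ t < 2 ^ (a + 1), l.foldl (fun v c => tnLA base F a q fl f c v) v
        (tnPut (base + F * f) (a + 1) i t) = l.foldl (fun v c => lact a q fl c v) w t := by
  induction l generalizing v w with
  | nil => exact hvw
  | cons c l ih =>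
    rw [List.foldl_cons, List.foldl_cons]
    refine ih (fun c' hc' => hl c' (List.mem_cons_of_mem _ hc')) _ _ (fun t ht => ?_)
    unfold tnLA lact
    by_cases h : c.1 = 0
    · have hj := hl c List.mem_cons_self h
      simp only [if_pos h, gate1]
      rw [tn_put_xor hj i ht, hvw t ht, hvw _ (tn_xor_lt hj ht)]
    · simp only [if_neg h]
      rw [tn_fld_put_same i ht, hvw t ht]

theorem tn_dec {a q t : ℕ} :
    t = t / 2 ^ a * 2 ^ a + t % 2 ^ a / q * q + t % 2 ^ a % q := by
  rw [add_assoc, Nat.div_add_mod', Nat.div_add_mod']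

theorem tn_move {base F a f q : ℕ} (i r : ℕ) :
    i + r * 2 ^ (base + F * f) - res base F a f q i * 2 ^ (base + F * f)
      = tnPut (base + F * f) (a + 1) i (fld base F a f i / 2 ^ a * 2 ^ a
          + fld base F a f i % 2 ^ a / q * q + r) := by
  have h1 := tn_put_self (base + F * f) (a + 1) i
  have h2 : i / 2 ^ (base + F * f) % 2 ^ (a + 1) = fld base F a f i := rfl
  have h3 := tn_dec (a := a) (q := q) (t := fld base F a f i)
  rw [h2, h3] at h1
  apply Nat.sub_eq_of_eq_add
  unfold res
  generalize fld base F a f i % 2 ^ a % q = s at h1 ⊢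
  generalize fld base F a f i / 2 ^ a * 2 ^ a + fld base F a f i % 2 ^ a / q * q = u at h1 ⊢
  conv_lhs => rw [← h1]
  unfold tnPut
  ring

theorem tn_lt {a q β τ r : ℕ} (hq : 0 < q) (h : 4 * q ≤ 2 ^ a) (hβ : β < 2) (hτ : τ < nseg a q)
    (hr : r < q) : β * 2 ^ a + τ * q + r < 2 ^ (a + 1) := by
  obtain ⟨i1, _, _, _⟩ := cc_idx (β := β) hq h hτ hr
  rw [pow_succ, mul_comm (2 ^ a) 2, ← Nat.div_lt_iff_lt_mul (Nat.two_pow_pos a), i1]
  exact hβ

theorem tn_beta (base F a f i : ℕ) : fld base F a f i / 2 ^ a < 2 := by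
  rw [Nat.div_lt_iff_lt_mul (Nat.two_pow_pos a), mul_comm, ← pow_succ]
  exact tn_fld_lt base F a f i

theorem tn_field {base F a q f : ℕ} (hq : Odd q) (h : 4 * q ≤ 2 ^ a) (fl : Bool) (v : ℕ → ℂ)
    (i : ℕ) (hi : fld base F a f i % 2 ^ a < nseg a q * q) :
    (circ a).foldl (fun v c => tnLA base F a q fl f c v) v i = dftF base F a f q fl v i := by
  have hq0 : 0 < q := hq.pos
  have h1 := tn_slice (base := base) (F := F) (q := q) (f := f) fl i (circ a)
    (fun c hc => (mem_circ hc).2.2.2) v (fun t => v (tnPut (base + F * f) (a + 1) i t))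
    (fun _ _ => rfl) (fld base F a f i) (tn_fld_lt base F a f i)
  have h2 : tnPut (base + F * f) (a + 1) i (fld base F a f i) = i := tn_put_self _ _ i
  rw [h2] at h1
  have hτ : fld base F a f i % 2 ^ a / q < nseg a q := (Nat.div_lt_iff_lt_mul hq0).2 hi
  have h3 := circ_spec hq h fl (fun t => v (tnPut (base + F * f) (a + 1) i t))
    (tn_beta base F a f i) hτ (Nat.mod_lt (fld base F a f i % 2 ^ a) hq0)
  rw [← tn_dec] at h3
  rw [h1, h3]
  unfold dftF
  simp only [tn_move]
  rfl

theorem tn_dft_congr {base F a f q : ℕ} (fl : Bool) (U W : ℕ → ℂ) (i : ℕ)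
    (h : ∀ r < q, U (i + r * 2 ^ (base + F * f) - res base F a f q i * 2 ^ (base + F * f))
      = W (i + r * 2 ^ (base + F * f) - res base F a f q i * 2 ^ (base + F * f))) :
    dftF base F a f q fl U i = dftF base F a f q fl W i := by
  unfold dftF
  congr 1
  refine Finset.sum_congr rfl (fun r hr => ?_)
  rw [h r (Finset.mem_range.1 hr)]

theorem circM_spec {base F a m : ℕ} {q : ℕ → ℕ} (hF : a + 1 ≤ F)
    (hq : ∀ f < m, Odd (q f) ∧ 4 * q f ≤ 2 ^ a) (fl : Bool) (v : ℕ → ℂ) (i : ℕ)
    (hi : ∀ f < m, fld base F a f i % 2 ^ a < nseg a (q f) * q f) :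
    (circ a).foldl (fun v c => lactM base F a m q fl c v) v i =
      (List.range m).foldl (fun v f => dftF base F a f (q f) fl v) v i := by
  simp only [tn_lactM]
  rw [tn_fold_swap (fun f c v => tnLA base F a (q f) fl f c v) (circ a)
    (fun f g hfg c hc c' hc' v =>
      tn_LA_comm fl hF hfg (mem_circ hc).2.2.2 (mem_circ hc').2.2.2 v)]
  have key : ∀ n ≤ m, ∀ i, (∀ f < m, fld base F a f i % 2 ^ a < nseg a (q f) * q f) →
      (List.range n).foldl (fun v f =>
        (circ a).foldl (fun v c => tnLA base F a (q f) fl f c v) v) v i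
      = (List.range n).foldl (fun v f => dftF base F a f (q f) fl v) v i := by
    intro n
    induction n with
    | zero => intro _ i _; rfl
    | succ n ih =>
      intro hn i hi
      have hn' : n < m := hn
      have hq0 : 0 < q n := (hq n hn').1.pos
      simp only [List.range_succ, List.foldl_append, List.foldl_cons, List.foldl_nil]
      rw [tn_field (hq n hn').1 (hq n hn').2 fl _ i (hi n hn')]
      refine tn_dft_congr fl _ _ i (fun r hr' => ?_)
      refine ih hn'.le _ (fun f hf => ?_)
      have hτ : fld base F a n i % 2 ^ a / q n < nseg a (q n) :=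
        (Nat.div_lt_iff_lt_mul hq0).2 (hi n hn')
      have hlt := tn_lt hq0 (hq n hn').2 (tn_beta base F a n i) hτ hr'
      rw [tn_move]
      by_cases hfn : n = f
      · subst hfn
        obtain ⟨_, i2, i3, _⟩ :=
          cc_idx (β := fld base F a n i / 2 ^ a) hq0 (hq n hn').2 hτ hr'
        rw [tn_fld_put_same i hlt, i2]
        exact i3
      · rw [tn_fld_put_ne hF hfn i hlt]
        exact hi f hf
  exact key m le_rfl i hi

end Vale.Agent.P338
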