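import Vale.Agent.P338.CfPure
import Vale.Agent.P338.Tens

/-! Field arithmetic and index trajectories for one round. -/

namespace Vale.Agent.P338

namespace RoundAux

open Finset Function

/-- A number given by `m` digits in base `B`. -/
def pk (B m : ℕ) (d : ℕ → ℕ) : ℕ := ∑ f ∈ range m, d f * B ^ f

section
variable {B m : ℕ} {d d' : ℕ → ℕ}

theorem pk_succ : pk B (m + 1) d = pk B m d + d m * B ^ m := Finset.sum_range_succ _ _

theorem pk_congr (h : ∀ f < m, d f = d' f) : pk B m d = pk B m d' :=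
  Finset.sum_congr rfl fun f hf => by rw [h f (mem_range.1 hf)]

theorem pk_add : pk B m d + pk B m d' = pk B m fun f => d f + d' f := by
  unfold pk
  rw [← Finset.sum_add_distrib]
  exact Finset.sum_congr rfl fun f _ => (add_mul _ _ _).symm

theorem pk_lt (h : ∀ f < m, d f < B) : pk B m d < B ^ m := by
  induction m with
  | zero => simp [pk]
  | succ m ih =>
    rw [pk_succ, add_comm, pow_succ']
    exact idx_lt (h m (by omega)) (ih fun f hf => h f (by omega))

theorem pk_digit (h : ∀ f < m, d f < B) (top : ℕ) {f : ℕ} (hf : f < m) :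
    (top * B ^ m + pk B m d) / B ^ f % B = d f := by
  induction m generalizing top with
  | zero => omega
  | succ m ih =>
    have e : top * B ^ (m + 1) + pk B (m + 1) d = (top * B + d m) * B ^ m + pk B m d := by
      rw [pk_succ]; ring
    rw [e]
    by_cases hfm : f = m
    · rw [hfm, idx_div (pk_lt fun g hg => h g (by omega)), idx_mod (h m (by omega))]
    · exact ih (fun g hg => h g (by omega)) _ (by omega)

theorem pk_self (B m y : ℕ) : y = y / B ^ m * B ^ m + pk B m fun f => y / B ^ f % B := by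
  induction m with
  | zero => simp [pk]
  | succ m ih =>
    rw [pk_succ, pow_succ, ← Nat.div_div_eq_div_mul]
    have h := congrArg (fun t => t * B ^ m) (Nat.div_add_mod (y / B ^ m) B)
    simp only [add_mul] at h
    linarith

theorem pk_update {f : ℕ} (hf : f < m) (v : ℕ) :
    pk B m (update d f v) + d f * B ^ f = pk B m d + v * B ^ f := by
  unfold pk
  rw [← Finset.add_sum_erase _ _ (mem_range.2 hf), ← Finset.add_sum_erase _ _ (mem_range.2 hf),
    update_self, Finset.sum_congr rfl fun g hg => by rw [update_of_ne (mem_erase.1 hg).1]]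
  ring

end

variable {c : Cf} {r : ℕ}

/-- The factor of field `f` in round `r`. -/
def qq (c : Cf) (r f : ℕ) : ℕ := c.q (r * c.m + f)

/-- Packing of numbers into the fields. -/
def pack (c : Cf) (g : ℕ → ℕ) : ℕ := pk (2 ^ c.F) c.m g

/-- The position stored in field `f`. -/
def low (c : Cf) (y f : ℕ) : ℕ := y / 2 ^ (c.F * f) % 2 ^ c.a

/-- Combination of residues. -/
def crt (c : Cf) (r : ℕ) (g : ℕ → ℕ) : ℕ := ∑ f ∈ range c.m, g f * idem c.qs (r * c.m + f)

/-- The residues of `x`. -/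
def pr (c : Cf) (r x : ℕ) : ℕ := pack c fun f => x % qq c r f

/-- The residues of `-x`. -/
def pn (c : Cf) (r x : ℕ) : ℕ := pack c fun f => (qq c r f - x % qq c r f) % qq c r f

/-- The residues stored in `y`, combined. -/
def cy (c : Cf) (r y : ℕ) : ℕ := crt c r fun f => low c y f % qq c r f

/-- The negated residues stored in `y`, combined. -/
def cn (c : Cf) (r y : ℕ) : ℕ := crt c r fun f => qq c r f - low c y f % qq c r f

/-- Normal form of a value of the first digit. -/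
def mk (c : Cf) (top : ℕ) (h g : ℕ → ℕ) : ℕ :=
  top * (2 ^ c.F) ^ c.m + pack c fun f => h f * 2 ^ c.a + g f

/-- The fixed part of a valid value. -/
structure Frame (c : Cf) (r top : ℕ) (h τ : ℕ → ℕ) : Prop where
  top_le : (top + 1) * (2 ^ c.F) ^ c.m ≤ c.R
  h_lt : ∀ f < c.m, h f < 2 ^ (c.e + 1)
  safe : ∀ f < c.m, h f / 2 + 2 ^ c.e' + 1 < 2 ^ c.e
  τ_lt : ∀ f < c.m, τ f < nseg c.a (qq c r f)

variable {top : ℕ} {h g g' τ s : ℕ → ℕ}

theorem F_eq (c : Cf) : 2 ^ c.F = 2 ^ (c.e + 1) * 2 ^ c.a := by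
  rw [← pow_add, Cf.F]; congr 1; omega

theorem mk_congr (e : ∀ f < c.m, g f = g' f) : mk c top h g = mk c top h g' := by
  rw [mk, mk, pack, pack, pk_congr fun f hf => by rw [e f hf]]

theorem mk_add : mk c top h g + pack c g' = mk c top h fun f => g f + g' f := by
  rw [mk, mk, pack, pack, pack, add_assoc, pk_add]
  simp only [add_assoc]

theorem mk_digit (hh : ∀ f < c.m, h f < 2 ^ (c.e + 1)) (hg : ∀ f < c.m, g f < 2 ^ c.a) {f : ℕ}
    (hf : f < c.m) : mk c top h g / 2 ^ (c.F * f) % 2 ^ c.F = h f * 2 ^ c.a + g f := by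
  rw [pow_mul]
  exact pk_digit (fun f hf => F_eq c ▸ idx_lt (hh f hf) (hg f hf)) top hf

theorem low_eq (c : Cf) (y f : ℕ) : low c y f = y / 2 ^ (c.F * f) % 2 ^ c.F % 2 ^ c.a := by
  rw [Nat.mod_mod_of_dvd _ (Dvd.intro_left _ (F_eq c).symm), low]

theorem spacer_eq (c : Cf) (y f : ℕ) : y / 2 ^ (c.F * f + (c.a + 1)) % 2 ^ c.e
    = y / 2 ^ (c.F * f) % 2 ^ c.F / 2 ^ c.a / 2 := by
  rw [Nat.div_div_eq_div_mul, ← pow_succ, show 2 ^ c.F = 2 ^ (c.a + 1) * 2 ^ c.e from pow_add _ _ _,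
    Nat.mod_mul_right_div_self, Nat.div_div_eq_div_mul, ← pow_add]

theorem mk_low (hh : ∀ f < c.m, h f < 2 ^ (c.e + 1)) (hg : ∀ f < c.m, g f < 2 ^ c.a) {f : ℕ}
    (hf : f < c.m) : low c (mk c top h g) f = g f := by
  rw [low_eq, mk_digit hh hg hf, idx_mod (hg f hf)]

theorem mk_lt (hF : Frame c r top h τ) (hg : ∀ f < c.m, g f < 2 ^ c.a) : mk c top h g < c.R := by
  refine lt_of_lt_of_le ?_ hF.top_le
  rw [add_mul, one_mul]
  exact Nat.add_lt_add_left (pk_lt fun f hf => F_eq c ▸ idx_lt (hF.h_lt f hf) (hg f hf)) _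

theorem mk_safe (hF : Frame c r top h τ) (hg : ∀ f < c.m, g f < 2 ^ c.a) :
    c.safeY (mk c top h g) := fun f hf => by
  rw [spacer_eq, mk_digit hF.h_lt hg hf, idx_div (hg f hf)]
  exact hF.safe f hf

theorem qq_pos (hc : c.ok) (r f : ℕ) : 0 < qq c r f := hc.q_pos _

theorem seg_lt (hc : c.ok) (hF : Frame c r top h τ) {f : ℕ} (hf : f < c.m) {u v : ℕ}
    (hu : u < qq c r f) (hv : v < qq c r f) : τ f * qq c r f + u + v < 2 ^ c.a := by
  have h1 : (nseg c.a (qq c r f) + 1) * qq c r f ≤ 2 ^ c.a := (nseg_le (hc.q_pos _) (hc.q4 _)).1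
  have h2 := Nat.mul_le_mul_right (qq c r f) (show τ f + 2 ≤ nseg c.a (qq c r f) + 1 by
    have := hF.τ_lt f hf; omega)
  rw [add_mul] at h2
  omega

theorem seg_lt' (hc : c.ok) (hF : Frame c r top h τ) (hs : ∀ f < c.m, s f < qq c r f) :
    ∀ f < c.m, τ f * qq c r f + s f < 2 ^ c.a := fun f hf =>
  seg_lt hc hF hf (hs f hf) (qq_pos hc r f)

theorem mk_valid (hc : c.ok) (hF : Frame c r top h τ) (hs : ∀ f < c.m, s f < qq c r f) :
    c.validY r (mk c top h fun f => τ f * qq c r f + s f) :=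
  ⟨mk_safe hF (seg_lt' hc hF hs), fun f hf => by
    have := mk_low (top := top) hF.h_lt (seg_lt' hc hF hs) hf
    rw [low] at this
    rw [this]
    exact idx_lt (hF.τ_lt f hf) (hs f hf)⟩

theorem exists_mk (hc : c.ok) {y : ℕ} (hy : y < c.R) (hv : c.validY r y) :
    ∃ (top : ℕ) (h τ s : ℕ → ℕ), Frame c r top h τ ∧ (∀ f < c.m, s f < qq c r f) ∧
      y = mk c top h fun f => τ f * qq c r f + s f := by
  refine ⟨y / (2 ^ c.F) ^ c.m, fun f => y / 2 ^ (c.F * f) % 2 ^ c.F / 2 ^ c.a,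
    fun f => low c y f / qq c r f, fun f => low c y f % qq c r f, ⟨?_, fun f _ => ?_,
      fun f hf => ?_, fun f hf => ?_⟩, fun f _ => Nat.mod_lt _ (qq_pos hc r f), ?_⟩
  · have e : c.R = 2 ^ (c.s - c.F * c.m) * (2 ^ c.F) ^ c.m := by
      rw [← pow_mul, ← pow_add, Nat.sub_add_cancel hc.fm, Cf.R]
    rw [e] at hy ⊢
    exact Nat.mul_le_mul_right _ ((Nat.div_lt_iff_lt_mul (by positivity)).2 hy)
  · rw [Nat.div_lt_iff_lt_mul (by positivity), ← F_eq]
    exact Nat.mod_lt _ (by positivity)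
  · rw [← spacer_eq]
    exact hv.1 f hf
  · exact (Nat.div_lt_iff_lt_mul (qq_pos hc r f)).2 (hv.2 f hf)
  · rw [mk, pack]
    refine (pk_self (2 ^ c.F) c.m y).trans (congrArg _ (pk_congr fun f _ => ?_))
    rw [Nat.div_add_mod', low_eq, Nat.div_add_mod', pow_mul]

theorem q_dvd (c : Cf) (k : ℕ) : c.q k ∣ c.M := by
  unfold Cf.q Cf.M
  by_cases hk : k < c.qs.length
  · rw [List.getD_eq_getElem _ _ hk]
    exact List.dvd_prod (List.getElem_mem hk)
  · rw [List.getD_eq_default _ _ (by omega)]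
    exact one_dvd _

theorem crt_in (hc : c.ok) (g : ℕ → ℕ) {f : ℕ} (hf : f < c.m) : crt c r g ≡ g f [MOD qq c r f] := by
  rw [crt, ← Finset.add_sum_erase _ _ (mem_range.2 hf)]
  have h1 : g f * idem c.qs (r * c.m + f) ≡ g f * 1 [MOD qq c r f] :=
    (idem_self hc.cop hc.pos _).mul_left _
  have h2 : ∑ k ∈ (range c.m).erase f, g k * idem c.qs (r * c.m + k) ≡ 0 [MOD qq c r f] := by
    rw [Nat.modEq_zero_iff_dvd]
    refine Finset.dvd_sum fun k hk => Dvd.dvd.mul_left ?_ _
    exact Nat.modEq_zero_iff_dvd.1 (idem_other hc.cop hc.pos (by have := (mem_erase.1 hk).1; omega))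
  simpa using h1.add h2

theorem crt_out (hc : c.ok) (g : ℕ → ℕ) {k : ℕ} (hk : ∀ f < c.m, r * c.m + f ≠ k) :
    crt c r g ≡ 0 [MOD c.q k] := by
  rw [crt, Nat.modEq_zero_iff_dvd]
  refine Finset.dvd_sum fun f hf => Dvd.dvd.mul_left ?_ _
  exact Nat.modEq_zero_iff_dvd.1 (idem_other hc.cop hc.pos (hk f (mem_range.1 hf)))

theorem shift_in (hc : c.ok) (x : ℕ) (g : ℕ → ℕ) {f : ℕ} (hf : f < c.m) :
    (x + crt c r g) % c.M ≡ x + g f [MOD qq c r f] :=
  ((Nat.mod_modEq _ _).of_dvd (q_dvd c _)).trans ((crt_in hc g hf).add_left x)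

theorem shift_out (hc : c.ok) (x : ℕ) (g : ℕ → ℕ) {k : ℕ} (hk : ∀ f < c.m, r * c.m + f ≠ k) :
    (x + crt c r g) % c.M ≡ x [MOD c.q k] :=
  ((Nat.mod_modEq _ _).of_dvd (q_dvd c _)).trans ((crt_out hc g hk).add_left x)

theorem add_step (hF : Frame c r top h τ) (hg : ∀ f < c.m, g f + g' f < 2 ^ c.a) :
    (mk c top h g + pack c g') % c.R = mk c top h fun f => g f + g' f := by
  rw [mk_add, Nat.mod_eq_of_lt (mk_lt hF hg)]

theorem sub_step (hF : Frame c r top h τ) (hg : ∀ f < c.m, g f + g' f < 2 ^ c.a) :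
    ((mk c top h fun f => g f + g' f) + (c.R - pack c g')) % c.R = mk c top h g := by
  have h1 := mk_lt hF hg
  rw [← mk_add] at h1 ⊢
  rw [show mk c top h g + pack c g' + (c.R - pack c g') = mk c top h g + c.R by omega,
    Nat.add_mod_right, Nat.mod_eq_of_lt (by omega)]

theorem neg_mod {q x u : ℕ} (hu : u < q) (h : x + u ≡ 0 [MOD q]) : (q - x % q) % q = u := by
  have h1 : x % q < q := Nat.mod_lt _ (by omega)
  have h2 : q - x % q + x ≡ u + x [MOD q] := by
    have h3 : q - x % q + x % q ≡ 0 [MOD q] := by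
      rw [Nat.sub_add_cancel h1.le]; exact Nat.modEq_zero_iff_dvd.2 dvd_rfl
    rw [add_comm u]
    exact (((Nat.mod_modEq x q).symm.add_left _).trans h3).trans h.symm
  have h4 : (q - x % q) % q = u % q := Nat.ModEq.add_right_cancel' x h2
  rw [h4, Nat.mod_eq_of_lt hu]

theorem add_neg {q : ℕ} (hq : 0 < q) (x : ℕ) : x + (q - x % q) ≡ 0 [MOD q] := by
  have h1 : x % q < q := Nat.mod_lt _ hq
  refine ((Nat.mod_modEq x q).symm.add_right _).trans ?_
  rw [Nat.add_sub_cancel' h1.le]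
  exact Nat.modEq_zero_iff_dvd.2 dvd_rfl

/-- The second digit after the inverse exchange. -/
def ix (c : Cf) (r y x : ℕ) : ℕ := (x + cy c r ((y + pn c r x) % c.R)) % c.M

/-- The first digit after the inverse exchange. -/
def iy (c : Cf) (r y x : ℕ) : ℕ := ((y + pn c r x) % c.R + (c.R - pr c r (ix c r y x))) % c.R

/-- The second digit after the exchange. -/
def ox (c : Cf) (r y x : ℕ) : ℕ := (x + cn c r ((y + pr c r x) % c.R)) % c.M

/-- The first digit after the exchange. -/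
def oy (c : Cf) (r y x : ℕ) : ℕ := ((y + pr c r x) % c.R + (c.R - pn c r (ox c r y x))) % c.R

theorem seg_mod (τ q u : ℕ) : (τ * q + u) % q ≡ u [MOD q] := by
  rw [Nat.mul_add_mod_self_right]
  exact Nat.mod_modEq _ _

theorem inv_spec (hc : c.ok) (hF : Frame c r top h τ) (hs : ∀ f < c.m, s f < qq c r f) (x : ℕ) :
    (∀ f < c.m, ix c r (mk c top h fun f => τ f * qq c r f + s f) x % qq c r f = s f) ∧
      iy c r (mk c top h fun f => τ f * qq c r f + s f) x
        = mk c top h fun f => τ f * qq c r f + (qq c r f - x % qq c r f) % qq c r f := by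
  have hn : ∀ f, (qq c r f - x % qq c r f) % qq c r f < qq c r f :=
    fun f => Nat.mod_lt _ (qq_pos hc r f)
  have h1 : ∀ f < c.m, τ f * qq c r f + s f + (qq c r f - x % qq c r f) % qq c r f < 2 ^ c.a :=
    fun f hf => seg_lt hc hF hf (hs f hf) (hn f)
  have h2 : ∀ f < c.m, ix c r (mk c top h fun f => τ f * qq c r f + s f) x % qq c r f = s f := by
    intro f hf
    rw [ix, pn, add_step hF h1, cy, shift_in hc x _ hf, mk_low hF.h_lt h1 hf, add_assoc]
    have h3 := ((seg_mod (τ f) (qq c r f) (s f + (qq c r f - x % qq c r f) % qq c r f)).trans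
      ((Nat.mod_modEq _ _).add_left _)).add_left x
    rw [h3, add_left_comm, (add_neg (qq_pos hc r f) x).add_left (s f), add_zero,
      Nat.mod_eq_of_lt (hs f hf)]
  refine ⟨h2, ?_⟩
  rw [iy, pr, pack, pk_congr h2, ← pack, pn, add_step hF h1,
    mk_congr fun f _ => add_right_comm _ _ _]
  exact sub_step hF fun f hf => seg_lt hc hF hf (hn f) (hs f hf)

theorem out_spec (hc : c.ok) (hF : Frame c r top h τ) (hs : ∀ f < c.m, s f < qq c r f) (x : ℕ) :
    (∀ f < c.m, (qq c r f - ox c r (mk c top h fun f => τ f * qq c r f + s f) x % qq c r f)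
      % qq c r f = s f) ∧
      oy c r (mk c top h fun f => τ f * qq c r f + s f) x
        = mk c top h fun f => τ f * qq c r f + x % qq c r f := by
  have hn : ∀ f, x % qq c r f < qq c r f := fun f => Nat.mod_lt _ (qq_pos hc r f)
  have h1 : ∀ f < c.m, τ f * qq c r f + s f + x % qq c r f < 2 ^ c.a :=
    fun f hf => seg_lt hc hF hf (hs f hf) (hn f)
  have h2 : ∀ f < c.m, (qq c r f - ox c r (mk c top h fun f => τ f * qq c r f + s f) x % qq c r f)
      % qq c r f = s f := by
    intro f hf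
    refine neg_mod (hs f hf) ?_
    rw [ox, pr, add_step hF h1, cn]
    refine ((shift_in hc x _ hf).add_right _).trans ?_
    rw [mk_low hF.h_lt h1 hf]
    have h3 : x + s f ≡ τ f * qq c r f + s f + x % qq c r f [MOD qq c r f] := by
      rw [add_assoc, add_comm x]
      exact ((Nat.mod_modEq _ _).symm.add_left _).trans
        ((seg_mod _ _ _).symm.trans (Nat.mod_modEq _ _))
    rw [add_right_comm]
    exact (h3.add_right _).trans (add_neg (qq_pos hc r f) _)
  refine ⟨h2, ?_⟩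
  rw [oy, pn, pack, pk_congr h2, ← pack, pr, add_step hF h1,
    mk_congr fun f _ => add_right_comm _ _ _]
  exact sub_step hF fun f hf => seg_lt hc hF hf (hn f) (hs f hf)

/-- The flat index. -/
def fi (c : Cf) (e y x z : ℕ) : ℕ := ((e * c.R + y) * c.R + x) * c.R + z

theorem fi_y {e y x z : ℕ} (hy : y < c.R) (hx : x < c.R) (hz : z < c.R) :
    fi c e y x z / c.R / c.R % c.R = y := by rw [fi, idx_div hz, idx_div hx, idx_mod hy]

theorem fi_e {e y x z : ℕ} (hy : y < c.R) (hx : x < c.R) (hz : z < c.R) :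
    fi c e y x z / c.R / c.R / c.R = e := by rw [fi, idx_div hz, idx_div hx, idx_div hy]

theorem fi_x {e y x z : ℕ} (hx : x < c.R) (hz : z < c.R) : fi c e y x z / c.R % c.R = x := by
  rw [fi, idx_div hz, idx_mod hx]

theorem fi_z {e y x z : ℕ} (hz : z < c.R) : fi c e y x z % c.R = z := idx_mod hz

theorem fi_lt {e y x z : ℕ} (he : e < c.E) (hy : y < c.R) (hx : x < c.R) (hz : z < c.R) :
    fi c e y x z < c.E * c.R * c.R * c.R := idx_lt (idx_lt (idx_lt he hy) hx) hz

theorem fi_low (hc : c.ok) {e y x z f : ℕ} (hy : y < c.R) (hx : x < c.R) (hz : z < c.R)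
    (hf : f < c.m) : fld (2 * c.s) c.F c.a f (fi c e y x z) % 2 ^ c.a = low c y f := by
  rw [hc.fld_eq hf, fi_y hy hx hz, Nat.mod_mod_of_dvd _ (pow_dvd_pow 2 (Nat.le_succ _)), low]

theorem fi_move (e x z ρ : ℕ) {n : ℕ} (hn : n < c.m) :
    fi c e (mk c top h fun f => τ f * qq c r f + s f) x z + ρ * 2 ^ (2 * c.s + c.F * n)
      - s n * 2 ^ (2 * c.s + c.F * n)
      = fi c e (mk c top h fun f => τ f * qq c r f + update s n ρ f) x z := by
  refine Nat.sub_eq_of_eq_add ?_
  have h1 := pk_update (B := 2 ^ c.F) (d := s) hn ρ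
  have e1 : 2 ^ (2 * c.s + c.F * n) = (2 ^ c.F) ^ n * c.R * c.R := by
    rw [Cf.R, ← pow_mul, ← pow_add, ← pow_add]; congr 1; omega
  rw [← mk_add, ← mk_add, pack, pack, e1, fi, fi]
  generalize mk c top h (fun f => τ f * qq c r f) = y0
  generalize c.R = R
  have h2 := congrArg (fun t => t * R * R) h1
  simp only [add_mul] at h2 ⊢
  linarith

theorem dft_corr (hc : c.ok) (hF : Frame c r top h τ) (fl : Bool) {e x1 z x : ℕ} (hx : x1 < c.R)
    (hz : z < c.R) (V u : ℕ → ℂ)
    (h0 : ∀ (s : ℕ → ℕ) (ξ : ℕ), (∀ f < c.m, s f < qq c r f) → ξ < c.M →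
      (∀ f < c.m, ξ % qq c r f = s f) →
      (∀ k, (∀ f < c.m, r * c.m + f ≠ k) → ξ ≡ x [MOD c.q k]) →
      V (fi c e (mk c top h fun f => τ f * qq c r f + s f) x1 z) = u ξ) :
    ∀ n ≤ c.m, ∀ (s : ℕ → ℕ) (ξ : ℕ), (∀ f < c.m, s f < qq c r f) → ξ < c.M →
      (∀ f < c.m, ξ % qq c r f = s f) →
      (∀ k, (∀ f < c.m, r * c.m + f ≠ k) → ξ ≡ x [MOD c.q k]) →
      (List.range n).foldl (fun v f => dftF (2 * c.s) c.F c.a f (qq c r f) fl v) V
        (fi c e (mk c top h fun f => τ f * qq c r f + s f) x1 z)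
      = (List.range n).foldl (fun u f => dft1 c.qs fl (r * c.m + f) u) u ξ := by
  intro n
  induction n with
  | zero => exact fun _ => h0
  | succ n ih =>
    intro hn s ξ hs h1 h2 h3
    have hn' : n < c.m := hn
    have e1 : res (2 * c.s) c.F c.a n (qq c r n)
        (fi c e (mk c top h fun f => τ f * qq c r f + s f) x1 z) = s n := by
      rw [res, fi_low hc (mk_lt hF (seg_lt' hc hF hs)) hx hz hn',
        mk_low hF.h_lt (seg_lt' hc hF hs) hn', idx_mod (hs n hn')]
    have e2 : c.qs.getD (r * c.m + n) 1 = qq c r n := rfl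
    simp only [List.range_succ, List.foldl_append, List.foldl_cons, List.foldl_nil]
    rw [dftF, dft1, e1, e2, h2 n hn']
    refine congrArg _ (Finset.sum_congr rfl fun ρ hρ => congrArg _ ?_)
    obtain ⟨k1, k2, k3⟩ := crtj_spec hc.cop hc.pos (r * c.m + n) ξ (mem_range.1 hρ)
    rw [fi_move e x1 z ρ hn']
    refine ih hn'.le _ _ (fun f hf => ?_) k1 (fun f hf => ?_) fun k hk => ?_
    · by_cases e : f = n
      · rw [e, update_self]; exact mem_range.1 hρ
      · rw [update_of_ne e]; exact hs f hf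
    · by_cases e : f = n
      · rw [e, update_self]; exact k2
      · rw [update_of_ne e, ← h2 f hf]; exact k3 _ (by omega)
    · exact (k3 k (hk n hn').symm).trans (h3 k hk)

theorem exists_count (p : ℕ → Prop) [DecidablePred p] {R y : ℕ} (h : y < Nat.count p R) :
    Nat.nth p y < R ∧ p (Nat.nth p y) ∧ Nat.count p (Nat.nth p y) = y := by
  have key : ∃ k < R, p k ∧ Nat.count p k = y := by
    induction R with
    | zero => simp at h
    | succ R ih =>
      rw [Nat.count_succ] at h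
      by_cases h1 : y < Nat.count p R
      · obtain ⟨k, h2, h3⟩ := ih h1
        exact ⟨k, by omega, h3⟩
      · split_ifs at h with h2
        · exact ⟨R, by omega, h2, by omega⟩
        · omega
  obtain ⟨k, h1, h2, rfl⟩ := key
  rw [Nat.nth_count h2]
  exact ⟨h1, h2, rfl⟩

end RoundAux

end Vale.Agent.P338
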