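import Vale.Agent.P338.Layers
import Vale.Agent.P338.Tens
import Vale.Agent.P338.RoundAux

/-! One round: the transform along `m` of the factors of the middle digit. -/

namespace Vale.Agent.P338

namespace RoundAux

set_option linter.unusedSectionVars false

variable {c : Cf} {r : ℕ} {l : List ℕ} {e y x z : ℕ}

theorem lenY (hl : c.Full l) : l.length = c.E * c.R * (c.R * c.R) := by rw [hl.1]; ring

theorem lenW (hl : c.Full l) : l.length = c.E * c.R * c.R * c.R * 1 := by rw [hl.1, mul_one]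

theorem full_Y (hl : c.Full l) (π : ℕ → ℕ → Option ℕ) : c.Full (dg c.R c.R (c.R * c.R) π l) :=
  ⟨((length_dg π c.R_pos (Nat.mul_pos c.R_pos c.R_pos) (lenY hl)).trans (lenY hl).symm).trans hl.1,
    bd_dg π hl.2 c.P_pos⟩

theorem full_X (hl : c.Full l) (π : ℕ → ℕ → Option ℕ) : c.Full (dg c.R c.R c.R π l) :=
  ⟨length_dg π c.R_pos c.R_pos hl.1, bd_dg π hl.2 c.P_pos⟩

theorem full_W (hl : c.Full l) (π : ℕ → ℕ → Option ℕ) : c.Full (dg c.R c.R 1 π l) :=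
  ⟨(length_dg π c.R_pos one_pos (lenW hl)).trans (mul_one _), bd_dg π hl.2 c.P_pos⟩

theorem full_S (hl : c.Full l) (f : ℕ → ℕ) : c.Full (shear c.R c.M c.R f l) := full_X hl _

theorem full_eY (hl : c.Full l) : c.Full (expandD c.R (c.R * c.R) (c.validY r) c.M l) :=
  full_Y hl _

theorem full_eW (hl : c.Full l) : c.Full (expandD c.R 1 c.safeW c.M l) := full_W hl _

theorem full_cY (hl : c.Full l) : c.Full (compressD c.R (c.R * c.R) (c.validY r) c.M l) :=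
  full_Y hl _

theorem full_cW (hl : c.Full l) : c.Full (compressD c.R 1 c.safeW c.M l) := full_W hl _

theorem full_U (hl : c.Full l) (f : ℕ → ℕ) : c.Full (upper c.R f l) :=
  ⟨(length_upper f c.R_pos hl.1).trans hl.1, bd_upper f hl.2 c.P_pos⟩

section
variable (hl : c.Full l) (he : e < c.E) (hy : y < c.R) (hx : x < c.R) (hz : z < c.R)
include hl he hy hx hz

theorem gt_Y (π : ℕ → ℕ → Option ℕ) : gt (dg c.R c.R (c.R * c.R) π l) (fi c e y x z)
    = (π e y).elim 0 fun v => gt l (fi c e v x z) := by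
  have e1 : ∀ v, fi c e v x z = (e * c.R + v) * (c.R * c.R) + (x * c.R + z) := fun v => by
    rw [fi]; ring
  simp only [e1]
  exact gt_dg π c.R_pos (lenY hl) he hy (idx_lt hx hz)

theorem gt_X (π : ℕ → ℕ → Option ℕ) : gt (dg c.R c.R c.R π l) (fi c e y x z)
    = (π (e * c.R + y) x).elim 0 fun v => gt l (fi c e y v z) :=
  gt_dg π c.R_pos hl.1 (idx_lt he hy) hx hz

theorem gt_W (π : ℕ → ℕ → Option ℕ) : gt (dg c.R c.R 1 π l) (fi c e y x z)
    = (π ((e * c.R + y) * c.R + x) z).elim 0 fun v => gt l (fi c e y x v) := by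
  have h := gt_dg π c.R_pos (lenW hl) (idx_lt (idx_lt he hy) hx) hz one_pos
  simp only [mul_one, add_zero] at h
  exact h

theorem gt_U (f : ℕ → ℕ) : gt (upper c.R (fun u => f (u % c.R)) l) (fi c e y x z)
    = gt l (fi c e ((y + f x) % c.R) x z) := by
  rw [fi, gt_upper _ hl.1 he hy hx hz, idx_mod hx, fi]

end

theorem M_le (hc : c.ok) : c.M ≤ c.R := by have := hc.mr; omega

/-- Three shears. -/
def sh3 (c : Cf) (f g h : ℕ → ℕ) (l : List ℕ) : List ℕ :=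
  upper c.R (fun u => f (u % c.R)) (shear c.R c.M c.R (fun u => g (u % c.R))
    (upper c.R (fun u => h (u % c.R)) l))

theorem full_sh3 (hl : c.Full l) (f g h : ℕ → ℕ) : c.Full (sh3 c f g h l) :=
  full_U (full_S (full_U hl _) _) _

theorem gt_sh3 (hc : c.ok) (hl : c.Full l) (he : e < c.E) (hy : y < c.R) (hx : x < c.M)
    (hz : z < c.R) (f g h : ℕ → ℕ) : gt (sh3 c f g h l) (fi c e y x z)
      = gt l (fi c e (((y + f x) % c.R + h ((x + g ((y + f x) % c.R)) % c.M)) % c.R)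
        ((x + g ((y + f x) % c.R)) % c.M) z) := by
  have h1 : (y + f x) % c.R < c.R := Nat.mod_lt _ c.R_pos
  have h2 := hx.trans_le (M_le hc)
  rw [sh3, gt_U (full_S (full_U hl _) _) he hy h2 hz, shear, gt_X (full_U hl _) he h1 h2 hz,
    if_pos hx, Option.elim_some, idx_mod h1,
    gt_U hl he h1 ((Nat.mod_lt _ hc.M_pos).trans_le (M_le hc)) hz]

/-- The passes before the circuit. -/
def pre (c : Cf) (r : ℕ) (l : List ℕ) : List ℕ :=
  sh3 c (pn c r) (cy c r) (fun x => c.R - pr c r x)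
    (expandD c.R 1 c.safeW c.M (expandD c.R (c.R * c.R) (c.validY r) c.M l))

/-- The passes after the circuit. -/
noncomputable def post (c : Cf) (r : ℕ) (l : List ℕ) : List ℕ :=
  compressD c.R 1 c.safeW c.M (compressD c.R (c.R * c.R) (c.validY r) c.M
    (sh3 c (pr c r) (cn c r) (fun x => c.R - pn c r x) l))

theorem full_pre (hl : c.Full l) : c.Full (pre c r l) :=
  full_sh3 (full_eW (full_eY hl)) _ _ _

theorem full_post (hl : c.Full l) : c.Full (post c r l) :=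
  full_cW (full_cY (full_sh3 hl _ _ _))

/-- The values before the circuit. -/
noncomputable def val0 (c : Cf) (r : ℕ) (v : ℕ → ℕ → ℕ → ℕ → ℂ) (e y x z : ℕ) : ℂ :=
  if (c.safeW z ∧ Nat.count c.safeW z < c.M) ∧
      (c.validY r (iy c r y x) ∧ Nat.count (c.validY r) (iy c r y x) < c.M) then
    v e (Nat.count (c.validY r) (iy c r y x)) (ix c r y x) (Nat.count c.safeW z) else 0

theorem near_pre (hc : c.ok) {v : ℕ → ℕ → ℕ → ℕ → ℂ} {β η : ℕ} (hl : c.Std l v β η)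
    (he : e < c.E) (hy : y < c.R) (hx : x < c.M) (hz : z < c.R) :
    Near c.w (gt (pre c r l) (fi c e y x z)) (val0 c r v e y x z) β η := by
  have h0 : Near c.w 0 0 β η := by simpa using near_nat c.w 0 (Nat.zero_le (2 ^ β)) η
  have h1 : ix c r y x < c.M := Nat.mod_lt _ hc.M_pos
  have h2 : iy c r y x < c.R := Nat.mod_lt _ c.R_pos
  have h3 := h1.trans_le (M_le hc)
  rw [pre, gt_sh3 hc (full_eW (full_eY hl.1)) he hy hx hz]
  change Near c.w (gt _ (fi c e (iy c r y x) (ix c r y x) z)) _ β η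
  rw [expandD, gt_W (full_eY hl.1) he h2 h3 hz, val0]
  by_cases k1 : c.safeW z ∧ Nat.count c.safeW z < c.M
  · rw [if_pos k1, Option.elim_some, expandD, gt_Y hl.1 he h2 h3 (k1.2.trans_le (M_le hc))]
    by_cases k2 : c.validY r (iy c r y x) ∧ Nat.count (c.validY r) (iy c r y x) < c.M
    · rw [if_pos k2, if_pos ⟨k1, k2⟩]
      exact hl.2 e he _ k2.2 _ h1 _ k1.2
    · rw [if_neg k2, if_neg fun h => k2 h.2]
      exact h0
  · rw [if_neg k1, if_neg fun h => k1 h.1]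
    exact h0

theorem gt_post (hc : c.ok) (hl : c.Full l) (he : e < c.E) (hy : y < c.M) (hx : x < c.M)
    (hz : z < c.M) : gt (post c r l) (fi c e y x z) = gt l (fi c e
      (oy c r (Nat.nth (c.validY r) y) x) (ox c r (Nat.nth (c.validY r) y) x)
      (Nat.nth c.safeW z)) := by
  have h1 := (exists_count _ (hy.trans_le (hc.count_valid r))).1
  have h2 := (exists_count _ (hz.trans_le hc.count_safeW)).1
  have h3 := M_le hc
  rw [post, compressD, gt_W (full_cY (full_sh3 hl _ _ _)) he (hy.trans_le h3) (hx.trans_le h3)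
    (hz.trans_le h3),
    if_pos hz, Option.elim_some, compressD,
    gt_Y (full_sh3 hl _ _ _) he (hy.trans_le h3) (hx.trans_le h3) h2, if_pos hy, Option.elim_some,
    gt_sh3 hc hl he h1 hx h2]
  rfl

theorem round_spec (hc : c.ok) (fl : Bool) {v : ℕ → ℕ → ℕ → ℕ → ℂ} {β η β' η' : ℕ}
    (hl : c.Std l v β η) {l' : List ℕ} (hl' : c.Full l')
    (hrun : ∀ V : ℕ → ℂ, (∀ i < (pre c r l).length, c.Safe i → i / c.R % c.R < c.M →
        Near c.w (gt (pre c r l) i) (V i) β η) →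
      ∀ i < (pre c r l).length, c.Safe i → i / c.R % c.R < c.M → Near c.w (gt l' i)
        ((circ c.a).foldl (fun v k => lactM (2 * c.s) c.F c.a c.m (fun f => c.q (r * c.m + f))
          fl k v) V i) β' η') :
    c.Std (post c r l') (fun e y x z => (List.range c.m).foldl
      (fun u f => dft1 c.qs fl (r * c.m + f) u) (fun x => v e y x z) x) β' η' := by
  refine ⟨full_post hl', fun e he y hy x hx z hz => ?_⟩
  have hlen : (pre c r l).length = c.E * c.R * c.R * c.R := (full_pre hl.1).1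
  obtain ⟨y1, y2, y3⟩ := exists_count _ (hy.trans_le (hc.count_valid r))
  obtain ⟨z1, z2, z3⟩ := exists_count _ (hz.trans_le hc.count_safeW)
  change Near c.w (gt _ (fi c e y x z)) _ β' η'
  rw [gt_post hc hl' he hy hx hz]
  generalize Nat.nth (c.validY r) y = Y at y1 y2 y3
  generalize Nat.nth c.safeW z = Z at z1 z2 z3
  obtain ⟨top, h, τ, s, hF, hs, hY⟩ := exists_mk hc y1 y2
  obtain ⟨k1, k2⟩ := out_spec hc hF hs x
  have k3 : ∀ k, (∀ f < c.m, r * c.m + f ≠ k) → ox c r Y x ≡ x [MOD c.q k] :=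
    fun k hk => shift_out hc x _ hk
  have k4 : ox c r Y x < c.M := Nat.mod_lt _ hc.M_pos
  rw [← hY] at k1 k2
  rw [k2]
  generalize ox c r Y x = x1 at k1 k3 k4
  have k5 := k4.trans_le (M_le hc)
  have hxq : ∀ f < c.m, x % qq c r f < qq c r f := fun f _ => Nat.mod_lt _ (qq_pos hc r f)
  have k6 := mk_lt hF (seg_lt' hc hF hxq)
  have h1 := hrun (fun i => val0 c r v (i / c.R / c.R / c.R) (i / c.R / c.R % c.R)
    (i / c.R % c.R) (i % c.R)) (fun i hi _ hiM => by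
      rw [hlen] at hi
      obtain ⟨i1, hi1, z', hz', rfl⟩ := idx_decomp hi
      obtain ⟨i2, hi2, x', hx', rfl⟩ := idx_decomp hi1
      obtain ⟨e', he', y', hy', rfl⟩ := idx_decomp hi2
      change fi c e' y' x' z' / c.R % c.R < c.M at hiM
      rw [fi_x hx' hz'] at hiM
      change Near c.w (gt _ (fi c e' y' x' z')) (val0 c r v (fi c e' y' x' z' / c.R / c.R / c.R)
        (fi c e' y' x' z' / c.R / c.R % c.R) (fi c e' y' x' z' / c.R % c.R)
        (fi c e' y' x' z' % c.R)) β η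
      rw [fi_e hy' hx' hz', fi_y hy' hx' hz', fi_x hx' hz', fi_z hz']
      exact near_pre hc hl he' hy' hiM hz')
    (fi c e (mk c top h fun f => τ f * qq c r f + x % qq c r f) x1 Z)
    (hlen ▸ fi_lt he k6 k5 z1)
    ⟨by rw [fi_y k6 k5 z1]; exact (mk_valid hc hF hxq).1, by rw [fi_z z1]; exact z2⟩
    (by rw [fi_x k5 z1]; exact k4)
  rw [circM_spec (by unfold Cf.F; omega) (fun f _ => ⟨hc.q_odd _, hc.q4 _⟩) fl _ _
    (fun f hf => by rw [fi_low hc k6 k5 z1 hf]; exact (mk_valid hc hF hxq).2 f hf)] at h1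
  have h2 := dft_corr hc hF fl (e := e) (x := x) k5 z1
    (fun i => val0 c r v (i / c.R / c.R / c.R) (i / c.R / c.R % c.R) (i / c.R % c.R) (i % c.R))
    (fun x => v e y x z) (fun s' ξ hs' g1 g2 g3 => by
      have k7 := mk_lt hF (seg_lt' hc hF hs')
      obtain ⟨k8, k9⟩ := inv_spec hc hF hs' x1
      have k11 : iy c r (mk c top h fun f => τ f * qq c r f + s' f) x1 = Y :=
        k9.trans ((mk_congr fun f hf => by rw [k1 f hf]).trans hY.symm)
      have k10 : ix c r (mk c top h fun f => τ f * qq c r f + s' f) x1 = ξ := by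
        refine crt_unique hc.cop hc.pos (Nat.mod_lt _ hc.M_pos) g1 fun k => ?_
        by_cases hk : ∀ f < c.m, r * c.m + f ≠ k
        · exact ((shift_out hc x1 _ hk).trans (k3 k hk)).trans (g3 k hk).symm
        · push Not at hk
          obtain ⟨f, hf, rfl⟩ := hk
          exact (k8 f hf).trans (g2 f hf).symm
      rw [fi_e k7 k5 z1, fi_y k7 k5 z1, fi_x k5 z1, fi_z z1, val0, k11, k10, y3, z3,
        if_pos ⟨⟨z2, hz⟩, y2, hy⟩])
    c.m le_rfl _ x hxq hx (fun _ _ => rfl) fun _ _ => Nat.ModEq.refl _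
  exact (congrArg (fun t => Near c.w _ t β' η') h2).mp h1

section tm

variable {ι : Type} [Enc ι] {𝒯 : Cls ι} [Dom 𝒯] {c : ι → Cf} {r : ι → ℕ}

theorem tm_pack [Mulc 𝒯] (h : CfT 𝒯 c) {g : ι → ℕ → ℕ}
    (hg : Dom (𝒯.ext fun i (k : ℕ) => k < (c i).m) →
      Tm (𝒯.ext fun i (k : ℕ) => k < (c i).m) (fun p => g p.2 p.1)) :
    Tm 𝒯 fun i => pack (c i) (g i) := by
  refine Tm.sumRange (u := fun i f => g i f * (2 ^ (c i).F) ^ f) h.m h.mem_m fun D => ?_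
  have h' := h.ext fun i (k : ℕ) => k < (c i).m
  refine ((hg D).mul (Tm.pow2 (h'.tm.cf_F.mul Tm.id.fst)
    (Cls.ext_of_le h.mem_s fun k i hi hk => ?_))).congr fun p _ => by rw [pow_mul]
  exact (Nat.mul_le_mul_left _ hk.le).trans (h.ok i hi).fm

theorem tm_crt [Mulc 𝒯] (h : CfT 𝒯 c) (hr : Tm 𝒯 r) {g : ι → ℕ → ℕ}
    (hg : Dom (𝒯.ext fun i (k : ℕ) => k < (c i).m) →
      Tm (𝒯.ext fun i (k : ℕ) => k < (c i).m) (fun p => g p.2 p.1)) :
    Tm 𝒯 fun i => crt (c i) (r i) (g i) := by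
  refine Tm.sumRange (u := fun i f => g i f * idem (c i).qs (r i * (c i).m + f)) h.m h.mem_m
    fun D => ?_
  have h' := h.ext fun i (k : ℕ) => k < (c i).m
  exact (hg D).mul (h'.idem (((Tm.lift _ hr).mul h'.m).add Tm.id.fst))

theorem tm_qq [Mulc 𝒯] (h : CfT 𝒯 c) (hr : Tm 𝒯 r) {f : ι → ℕ} (hf : Tm 𝒯 f) :
    Tm 𝒯 fun i => qq (c i) (r i) (f i) := h.tm.cf_q ((hr.mul h.m).add hf)

theorem tm_low [Mulc 𝒯] (h : CfT 𝒯 c) {y f : ι → ℕ} (hy : Tm 𝒯 y) (hf : Tm 𝒯 f) :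
    Tm 𝒯 fun i => low (c i) (y i) (f i) := (hy.shr (h.tm.cf_F.mul hf)).low h.tm.cf_a

theorem tm_pr [Mulc 𝒯] (h : CfT 𝒯 c) (hr : Tm 𝒯 r) {x : ι → ℕ} (hx : Tm 𝒯 x) :
    Tm 𝒯 fun i => pr (c i) (r i) (x i) :=
  tm_pack h fun _ => (Tm.lift _ hx).mod (tm_qq (h.ext _) (Tm.lift _ hr) Tm.id.fst)

theorem tm_pn [Mulc 𝒯] (h : CfT 𝒯 c) (hr : Tm 𝒯 r) {x : ι → ℕ} (hx : Tm 𝒯 x) :
    Tm 𝒯 fun i => pn (c i) (r i) (x i) :=
  tm_pack h fun _ =>
    have hq := tm_qq (h.ext fun i (k : ℕ) => k < (c i).m) (Tm.lift _ hr) Tm.id.fst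
    (hq.sub ((Tm.lift _ hx).mod hq)).mod hq

theorem tm_cy [Mulc 𝒯] (h : CfT 𝒯 c) (hr : Tm 𝒯 r) {y : ι → ℕ} (hy : Tm 𝒯 y) :
    Tm 𝒯 fun i => cy (c i) (r i) (y i) :=
  tm_crt h hr fun _ => (tm_low (h.ext _) (Tm.lift _ hy) Tm.id.fst).mod
    (tm_qq (h.ext _) (Tm.lift _ hr) Tm.id.fst)

theorem tm_cn [Mulc 𝒯] (h : CfT 𝒯 c) (hr : Tm 𝒯 r) {y : ι → ℕ} (hy : Tm 𝒯 y) :
    Tm 𝒯 fun i => cn (c i) (r i) (y i) :=
  tm_crt h hr fun _ =>
    have hq := tm_qq (h.ext fun i (k : ℕ) => k < (c i).m) (Tm.lift _ hr) Tm.id.fst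
    hq.sub ((tm_low (h.ext _) (Tm.lift _ hy) Tm.id.fst).mod hq)

theorem cp_u : Tm (cp ℕ) fun p => p.1 % p.2.1.R := Tm.id.fst.mod cp_cfT.R

theorem cp_r : Tm (cp ℕ) fun p => p.2.2 := Tm.id.snd.snd

variable {l : ι → List ℕ} (h : CArr 𝒯 c l) (hr : Tm 𝒯 r)
  (hd : ∀ i, 𝒯.dom i → r i < (c i).ρ ∧ (c i).Full (l i))
include h hr hd

theorem sz_r (i : ι) (hi : 𝒯.dom i) : sz (r i) ≤ 100 * ((c i).s + 1) := by
  have h1 := (hd i hi).1
  have h2 := (h.ok i hi).rho_le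
  have h3 := sz_nat_le (r i)
  omega

theorem carr_sh3 {f g k : Cf → ℕ → ℕ → ℕ} (hf : Tm (cp ℕ) fun p => f p.2.1 p.2.2 (p.1 % p.2.1.R))
    (hg : Tm (cp ℕ) fun p => g p.2.1 p.2.2 (p.1 % p.2.1.R))
    (hk : Tm (cp ℕ) fun p => k p.2.1 p.2.2 (p.1 % p.2.1.R)) :
    CArr 𝒯 c fun i => sh3 (c i) (f (c i) (r i)) (g (c i) (r i)) (k (c i) (r i)) (l i) := by
  have hs := sz_r h hr hd
  have h1 := ((h.upper hr hs hk).shearX hr hs hg).upper hr hs hf
  exact h1

theorem cp_ok (i : ι) (hi : 𝒯.dom i) (v : ℕ) (hv : v < (c i).R) :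
    ((c i).ok ∧ v < 2 ^ (c i).b ∧ sz (r i) ≤ 100 * ((c i).s + 1)) ∧ (c i).s ≤ (c i).s := by
  have h1 := (h.ok i hi).e'_le.2.2.2.2.2.2.1
  exact ⟨⟨h.ok i hi, hv.trans_le (Nat.pow_le_pow_right two_pos (by unfold Cf.b; omega)),
    sz_r h hr hd i hi⟩, le_rfl⟩

omit hr in
theorem mem_R (n : ℕ) : 𝒯.mem fun i => (c i).R * ((c i).s + (c i).b + 1) ^ n :=
  𝒯.mono (h.mem_poly n) fun i hi => Nat.mul_le_mul_right _ (by
    rw [(hd i hi).2.1, Nat.mul_div_cancel _ (c i).R_pos]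
    exact Nat.le_mul_of_pos_left _ (Nat.mul_pos (c i).E_pos (c i).R_pos))

omit h hr in
theorem shapeY (i : ι) (hi : 𝒯.dom i) : (l i).length = (c i).E * (c i).R * ((c i).R * (c i).R) ∧
    0 < (c i).E ∧ 0 < (c i).R ∧ 0 < (c i).R * (c i).R :=
  ⟨lenY (hd i hi).2, (c i).E_pos, (c i).R_pos, Nat.mul_pos (c i).R_pos (c i).R_pos⟩

omit h hr in
theorem shapeW (i : ι) (hi : 𝒯.dom i) :
    (l i).length = (c i).E * (c i).R * (c i).R * (c i).R * 1 ∧
    0 < (c i).E * (c i).R * (c i).R ∧ 0 < (c i).R ∧ 0 < 1 :=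
  ⟨lenW (hd i hi).2, Nat.mul_pos (Nat.mul_pos (c i).E_pos (c i).R_pos) (c i).R_pos, (c i).R_pos,
    one_pos⟩

omit hr in
theorem carr_next {l' : ι → List ℕ} (hl : Tm 𝒯 l') (h' : ∀ i, 𝒯.dom i → (c i).Full (l' i)) :
    CArr 𝒯 c l' :=
  h.next hl fun i hi => ⟨(h' i hi).1.trans (hd i hi).2.1.symm, (h' i hi).2⟩

theorem carr_expY : CArr 𝒯 c fun i =>
    expandD (c i).R ((c i).R * (c i).R) ((c i).validY (r i)) (c i).M (l i) := by
  have h1 := Tm.expandD (p := fun p : ℕ × Cf × ℕ => p.2.1.validY p.2.2 p.1)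
    (θ := fun i => (c i, r i)) (k := fun i => (c i).s)
    (cp_cfT.validY cp_r Tm.id.fst) h.arr (h.tc.pair hr) h.cfT.R h.cfT.RR (shapeY hd)
    (cp_ok h hr hd) (mem_R h hd) h.cfT.M fun i hi => M_le (h.ok i hi)
  exact carr_next h hd h1 fun i hi => full_Y (hd i hi).2 _

theorem carr_expW : CArr 𝒯 c fun i => expandD (c i).R 1 (c i).safeW (c i).M (l i) := by
  have h1 := Tm.expandD (p := fun p : ℕ × Cf × ℕ => p.2.1.safeW p.1)
    (θ := fun i => (c i, r i)) (k := fun i => (c i).s)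
    (cp_cfT.safeW Tm.id.fst) h.arr (h.tc.pair hr) h.cfT.R (Tm.const 1) (shapeW hd)
    (cp_ok h hr hd) (mem_R h hd) h.cfT.M fun i hi => M_le (h.ok i hi)
  exact carr_next h hd h1 fun i hi => full_W (hd i hi).2 _

theorem carr_cmpY : CArr 𝒯 c fun i =>
    compressD (c i).R ((c i).R * (c i).R) ((c i).validY (r i)) (c i).M (l i) := by
  have h1 := Tm.compressD (p := fun p : ℕ × Cf × ℕ => p.2.1.validY p.2.2 p.1)
    (θ := fun i => (c i, r i)) (k := fun i => (c i).s)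
    (cp_cfT.validY cp_r Tm.id.fst) h.arr (h.tc.pair hr) h.cfT.R h.cfT.RR (shapeY hd)
    (cp_ok h hr hd) (mem_R h hd) h.cfT.M fun i hi => (h.ok i hi).count_valid _
  exact carr_next h hd h1 fun i hi => full_Y (hd i hi).2 _

theorem carr_cmpW : CArr 𝒯 c fun i => compressD (c i).R 1 (c i).safeW (c i).M (l i) := by
  have h1 := Tm.compressD (p := fun p : ℕ × Cf × ℕ => p.2.1.safeW p.1)
    (θ := fun i => (c i, r i)) (k := fun i => (c i).s)
    (cp_cfT.safeW Tm.id.fst) h.arr (h.tc.pair hr) h.cfT.R (Tm.const 1) (shapeW hd)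
    (cp_ok h hr hd) (mem_R h hd) h.cfT.M fun i hi => (h.ok i hi).count_safeW
  exact carr_next h hd h1 fun i hi => full_W (hd i hi).2 _

theorem carr_pre : CArr 𝒯 c fun i => pre (c i) (r i) (l i) :=
  carr_sh3 (carr_expW (carr_expY h hr hd) hr fun i hi => ⟨(hd i hi).1, full_eY (hd i hi).2⟩) hr
    (fun i hi => ⟨(hd i hi).1, full_eW (full_eY (hd i hi).2)⟩) (f := pn) (g := cy)
    (k := fun c r x => c.R - pr c r x) (tm_pn cp_cfT cp_r cp_u) (tm_cy cp_cfT cp_r cp_u)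
    (cp_cfT.R.sub (tm_pr cp_cfT cp_r cp_u))

theorem carr_post : CArr 𝒯 c fun i => post (c i) (r i) (l i) :=
  carr_cmpW (carr_cmpY (carr_sh3 h hr hd (f := pr) (g := cn) (k := fun c r x => c.R - pn c r x)
    (tm_pr cp_cfT cp_r cp_u) (tm_cn cp_cfT cp_r cp_u) (cp_cfT.R.sub (tm_pn cp_cfT cp_r cp_u))) hr
    fun i hi => ⟨(hd i hi).1, full_sh3 (hd i hi).2 _ _ _⟩) hr
    fun i hi => ⟨(hd i hi).1, full_cY (full_sh3 (hd i hi).2 _ _ _)⟩

end tm

end RoundAux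

open RoundAux in
theorem exists_round : ∃ rd : Cf → ℕ → Bool → List ℕ → List ℕ,
    (∀ (c : Cf) (r : ℕ) (fl : Bool) (l : List ℕ), c.ok → r < c.ρ → c.Full l →
      c.Full (rd c r fl l) ∧ ∀ (v : ℕ → ℕ → ℕ → ℕ → ℂ) (β η : ℕ), 2 ≤ η → η ≤ β →
      β + c.T + 4 ≤ c.w → c.Std l v β η →
      c.Std (rd c r fl l) (fun e y x z => (List.range c.m).foldl
        (fun u f => dft1 c.qs fl (r * c.m + f) u) (fun x => v e y x z) x) (β + c.T) (η + c.T)) ∧
    ∀ {ι : Type} [Enc ι] {𝒯 : Cls ι} [Dom 𝒯] {c : ι → Cf} {l : ι → List ℕ} {r : ι → ℕ}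
      {fl : ι → Bool}, Tm 𝒯 c → Tm 𝒯 l → Tm 𝒯 r → Tm 𝒯 fl →
      (∀ i, 𝒯.dom i → (c i).ok ∧ r i < (c i).ρ ∧ (c i).Full (l i)) →
      𝒯.mem (fun i => (l i).length * (c i).rc) →
      Tm 𝒯 (fun i => rd (c i) (r i) (fl i) (l i)) := by
  obtain ⟨run, h1, h2⟩ := exists_run
  refine ⟨fun c r fl l => post c r (run c r fl (pre c r l)), fun c r fl l hc hr hl => ?_, ?_⟩
  · obtain ⟨k1, k2⟩ := h1 c r fl _ hc hr (full_pre (r := r) hl)
    exact ⟨full_post k1, fun v β η g1 g2 g3 g4 =>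
      round_spec hc fl g4 k1 fun V hV => k2 V β η g1 g2 g3 hV⟩
  · intro ι _ 𝒯 _ c l r fl hc hl hr hfl hd hm
    have hd' : ∀ i, 𝒯.dom i → r i < (c i).ρ ∧ (c i).Full (l i) := fun i hi => (hd i hi).2
    have a0 : CArr 𝒯 c l := ⟨hc, hl, fun i hi => (hd i hi).1, fun i hi => (hd i hi).2.2.good,
      𝒯.mono hm fun i _ => by
        rw [mul_assoc]
        refine Nat.mul_le_mul_left _ (le_trans ?_ (Nat.le_mul_of_pos_left _ (Nat.succ_pos _)))
        exact (Nat.mul_le_mul_left _ (c i).sw_le_gc).trans (Nat.le_add_right _ _)⟩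
    have a1 := carr_pre a0 hr hd'
    have t2 := h2 hc a1.tl hr hfl (fun i hi => ⟨(hd i hi).1, (hd i hi).2.1, full_pre (hd i hi).2.2⟩)
      (𝒯.mono hm fun i hi => by rw [(full_pre (hd i hi).2.2).1, (hd i hi).2.2.1])
    have f2 : ∀ i, 𝒯.dom i → (c i).Full (run (c i) (r i) (fl i) (pre (c i) (r i) (l i))) :=
      fun i hi => (h1 _ _ _ _ (hd i hi).1 (hd i hi).2.1 (full_pre (hd i hi).2.2)).1
    exact (carr_post (carr_next a0 hd' t2 f2) hr fun i hi => ⟨(hd i hi).2.1, f2 i hi⟩).tl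

end Vale.Agent.P338
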