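import Vale.Agent.P338.ListOps
import Vale.Agent.P338.ArrDefs
import Vale.Agent.P338.NatOps

/-! Transposition of matrices given as lists: merging rows and splitting rows. -/

namespace Vale.Agent.P338

variable {α β σ ι : Type}

/-- List given by a function. -/
def tbl (n : ℕ) (f : ℕ → α) : List α := (List.range n).map f

@[simp] theorem length_tbl (n : ℕ) (f : ℕ → α) : (tbl n f).length = n := by simp [tbl]

theorem map_tbl (n : ℕ) (f : ℕ → α) (g : α → β) : (tbl n f).map g = tbl n fun i => g (f i) := by
  simp [tbl, Function.comp_def]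

theorem tbl_congr {n : ℕ} {f g : ℕ → α} (h : ∀ i < n, f i = g i) : tbl n f = tbl n g :=
  List.map_congr_left fun i hi => h i (List.mem_range.1 hi)

theorem forall_tbl {n : ℕ} {f : ℕ → α} {P : α → Prop} (h : ∀ i < n, P (f i)) :
    ∀ x ∈ tbl n f, P x := by
  intro x hx
  obtain ⟨i, hi, rfl⟩ := List.mem_map.1 hx
  exact h i (List.mem_range.1 hi)

theorem tbl_add (m n : ℕ) (f : ℕ → α) : tbl (m + n) f = tbl m f ++ tbl n fun i => f (m + i) := by
  simp [tbl, List.range_add, Function.comp_def]

theorem tbl_mul (k n : ℕ) (f : ℕ → α) :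
    tbl (k * n) f = (tbl k fun u => tbl n fun v => f (u * n + v)).flatten := by
  induction k with
  | zero => simp [tbl]
  | succ k ih =>
    rw [add_mul, one_mul, tbl_add, ih, tbl_add, List.flatten_append]
    simp [tbl]

theorem chunks_tbl {n : ℕ} (hn : 0 < n) (k : ℕ) (f : ℕ → α) :
    chunks n (tbl (k * n) f) = tbl k fun u => tbl n fun v => f (u * n + v) := by
  rw [tbl_mul, chunks_flatten hn (forall_tbl fun _ _ => length_tbl _ _)]

theorem eq_tbl (l : List α) (d : α) : l = tbl l.length fun i => l.getD i d :=
  List.ext_getElem (by simp) fun i h1 _ => by simp [tbl, List.getD_eq_getElem?_getD, h1]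

theorem getElem?_tbl {n i : ℕ} (f : ℕ → α) (h : i < n) : (tbl n f)[i]? = some (f i) := by
  simp [tbl, h]

theorem getD_tbl {n i : ℕ} (f : ℕ → α) (h : i < n) (d : α) : (tbl n f).getD i d = f i := by
  rw [List.getD_eq_getElem?_getD, getElem?_tbl f h]; rfl

theorem iterate_map (g : α → α) (k : ℕ) (l : List α) : (List.map g)^[k] l = l.map g^[k] := by
  induction k generalizing l with
  | zero => simp
  | succ k ih => rw [Function.iterate_succ_apply, ih, List.map_map, Function.iterate_succ]

/-! Merging adjacent rows. -/

/-- Merge a group of one or two rows. -/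
def mg2 (ch : List (List (List α))) : List (List α) :=
  if ch.tail.isEmpty = true then ch.headD [] else
    List.zipWith (· ++ ·) (ch.headD []) (ch.tail.headD [])

/-- Merge adjacent rows. -/
def mg (S : List (List (List α))) : List (List (List α)) := (chunks 2 S).map mg2

theorem mg_nil : mg ([] : List (List (List α))) = [] := by simp [mg, chunks_nil]

theorem chunks_two_cons (a : α) (t : List α) :
    chunks 2 (a :: t) = (a :: t.take 1) :: chunks 2 t.tail := by
  rw [chunks_cons two_pos (by simp), ← List.drop_one]
  rfl

theorem mg_one (a : List (List α)) : mg [a] = [a] := by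
  rw [mg, chunks_two_cons, List.tail_nil, chunks_nil]
  rfl

theorem mg_two (a b : List (List α)) (t : List (List (List α))) :
    mg (a :: b :: t) = List.zipWith (· ++ ·) a b :: mg t := by
  rw [mg, chunks_two_cons]
  rfl

theorem two_step {P : List α → Prop} (h0 : P []) (h1 : ∀ a, P [a])
    (h2 : ∀ a b t, P t → P (a :: b :: t)) : ∀ l, P l
  | [] => h0
  | [a] => h1 a
  | a :: b :: t => h2 a b t (two_step h0 h1 h2 t)

/-- All rows merged. -/
def mgAll (n : ℕ) (S : List (List (List α))) : List (List α) :=
  S.foldr (List.zipWith (· ++ ·)) (List.replicate n [])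

theorem zip_assoc (a b c : List (List α)) :
    List.zipWith (· ++ ·) (List.zipWith (· ++ ·) a b) c =
      List.zipWith (· ++ ·) a (List.zipWith (· ++ ·) b c) := by
  induction a generalizing b c with
  | nil => simp
  | cons x a ih =>
    cases b with
    | nil => simp
    | cons y b =>
      cases c with
      | nil => simp
      | cons z c => simp [ih]

theorem zip_nils {n : ℕ} {a : List (List α)} (h : a.length ≤ n) :
    List.zipWith (· ++ ·) a (List.replicate n []) = a := by
  induction a generalizing n with
  | nil => simp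
  | cons x a ih =>
    cases n with
    | zero => simp at h
    | succ n => simp [List.replicate_succ, ih (by simpa using h)]

theorem mgAll_mg (n : ℕ) (S : List (List (List α))) : mgAll n (mg S) = mgAll n S := by
  induction S using two_step with
  | h0 => rw [mg_nil]
  | h1 a => rw [mg_one]
  | h2 a b t ih =>
    unfold mgAll at ih ⊢
    rw [mg_two, List.foldr_cons, List.foldr_cons, List.foldr_cons, ih, zip_assoc]

theorem length_mg (S : List (List (List α))) : (mg S).length = (S.length + 1) / 2 := by
  simp [mg, chunks]

theorem rows_mg {n : ℕ} (S : List (List (List α))) (h : ∀ r ∈ S, r.length ≤ n) :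
    ∀ r ∈ mg S, r.length ≤ n := by
  induction S using two_step with
  | h0 => rwa [mg_nil]
  | h1 a => rwa [mg_one]
  | h2 a b t ih =>
    rw [mg_two]
    intro r hr
    rcases List.mem_cons.1 hr with rfl | hr
    · rw [List.length_zipWith]
      exact (min_le_left _ _).trans (h a (by simp))
    · exact ih (fun r hr => h r (by simp [hr])) r hr

theorem mg_iter {n : ℕ} (k : ℕ) (S : List (List (List α))) (h0 : 0 < S.length)
    (h1 : S.length ≤ 2 ^ k) (h : ∀ r ∈ S, r.length ≤ n) : mg^[k] S = [mgAll n S] := by
  induction k generalizing S with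
  | zero =>
    obtain ⟨a, rfl⟩ := List.length_eq_one_iff.1 (show S.length = 1 by omega)
    simp [mgAll, zip_nils (h a (by simp))]
  | succ k ih =>
    rw [Function.iterate_succ_apply, ih _ (by rw [length_mg]; omega)
      (by rw [length_mg]; rw [pow_succ] at h1; omega) (rows_mg S h), mgAll_mg]

theorem mgAll_map (n : ℕ) (X : List β) (M : β → ℕ → α) :
    mgAll n (X.map fun x => tbl n fun j => [M x j]) = tbl n fun j => X.map fun x => M x j := by
  induction X with
  | nil => simp [mgAll, tbl]
  | cons x X ih =>
    unfold mgAll at ih ⊢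
    rw [List.map_cons, List.foldr_cons, ih]
    simp [tbl]

/-- Transposition by merging. -/
theorem mg_trans {R k : ℕ} (n : ℕ) (h0 : 0 < R) (h1 : R ≤ 2 ^ k) (M : ℕ → ℕ → α) :
    mg^[k] (tbl R fun x => tbl n fun j => [M x j]) = [tbl n fun j => tbl R fun x => M x j] := by
  rw [mg_iter (n := n) k _ (by simpa using h0) (by simpa using h1)
    (forall_tbl fun _ _ => (length_tbl _ _).le)]
  exact congrArg (fun x => [x]) (mgAll_map n (List.range R) M)

/-! Splitting rows. -/

/-- The entries at even places. -/
def ev (l : List α) : List α := ((chunks 2 l).map (List.take 1)).flatten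

theorem ev_nil : ev ([] : List α) = [] := by simp [ev, chunks_nil]

theorem ev_cons (a : α) (t : List α) : ev (a :: t) = a :: ev t.tail := by
  rw [ev, chunks_two_cons]
  rfl

theorem getElem?_ev (l : List α) (j : ℕ) : (ev l)[j]? = l[2 * j]? := by
  induction j generalizing l with
  | zero => cases l <;> simp [ev_nil, ev_cons]
  | succ j ih =>
    cases l with
    | nil => simp [ev_nil]
    | cons a t =>
      rw [ev_cons, List.getElem?_cons_succ, ih, List.getElem?_tail, mul_add,
        List.getElem?_cons_succ]

/-- Split every piece into the even and the odd columns. -/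
def sp (S : List (List (List α))) : List (List (List α)) :=
  S.map (List.map ev) ++ S.map (List.map fun r => ev r.tail)

/-- The entries at places congruent to `w` modulo `2 ^ k`. -/
def strd : ℕ → ℕ → List α → List α
  | 0, _, l => l
  | k + 1, w, l => if w < 2 ^ k then ev (strd k w l) else ev (strd k (w - 2 ^ k) l).tail

theorem getElem?_strd (k : ℕ) {w : ℕ} (hw : w < 2 ^ k) (l : List α) (j : ℕ) :
    (strd k w l)[j]? = l[w + 2 ^ k * j]? := by
  induction k generalizing w j with
  | zero =>
    obtain rfl : w = 0 := by simpa using hw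
    simp [strd]
  | succ k ih =>
    rw [pow_succ] at hw
    unfold strd
    split_ifs with h
    · rw [getElem?_ev, ih h, pow_succ, mul_assoc]
    · rw [getElem?_ev, List.getElem?_tail, ih (by omega), pow_succ, mul_assoc, mul_add, mul_one]
      congr 1
      omega

theorem sp_iter (k : ℕ) (P : List (List α)) :
    sp^[k] [P] = tbl (2 ^ k) fun w => P.map (strd k w) := by
  induction k with
  | zero => simp [tbl, strd]
  | succ k ih =>
    rw [Function.iterate_succ_apply', ih, pow_succ, mul_two, tbl_add, sp, map_tbl, map_tbl]
    congr 1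
    · refine tbl_congr fun w hw => ?_
      rw [List.map_map]
      exact List.map_congr_left fun r _ => by simp [strd, hw]
    · refine tbl_congr fun w _ => ?_
      rw [List.map_map]
      exact List.map_congr_left fun r _ => by simp [strd]

theorem strd_tbl {k R w : ℕ} (h1 : R ≤ 2 ^ k) (hw : w < 2 ^ k) (f : ℕ → α) :
    strd k w (tbl R f) = if w < R then [f w] else [] := by
  refine List.ext_getElem? fun j => ?_
  rw [getElem?_strd k hw]
  cases j with
  | zero =>
    split_ifs with h
    · simp [getElem?_tbl f h]
    · simpa using h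
  | succ j =>
    have : R ≤ w + 2 ^ k * (j + 1) := by rw [mul_add]; omega
    rw [List.getElem?_eq_none (by simpa using this)]
    split_ifs <;> simp

/-- Transposition by splitting. -/
theorem sp_trans {R k : ℕ} (m : ℕ) (h1 : R ≤ 2 ^ k) (M : ℕ → ℕ → α) :
    ((sp^[k] [tbl m fun b => tbl R fun y => M b y]).map List.flatten).flatten =
      (tbl R fun y => tbl m fun b => M b y).flatten := by
  obtain ⟨e, he⟩ := Nat.exists_eq_add_of_le h1
  rw [sp_iter, map_tbl]
  have h2 : (tbl (2 ^ k) fun w => ((tbl m fun b => tbl R fun y => M b y).map (strd k w)).flatten) =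
      tbl (2 ^ k) fun w => if w < R then tbl m fun b => M b w else [] := by
    refine tbl_congr fun w hw => ?_
    rw [map_tbl, tbl_congr fun b _ => strd_tbl h1 hw _]
    split_ifs
    · unfold tbl
      induction List.range m with
      | nil => rfl
      | cons a t ih => simp [ih]
    · simp [tbl]
  rw [h2, he, tbl_add, List.flatten_append, tbl_congr (n := R) fun w hw => if_pos hw,
    tbl_congr (n := e) fun w _ => if_neg (by omega)]
  simp [tbl]

variable [Enc α] [Enc β] [Enc σ] [Enc ι]

theorem sz_zip_le (a b : List (List α)) : sz (List.zipWith (· ++ ·) a b) ≤ sz a + sz b := by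
  induction a generalizing b with
  | nil => simp
  | cons x a ih =>
    cases b with
    | nil => simp
    | cons y b =>
      have := ih b
      have := sz_append x y
      simp only [List.zipWith_cons_cons, sz_cons]; omega

theorem sz_mg (S : List (List (List α))) : sz (mg S) ≤ sz S := by
  induction S using two_step with
  | h0 => rw [mg_nil]
  | h1 a => rw [mg_one]
  | h2 a b t ih =>
    have := sz_zip_le a b
    rw [mg_two]
    simp only [sz_cons]; omega

theorem sz_map_le {g : α → β} {c d : ℕ} (l : List α) (hc : 0 < c)
    (h : ∀ x ∈ l, sz (g x) ≤ c * sz x + d) : sz (l.map g) ≤ c * sz l + l.length * d := by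
  induction l with
  | nil => simp; omega
  | cons a l ih =>
    have h1 := h a (by simp)
    have h2 := ih fun x hx => h x (by simp [hx])
    simp only [List.map_cons, sz_cons, List.length_cons, mul_add, add_mul]
    omega

theorem sz_map_le' {g : α → β} {c : ℕ} (hc : 0 < c) (h : ∀ x, sz (g x) ≤ c * sz x) (l : List α) :
    sz (l.map g) ≤ c * sz l := sz_map_le (d := 0) l hc fun x _ => h x

theorem sz_single (x : α) : sz [x] ≤ 2 * sz x := by
  have := two_le_sz x
  simp; omega

theorem sz_mg_iter (k : ℕ) (S : List (List (List α))) : sz (mg^[k] S) ≤ sz S := by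
  induction k with
  | zero => exact le_rfl
  | succ k ih => rw [Function.iterate_succ_apply']; exact (sz_mg _).trans ih

theorem sz_ev (l : List α) : sz (ev l) + sz (ev l.tail) = sz l + 2 := by
  induction l with
  | nil => simp [ev_nil]
  | cons a t ih => rw [ev_cons, List.tail_cons, sz_cons, sz_cons]; omega

theorem sz_ev_map (P : List (List α)) :
    sz (P.map ev) + sz (P.map fun r => ev r.tail) = sz P + 2 * P.length + 2 := by
  induction P with
  | nil => simp
  | cons a t ih =>
    have := sz_ev a
    simp only [List.map_cons, sz_cons, List.length_cons]; omega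

theorem sz_sp {m : ℕ} (S : List (List (List α))) (h : ∀ P ∈ S, P.length = m) :
    sz (sp S) = sz S + S.length * (2 * m + 2) := by
  have h1 := sz_append (S.map (List.map ev)) (S.map (List.map fun r => ev r.tail))
  have h2 : sz (S.map (List.map ev)) + sz (S.map (List.map fun r => ev r.tail)) =
      sz S + S.length * (2 * m + 2) + 2 := by
    clear h1
    induction S with
    | nil => simp
    | cons a t ih =>
      have := sz_ev_map a
      have := h a (by simp)
      have := ih fun P hP => h P (by simp [hP])
      simp only [List.map_cons, sz_cons, List.length_cons, add_mul]; omega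
  unfold sp
  omega

theorem sz_sp_iter (k : ℕ) (P : List (List α)) :
    sz (sp^[k] [P]) ≤ sz [P] + 2 ^ k * (2 * P.length + 2) := by
  induction k with
  | zero => simp
  | succ k ih =>
    rw [Function.iterate_succ_apply', sz_sp (m := P.length) _ (by
      rw [sp_iter]; exact forall_tbl fun _ _ => List.length_map _)]
    have : (sp^[k] [P]).length = 2 ^ k := by rw [sp_iter, length_tbl]
    rw [this, pow_succ, mul_right_comm]
    omega

theorem lin_mg2 : Tm (lin (List (List (List α)))) mg2 := by
  have h : Tm (lin (List α × List α)) (fun p => p.1 ++ p.2) := by fun_prop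
  exact Tm.ite Tm.id.tail.isEmpty.isTrue (Tm.id.headD (Tm.const _))
    (Tm.zipWith0 h (Tm.id.headD (Tm.const _)) (Tm.id.tail.headD (Tm.const _)))

theorem lin_mg : Tm (lin (List (List (List α)))) mg :=
  Tm.map0 lin_mg2 ((Tm.const 2).chunks Tm.id)

theorem lin_ev : Tm (lin (List α)) ev :=
  (Tm.map0 ((Tm.const 1).take Tm.id) ((Tm.const 2).chunks Tm.id)).flatten

theorem lin_sp : Tm (lin (List (List (List α)))) sp :=
  (Tm.map0 (Tm.map0 lin_ev Tm.id) Tm.id).append
    (Tm.map0 (Tm.map0 (lin_ev.comp Tm.id.tail) Tm.id) Tm.id)

theorem lin_single : Tm (lin α) (fun x => [x]) := Tm.id.cons (Tm.const [])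

theorem lin_iter {g : α → α} (hg : Tm (lin α) g) (k : ℕ) : Tm (lin α) g^[k] := by
  induction k with
  | zero => exact Tm.id
  | succ k ih => exact ih.comp hg

omit [Enc β] [Enc σ] in
theorem foldl_iter (g : σ → σ) (l : List β) (s : σ) :
    l.foldl (fun y _ => g y) s = g^[l.length] s := by
  induction l generalizing s with
  | nil => rfl
  | cons a l ih => rw [List.foldl_cons, ih, List.length_cons, Function.iterate_succ_apply]

/-- Iteration of a linear time function, as many times as `R` has bits. -/
theorem Tm.iterSize {𝒯 : Cls ι} [Dom 𝒯] {g : σ → σ} (hg : Tm (lin σ) g) {R B : ι → ℕ}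
    {s : ι → σ} (hR : Tm 𝒯 R) (hs : Tm 𝒯 s)
    (hB : ∀ i, 𝒯.dom i → ∀ k ≤ (R i).size, sz (g^[k] (s i)) ≤ B i)
    (hc : 𝒯.mem fun i => (R i).size * B i) : Tm 𝒯 (fun i => g^[(R i).size] (s i)) := by
  have h1 : Tm (lin (Bool × σ × Unit)) (fun q => g q.2.1) := hg.comp Tm.id.snd.fst
  refine (Tm.foldlN h1 hR.bits hs (Tm.const ()) (fun i n y => y = g^[n] (s i))
    (c := fun i _ => 4 * B i) (fun _ _ => rfl) (fun i hi n x hx y hy => ⟨trivial, ?_, ?_⟩)
    (Cls.lin hc 4 0 fun i _ => ?_)).congr fun i _ => ?_
  · have h2 := (List.getElem?_eq_some_iff.1 hx).1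
    rw [Nat.size_eq_bits_len] at h2
    have h3 := hB i hi n h2.le
    have h4 := sz_bool x
    have h5 := two_le_sz y
    rw [← hy] at h3
    simp only [sz_pair, sz_unit]
    omega
  · rw [hy, Function.iterate_succ_apply']
  · rw [Finset.sum_const, Finset.card_range, smul_eq_mul, Nat.size_eq_bits_len, mul_left_comm]
    exact le_rfl
  · rw [foldl_iter, Nat.size_eq_bits_len]

end Vale.Agent.P338
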