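import Vale.Agent.P338.Arr
import Vale.Agent.P338.TransAux

/-! Transpositions with a logarithmic number of passes: scalings and the plain exchange. -/

namespace Vale.Agent.P338

theorem flatten_replicate_tbl {α : Type} (p : ℕ) (L : List α) (d : α) :
    (List.replicate p L).flatten = tbl (p * L.length) fun t => L.getD (t % L.length) d := by
  rw [tbl_mul]
  congr 1
  refine List.ext_getElem (by simp) fun i h1 h2 => ?_
  have e : (tbl L.length fun v => L.getD ((i * L.length + v) % L.length) d) = L := by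
    rw [tbl_congr fun v hv => by rw [idx_mod hv], ← eq_tbl]
  simp only [tbl, List.getElem_replicate, List.getElem_map, List.getElem_range]
  exact e.symm

/-- Blocks of one group, scaled. -/
def scOp (p : ℕ) (L : List (List ℕ)) : List (List ℕ) :=
  (chunks p (List.replicate p L).flatten).map fun x => x.headD []

theorem scOp_eq {p : ℕ} (hp : 0 < p) (L : List (List ℕ)) :
    scOp p L = tbl L.length fun v => L.getD (p * v % L.length) [] := by
  rw [scOp, flatten_replicate_tbl p L [], mul_comm, chunks_tbl hp, map_tbl]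
  refine tbl_congr fun v _ => ?_
  obtain ⟨p, rfl⟩ := Nat.exists_eq_succ_of_ne_zero hp.ne'
  simp [tbl, List.range_succ_eq_map, mul_comm]

theorem lin_scOp (p : ℕ) : Tm (lin (List (List ℕ))) (scOp p) :=
  Tm.map0 (Tm.id.headD (Tm.const _)) ((Tm.const p).chunks
    ((Tm.const p).replicate Tm.id (big_of_le p 0 fun _ _ => le_rfl)).flatten)

/-- Blocks of one group, scaled by the inverse factor. -/
def unOp (p s : ℕ) (L : List (List ℕ)) : List (List ℕ) :=
  (mg^[p] ((chunks s (L ++ [[]])).map (List.map fun x => [x]))).flatten.flatten.take L.length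

theorem un_index {p s R v : ℕ} (hp : 0 < p) (h : p * s = R + 1) (hv : v < R) :
    v % p * s + v / p < R ∧ s * v % R = v % p * s + v / p := by
  have h1 := Nat.mod_lt v hp
  have h2 := Nat.div_add_mod v p
  have h3 : v / p < s := by
    rw [Nat.div_lt_iff_lt_mul hp, mul_comm]; omega
  generalize v % p = i at *
  generalize v / p = j at *
  have h4 : i * s + j < R := by
    obtain ⟨p', rfl⟩ := Nat.exists_eq_add_of_lt h1
    obtain ⟨s', rfl⟩ := Nat.exists_eq_add_of_lt h3
    rcases Nat.eq_zero_or_pos p' with rfl | hp'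
    · rcases Nat.eq_zero_or_pos s' with rfl | hs'
      · nlinarith
      · nlinarith
    · nlinarith
  refine ⟨h4, ?_⟩
  have e : s * v = i * s + j + R * j := by
    rw [← h2]
    have : s * (p * j + i) = p * s * j + i * s := by ring
    rw [this, h]; ring
  rw [e, Nat.add_mul_mod_self_left, Nat.mod_eq_of_lt h4]

theorem unOp_eq {p s : ℕ} (hp : 0 < p) (L : List (List ℕ)) (h : p * s = L.length + 1) :
    unOp p s L = tbl L.length fun v => L.getD (s * v % L.length) [] := by
  have hs : 0 < s := Nat.pos_of_mul_pos_left (a := p) (by omega)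
  have e1 : L ++ [[]] = tbl (p * s) fun t => (L ++ [[]]).getD t [] := by
    rw [h, ← List.length_singleton (a := ([] : List ℕ)), ← List.length_append]
    exact eq_tbl _ _
  have e2 := tbl_mul s p fun v => (L ++ [[]]).getD (v % p * s + v / p) []
  rw [tbl_congr (n := s) fun j _ => tbl_congr (n := p) fun i hi => by rw [idx_mod hi, idx_div hi]]
    at e2
  rw [unOp, e1, chunks_tbl hs, map_tbl]
  simp only [map_tbl]
  rw [mg_trans s hp Nat.lt_two_pow_self.le, List.flatten_singleton, ← e2, mul_comm s, h, tbl_add,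
    List.take_left' (length_tbl _ _)]
  refine tbl_congr fun v hv => ?_
  obtain ⟨h1, h2⟩ := un_index hp h hv
  rw [h2, List.getD_append _ _ _ _ h1]

theorem lin_unOp (p : ℕ) :
    Tm (lin ((ℕ × List (List ℕ)) × ℕ)) (fun q => unOp p q.2 q.1.2) :=
  Tm.id.fst.snd.length.take ((lin_iter lin_mg p).comp (Tm.map0 (Tm.map0 lin_single Tm.id)
    (Tm.id.snd.chunks (Tm.id.fst.snd.append (Tm.const _))))).flatten.flatten

theorem sz_group {b A R C u s : ℕ} {L : List (List ℕ)} (hb : A * R * C < 2 ^ b) (hu : u < A)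
    (hR : 0 < R) (hC : 0 < C) (hs : s ≤ R + 1) (hL : L.length = R)
    (h : ∀ x ∈ L, x.length = C ∧ Bd (2 ^ b) x) :
    sz u + sz L + sz s ≤ 20 * (R * C * (b + 1)) := by
  have h1 : A ≤ A * R * C := by
    rw [mul_assoc]; exact Nat.le_mul_of_pos_right _ (Nat.mul_pos hR hC)
  have h2 : R ≤ A * R * C :=
    (Nat.le_mul_of_pos_left _ (by omega)).trans (Nat.le_mul_of_pos_right _ hC)
  have h3 := sz_nat_lt (n := u) (b := b) (by omega)
  have h4 := sz_nat_lt (n := s) (b := b + 1) (by rw [pow_succ]; omega)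
  have h5 := sz_le_of_forall L (B := C * (4 * b + 2) + 2) fun x hx => by
    have := (h x hx).2.sz_le
    rwa [(h x hx).1] at this
  rw [hL] at h5
  have h6 : b + 1 ≤ R * C * (b + 1) := Nat.le_mul_of_pos_left _ (Nat.mul_pos hR hC)
  have h7 : R * (C * (4 * b + 2) + 2) ≤ 6 * (R * C * (b + 1)) := by
    have : C * (4 * b + 2) + 2 ≤ 6 * (C * (b + 1)) := by nlinarith
    calc _ ≤ R * (6 * (C * (b + 1))) := Nat.mul_le_mul_left _ this
      _ = _ := by ring
  omega

variable {ι : Type} [Enc ι] {𝒯 : Cls ι} [Dom 𝒯] {b : ι → ℕ} {l : ι → List ℕ} {A R B C : ι → ℕ}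

theorem Tm.scaleD {p : ℕ} (hp : 0 < p) (h : ArrOK 𝒯 b l) (hR : Tm 𝒯 R) (hC : Tm 𝒯 C)
    (hl : ∀ i, 𝒯.dom i → (l i).length = A i * R i * C i ∧ 0 < A i ∧ 0 < R i ∧ 0 < C i ∧
      p ∣ R i + 1) : Tm 𝒯 (fun i => scaleD (R i) (C i) p (l i)) := by
  refine Tm.dg (A := A) (θ := fun _ => (0 : ℕ)) (op := fun q => scOp p q.1.2)
    ((lin_scOp p).comp (𝒯 := lin _) Tm.id.fst.snd) h (Tm.const _) hR hC
    (fun i hi => ⟨(hl i hi).1, (hl i hi).2.1, (hl i hi).2.2.1, (hl i hi).2.2.2.1⟩)
    (c := fun i => 20 * (R i * C i * (b i + 1))) (fun i hi u hu L hL hx => ?_)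
    (fun i hi u _ v _ v' hv' => ?_) (Cls.lin h.cost 20 0 fun i hi => ?_)
  · obtain ⟨h1, h2, h3, h4, -⟩ := hl i hi
    refine ⟨trivial, ?_, ?_, fun v hv => ?_⟩
    · rw [sz_pair, sz_pair]
      exact sz_group (h1 ▸ h.len i hi) hu h3 h4 (by omega) hL hx
    · rw [scOp_eq hp, length_tbl, hL]
    · rw [scOp_eq hp, getD_tbl _ (hL ▸ hv), hL]
      rfl
  · obtain rfl : p * v % R i = v' := Option.some.inj hv'
    exact Nat.mod_lt _ (hl i hi).2.2.1
  · rw [(hl i hi).1]
    exact le_of_eq (by ring)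

theorem Tm.unscaleD {p : ℕ} (hp : 0 < p) (h : ArrOK 𝒯 b l) (hR : Tm 𝒯 R) (hC : Tm 𝒯 C)
    (hq : Tm 𝒯 fun i => (R i + 1) / p)
    (hl : ∀ i, 𝒯.dom i → (l i).length = A i * R i * C i ∧ 0 < A i ∧ 0 < R i ∧ 0 < C i ∧
      p ∣ R i + 1) : Tm 𝒯 (fun i => P338.scaleD (R i) (C i) ((R i + 1) / p) (l i)) := by
  refine Tm.dg (A := A) (θ := fun i => (R i + 1) / p) (op := fun q => unOp p q.2 q.1.2)
    (lin_unOp p) h hq hR hC
    (fun i hi => ⟨(hl i hi).1, (hl i hi).2.1, (hl i hi).2.2.1, (hl i hi).2.2.2.1⟩)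
    (c := fun i => 20 * (R i * C i * (b i + 1))) (fun i hi u hu L hL hx => ?_)
    (fun i hi u _ v _ v' hv' => ?_) (Cls.lin h.cost 20 0 fun i hi => ?_)
  · obtain ⟨h1, h2, h3, h4, h5⟩ := hl i hi
    have e := unOp_eq hp L (s := (R i + 1) / p) (by rw [Nat.mul_div_cancel' h5, hL])
    refine ⟨trivial, ?_, ?_, fun v hv => ?_⟩
    · rw [sz_pair, sz_pair]
      exact sz_group (h1 ▸ h.len i hi) hu h3 h4 (Nat.div_le_self _ _) hL hx
    · rw [e, length_tbl, hL]
    · rw [e, getD_tbl _ (hL ▸ hv), hL]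
      rfl
  · obtain rfl : (R i + 1) / p * v % R i = v' := Option.some.inj hv'
    exact Nat.mod_lt _ (hl i hi).2.2.1
  · rw [(hl i hi).1]
    exact le_of_eq (by ring)

/-- The array cut into rows of singleton cells. -/
def sw0 (R P C : ℕ) (l : List ℕ) : List (List (List (List (List ℕ)))) :=
  (chunks R (chunks P (chunks C l))).map (List.map (List.map fun x => [x]))

/-- After the first transposition. -/
def sw1 (R B : ℕ) (S : List (List (List (List (List ℕ))))) :
    List (List (List (List (List (List ℕ))))) :=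
  (chunks B (chunks R S.flatten.flatten)).map fun x => [x]

/-- After the second transposition. -/
def sw2 (S : List (List (List (List (List (List ℕ)))))) : List ℕ :=
  (S.map fun T => (T.map List.flatten).flatten).flatten.flatten.flatten

theorem sw0_eq {A R B C : ℕ} (hR : 0 < R) (hB : 0 < B) (hC : 0 < C) {l : List ℕ}
    (h : l.length = A * R * B * R * C) :
    sw0 R (R * B) C l = tbl A fun a => tbl R fun x => tbl (B * R) fun j =>
      [tbl C fun c => gt l (((a * R + x) * (B * R) + j) * C + c)] := by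
  have e : l = tbl (A * R * (B * R) * C) (gt l) := by
    rw [← mul_assoc, ← h]
    exact eq_tbl l 0
  rw [sw0, mul_comm R B]
  conv_lhs => rw [e]
  rw [chunks_tbl hC, chunks_tbl (Nat.mul_pos hB hR), chunks_tbl hR]
  simp only [map_tbl]

theorem sw1_eq {α : Type} {A R B : ℕ} (hR : 0 < R) (hB : 0 < B) (G : ℕ → ℕ → α) :
    chunks B (chunks R (tbl A fun a => [tbl (B * R) (G a)]).flatten.flatten) =
      tbl A fun a => tbl B fun b => tbl R fun y => G a (b * R + y) := by
  have e : (tbl A fun a => [tbl (B * R) (G a)]).flatten.flatten =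
      (tbl A fun a => tbl B fun b => tbl R fun y => G a (b * R + y)).flatten.flatten := by
    rw [List.flatten_flatten, List.flatten_flatten, map_tbl, map_tbl]
    congr 1
    exact tbl_congr fun a _ => by rw [List.flatten_singleton, tbl_mul]
  rw [e, chunks_flatten hR, chunks_flatten hB (forall_tbl fun _ _ => length_tbl _ _)]
  intro x hx
  obtain ⟨T, hT, hx⟩ := List.mem_flatten.1 hx
  obtain ⟨a, -, rfl⟩ := List.mem_map.1 hT
  obtain ⟨c, -, rfl⟩ := List.mem_map.1 hx
  exact length_tbl _ _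

theorem sw01_eq {A R B C : ℕ} (hR : 0 < R) (hB : 0 < B) (hC : 0 < C) {l : List ℕ}
    (h : l.length = A * R * B * R * C) :
    sw1 R B ((List.map mg)^[R.size] (sw0 R (R * B) C l)) =
      tbl A fun a => [tbl B fun b => tbl R fun y => tbl R fun x =>
        tbl C fun c => gt l (((a * R + x) * (B * R) + (b * R + y)) * C + c)] := by
  rw [sw1, sw0_eq hR hB hC h, iterate_map, map_tbl,
    tbl_congr fun a _ => mg_trans (B * R) hR (Nat.lt_size_self R).le _, sw1_eq hR hB, map_tbl]

theorem swap_eq {A R B C : ℕ} (hR : 0 < R) (hB : 0 < B) (hC : 0 < C) {l : List ℕ}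
    (h : l.length = A * R * B * R * C) : swap R B C l =
      sw2 ((List.map sp)^[R.size] (sw1 R B ((List.map mg)^[R.size] (sw0 R (R * B) C l)))) := by
  rw [sw01_eq hR hB hC h, iterate_map, map_tbl, sw2, map_tbl,
    tbl_congr fun a _ => sp_trans B (Nat.lt_size_self R).le _]
  have e : swap R B C l = tbl (A * R * B * R * C) (gt (swap R B C l)) := by
    rw [← h, ← length_swap R B C l]
    exact eq_tbl _ 0
  have e1 : ∀ {α : Type} (k n : ℕ) (f : ℕ → List α),
      (tbl (k * n) f).flatten = (tbl k fun u => (tbl n fun v => f (u * n + v)).flatten).flatten := by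
    intro α k n f
    rw [tbl_mul, List.flatten_flatten, map_tbl]
  rw [e, tbl_mul, e1, e1, e1]
  simp only [List.flatten_flatten, map_tbl]
  congr 1
  refine tbl_congr fun a ha => ?_
  congr 1
  refine tbl_congr fun y hy => ?_
  congr 1
  refine tbl_congr fun b hb => ?_
  congr 1
  refine tbl_congr fun x hx => tbl_congr fun c hc => ?_
  rw [gt_swap h ha hy hb hx hc]
  congr 2
  ring

theorem sz_sw0 (R P C : ℕ) (l : List ℕ) : sz (sw0 R P C l) ≤ 16 * sz l := by
  have h1 := sz_chunks C l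
  have h2 := sz_chunks P (chunks C l)
  have h3 := sz_chunks R (chunks P (chunks C l))
  have h4 := sz_map_le' two_pos (sz_map_le' two_pos (sz_map_le' two_pos sz_single))
    (chunks R (chunks P (chunks C l)))
  unfold sw0
  omega

theorem sz_sw1 (R B : ℕ) (S : List (List (List (List (List ℕ))))) :
    sz (sw1 R B S) ≤ 8 * sz S := by
  have h1 := sz_flatten S
  have h2 := sz_flatten S.flatten
  have h3 := sz_chunks R S.flatten.flatten
  have h4 := sz_chunks B (chunks R S.flatten.flatten)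
  have h5 := sz_map_le' two_pos sz_single (chunks B (chunks R S.flatten.flatten))
  unfold sw1
  omega

theorem sz_map_mg (k : ℕ) (S : List (List (List (List (List ℕ))))) :
    sz ((List.map mg)^[k] S) ≤ sz S := by
  rw [iterate_map]
  simpa using sz_map_le' one_pos (fun x => by simpa using sz_mg_iter k x) S

theorem two_pow_size_le {R : ℕ} (hR : 0 < R) : 2 ^ R.size ≤ 2 * R := by
  have h0 : 0 < R.size := Nat.size_pos.2 hR
  have h1 : 2 ^ (R.size - 1) ≤ R := Nat.lt_size.1 (by omega)
  have h3 : 2 ^ R.size = 2 * 2 ^ (R.size - 1) := by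
    rw [← pow_succ']
    exact congrArg _ (by omega)
  omega

theorem Tm.swap0 (h : ArrOK 𝒯 b l) (hR : Tm 𝒯 R) (hB : Tm 𝒯 B) (hC : Tm 𝒯 C)
    (hl : ∀ i, 𝒯.dom i → (l i).length = A i * R i * B i * R i * C i ∧ 0 < A i ∧ 0 < R i ∧
      0 < B i ∧ 0 < C i)
    (hc : 𝒯.mem fun i => (l i).length * (b i + 1) * (R i).size) :
    Tm 𝒯 (fun i => swap (R i) (B i) (C i) (l i)) := by
  have hle : ∀ i, 𝒯.dom i → A i * R i * B i ≤ (l i).length ∧ R i ≤ (l i).length ∧
      B i ≤ (l i).length ∧ sz (l i) ≤ 6 * ((l i).length * (b i + 1)) := by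
    intro i hi
    obtain ⟨h1, h2, h3, h4, h5⟩ := hl i hi
    have k1 : A i * R i * B i ≤ (l i).length := by
      rw [h1, mul_assoc _ (R i) (C i)]
      exact Nat.le_mul_of_pos_right _ (Nat.mul_pos h3 h5)
    have k2 : R i ≤ A i * R i * B i :=
      (Nat.le_mul_of_pos_left _ h2).trans (Nat.le_mul_of_pos_right _ h4)
    have k3 : B i ≤ A i * R i * B i := Nat.le_mul_of_pos_left _ (Nat.mul_pos h2 h3)
    have k4 := (h.bd i hi).sz_le
    refine ⟨k1, k2.trans k1, k3.trans k1, k4.trans ?_⟩
    have k5 : 0 < (l i).length := by omega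
    nlinarith
  have hP : Tm 𝒯 fun i => R i * B i := hR.mulR hB (Cls.lin h.cost 2 0 fun i hi => by
    obtain ⟨-, k2, k3, -⟩ := hle i hi
    have k4 := h.len i hi
    have k5 : (R i).size ≤ b i := Nat.size_le.2 (by omega)
    have k6 : (B i).size ≤ b i := Nat.size_le.2 (by omega)
    have := Nat.mul_le_mul k2 (show (R i).size + (B i).size ≤ 2 * (b i + 1) by omega)
    rw [mul_left_comm] at this
    exact this)
  have t0 : Tm 𝒯 fun i => sw0 (R i) (R i * B i) (C i) (l i) :=
    Tm.map0 (Tm.map0 (Tm.map0 lin_single Tm.id) Tm.id) (hR.chunks (hP.chunks (hC.chunks h.tm)))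
  have t1 := Tm.iterSize (Tm.map0 lin_mg Tm.id) hR t0
    (B := fun i => 96 * ((l i).length * (b i + 1)))
    (fun i hi k _ => by
      have := sz_map_mg k (sw0 (R i) (R i * B i) (C i) (l i))
      have := sz_sw0 (R i) (R i * B i) (C i) (l i)
      have := (hle i hi).2.2.2
      change sz ((List.map mg)^[k] _) ≤ _
      omega)
    (Cls.lin hc 96 0 fun i _ => le_of_eq (by ring))
  have t2 : Tm 𝒯 fun i => sw1 (R i) (B i)
      ((List.map mg)^[(R i).size] (sw0 (R i) (R i * B i) (C i) (l i))) :=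
    Tm.map0 lin_single (hB.chunks (hR.chunks t1.flatten.flatten))
  have t3 := Tm.iterSize (Tm.map0 lin_sp Tm.id) hR t2
    (B := fun i => 776 * ((l i).length * (b i + 1)))
    (fun i hi k hk => by
      obtain ⟨h1, h2, h3, h4, h5⟩ := hl i hi
      obtain ⟨k1, -, -, k4⟩ := hle i hi
      have k5 := sz_map_mg (R i).size (sw0 (R i) (R i * B i) (C i) (l i))
      have k6 := sz_sw0 (R i) (R i * B i) (C i) (l i)
      have k7 := sz_sw1 (R i) (B i)
        ((List.map mg)^[(R i).size] (sw0 (R i) (R i * B i) (C i) (l i)))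
      have e := sw01_eq h3 h4 h5 h1
      change sz ((List.map sp)^[k] _) ≤ _
      generalize sw1 (R i) (B i)
        ((List.map mg)^[(R i).size] (sw0 (R i) (R i * B i) (C i) (l i))) = S at k7 e
      have k8 := sz_map_le (g := sp^[k]) (c := 1) (d := 2 ^ k * (2 * B i + 2)) S one_pos (by
        rw [e]
        exact forall_tbl fun a _ => by simpa using sz_sp_iter k (tbl (B i) _))
      have k9 : S.length = A i := by rw [e, length_tbl]
      have k10 : 2 ^ k ≤ 2 * R i :=
        (Nat.pow_le_pow_right two_pos hk).trans (two_pow_size_le h3)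
      have k11 : A i * (2 ^ k * (2 * B i + 2)) ≤ 8 * (A i * R i * B i) := by
        calc _ ≤ A i * (2 * R i * (4 * B i)) :=
              Nat.mul_le_mul_left _ (Nat.mul_le_mul k10 (by omega))
          _ = _ := by ring
      have k12 : (l i).length ≤ (l i).length * (b i + 1) := Nat.le_mul_of_pos_right _ (by omega)
      rw [k9] at k8
      rw [iterate_map]
      omega)
    (Cls.lin hc 776 0 fun i _ => le_of_eq (by ring))
  refine (Tm.map0 (Tm.map0 Tm.id.flatten Tm.id).flatten t3).flatten.flatten.flatten.congr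
    fun i hi => ?_
  obtain ⟨h1, h2, h3, h4, h5⟩ := hl i hi
  exact swap_eq h3 h4 h5 h1

end Vale.Agent.P338
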