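import Vale.Agent.P338.SwapA
import Vale.Agent.P338.Trans
import Vale.Agent.P338.NetTm

/-! One level of the recursion for the fast exchange. -/

namespace Vale.Agent.P338

namespace SwapAux

open Function

/-- Five numbers and a last component. -/
abbrev Tu (ω : Type) : Type := ℕ × ℕ × ℕ × ℕ × ℕ × ω

section
variable {ω : Type}
/-- Depth. -/
def cr (x : Tu ω) : ℕ := x.1
/-- Base modulus. -/
def cμ (x : Tu ω) : ℕ := x.2.1
/-- Word length. -/
def cb (x : Tu ω) : ℕ := x.2.2.1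
/-- Middle range. -/
def cB (x : Tu ω) : ℕ := x.2.2.2.1
/-- Last range. -/
def cC (x : Tu ω) : ℕ := x.2.2.2.2.1
/-- Last component. -/
def cl (x : Tu ω) : ω := x.2.2.2.2.2

variable [Enc ω] {𝒯 : Cls (Tu ω)} [Dom 𝒯]

theorem tm_cr : Tm 𝒯 cr := Tm.id.fst
theorem tm_cμ : Tm 𝒯 cμ := Tm.id.snd.fst
theorem tm_cb : Tm 𝒯 cb := Tm.id.snd.snd.fst
theorem tm_cB : Tm 𝒯 cB := Tm.id.snd.snd.snd.fst
theorem tm_cC : Tm 𝒯 cC := Tm.id.snd.snd.snd.snd.fst
theorem tm_cl : Tm 𝒯 cl := Tm.id.snd.snd.snd.snd.snd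

theorem sz_Tu (x : Tu ω) :
    sz x = sz (cr x) + (sz (cμ x) + (sz (cb x) + (sz (cB x) + (sz (cC x) + sz (cl x))))) := by
  obtain ⟨a, b, c, d, e, f⟩ := x
  simp only [sz_pair]
  rfl
end

/-- Parameters. -/
abbrev Th : Type := Tu ℕ
/-- Arguments of the recursion. -/
abbrev Ar : Type := Tu (List ℕ)

/-- Small parameters. -/
def PTh (θ : Th) : Prop :=
  289 ^ cr θ ≤ cb θ ∧ cμ θ < 2 ^ cb θ ∧ cB θ < 2 ^ cb θ ∧ cC θ < 2 ^ cb θ ∧ cl θ < 2 ^ cb θ

/-- Polynomial time in the word length. -/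
abbrev PP : Cls Th := poly PTh cb

theorem sz_par {ω : Type} (x : Tu ω) {n : ℕ} (h : PTh (cr x, cμ x, cb x, cB x, cC x, n)) :
    sz (cr x) ≤ 4 * cb x + 2 ∧ sz (cμ x) ≤ 4 * cb x + 2 ∧ sz (cb x) ≤ 4 * cb x + 2 ∧
      sz (cB x) ≤ 4 * cb x + 2 ∧ sz (cC x) ≤ 4 * cb x + 2 := by
  obtain ⟨h1, h2, h3, h4, -⟩ := h
  have h5 : cr x < 289 ^ cr x := Nat.lt_pow_self (by norm_num)
  have h6 : 289 ^ cr x ≤ cb x := h1
  have h7 := sz_nat_le (cr x)
  exact ⟨by omega, sz_nat_lt h2, sz_nat_le _, sz_nat_lt h3, sz_nat_lt h4⟩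

theorem sz_Th {θ : Th} (h : PTh θ) : sz θ ≤ 24 * cb θ + 12 := by
  have h1 := sz_par θ h
  have h2 := sz_nat_lt h.2.2.2.2
  rw [sz_Tu]
  omega

instance : Dom PP := ⟨Cls.lin (poly_self _ _) 24 12 fun _ h => sz_Th h⟩

/-- Polynomial time in the word length, with one more small number. -/
abbrev PP2 : Cls (ℕ × Th) := poly (fun p => p.1 < 2 ^ cb p.2 ∧ PTh p.2) fun p => cb p.2

instance : Dom PP2 := ⟨Cls.lin (poly_self _ _) 28 14 fun p h => by
  have h1 := sz_Th h.2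
  have h2 := sz_nat_lt h.1
  rw [sz_prod]
  omega⟩

theorem lift2 {f : Th → ℕ} (h : Tm PP f) : Tm PP2 fun p => f p.2 :=
  h.compP Tm.id.snd (Cls.pays_poly' (fun _ h => h.2) (poly_self _ _))

theorem pays_PP {ι : Type} {𝒯 : Cls ι} {θ : ι → Th}
    (h : ∀ i, 𝒯.dom i → PTh (θ i) ∧ cμ (θ i) ≠ 0 ∧ cb (θ i) ≤ Nat.log 2 (cμ (θ i)) ^ 2)
    (hm : 𝒯.mem fun i => cμ (θ i)) : 𝒯.Pays PP θ := by
  refine Cls.pays_poly (fun i hi => (h i hi).1) fun c => ?_
  obtain ⟨K, hK⟩ := pow_log_le c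
  refine Cls.lin hm K 0 fun i hi => ?_
  exact le_trans (Nat.pow_le_pow_left (by omega) c) (hK _ _ (h i hi).2.1 (h i hi).2.2)

theorem tm_pw {e : Th → ℕ} (he : Tm PP e) (h : ∀ θ, e θ ≤ cr θ) :
    Tm PP fun θ => cμ θ ^ 289 ^ e θ := by
  have h1 : PP.mem fun θ => 289 ^ e θ := PP.mono (poly_self _ _) fun θ hθ =>
    le_trans (Nat.pow_le_pow_right (by norm_num) (h θ)) hθ.1
  have h2 : PP.mem e := PP.mono h1 fun θ _ => (Nat.lt_pow_self (by norm_num)).le
  exact Tm.pow tm_cμ (Tm.pow (Tm.const 289) he h2) h1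

/-- The range of the small digits. -/
def mm (θ : Th) : ℕ := cμ θ ^ 289 ^ (cr θ - 1)
/-- The length of a wire. -/
def nn (θ : Th) : ℕ := cl θ / Wn
/-- The range of the first digit of a wire. -/
def a0 (θ : Th) : ℕ := nn θ / (mm θ ^ 289 * cB θ * mm θ ^ 289 * cC θ)
/-- The radices of a wire. -/
def rho (θ : Th) : ℕ → ℕ := rad (a0 θ) (mm θ) (cB θ) (cC θ)

theorem tm_mm : Tm PP mm := tm_pw (tm_cr.sub (Tm.const 1)) fun _ => Nat.sub_le _ _

theorem tm_nn : Tm PP nn := tm_cl.div (Tm.const Wn)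

theorem tm_a0 : Tm PP a0 := by
  have h : Tm PP fun θ => mm θ ^ 289 := Tm.pow tm_mm (Tm.const 289) (PP.const 289)
  exact tm_nn.div (((h.mul tm_cB).mul h).mul tm_cC)

theorem tm_rho (k : ℕ) : Tm PP fun θ => rho θ k := by
  unfold rho rad
  split_ifs
  exacts [tm_a0, tm_cB, tm_cC, tm_mm]

theorem tm_HP (p q : ℕ) : Tm PP fun θ => HP (rho θ) p q := by
  unfold HP
  generalize Finset.Ico p q = s
  induction s using Finset.induction_on with
  | empty => exact Tm.const 1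
  | insert k s hk ih =>
    simp only [Finset.prod_insert hk]
    exact (tm_rho k).mul ih

/-- The parameters of an argument. -/
def th (x : Ar) : Th := (cr x, cμ x, cb x, cB x, cC x, (cl x).length)

/-- The function computed by the recursion. -/
def gg (x : Ar) : List ℕ := swap (cμ x ^ 289 ^ cr x) (cB x) (cC x) (cl x)

/-- The domain of the recursion. -/
def dm (D : ℕ) (x : Ar) : Prop :=
  ∃ A, (cl x).length = A * cμ x ^ 289 ^ cr x * cB x * cμ x ^ 289 ^ cr x * cC x ∧ 0 < A ∧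
    0 < cB x ∧ 0 < cC x ∧ Wn ^ cr x ∣ A ∧ Bd (2 ^ cb x) (cl x) ∧ (cl x).length < 2 ^ cb x ∧
    D ∣ cμ x + 1 ∧ 2 ≤ cμ x ∧ cb x ≤ Nat.log 2 (cμ x) ^ 2

/-- The cost of one level. -/
def tau (x : Ar) : ℕ := (cl x).length * (cb x + 1) * (if cr x = 0 then (cμ x).size + 1 else 1)

/-- The class of one level. -/
abbrev UU (D : ℕ) : Cls Ar := big (dm D) tau

theorem le_mul5 {A R B C : ℕ} (hA : 0 < A) (hR : 0 < R) (hB : 0 < B) (hC : 0 < C) :
    R ≤ A * R * B * R * C ∧ B ≤ A * R * B * R * C ∧ C ≤ A * R * B * R * C :=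
  have h : 0 < A * R * B * R * C := by positivity
  ⟨Nat.le_of_dvd h ⟨A * B * R * C, by ring⟩, Nat.le_of_dvd h ⟨A * R * R * C, by ring⟩,
    Nat.le_of_dvd h ⟨A * R * B * R, by ring⟩⟩

theorem pw_facts {μ e b : ℕ} (hμ : 2 ≤ μ) (h : μ ^ 289 ^ e < 2 ^ b) :
    289 ^ e < b ∧ μ ≤ μ ^ 289 ^ e := by
  refine ⟨?_, Nat.le_self_pow (by positivity) _⟩
  exact (Nat.pow_lt_pow_iff_right (by norm_num)).1 (lt_of_le_of_lt (Nat.pow_le_pow_left hμ _) h)

variable {D : ℕ}

theorem dm.pth {x : Ar} (h : dm D x) : PTh (th x) ∧ cμ x ≤ (cl x).length := by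
  obtain ⟨A, h1, h2, h3, h4, -, -, h5, -, h6, -⟩ := h
  obtain ⟨k1, k2, k3⟩ := le_mul5 h2 (show 0 < cμ x ^ 289 ^ cr x by positivity) h3 h4
  rw [← h1] at k1 k2 k3
  obtain ⟨k4, k5⟩ := pw_facts h6 (lt_of_le_of_lt k1 h5)
  exact ⟨⟨k4.le, lt_of_le_of_lt (k5.trans k1) h5, lt_of_le_of_lt k2 h5, lt_of_le_of_lt k3 h5, h5⟩,
    k5.trans k1⟩

theorem mem_UU : (UU D).mem fun x => (cl x).length * (cb x + 1) :=
  (UU D).mono (big_self _ _) fun x _ => Nat.le_mul_of_pos_right _ (by split_ifs <;> omega)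

theorem dm.len_pos {x : Ar} (h : dm D x) : 1 ≤ (cl x).length := by
  have h1 := h.pth.2
  obtain ⟨A, -, -, -, -, -, -, -, -, h6, -⟩ := h
  omega

instance : Dom (UU D) := ⟨Cls.lin mem_UU 24 12 fun x h => by
  have h1 := sz_par x h.pth.1
  have h2 := h.len_pos
  obtain ⟨A, -, -, -, -, -, h3, -⟩ := h
  have h4 := h3.sz_le
  rw [sz_Tu]
  nlinarith⟩

theorem tm_th {𝒯 : Cls Ar} [Dom 𝒯] : Tm 𝒯 th :=
  tm_cr.pair (tm_cμ.pair (tm_cb.pair (tm_cB.pair (tm_cC.pair tm_cl.length))))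

theorem pays_UU : (UU D).Pays PP th :=
  pays_PP (fun x hx => ⟨hx.pth.1, by
      obtain ⟨A, -, -, -, -, -, -, -, -, h6, h7⟩ := hx
      exact ⟨by change cμ x ≠ 0; omega, h7⟩⟩)
    ((UU D).mono mem_UU fun x hx => hx.pth.2.trans (Nat.le_mul_of_pos_right _ (by omega)))

/-- Facts on the parameters in the recursive case. -/
structure Stp (D : ℕ) (θ : Th) : Prop where
  apos : 0 < a0 θ
  mpos : 0 < mm θ
  Bpos : 0 < cB θ
  Cpos : 0 < cC θ
  len : cl θ = Wn * nn θ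
  neq : nn θ = a0 θ * mm θ ^ 289 * cB θ * mm θ ^ 289 * cC θ
  dvdA : Wn ^ (cr θ - 1) ∣ a0 θ
  dvdm : D ∣ mm θ + 1
  μm : cμ θ ≤ mm θ
  pw : cμ θ ^ 289 ^ cr θ = mm θ ^ 289

theorem Wn_pos : 0 < Wn := by unfold Wn; positivity

theorem dm.stp {x : Ar} (h : dm D x) (hr : ¬ cr x = 0) : Stp D (th x) := by
  obtain ⟨A, h1, h2, h3, h4, h5, -, -, h6, h7, -⟩ := h
  obtain ⟨r, hr'⟩ := Nat.exists_eq_succ_of_ne_zero hr
  have e0 : mm (th x) = cμ x ^ 289 ^ (cr x - 1) := rfl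
  have e1 : cμ x ^ 289 ^ cr x = mm (th x) ^ 289 := by
    rw [e0, ← pow_mul, ← pow_succ, hr']; rfl
  have e2 : 0 < mm (th x) := by rw [e0]; positivity
  obtain ⟨k, hk⟩ := h5
  have e3 : (cl x).length =
      Wn * (Wn ^ r * k * (mm (th x) ^ 289 * cB x * mm (th x) ^ 289 * cC x)) := by
    rw [h1, e1, hk, hr', pow_succ]
    generalize mm (th x) ^ 289 = R
    ring
  have e4 : nn (th x) = Wn ^ r * k * (mm (th x) ^ 289 * cB x * mm (th x) ^ 289 * cC x) := by
    change (cl x).length / Wn = _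
    rw [e3, Nat.mul_div_cancel_left _ Wn_pos]
  have e5 : a0 (th x) = Wn ^ r * k := by
    change nn (th x) / (mm (th x) ^ 289 * cB x * mm (th x) ^ 289 * cC x) = _
    rw [e4, Nat.mul_div_cancel _ (by positivity)]
  have e6 : 0 < k := Nat.pos_of_ne_zero (by rintro rfl; omega)
  refine ⟨by rw [e5]; have := Wn_pos; positivity, e2, h3, h4, by rw [e4]; exact e3, ?_, ?_, ?_,
    Nat.le_self_pow (by positivity) _, e1⟩
  · rw [e4, e5]
    change _ = _ * _ * cB x * _ * cC x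
    generalize mm (th x) ^ 289 = R
    ring
  · rw [e5]
    change Wn ^ (cr x - 1) ∣ _
    rw [hr']
    exact Dvd.intro _ rfl
  · have h8 : Odd (289 ^ (cr x - 1)) := Odd.pow (by decide)
    have h9 := h8.nat_add_dvd_pow_add_pow (cμ x) 1
    rw [one_pow] at h9
    exact h6.trans h9

theorem Stp.rho_pos {θ : Th} (h : Stp D θ) (k : ℕ) : 0 < rho θ k := by
  unfold rho rad
  split_ifs
  exacts [h.apos, h.Bpos, h.Cpos, h.mpos]

theorem Stp.nHP {θ : Th} (h : Stp D θ) : nn θ = HP (rho θ) 0 581 := by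
  rw [h.neq, rho, HP_all]

theorem rho_pos_eq (θ : Th) (j : J) : rho θ (pos j) = mm θ := rad_pos_eq _ _ _ _ j

theorem Stp.at {θ : Th} (h : Stp D θ) (j : J) :
    nn θ = HP (rho θ) 0 (pos j) * mm θ * HP (rho θ) (pos j + 1) 581 := by
  rw [h.nHP, HP_at (p := pos j) (by have := pos_facts j; omega), rho_pos_eq]

/-- The class of the recursive case. -/
abbrev SS (D : ℕ) : Cls Ar := (UU D).res fun a => ¬ cr a = 0

/-- Wires. -/
def GG (a : Ar) (l : List ℕ) : Prop := l.length = nn (th a) ∧ Bd (2 ^ cb a) l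

/-- Admissible calls. -/
def QQ (D : ℕ) (a x : Ar) : Prop :=
  dm D x ∧ (cl x).length = nn (th a) ∧ cr x = cr a - 1 ∧ cμ x = cμ a ∧ cb x = cb a

theorem mem_SS : (SS D).mem fun x => (cl x).length * (cb x + 1) := Cls.res_mem mem_UU

theorem mem_SS' : (SS D).mem fun x => (cl x).length * (4 * cb x + 2) + 2 :=
  Cls.lin mem_SS 4 2 fun _ _ => by nlinarith

theorem sz_GG {a : Ar} {l : List ℕ} (hl : GG a l) :
    sz l ≤ (cl a).length * (4 * cb a + 2) + 2 := by
  have h1 := hl.2.sz_le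
  have h2 : l.length ≤ (cl a).length := hl.1 ▸ Nat.div_le_self _ _
  have h3 := Nat.mul_le_mul_right (4 * cb a + 2) h2
  omega

theorem tmS {f : Th → ℕ} (h : Tm PP f) : Tm (SS D) fun a => f (th a) :=
  (h.compP tm_th pays_UU).res _

/-- The class of an operation on one wire. -/
abbrev WW (D : ℕ) : Cls (List ℕ × Ar) := (SS D).ext GG

instance : Dom (WW D) := Cls.dom_ext mem_SS' fun _ _ _ hl => sz_GG hl

theorem tmW {f : Th → ℕ} (h : Tm PP f) : Tm (WW D) fun p => f (th p.2) := Tm.lift GG (tmS h)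

theorem tmW_HP (p q : ℕ) : Tm (WW D) fun x => HP (rho (th x.2)) p q :=
  tmW (f := fun θ => HP (rho θ) p q) (tm_HP p q)

theorem arrW : ArrOK (WW D) (fun p => cb p.2) fun p => p.1 where
  tm := Tm.id.fst
  bd := fun _ h => h.2.2
  len := fun p h => by
    have h1 : p.1.length ≤ (cl p.2).length := h.2.1 ▸ Nat.div_le_self _ _
    exact lt_of_le_of_lt h1 h.1.1.pth.1.2.2.2.2
  cost := Cls.ext_of_le mem_SS fun l a _ hl =>
    Nat.mul_le_mul_right _ (hl.1 ▸ Nat.div_le_self _ _)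

theorem lenW (j : J) (p : List ℕ × Ar) (h : (WW D).dom p) :
    p.1.length = HP (rho (th p.2)) 0 (pos j) * mm (th p.2) * HP (rho (th p.2)) (pos j + 1) 581 ∧
      0 < HP (rho (th p.2)) 0 (pos j) ∧ 0 < mm (th p.2) ∧
        0 < HP (rho (th p.2)) (pos j + 1) 581 :=
  have hs := h.1.1.stp h.1.2
  ⟨h.2.1.trans (hs.at j), HP_pos hs.rho_pos, hs.mpos, HP_pos hs.rho_pos⟩

/-- Values held by wires. -/
abbrev VV : Type := ∀ a : Ar, Ix (mm (th a)) → ℕ → ZMod 2

/-- The flat index on a wire. -/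
def fl (a : Ar) (t : Ix (mm (th a))) : ℕ := flat (a0 (th a)) (cB a) (cC a) t

/-- Valid indices of a wire. -/
def okk (a : Ar) (t : Ix (mm (th a))) : Prop := Ok (a0 (th a)) (cB a) (cC a) t

/-- The implementation of the network. -/
noncomputable def impl (D : ℕ) {Lab : Type} (nact : Lab → ∀ m : ℕ, (J → ZMod m) → (J → ZMod m)) :
    Impl Ar Ar (List ℕ) (ZMod 2) VV Lab where
  g := gg
  𝒯 := SS D
  Q := QQ D
  G := GG
  Rep := fun a l v => GG a l ∧ ∀ t, okk a t → ∀ s, bt (gt l (fl a t)) s = v a t s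
  U := fun P =>
    { toFun := fun v a t => v a (t.1, nact P _ t.2.1, t.2.2)
      map_add' := fun _ _ => rfl
      map_smul' := fun _ _ => rfl }
  B := fun a => (cl a).length * (4 * cb a + 2) + 2
  z := fun a => List.replicate (nn (th a)) 0
  dom := inferInstance
  memB := mem_SS'
  szG := fun _ _ _ hl => sz_GG hl
  repG := fun _ _ _ _ h => h.1
  tz := Tm.replicate (tmS tm_nn) (Tm.const 0) (Cls.lin mem_SS 2 0 fun a _ => by
    have h1 : nn (th a) ≤ (cl a).length := Nat.div_le_self _ _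
    have h2 : sz (0 : ℕ) = 2 := rfl
    rw [h2]
    nlinarith)
  repz := fun a _ => ⟨⟨List.length_replicate, fun x hx => by
      rw [List.eq_of_mem_replicate hx]; positivity⟩, fun t _ s => by
    have : gt (List.replicate (nn (th a)) 0) (fl a t) = 0 := by
      simp [gt, List.getD_eq_getElem?_getD, List.getElem?_replicate]
      split_ifs <;> rfl
    rw [this, bt_zero]
    rfl⟩

variable {Lab : Type} {nact : Lab → ∀ m : ℕ, (J → ZMod m) → (J → ZMod m)}

theorem impl_cf (c : ZMod 2) : (impl D nact).Cf c := by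
  have := (impl D nact).domG2
  have hc : c = 0 ∨ c = 1 := by revert c; decide
  rcases hc with rfl | rfl
  · exact ⟨fun p => p.1.1, Tm.id.fst.fst, fun a l l' v v' _ h _ => by
      rw [zero_smul, add_zero]; exact h⟩
  · refine ⟨fun p => List.zipWith (fun x y => x ^^^ y) p.1.1 p.1.2,
      Tm.zipWith0 (Tm.id.fst.xor Tm.id.snd) Tm.id.fst.fst Tm.id.fst.snd,
      fun a l l' v v' _ h h' => ⟨⟨?_, fun x hx => ?_⟩, fun t ht s => ?_⟩⟩
    · rw [List.length_zipWith, h.1.1, h'.1.1, min_self]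
    · obtain ⟨i, hi, rfl⟩ := List.getElem_of_mem hx
      rw [List.getElem_zipWith]
      exact Nat.xor_lt_two_pow (h.1.2 _ (List.getElem_mem _)) (h'.1.2 _ (List.getElem_mem _))
    · rw [gt_zipWith_xor (h.1.1.trans h'.1.1.symm), bt_xor, h.2 t ht, h'.2 t ht, one_smul]
      rfl

theorem op_dg (j : J) (π : Ar → ℕ → ℕ → Option ℕ) (φ : ∀ m, (J → ZMod m) → ZMod m)
    (h1 : Tm (WW D) fun p =>
      dg (mm (th p.2)) (mm (th p.2)) (HP (rho (th p.2)) (pos j + 1) 581) (π p.2) p.1)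
    (h2 : ∀ a, (SS D).dom a → ∀ t, okk a t →
      π a (HV (rho (th a)) (dig t) 0 (pos j)) (t.2.1 j).val = some (φ _ t.2.1).val) :
    (impl D nact).Op 0 fun v a t => v a (t.1, update t.2.1 j (φ _ t.2.1), t.2.2) := by
  have hG : ∀ a l, (SS D).dom a → GG a l →
      GG a (dg (mm (th a)) (mm (th a)) (HP (rho (th a)) (pos j + 1) 581) (π a) l) := by
    intro a l ha hl
    obtain ⟨k1, -, k3, k4⟩ := lenW j (l, a) ⟨ha, hl⟩
    exact ⟨((length_dg _ k3 k4 k1).trans k1.symm).trans hl.1, bd_dg _ hl.2 (by positivity)⟩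
  refine ⟨_, h1.toN, hG, fun a l v ha hl => ⟨hG a l ha hl.1, fun t ht s => ?_⟩⟩
  have hs := ha.1.stp ha.2
  have h3 := gt_dg_HV (ρ := rho (th a)) (δ := dig t) (p := pos j) (N := 581)
    (by have := pos_facts j; omega) (dig_lt hs.mpos ht) (hl.1.1.trans hs.nHP) (π a)
    (v := (φ _ t.2.1).val) (by rw [dig_pos]; exact h2 a ha t ht)
  rw [rho_pos_eq, ← HV_congr fun k _ hk => dig_update t j _ k hk] at h3
  exact (congrArg (fun x => bt x s) h3).trans (hl.2 (t.1, update t.2.1 j (φ _ t.2.1), t.2.2) ht s)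

theorem cast_num {m : ℕ} (hm : 0 < m) (n : ℤ) :
    ((n.toNat + (m - 1) * (-n).toNat : ℕ) : ZMod m) = n := by
  have h := congrArg (Int.cast : ℤ → ZMod m) (Int.toNat_sub_toNat_neg n)
  rw [← h]
  push_cast [Nat.cast_sub hm, ZMod.natCast_self]
  ring

/-- The amount of a shear. -/
def amt (i j : J) (c : ℚ) (p : ℕ × Th) : ℕ :=
  (c.num.toNat + (mm p.2 - 1) * (-c.num).toNat) * ((mm p.2 + 1) / c.den)
    * (p.1 / HP (rho p.2) (pos i + 1) (pos j) % mm p.2)

theorem tm_amt (i j : J) (c : ℚ) : Tm PP2 (amt i j c) := by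
  have h := lift2 tm_mm
  exact (((Tm.const _).add ((h.sub (Tm.const 1)).mul (Tm.const _))).mul
    ((h.add (Tm.const 1)).div (Tm.const _))).mul ((Tm.id.fst.div (lift2 (tm_HP _ _))).mod h)

theorem tm_shear (i j : J) (c : ℚ) : Tm (WW D) fun p => shear (mm (th p.2)) (mm (th p.2))
    (HP (rho (th p.2)) (pos j + 1) 581) (fun u => amt i j c (u, th p.2)) p.1 := by
  refine Tm.shear (A := fun p => HP (rho (th p.2)) 0 (pos j)) (k := fun p => cb p.2)
    (tm_amt i j c) arrW (Tm.lift GG tm_th) (tmW tm_mm) (tmW tm_mm) (tmW_HP (pos j + 1) 581)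
    (fun p hp => ?_) (fun p hp u hu => ?_) fun e => ?_
  · obtain ⟨k1, k2, k3, k4⟩ := lenW j p hp
    exact ⟨k1, k2, k3, le_rfl, k4⟩
  · obtain ⟨k1, k2, k3, k4⟩ := lenW j p hp
    have k5 := arrW.len p hp
    have k6 := (le_mul3 k2 k3 k4).1
    exact ⟨⟨by change u < 2 ^ cb p.2; omega, hp.1.1.pth.1⟩, le_rfl⟩
  · obtain ⟨K, hK⟩ := pow_log_le e
    refine Cls.lin arrW.cost K 0 fun p hp => ?_
    obtain ⟨k1, k2, k3, k4⟩ := lenW j p hp
    have hs := hp.1.1.stp hp.1.2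
    obtain ⟨A, -, -, -, -, -, -, -, -, h6, h7⟩ := hp.1.1
    have k5 := hK _ _ (by omega) h7
    have k6 : cμ p.2 ≤ mm (th p.2) := hs.μm
    calc _ ≤ HP (rho (th p.2)) 0 (pos j) * (K * mm (th p.2)) :=
          Nat.mul_le_mul_left _ (k5.trans (Nat.mul_le_mul_left _ k6))
      _ = K * (HP (rho (th p.2)) 0 (pos j) * mm (th p.2) * 1 * 1) := by ring
      _ ≤ _ := by
          rw [add_zero, k1]
          exact Nat.mul_le_mul_left _ (Nat.mul_le_mul (Nat.mul_le_mul_left _ k4) (by omega))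

theorem op_shear {i j : J} (hij : i < j) (c : ℚ) :
    (impl D nact).Op 0 fun v a t => v a (t.1, (Gen.shear i j c).act _ t.2.1, t.2.2) := by
  refine op_dg j (fun a u v => some (if v < mm (th a) then (v + amt i j c (u, th a)) % mm (th a)
    else v)) (fun m z => z j + qc m c * z i) (tm_shear i j c) fun a ha t ht => ?_
  have hs := ha.1.stp ha.2
  have : NeZero (mm (th a)) := ⟨hs.mpos.ne'⟩
  have h3 := HV_digit (ρ := rho (th a)) (δ := dig t) (pos_lt hij)
    fun k hk => dig_lt hs.mpos ht k (by have := pos_facts j; omega)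
  rw [rho_pos_eq, dig_pos] at h3
  rw [if_pos (ZMod.val_lt _), amt]
  dsimp only
  rw [h3, ← ZMod.val_natCast, Nat.cast_add, Nat.cast_mul, Nat.cast_mul, cast_num hs.mpos,
    ZMod.natCast_zmod_val, ZMod.natCast_zmod_val, qc]

theorem op_mul (j : J) (c : ℕ → ℕ)
    (h : Tm (WW D) fun p =>
      scaleD (mm (th p.2)) (HP (rho (th p.2)) (pos j + 1) 581) (c (mm (th p.2))) p.1) :
    (impl D nact).Op 0 fun v a t =>
      v a (t.1, update t.2.1 j ((c (mm (th a)) : ZMod (mm (th a))) * t.2.1 j), t.2.2) := by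
  refine op_dg j (fun a _ v => some (c (mm (th a)) * v % mm (th a)))
    (fun m z => (c m : ZMod m) * z j) h fun a ha t _ => ?_
  have : NeZero (mm (th a)) := ⟨(ha.1.stp ha.2).mpos.ne'⟩
  rw [← ZMod.val_natCast, Nat.cast_mul, ZMod.natCast_zmod_val]

theorem op_neg (j : J) :
    (impl D nact).Op 0 fun v a t => v a (t.1, (Gen.neg j).act _ t.2.1, t.2.2) := by
  have h : Tm (WW D) fun p => negD (mm (th p.2)) (HP (rho (th p.2)) (pos j + 1) 581) p.1 :=
    Tm.negD (A := fun p => HP (rho (th p.2)) 0 (pos j)) arrW (tmW tm_mm)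
      (tmW_HP (pos j + 1) 581) (lenW j)
  refine op_dg j (fun a _ v => some ((mm (th a) - v) % mm (th a))) (fun m z => - z j) h
    fun a ha t _ => ?_
  have : NeZero (mm (th a)) := ⟨(ha.1.stp ha.2).mpos.ne'⟩
  rw [← ZMod.val_natCast, Nat.cast_sub (ZMod.val_lt _).le, ZMod.natCast_zmod_val,
    ZMod.natCast_self, zero_sub]

theorem op_swap {i j : J} (hij : i < j) :
    (impl D nact).Op 1 fun v a t => v a (t.1, (Gen.swap i j).act _ t.2.1, t.2.2) := by
  have hp := pos_lt hij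
  have hj := pos_facts j
  have hc : TmN gg (WW D) (fun p => QQ D p.2) 1 fun p => gg (cr p.2 - 1, cμ p.2, cb p.2,
      HP (rho (th p.2)) (pos i + 1) (pos j), HP (rho (th p.2)) (pos j + 1) 581, p.1) := by
    refine TmN.call (((Tm.lift GG tm_cr).sub (Tm.const 1)).pair ((Tm.lift GG tm_cμ).pair
      ((Tm.lift GG tm_cb).pair ((tmW_HP _ _).pair ((tmW_HP _ _).pair Tm.id.fst)))))
      fun p hp' => ⟨?_, hp'.2.1, rfl, rfl, rfl⟩
    have hs := hp'.1.1.stp hp'.1.2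
    have k5 := arrW.len p hp'
    obtain ⟨A, -, -, -, -, -, -, -, h5, h6, h7⟩ := hp'.1.1
    refine ⟨HP (rho (th p.2)) 0 (pos i), ?_, HP_pos hs.rho_pos, HP_pos hs.rho_pos,
      HP_pos hs.rho_pos, hs.dvdA.trans ?_, hp'.2.2, k5, h5, h6, h7⟩
    · have k1 := (hp'.2.1.trans hs.nHP).trans (HP_at2 hp (by omega))
      rw [rho_pos_eq, rho_pos_eq] at k1
      exact k1
    · rw [HP_split (q := 1) (by omega) (by have := pos_facts i; omega), HP_one (p := 0)]
      exact Dvd.intro _ rfl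
  have hG : ∀ a l, GG a l → GG a (swap (mm (th a)) (HP (rho (th a)) (pos i + 1) (pos j))
      (HP (rho (th a)) (pos j + 1) 581) l) := fun a l hl =>
    ⟨(length_swap _ _ _ _).trans hl.1, bd_swap hl.2 (by positivity)⟩
  refine ⟨_, hc, fun a l _ hl => hG a l hl, fun a l v ha hl => ⟨hG a l hl.1, fun t ht s => ?_⟩⟩
  have hs := ha.1.stp ha.2
  have h3 := gt_swap_HV (ρ := rho (th a)) (δ := dig t) (N := 581) hp (by omega)
    (by rw [rho_pos_eq, rho_pos_eq]) (dig_lt hs.mpos ht) (hl.1.1.trans hs.nHP)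
  have h4 : ∀ k < 581, dig (t.1, update (update t.2.1 i (t.2.1 j)) j (t.2.1 i), t.2.2) k
      = update (update (dig t) (pos i) (dig t (pos j))) (pos j) (dig t (pos i)) k := by
    intro k hk
    rw [dig_update (t.1, update t.2.1 i (t.2.1 j), t.2.2) j _ k hk, dig_pos, dig_pos]
    by_cases e : k = pos j
    · rw [e, update_self, update_self]
    · rw [update_of_ne e, update_of_ne e, dig_update t i _ k hk]
  rw [rho_pos_eq, ← HV_congr fun k _ hk => h4 k hk] at h3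
  exact (congrArg (fun x => bt x s) h3).trans
    (hl.2 (t.1, update (update t.2.1 i (t.2.1 j)) j (t.2.1 i), t.2.2) ht s)

theorem op_gen {N : ℕ} (g : Gen) (hg : g.ok N) :
    (impl N.factorial nact).Op g.cost fun v a t => v a (t.1, g.act _ t.2.1, t.2.2) := by
  have hl : ∀ (j : J) (c : ℕ), 0 < c → c ≤ N → ∀ p, (WW N.factorial).dom p →
      p.1.length = HP (rho (th p.2)) 0 (pos j) * mm (th p.2) * HP (rho (th p.2)) (pos j + 1) 581 ∧
      0 < HP (rho (th p.2)) 0 (pos j) ∧ 0 < mm (th p.2) ∧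
        0 < HP (rho (th p.2)) (pos j + 1) 581 ∧ c ∣ mm (th p.2) + 1 := by
    intro j c h1 h2 p hp
    obtain ⟨k1, k2, k3, k4⟩ := lenW j p hp
    exact ⟨k1, k2, k3, k4, (Nat.dvd_factorial h1 h2).trans (hp.1.1.stp hp.1.2).dvdm⟩
  cases g with
  | shear i j c => exact op_shear hg.1 c
  | scale j c =>
    have h := Tm.scaleD (A := fun p => HP (rho (th p.2)) 0 (pos j)) hg.1 arrW (tmW tm_mm)
      (tmW_HP (pos j + 1) 581) (hl j c hg.1 hg.2)
    exact op_mul j (fun _ => c) h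
  | unscale j c =>
    have h := Tm.unscaleD (A := fun p => HP (rho (th p.2)) 0 (pos j)) hg.1 arrW (tmW tm_mm)
      (tmW_HP (pos j + 1) 581) (tmW ((tm_mm.add (Tm.const 1)).div (Tm.const c)))
      (hl j c hg.1 hg.2)
    exact op_mul j (fun m => (m + 1) / c) h
  | neg j => exact op_neg j
  | swap i j => exact op_swap hg

theorem foldl_act (w : List Gen) (v : VV) (a : Ar) (t : Ix (mm (th a))) :
    w.foldl (fun (v : VV) (g : Gen) => fun a t => v a (t.1, g.act _ t.2.1, t.2.2)) v a t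
      = v a (t.1, w.foldr (Gen.act _) t.2.1, t.2.2) := by
  induction w generalizing v with
  | nil => rfl
  | cons g w ih => rw [List.foldl_cons, ih]; rfl

theorem exists_step : ∃ D, 0 < D ∧ TmN gg (SS D) (QQ D) Nn gg := by
  obtain ⟨N, Lab, nact, Λ, hM, hΛ⟩ := lab1_exists
  refine ⟨N.factorial, N.factorial_pos, ?_⟩
  obtain ⟨Ds⟩ := design1 (impl N.factorial nact).Cf impl_cf
  have hM' : Moves (impl N.factorial nact).Mv orth1 Λ := by
    refine hM.mono ?_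
    rintro r P P' ⟨w, h1, h2, h3⟩
    refine ⟨_, (impl N.factorial nact).op_word Gen.cost
      (fun g (v : VV) a t => v a (t.1, g.act _ t.2.1, t.2.2)) w (fun g hg => op_gen g (h1 g hg)) h2,
      fun a l v ha hl => ⟨hl.1, fun t ht s => ?_⟩⟩
    rw [hl.2 t ht s, foldl_act]
    change v a (t.1, nact P _ (w.foldr (Gen.act _) t.2.1), t.2.2) s = _
    rw [h3 _ (ha.1.stp ha.2).dvdm]
    rfl
  obtain ⟨kind, hk⟩ := (impl N.factorial nact).net Ds hM'
  have hG : ∀ (w : Fin Wn) a, (SS N.factorial).dom a → GG a (piece (nn (th a)) w (cl a)) := by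
    intro w a ha
    have hs := ha.1.stp ha.2
    obtain ⟨A, -, -, -, -, -, h5, -⟩ := ha.1
    exact ⟨length_piece hs.len w.2, bd_piece h5⟩
  obtain ⟨out, h1, h2⟩ := hk (fun w a => piece (nn (th a)) w (cl a))
    (fun w a t s => bt (gt (piece (nn (th a)) w (cl a))
      (fl a (t.1, nact ((kind w).elim Λ.l0 Λ.lX) _ t.2.1, t.2.2))) s)
    (fun w => (Tm.take (tmS tm_nn) (Tm.drop (Tm.cmul _ (tmS tm_nn)) tm_cl) :
      Tm (SS N.factorial) _))
    (fun w a ha => ⟨hG w a ha, fun t _ s => by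
      obtain ⟨k1, -, k3⟩ := hΛ _ (ha.1.stp ha.2).dvdm
      have e : nact ((kind w).elim Λ.l0 Λ.lX) _ (nact ((kind w).elim Λ.l0 Λ.lX) _ t.2.1)
          = t.2.1 := by
        cases kind w with
        | none => exact (k1 _).trans (k1 _)
        | some x => exact (k3 x _).1
      change _ = bt (gt _ (fl a (t.1, nact _ _ (nact _ _ t.2.1), t.2.2))) s
      rw [e]⟩)
  refine h1.congr fun a ha => ?_
  have hs := ha.1.stp ha.2
  obtain ⟨k1, k2, k3⟩ := hΛ _ hs.dvdm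
  have hL : ∀ x ∈ List.ofFn fun w => out w a, x.length = nn (th a) := by
    intro x hx
    obtain ⟨w, rfl⟩ := List.mem_ofFn.1 hx
    exact (h2 w a ha).1.1
  have hlen : (cl a).length = Wn * nn (th a) := hs.len
  refine ext_gt ?_ fun i hi => ?_
  · rw [length_flatten_of _ hL, List.length_ofFn, gg, length_swap, hlen]
  rw [gg, length_swap, hlen] at hi
  obtain ⟨w, hw, u, hu, rfl⟩ := idx_decomp hi
  obtain ⟨t, ht, rfl⟩ := flat_surj (hs.neq ▸ hu)
  have e1 : (List.ofFn fun w => out w a).getD w [] = out ⟨w, hw⟩ a := by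
    have hw' : w < (List.ofFn fun w => out w a).length := by rw [List.length_ofFn]; exact hw
    rw [List.getD_eq_getElem _ _ hw', List.getElem_ofFn]
  have e2 : gt (out ⟨w, hw⟩ a) (fl a t)
      = gt (piece (nn (th a)) w (cl a)) (fl a (t.1, t.2.1 ∘ hsw, t.2.2)) := by
    refine bt_inj fun s => ?_
    have e : nact ((kind ⟨w, hw⟩).elim Λ.l0 Λ.lX) _ (nact ((kind ⟨w, hw⟩).elim Λ.l1 Λ.lX') _ t.2.1)
        = t.2.1 ∘ hsw := by
      cases kind ⟨w, hw⟩ with
      | none => exact (k1 _).trans (k2 _)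
      | some x => exact (congrArg _ (k3 x _).2).trans (k3 x _).1
    rw [(h2 ⟨w, hw⟩ a ha).2 t ht s]
    change bt (gt _ (fl a (t.1, nact _ _ (nact _ _ t.2.1), t.2.2))) s = _
    rw [e]
  have e3 : fl a (t.1, t.2.1 ∘ hsw, t.2.2) < nn (th a) := hs.neq ▸ flat_lt hs.mpos ht
  rw [gt_flatten _ hL w hu, e1]
  refine Eq.trans ?_ (e2.trans (gt_piece _ e3)).symm
  have e4 : cμ a ^ 289 ^ cr a = mm (th a) ^ 289 := hs.pw
  rw [gg, e4, hs.neq]
  exact gt_swap_flat hs.mpos (hs.neq ▸ hlen) hw ht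

end SwapAux

end Vale.Agent.P338
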