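import Vale.Agent.P338.Trans
import Vale.Agent.P338.NetTm
import Vale.Agent.P338.Lab1
import Vale.Agent.P338.SwapB

/-! Fast exchange of two index digits. -/

namespace Vale.Agent.P338

/-- Number of passes of the fast exchange. -/
def swc (r μ : ℕ) : ℕ := (Nn ^ r / Wn ^ r + 1) * (μ.size + r + 1)

namespace SwapAux

variable {D : ℕ}

theorem base_case : Tm ((UU D).res fun a => cr a = 0) gg := by
  have h : ArrOK ((UU D).res fun a => cr a = 0) cb cl :=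
    ⟨tm_cl, fun a ha => by
      obtain ⟨A, -, -, -, -, -, h5, -⟩ := ha.1
      exact h5, fun a ha => ha.1.pth.1.2.2.2.2, Cls.res_mem mem_UU⟩
  refine (Tm.swap0 (A := fun a => (cl a).length / (cμ a * cB a * cμ a * cC a)) h tm_cμ tm_cB tm_cC
    (fun a ha => ?_) ⟨tau, big_self _ _, fun a _ h0 => ?_⟩).congr fun a ha => ?_
  · obtain ⟨A, h1, h2, h3, h4, -, -, -, -, h5, -⟩ := ha.1
    have h0 : cr a = 0 := ha.2
    rw [h0, pow_zero, pow_one] at h1
    have e : (cl a).length / (cμ a * cB a * cμ a * cC a) = A := by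
      rw [h1, show A * cμ a * cB a * cμ a * cC a = A * (cμ a * cB a * cμ a * cC a) by ring,
        Nat.mul_div_cancel _ (by positivity)]
    rw [e]
    exact ⟨h1, h2, by omega, h3, h4⟩
  · rw [tau, if_pos h0]
    exact Nat.mul_le_mul_left _ (Nat.le_succ _)
  · have h0 : cr a = 0 := ha.2
    rw [gg, h0, pow_zero, pow_one]

/-- The solution of the recurrence. -/
def U0 (x : Ar) : ℕ :=
  (cl x).length / Wn ^ cr x * Nn ^ cr x * (cb x + 1) * ((cμ x).size + 2 + cr x)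

theorem Wn_le_Nn : Wn ≤ Nn := by unfold Wn Nn; norm_num

theorem exists_rec : ∃ D K, 0 < D ∧ Tm (big (dm D) fun x => K * U0 x) gg := by
  obtain ⟨D, hD, h1⟩ := exists_step
  obtain ⟨T, ⟨K, hK⟩, h2⟩ := TmN.fix (𝒰 := UU D) (c := fun a => cr a = 0)
    (tm_cr.eq (Tm.const 0)) base_case h1 fun _ _ _ _ h => h.1
  refine ⟨D, 2 * K, hD, h2 _ (fun a ha h0 => ?_) fun a ha h0 => ?_⟩
  · have h3 := hK a ha
    have h4 := ha.len_pos
    rw [tau, if_pos h0] at h3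
    rw [U0, h0, pow_zero, pow_zero, Nat.div_one, mul_one, add_zero, mul_comm 2, mul_assoc]
    refine h3.trans (Nat.mul_le_mul_left _ ?_)
    have h5 : 1 ≤ (cl a).length * (cb a + 1) := Nat.mul_pos h4 (by omega)
    generalize (cl a).length * (cb a + 1) = x at h5
    nlinarith
  · have h3 := hK a ha
    have h4 := ha.len_pos
    rw [tau, if_neg h0, mul_one] at h3
    obtain ⟨r, hr⟩ := Nat.exists_eq_succ_of_ne_zero h0
    refine ⟨2 * K * ((cl a).length / Wn ^ (r + 1) * Nn ^ r * (cb a + 1) * ((cμ a).size + 2 + r)),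
      fun x hx => le_of_eq ?_, ?_⟩
    · obtain ⟨-, k1, k2, k3, k4⟩ := hx
      have k5 : (cl x).length = (cl a).length / Wn := k1
      rw [U0, k5, k2, k3, k4, hr, Nat.succ_sub_one, Nat.div_div_eq_div_mul, ← pow_succ']
    · obtain ⟨A, k1, -, -, -, k2, -⟩ := ha
      have k3 : Wn ^ (r + 1) ∣ (cl a).length := by
        rw [k1, hr] at *
        exact (((k2.mul_right _).mul_right _).mul_right _).mul_right _
      have k4 : (cl a).length ≤ (cl a).length / Wn ^ (r + 1) * Nn ^ (r + 1) := by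
        conv_lhs => rw [← Nat.div_mul_cancel k3]
        exact Nat.mul_le_mul_left _ (Nat.pow_le_pow_left Wn_le_Nn _)
      have k5 := Nat.mul_le_mul_right (cb a + 1) k4
      have h5 : 1 ≤ (cl a).length * (cb a + 1) := Nat.mul_pos h4 (by omega)
      have k6 : T a ≤ 2 * K * ((cl a).length / Wn ^ (r + 1) * Nn ^ (r + 1) * (cb a + 1)) := by
        rw [mul_comm 2, mul_assoc K]
        exact h3.trans (Nat.mul_le_mul_left _ (by omega))
      rw [U0, hr]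
      refine (Nat.add_le_add_right k6 _).trans (le_of_eq ?_)
      rw [Nat.succ_eq_add_one]
      ring

theorem gt_padD {A R R' C : ℕ} {l : List ℕ} (h : l.length = A * R * C) {u v c : ℕ} (hu : u < A)
    (hv : v < R) (hv' : v < R') (hc : c < C) :
    gt (padD R R' C l) ((u * R' + v) * C + c) = gt l ((u * R + v) * C + c) := by
  rw [padD, gt_dg _ (by omega) h hu hv' hc, if_pos hv]
  rfl

theorem pad_swap {A R R' B C : ℕ} {l : List ℕ} (h : l.length = A * R * B * R * C) (hR : 0 < R)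
    (hB : 0 < B) (hC : 0 < C) (hRR : R ≤ R') :
    swap R B C l = padD R' R (B * R * C) (padD R' R C (swap R' B C
      (padD R R' C (padD R R' (B * R * C) l)))) := by
  have hP : 0 < B * R * C := by positivity
  have h0 : l.length = A * R * (B * R * C) := by rw [h]; ring
  have h1 : (padD R R' (B * R * C) l).length = A * R' * B * R * C := by
    rw [padD, length_dg _ hR hP h0]; ring
  have h2 : (padD R R' C (padD R R' (B * R * C) l)).length = A * R' * B * R' * C :=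
    length_dg _ hR hC h1
  have h3 : (swap R' B C (padD R R' C (padD R R' (B * R * C) l))).length = A * R' * B * R' * C :=
    (length_swap _ _ _ _).trans h2
  have h4 : (padD R' R C (swap R' B C (padD R R' C (padD R R' (B * R * C) l)))).length
      = A * R' * (B * R * C) := by
    rw [padD, length_dg _ (by omega) hC h3]; ring
  refine ext_gt ?_ fun i hi => ?_
  · rw [length_swap, padD, length_dg _ (by omega) hP h4, h0]
  rw [length_swap, h] at hi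
  obtain ⟨i1, hi1, c, hc, rfl⟩ := idx_decomp hi
  obtain ⟨i2, hi2, y, hy, rfl⟩ := idx_decomp hi1
  obtain ⟨i3, hi3, b, hb, rfl⟩ := idx_decomp hi2
  obtain ⟨a, ha, x, hx, rfl⟩ := idx_decomp hi3
  have e : ∀ u v : ℕ, ((u * B + b) * R + v) * C + c = u * (B * R * C) + ((b * R + v) * C + c) :=
    fun u v => by ring
  rw [gt_swap h ha hx hb hy hc, e (a * R + x),
    gt_padD h4 ha (by omega) hx (idx_lt (idx_lt hb hy) hc), ← e,
    gt_padD h3 (idx_lt (idx_lt ha (by omega)) hb) (by omega) hy hc,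
    gt_swap h2 ha (by omega) hb (by omega) hc,
    gt_padD h1 (idx_lt (idx_lt ha (by omega)) hb) hx (by omega) hc, e (a * R' + y),
    gt_padD h0 ha hy (by omega) (idx_lt (idx_lt hb hx) hc), ← e]

section
variable {ι : Type} [Enc ι] {𝒯 : Cls ι} [Dom 𝒯] {b n : ι → ℕ} {l : ι → List ℕ}

omit [Enc ι] [Dom 𝒯] in
theorem mem_four (hc : 𝒯.mem fun i => n i * (b i + 1)) {k : ι → ℕ}
    (hk : ∀ i, 𝒯.dom i → k i ≤ 4 * n i) : 𝒯.mem fun i => k i * (b i + 2 + 1) :=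
  Cls.lin hc 12 0 fun i hi => by
    calc _ ≤ 4 * n i * (3 * (b i + 1)) := Nat.mul_le_mul (hk i hi) (by omega)
      _ = _ := by ring

omit [Dom 𝒯] in
theorem arr_mk (hn : ∀ i, 𝒯.dom i → n i < 2 ^ b i) (hc : 𝒯.mem fun i => n i * (b i + 1))
    (h1 : Tm 𝒯 l) (h2 : ∀ i, 𝒯.dom i → Bd (2 ^ (b i + 2)) (l i))
    (h3 : ∀ i, 𝒯.dom i → (l i).length ≤ 4 * n i) : ArrOK 𝒯 (fun i => b i + 2) l :=
  ⟨h1, h2, fun i hi => by
    have := hn i hi
    have := h3 i hi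
    rw [pow_add]
    omega, mem_four hc h3⟩

theorem arr_pad (hn : ∀ i, 𝒯.dom i → n i < 2 ^ b i) (hc : 𝒯.mem fun i => n i * (b i + 1))
    (h : ArrOK 𝒯 (fun i => b i + 2) l) {A R R' C : ι → ℕ} (hR : Tm 𝒯 R) (hR' : Tm 𝒯 R')
    (hC : Tm 𝒯 C)
    (hl : ∀ i, 𝒯.dom i → (l i).length = A i * R i * C i ∧ 0 < A i ∧ 0 < R i ∧ 0 < C i)
    (hk : ∀ i, 𝒯.dom i → A i * R' i * C i ≤ 4 * n i) :
    ArrOK 𝒯 (fun i => b i + 2) fun i => padD (R i) (R' i) (C i) (l i) :=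
  arr_mk hn hc (Tm.padD h hR hC hl hR' (mem_four hc hk))
    (fun i hi => bd_dg _ (h.bd i hi) (by positivity)) fun i hi => by
      obtain ⟨k1, -, k3, k4⟩ := hl i hi
      rw [padD, length_dg _ k3 k4 k1]
      exact hk i hi

end

theorem U0_le {r μ b B C n : ℕ} {l : List ℕ} (h : l.length ≤ 4 * n) :
    U0 (r, μ, b + 2, B, C, l) ≤ 24 * (n * (b + 1) * swc r μ) := by
  have h1 : l.length / Wn ^ r * Nn ^ r ≤ 4 * n * (Nn ^ r / Wn ^ r + 1) := by
    have h2 : Nn ^ r ≤ Wn ^ r * (Nn ^ r / Wn ^ r + 1) :=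
      (Nat.lt_mul_div_succ _ (pow_pos Wn_pos r)).le
    calc _ ≤ l.length / Wn ^ r * (Wn ^ r * (Nn ^ r / Wn ^ r + 1)) := Nat.mul_le_mul_left _ h2
      _ = l.length / Wn ^ r * Wn ^ r * (Nn ^ r / Wn ^ r + 1) := by ring
      _ ≤ _ := Nat.mul_le_mul_right _ ((Nat.div_mul_le_self _ _).trans h)
  calc U0 (r, μ, b + 2, B, C, l)
      = l.length / Wn ^ r * Nn ^ r * (b + 2 + 1) * (μ.size + 2 + r) := rfl
    _ ≤ 4 * n * (Nn ^ r / Wn ^ r + 1) * (3 * (b + 1)) * (2 * (μ.size + r + 1)) :=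
        Nat.mul_le_mul (Nat.mul_le_mul h1 (by omega)) (by omega)
    _ = _ := by rw [swc]; ring

section
variable {ι : Type} [Enc ι] {𝒯 : Cls ι} [Dom 𝒯] {b : ι → ℕ} {l : ι → List ℕ}
  {A R S B C r μ : ι → ℕ}

theorem top_par (h : ArrOK 𝒯 b l) (hb : Tm 𝒯 b) (hR : Tm 𝒯 R) (hB : Tm 𝒯 B) (hC : Tm 𝒯 C)
    (hr : Tm 𝒯 r) (hμ : Tm 𝒯 μ)
    (hl : ∀ i, 𝒯.dom i → (l i).length = A i * R i * B i * R i * C i ∧ 0 < A i ∧ 0 < R i ∧
      0 < B i ∧ 0 < C i ∧ 2 ≤ μ i ∧ μ i ^ 289 ^ r i ≤ 2 * R i ∧ b i + 2 ≤ Nat.log 2 (μ i) ^ 2) :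
    (Tm 𝒯 fun i => μ i ^ 289 ^ r i) ∧ Tm 𝒯 fun i => B i * R i * C i := by
  have hθ : Tm 𝒯 fun i => ((r i, μ i, b i + 2, B i, C i, R i) : Th) :=
    hr.pair (hμ.pair ((hb.add (Tm.const 2)).pair (hB.pair (hC.pair hR))))
  have hf : ∀ i, 𝒯.dom i → PTh (r i, μ i, b i + 2, B i, C i, R i) ∧ μ i ≤ 2 * (l i).length := by
    intro i hi
    obtain ⟨h1, h2, h3, h4, h5, h6, h7, -⟩ := hl i hi
    obtain ⟨k1, k2, k3⟩ := le_mul5 h2 h3 h4 h5
    rw [← h1] at k1 k2 k3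
    have k4 := h.len i hi
    have k5 : 2 ^ (b i + 2) = 2 ^ b i * 4 := pow_add _ _ _
    obtain ⟨k6, k7⟩ := pw_facts (e := r i) (b := b i + 2) h6 (by omega)
    refine ⟨⟨k6.le, ?_, ?_, ?_, ?_⟩, by omega⟩
    · change μ i < 2 ^ (b i + 2); omega
    · change B i < 2 ^ (b i + 2); omega
    · change C i < 2 ^ (b i + 2); omega
    · change R i < 2 ^ (b i + 2); omega
  have hp : 𝒯.Pays PP fun i => ((r i, μ i, b i + 2, B i, C i, R i) : Th) := by
    refine pays_PP (fun i hi => ⟨(hf i hi).1, ?_, (hl i hi).2.2.2.2.2.2.2⟩)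
      (Cls.lin h.cost 2 0 fun i hi => ?_)
    · have := (hl i hi).2.2.2.2.2.1
      change μ i ≠ 0
      omega
    · have h1 := (hf i hi).2
      have h2 : (l i).length ≤ (l i).length * (b i + 1) := Nat.le_mul_of_pos_right _ (by omega)
      change μ i ≤ _
      omega
  have h1 := (tm_pw tm_cr fun _ => le_rfl).compP hθ hp
  have h2 := ((tm_cB.mul tm_cl).mul tm_cC).compP hθ hp
  exact ⟨h1, h2⟩

theorem top_pad (h : ArrOK 𝒯 b l) (hR : Tm 𝒯 R) (hS : Tm 𝒯 S) (hC : Tm 𝒯 C)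
    (hP : Tm 𝒯 fun i => B i * R i * C i)
    (hl : ∀ i, 𝒯.dom i → (l i).length = A i * R i * B i * R i * C i ∧ 0 < A i ∧ 0 < R i ∧
      0 < B i ∧ 0 < C i ∧ R i ≤ S i ∧ S i ≤ 2 * R i)
    (hsw : ∀ l' : ι → List ℕ, ArrOK 𝒯 (fun i => b i + 2) l' →
      (∀ i, 𝒯.dom i → (l' i).length = A i * S i * B i * S i * C i ∧
        (l' i).length ≤ 4 * (l i).length) → Tm 𝒯 fun i => swap (S i) (B i) (C i) (l' i)) :
    Tm 𝒯 (fun i => swap (R i) (B i) (C i) (l i)) := by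
  have hm : ∀ i, 𝒯.dom i → 0 < S i ∧ A i * S i * B i * S i * C i ≤ 4 * (l i).length ∧
      A i * S i * B i * R i * C i ≤ 4 * (l i).length := by
    intro i hi
    obtain ⟨h1, -, h3, -, -, h6, h7⟩ := hl i hi
    have h8 : A i * S i * B i * S i * C i ≤ A i * (2 * R i) * B i * (2 * R i) * C i := by gcongr
    have h9 : A i * S i * B i * R i * C i ≤ A i * S i * B i * S i * C i := by gcongr
    have h10 : A i * (2 * R i) * B i * (2 * R i) * C i = 4 * (l i).length := by rw [h1]; ring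
    exact ⟨by omega, by omega, by omega⟩
  have a0 : ArrOK 𝒯 (fun i => b i + 2) l := arr_mk h.len h.cost h.tm
    (fun i hi => (h.bd i hi).mono (Nat.pow_le_pow_right (by norm_num) (by omega)))
    fun i _ => by omega
  have e0 : ∀ i, 𝒯.dom i → (l i).length = A i * R i * (B i * R i * C i) := fun i hi => by
    rw [(hl i hi).1]; ring
  have a1 := arr_pad h.len h.cost a0 (A := A) hR hS hP (fun i hi => by
      obtain ⟨-, h2, h3, h4, h5, -⟩ := hl i hi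
      exact ⟨e0 i hi, h2, h3, by positivity⟩)
    fun i hi => le_trans (le_of_eq (by ring)) (hm i hi).2.2
  have e1 : ∀ i, 𝒯.dom i → (padD (R i) (S i) (B i * R i * C i) (l i)).length
      = A i * S i * B i * R i * C i := fun i hi => by
    obtain ⟨-, h2, h3, h4, h5, -⟩ := hl i hi
    rw [padD, length_dg _ h3 (by positivity) (e0 i hi)]; ring
  have a2 := arr_pad h.len h.cost a1 (A := fun i => A i * S i * B i) hR hS hC (fun i hi => by
      obtain ⟨-, h2, h3, h4, h5, -⟩ := hl i hi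
      have := (hm i hi).1
      exact ⟨e1 i hi, by positivity, h3, h5⟩)
    fun i hi => (hm i hi).2.1
  have e2 : ∀ i, 𝒯.dom i →
      (padD (R i) (S i) (C i) (padD (R i) (S i) (B i * R i * C i) (l i))).length
        = A i * S i * B i * S i * C i := fun i hi => by
    obtain ⟨-, h2, h3, h4, h5, -⟩ := hl i hi
    exact length_dg _ h3 h5 (e1 i hi)
  have a3 : ArrOK 𝒯 (fun i => b i + 2) fun i => swap (S i) (B i) (C i)
      (padD (R i) (S i) (C i) (padD (R i) (S i) (B i * R i * C i) (l i))) :=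
    arr_mk h.len h.cost (hsw _ a2 fun i hi => ⟨e2 i hi, (e2 i hi).le.trans (hm i hi).2.1⟩)
      (fun i hi => bd_swap (a2.bd i hi) (by positivity))
      fun i hi => ((length_swap _ _ _ _).trans (e2 i hi)).le.trans (hm i hi).2.1
  have a4 := arr_pad h.len h.cost a3 (A := fun i => A i * S i * B i) hS hR hC (fun i hi => by
      obtain ⟨-, h2, h3, h4, h5, -⟩ := hl i hi
      have := (hm i hi).1
      exact ⟨(length_swap _ _ _ _).trans (e2 i hi), by positivity, this, h5⟩)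
    fun i hi => (hm i hi).2.2
  have a5 := arr_pad h.len h.cost a4 (A := A) hS hR hP (fun i hi => by
      obtain ⟨-, h2, h3, h4, h5, -⟩ := hl i hi
      have := (hm i hi).1
      refine ⟨?_, h2, this, by positivity⟩
      rw [padD, length_dg _ this h5 ((length_swap _ _ _ _).trans (e2 i hi))]; ring)
    fun i hi => by rw [← e0 i hi]; omega
  refine a5.tm.congr fun i hi => ?_
  obtain ⟨h1, -, h3, h4, h5, h6, -⟩ := hl i hi
  exact pad_swap h1 h3 h4 h5 h6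

end

end SwapAux

open SwapAux in
theorem exists_swap : ∃ D : ℕ, 0 < D ∧ ∀ {ι : Type} [Enc ι] {𝒯 : Cls ι} [Dom 𝒯] {b : ι → ℕ}
    {l : ι → List ℕ} {A R B C r μ : ι → ℕ}, ArrOK 𝒯 b l → Tm 𝒯 b → Tm 𝒯 R → Tm 𝒯 B → Tm 𝒯 C →
    Tm 𝒯 r → Tm 𝒯 μ →
    (∀ i, 𝒯.dom i → (l i).length = A i * R i * B i * R i * C i ∧ 0 < A i ∧ 0 < R i ∧ 0 < B i ∧
      0 < C i ∧ Wn ^ r i ∣ A i ∧ D ∣ μ i + 1 ∧ 2 ≤ μ i ∧ R i ≤ μ i ^ 289 ^ r i ∧
      μ i ^ 289 ^ r i ≤ 2 * R i ∧ b i + 2 ≤ Nat.log 2 (μ i) ^ 2) →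
    𝒯.mem (fun i => (l i).length * (b i + 1) * swc (r i) (μ i)) →
    Tm 𝒯 (fun i => swap (R i) (B i) (C i) (l i)) := by
  obtain ⟨D, K, hD, hrec⟩ := exists_rec
  refine ⟨D, hD, ?_⟩
  intro ι _ 𝒯 _ b l A R B C r μ h hb hR hB hC hr hμ hl hc
  obtain ⟨hS, hP⟩ := top_par (A := A) h hb hR hB hC hr hμ fun i hi => by
    obtain ⟨h1, h2, h3, h4, h5, -, -, h6, -, h7, h8⟩ := hl i hi
    exact ⟨h1, h2, h3, h4, h5, h6, h7, h8⟩
  refine top_pad (A := A) h hR hS hC hP (fun i hi => ?_) fun l' a2 e2 => ?_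
  · obtain ⟨h1, h2, h3, h4, h5, -, -, -, h6, h7, -⟩ := hl i hi
    exact ⟨h1, h2, h3, h4, h5, h6, h7⟩
  have hx : Tm 𝒯 fun i => ((r i, μ i, b i + 2, B i, C i, l' i) : Ar) :=
    hr.pair (hμ.pair ((hb.add (Tm.const 2)).pair (hB.pair (hC.pair a2.tm))))
  have hU : 𝒯.mem fun i => U0 (r i, μ i, b i + 2, B i, C i, l' i) :=
    Cls.lin hc 24 0 fun i hi => U0_le (e2 i hi).2
  have t3 := hrec.compB hx (fun i hi => by
    obtain ⟨-, h2, -, h4, h5, h6, h7, h8, -, -, h9⟩ := hl i hi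
    exact ⟨A i, (e2 i hi).1, h2, h4, h5, h6, a2.bd i hi, a2.len i hi, h7, h8, h9⟩) (Cls.cmul hU K)
  exact t3

/-- The modulus condition of the fast exchange. -/
noncomputable def D0 : ℕ := exists_swap.choose

theorem D0_pos : 0 < D0 := exists_swap.choose_spec.1

theorem Tm.swap {ι : Type} [Enc ι] {𝒯 : Cls ι} [Dom 𝒯] {b : ι → ℕ} {l : ι → List ℕ}
    {A R B C r μ : ι → ℕ} (h : ArrOK 𝒯 b l) (hb : Tm 𝒯 b) (hR : Tm 𝒯 R) (hB : Tm 𝒯 B)
    (hC : Tm 𝒯 C) (hr : Tm 𝒯 r) (hμ : Tm 𝒯 μ)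
    (hl : ∀ i, 𝒯.dom i → (l i).length = A i * R i * B i * R i * C i ∧ 0 < A i ∧ 0 < R i ∧
      0 < B i ∧ 0 < C i ∧ Wn ^ r i ∣ A i ∧ D0 ∣ μ i + 1 ∧ 2 ≤ μ i ∧ R i ≤ μ i ^ 289 ^ r i ∧
      μ i ^ 289 ^ r i ≤ 2 * R i ∧ b i + 2 ≤ Nat.log 2 (μ i) ^ 2)
    (hc : 𝒯.mem (fun i => (l i).length * (b i + 1) * swc (r i) (μ i))) :
    Tm 𝒯 (fun i => P338.swap (R i) (B i) (C i) (l i)) :=
  exists_swap.choose_spec.2 h hb hR hB hC hr hμ hl hc

end Vale.Agent.P338
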