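import Vale.Agent.P338.Arr
import Vale.Agent.P338.Lab1

/-! Mixed radix indices for the fast exchange. -/

namespace Vale.Agent.P338

namespace SwapAux

open Finset Function

/-- Product of the radices at the positions `p, …, q - 1`. -/
def HP (ρ : ℕ → ℕ) (p q : ℕ) : ℕ := ∏ k ∈ Ico p q, ρ k

/-- Value of the digits at the positions `p, …, q - 1`. -/
def HV (ρ δ : ℕ → ℕ) (p q : ℕ) : ℕ := ∑ k ∈ Ico p q, δ k * HP ρ (k + 1) q

variable {ρ δ δ' : ℕ → ℕ} {p q s : ℕ}

theorem HP_split (h1 : p ≤ q) (h2 : q ≤ s) : HP ρ p s = HP ρ p q * HP ρ q s :=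
  (Finset.prod_Ico_consecutive ρ h1 h2).symm

theorem HP_self : HP ρ p p = 1 := by simp [HP]

theorem HP_one : HP ρ p (p + 1) = ρ p := by simp [HP]

theorem HP_pos (h : ∀ k, 0 < ρ k) : 0 < HP ρ p q := Finset.prod_pos fun k _ => h k

theorem HP_const {m : ℕ} (h : ∀ k, p ≤ k → k < q → ρ k = m) : HP ρ p q = m ^ (q - p) := by
  rw [HP, Finset.prod_congr rfl fun k hk => h k (mem_Ico.1 hk).1 (mem_Ico.1 hk).2,
    Finset.prod_const, Nat.card_Ico]

theorem HV_self : HV ρ δ p p = 0 := by simp [HV]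

theorem HV_one : HV ρ δ p (p + 1) = δ p := by simp [HV, HP]

theorem HV_split (h1 : p ≤ q) (h2 : q ≤ s) :
    HV ρ δ p s = HV ρ δ p q * HP ρ q s + HV ρ δ q s := by
  rw [HV, ← Finset.sum_Ico_consecutive _ h1 h2, HV, Finset.sum_mul]
  congr 1
  refine Finset.sum_congr rfl fun k hk => ?_
  rw [HP_split (q := q) (mem_Ico.1 hk).2 h2, mul_assoc]

theorem HV_succ (h : p ≤ q) : HV ρ δ p (q + 1) = HV ρ δ p q * ρ q + δ q := by
  rw [HV_split h (Nat.le_succ q), HP_one, HV_one]

theorem HP_succ (h : p ≤ q) : HP ρ p (q + 1) = HP ρ p q * ρ q := by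
  rw [HP_split h (Nat.le_succ q), HP_one]

theorem HV_congr (h : ∀ k, p ≤ k → k < q → δ k = δ' k) : HV ρ δ p q = HV ρ δ' p q :=
  Finset.sum_congr rfl fun k hk => by rw [h k (mem_Ico.1 hk).1 (mem_Ico.1 hk).2]

theorem HV_lt (hpq : p ≤ q) (h : ∀ k, p ≤ k → k < q → δ k < ρ k) : HV ρ δ p q < HP ρ p q := by
  induction q, hpq using Nat.le_induction with
  | base => rw [HV_self, HP_self]; exact one_pos
  | succ q hq ih =>
    rw [HV_succ hq, HP_succ hq]
    exact idx_lt (ih fun k h1 h2 => h k h1 (by omega)) (h q hq (by omega))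

theorem HV_surj (hpq : p ≤ q) {i : ℕ} (hi : i < HP ρ p q) :
    ∃ δ : ℕ → ℕ, (∀ k, p ≤ k → k < q → δ k < ρ k) ∧ HV ρ δ p q = i := by
  induction q, hpq using Nat.le_induction generalizing i with
  | base =>
    rw [HP_self] at hi
    exact ⟨fun _ => 0, fun k h1 h2 => by omega, by rw [HV_self]; omega⟩
  | succ q hq ih =>
    rw [HP_succ hq] at hi
    obtain ⟨u, hu, v, hv, rfl⟩ := idx_decomp hi
    obtain ⟨δ, h1, h2⟩ := ih hu
    refine ⟨update δ q v, fun k h3 h4 => ?_, ?_⟩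
    · by_cases hk : k = q
      · rw [hk, update_self]; exact hv
      · rw [update_of_ne hk]; exact h1 k h3 (by omega)
    · rw [HV_succ hq, update_self, ← h2]
      congr 2
      exact HV_congr fun k _ h4 => update_of_ne (by omega) _ _

theorem HV_shift {p' : ℕ} (n : ℕ)
    (h : ∀ k < n, ρ (p + k) = ρ (p' + k) ∧ δ (p + k) = δ' (p' + k)) :
    HV ρ δ p (p + n) = HV ρ δ' p' (p' + n) := by
  induction n with
  | zero => rw [add_zero, add_zero, HV_self, HV_self]
  | succ n ih =>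
    rw [← add_assoc, ← add_assoc, HV_succ (Nat.le_add_right _ _), HV_succ (Nat.le_add_right _ _),
      ih fun k hk => h k (by omega), (h n (by omega)).1, (h n (by omega)).2]

theorem HV_at {N : ℕ} (hp : p < N) :
    HV ρ δ 0 N = (HV ρ δ 0 p * ρ p + δ p) * HP ρ (p + 1) N + HV ρ δ (p + 1) N := by
  rw [HV_split (Nat.zero_le (p + 1)) hp, HV_succ (Nat.zero_le p)]

theorem HP_at {N : ℕ} (hp : p < N) : HP ρ 0 N = HP ρ 0 p * ρ p * HP ρ (p + 1) N := by
  rw [HP_split (Nat.zero_le (p + 1)) hp, HP_succ (Nat.zero_le p)]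

theorem HV_at2 {N : ℕ} (hp : p < q) (hq : q < N) :
    HV ρ δ 0 N = (((HV ρ δ 0 p * ρ p + δ p) * HP ρ (p + 1) q + HV ρ δ (p + 1) q) * ρ q + δ q) *
      HP ρ (q + 1) N + HV ρ δ (q + 1) N := by
  rw [HV_at hq, HV_at hp]

theorem HP_at2 {N : ℕ} (hp : p < q) (hq : q < N) :
    HP ρ 0 N = HP ρ 0 p * ρ p * HP ρ (p + 1) q * ρ q * HP ρ (q + 1) N := by
  rw [HP_at hq, HP_at hp]

theorem HV_digit (hp : p < q) (h : ∀ k < q, δ k < ρ k) :
    HV ρ δ 0 q / HP ρ (p + 1) q % ρ p = δ p := by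
  rw [HV_at hp, idx_div (HV_lt hp fun k _ h2 => h k h2), idx_mod (h p hp)]

theorem gt_dg_HV {N : ℕ} (hp : p < N) (h : ∀ k < N, δ k < ρ k) {l : List ℕ}
    (hl : l.length = HP ρ 0 N) (π : ℕ → ℕ → Option ℕ) {v : ℕ}
    (hπ : π (HV ρ δ 0 p) (δ p) = some v) :
    gt (dg (ρ p) (ρ p) (HP ρ (p + 1) N) π l) (HV ρ δ 0 N) = gt l (HV ρ (update δ p v) 0 N) := by
  rw [HP_at hp] at hl
  have h1 := h p hp
  rw [HV_at hp, gt_dg π (by omega) hl (HV_lt (Nat.zero_le _) fun k _ h2 => h k (by omega)) h1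
    (HV_lt hp fun k _ h2 => h k h2), hπ, HV_at hp, update_self,
    HV_congr (δ := update δ p v) (δ' := δ) fun k _ h2 => update_of_ne (by omega) _ _,
    HV_congr (δ := update δ p v) (δ' := δ) fun k h2 _ => update_of_ne (by omega) _ _]
  rfl

theorem gt_swap_HV {N : ℕ} (hp : p < q) (hq : q < N) (hρ : ρ q = ρ p) (h : ∀ k < N, δ k < ρ k)
    {l : List ℕ} (hl : l.length = HP ρ 0 N) :
    gt (swap (ρ p) (HP ρ (p + 1) q) (HP ρ (q + 1) N) l) (HV ρ δ 0 N)
      = gt l (HV ρ (update (update δ p (δ q)) q (δ p)) 0 N) := by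
  rw [HP_at2 hp hq, hρ] at hl
  have h1 := h p (by omega)
  have h2 := h q hq
  have e : ∀ k, k ≠ p → k ≠ q → update (update δ p (δ q)) q (δ p) k = δ k := fun k h3 h4 => by
    rw [update_of_ne h4, update_of_ne h3]
  rw [HV_at2 hp hq, hρ, gt_swap hl (HV_lt (Nat.zero_le _) fun k _ h2 => h k (by omega)) h1
    (HV_lt hp fun k _ h2 => h k (by omega)) (hρ ▸ h2) (HV_lt hq fun k _ h2 => h k h2),
    HV_at2 hp hq, hρ, update_self, update_of_ne (by omega), update_self,
    HV_congr (δ' := δ) (p := 0) fun k _ h2 => e k (by omega) (by omega),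
    HV_congr (δ' := δ) (p := p + 1) fun k h1 h2 => e k (by omega) (by omega),
    HV_congr (δ' := δ) (p := q + 1) fun k h1 h2 => e k (by omega) (by omega)]

/-- Index tuples. -/
abbrev Ix (m : ℕ) : Type := ℕ × (J → ZMod m) × ℕ × ℕ

/-- Position of a digit. -/
def pos (j : J) : ℕ := if j.1 < 289 then j.1 + 1 else j.1 + 2

/-- The digits of an index tuple. -/
def dig {m : ℕ} (t : Ix m) (k : ℕ) : ℕ :=
  if k = 0 then t.1 else if h : k < 290 then (t.2.1 ⟨k - 1, by omega⟩).val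
  else if k = 290 then t.2.2.1 else if h : k < 580 then (t.2.1 ⟨k - 2, by omega⟩).val else t.2.2.2

/-- The radices. -/
def rad (A m B C : ℕ) (k : ℕ) : ℕ :=
  if k = 0 then A else if k = 290 then B else if k = 580 then C else m

theorem pos_facts (j : J) : pos j ≠ 0 ∧ pos j ≠ 290 ∧ pos j < 580 := by
  have := j.2
  unfold pos
  split_ifs <;> omega

theorem pos_lt {i j : J} (h : i < j) : pos i < pos j := by
  have : i.1 < j.1 := h
  unfold pos
  split_ifs <;> omega

theorem pos_inj {i j : J} (h : pos i = pos j) : i = j := by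
  unfold pos at h
  refine Fin.ext ?_
  split_ifs at h <;> omega

theorem exists_pos {k : ℕ} (h0 : k ≠ 0) (h1 : k ≠ 290) (h2 : k < 580) : ∃ j, pos j = k := by
  by_cases h : k < 290
  · exact ⟨⟨k - 1, by omega⟩, by unfold pos; dsimp only; split_ifs <;> omega⟩
  · exact ⟨⟨k - 2, by omega⟩, by unfold pos; dsimp only; split_ifs <;> omega⟩

theorem rad_pos_eq (A m B C : ℕ) (j : J) : rad A m B C (pos j) = m := by
  obtain ⟨h1, h2, h3⟩ := pos_facts j
  rw [rad, if_neg h1, if_neg h2, if_neg (by omega)]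

theorem dig_pos {m : ℕ} (t : Ix m) (j : J) : dig t (pos j) = (t.2.1 j).val := by
  obtain ⟨h1, h2, h3⟩ := pos_facts j
  rw [dig, if_neg h1]
  by_cases h : j.1 < 289
  · have e : pos j = j.1 + 1 := if_pos h
    rw [dif_pos (by omega)]
    exact congrArg (fun i => (t.2.1 i).val) (Fin.ext (by dsimp only; omega))
  · have e : pos j = j.1 + 2 := if_neg h
    rw [dif_neg (by omega), if_neg h2, dif_pos h3]
    exact congrArg (fun i => (t.2.1 i).val) (Fin.ext (by dsimp only; omega))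

theorem dig_zero {m : ℕ} (t : Ix m) : dig t 0 = t.1 := if_pos rfl

theorem dig_mid {m : ℕ} (t : Ix m) : dig t 290 = t.2.2.1 := by
  rw [dig, if_neg (by omega), dif_neg (by omega), if_pos rfl]

theorem dig_last {m : ℕ} (t : Ix m) {k : ℕ} (hk : 580 ≤ k) : dig t k = t.2.2.2 := by
  rw [dig, if_neg (by omega), dif_neg (by omega), if_neg (by omega), dif_neg (by omega)]

theorem dig_ext {m : ℕ} (t : Ix m) (f : ℕ → ℕ) (h0 : f 0 = t.1) (h1 : f 290 = t.2.2.1)
    (h2 : f 580 = t.2.2.2) (h3 : ∀ j, f (pos j) = (t.2.1 j).val) : ∀ k < 581, dig t k = f k := by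
  intro k hk
  by_cases e0 : k = 0
  · rw [e0, dig_zero, h0]
  by_cases e1 : k = 290
  · rw [e1, dig_mid, h1]
  by_cases e2 : k = 580
  · rw [e2, dig_last t le_rfl, h2]
  obtain ⟨j, rfl⟩ := exists_pos e0 e1 (by omega)
  rw [dig_pos, h3]

theorem dig_update {m : ℕ} (t : Ix m) (j : J) (v : ZMod m) :
    ∀ k < 581, dig (t.1, update t.2.1 j v, t.2.2) k = update (dig t) (pos j) v.val k := by
  obtain ⟨h1, h2, h3⟩ := pos_facts j
  refine dig_ext _ _ ?_ ?_ ?_ fun i => ?_
  · rw [update_of_ne h1.symm, dig_zero]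
  · rw [update_of_ne h2.symm, dig_mid]
  · rw [update_of_ne (by omega), dig_last t le_rfl]
  · by_cases e : i = j
    · rw [e, update_self]
      dsimp only
      rw [update_self]
    · rw [update_of_ne fun h => e (pos_inj h), dig_pos]
      dsimp only
      rw [update_of_ne e]

/-- Valid index tuples. -/
def Ok (A B C : ℕ) {m : ℕ} (t : Ix m) : Prop := t.1 < A ∧ t.2.2.1 < B ∧ t.2.2.2 < C

theorem dig_lt {A m B C : ℕ} (hm : 0 < m) {t : Ix m} (ht : Ok A B C t) :
    ∀ k < 581, dig t k < rad A m B C k := by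
  intro k hk
  have : NeZero m := ⟨hm.ne'⟩
  by_cases e0 : k = 0
  · rw [e0, dig_zero]; exact ht.1
  by_cases e1 : k = 290
  · rw [e1, dig_mid]; exact ht.2.1
  by_cases e2 : k = 580
  · rw [e2, dig_last t le_rfl]; exact ht.2.2
  obtain ⟨j, rfl⟩ := exists_pos e0 e1 (by omega)
  rw [dig_pos, rad_pos_eq]
  exact ZMod.val_lt _

/-- The flat index of a tuple. -/
def flat (A B C : ℕ) {m : ℕ} (t : Ix m) : ℕ := HV (rad A m B C) (dig t) 0 581

theorem HP_lo (A m B C : ℕ) : HP (rad A m B C) 1 290 = m ^ 289 := by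
  rw [HP_const (m := m) fun k h1 h2 => by
    rw [rad, if_neg (by omega), if_neg (by omega), if_neg (by omega)]]

theorem HP_hi (A m B C : ℕ) : HP (rad A m B C) 291 580 = m ^ 289 := by
  rw [HP_const (m := m) fun k h1 h2 => by
    rw [rad, if_neg (by omega), if_neg (by omega), if_neg (by omega)]]

theorem HP_all (A m B C : ℕ) : HP (rad A m B C) 0 581 = A * m ^ 289 * B * m ^ 289 * C := by
  rw [HP_succ (q := 580) (by omega), HP_split (p := 0) (q := 291) (s := 580) (by omega) (by omega),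
    HP_succ (q := 290) (by omega), HP_split (p := 0) (q := 1) (s := 290) (by omega) (by omega),
    HP_lo, HP_hi, HP_one (p := 0)]
  rfl

theorem flat_eq (A B C : ℕ) {m : ℕ} (t : Ix m) : flat A B C t =
    (((t.1 * m ^ 289 + HV (rad A m B C) (dig t) 1 290) * B + t.2.2.1) * m ^ 289 +
      HV (rad A m B C) (dig t) 291 580) * C + t.2.2.2 := by
  rw [flat, HV_succ (q := 580) (by omega),
    HV_split (p := 0) (q := 291) (s := 580) (by omega) (by omega),
    HV_succ (q := 290) (by omega), HV_split (p := 0) (q := 1) (s := 290) (by omega) (by omega),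
    HP_lo, HP_hi, HV_one (p := 0), dig_zero, dig_mid, dig_last t le_rfl]
  rfl

theorem flat_lt {A m B C : ℕ} (hm : 0 < m) {t : Ix m} (ht : Ok A B C t) :
    flat A B C t < A * m ^ 289 * B * m ^ 289 * C := by
  rw [← HP_all]
  exact HV_lt (by omega) fun k _ h => dig_lt hm ht k h

theorem flat_surj {A m B C i : ℕ} (hi : i < A * m ^ 289 * B * m ^ 289 * C) :
    ∃ t : Ix m, Ok A B C t ∧ flat A B C t = i := by
  rw [← HP_all] at hi
  obtain ⟨δ, h1, h2⟩ := HV_surj (by omega) hi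
  refine ⟨(δ 0, fun j => (δ (pos j) : ZMod m), δ 290, δ 580), ⟨h1 0 (by omega) (by omega),
    h1 290 (by omega) (by omega), h1 580 (by omega) (by omega)⟩, ?_⟩
  rw [← h2]
  refine HV_congr fun k _ hk => dig_ext _ δ rfl rfl rfl (fun j => ?_) k hk
  have h3 := h1 (pos j) (by omega) (by have := pos_facts j; omega)
  rw [rad_pos_eq] at h3
  exact (ZMod.val_cast_of_lt h3).symm

theorem hsw_lo (A B C : ℕ) {m : ℕ} (t : Ix m) :
    HV (rad A m B C) (dig (t.1, t.2.1 ∘ hsw, t.2.2)) 1 290 = HV (rad A m B C) (dig t) 291 580 := by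
  refine HV_shift (p := 1) (p' := 291) 289 fun k hk => ⟨?_, ?_⟩
  · rw [rad, rad, if_neg (by omega), if_neg (by omega), if_neg (by omega), if_neg (by omega),
      if_neg (by omega), if_neg (by omega)]
  · have e1 : 1 + k = pos ⟨k, by omega⟩ := by unfold pos; dsimp only; split_ifs; omega
    have e2 : 291 + k = pos (hsw ⟨k, by omega⟩) := by
      unfold pos hsw; dsimp only; rw [dif_pos hk]; dsimp only; split_ifs <;> omega
    rw [e1, e2, dig_pos, dig_pos]
    rfl

theorem hsw_hi (A B C : ℕ) {m : ℕ} (t : Ix m) :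
    HV (rad A m B C) (dig (t.1, t.2.1 ∘ hsw, t.2.2)) 291 580 = HV (rad A m B C) (dig t) 1 290 := by
  refine HV_shift (p := 291) (p' := 1) 289 fun k hk => ⟨?_, ?_⟩
  · rw [rad, rad, if_neg (by omega), if_neg (by omega), if_neg (by omega), if_neg (by omega),
      if_neg (by omega), if_neg (by omega)]
  · have e1 : 291 + k = pos ⟨k + 289, by omega⟩ := by unfold pos; dsimp only; split_ifs <;> omega
    have e2 : 1 + k = pos (hsw ⟨k + 289, by omega⟩) := by
      unfold pos hsw; dsimp only; rw [dif_neg (by omega)]; dsimp only; split_ifs <;> omega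
    rw [e1, e2, dig_pos, dig_pos]
    rfl

/-- The exchange on the whole array, seen on one piece. -/
theorem gt_swap_flat {W A m B C : ℕ} (hm : 0 < m) {l : List ℕ}
    (hl : l.length = W * (A * m ^ 289 * B * m ^ 289 * C)) {w : ℕ} (hw : w < W) {t : Ix m}
    (ht : Ok A B C t) :
    gt (swap (m ^ 289) B C l) (w * (A * m ^ 289 * B * m ^ 289 * C) + flat A B C t)
      = gt l (w * (A * m ^ 289 * B * m ^ 289 * C) + flat A B C (t.1, t.2.1 ∘ hsw, t.2.2)) := by
  have hl' : l.length = W * A * m ^ 289 * B * m ^ 289 * C := by rw [hl]; ring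
  have h1 : HV (rad A m B C) (dig t) 1 290 < m ^ 289 := by
    rw [← HP_lo A m B C]
    exact HV_lt (by omega) fun k _ h => dig_lt hm ht k (by omega)
  have h2 : HV (rad A m B C) (dig t) 291 580 < m ^ 289 := by
    rw [← HP_hi A m B C]
    exact HV_lt (by omega) fun k _ h => dig_lt hm ht k (by omega)
  have h3 := gt_swap hl' (idx_lt hw ht.1) h1 ht.2.1 h2 ht.2.2
  rw [flat_eq, flat_eq, hsw_lo, hsw_hi]
  dsimp only
  generalize m ^ 289 = R at h3 ⊢
  refine Eq.trans (congrArg _ ?_) (h3.trans (congrArg _ ?_)) <;> ring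

/-- A bit as a residue. -/
def bt (n t : ℕ) : ZMod 2 := if n.testBit t then 1 else 0

theorem bt_zero (t : ℕ) : bt 0 t = 0 := by simp [bt]

theorem bt_xor (x y t : ℕ) : bt (x ^^^ y) t = bt x t + bt y t := by
  unfold bt
  rw [Nat.testBit_xor]
  cases x.testBit t <;> cases y.testBit t <;> decide

theorem bt_inj {x y : ℕ} (h : ∀ t, bt x t = bt y t) : x = y := by
  refine Nat.eq_of_testBit_eq fun t => ?_
  have := h t
  unfold bt at this
  revert this
  cases x.testBit t <;> cases y.testBit t <;> decide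

theorem gt_zipWith_xor {l l' : List ℕ} (h : l.length = l'.length) (i : ℕ) :
    gt (List.zipWith (fun x y => x ^^^ y) l l') i = gt l i ^^^ gt l' i := by
  by_cases hi : i < l.length
  · rw [gt_eq (l := List.zipWith _ l l') (by simp; omega), List.getElem_zipWith, gt_eq hi,
      gt_eq (l := l') (h ▸ hi)]
  · rw [gt_of_le (l := List.zipWith _ l l') (by simp; omega), gt_of_le (l := l) (by omega),
      gt_of_le (l := l') (by omega)]
    rfl

theorem pow_log_le (c : ℕ) : ∃ K, ∀ μ b, μ ≠ 0 → b ≤ Nat.log 2 μ ^ 2 → (b + b + 1) ^ c ≤ K * μ := by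
  refine ⟨2 ^ c * ((2 * c).factorial * 2 ^ (2 * c)), fun μ b hμ hb => ?_⟩
  have h1 := Nat.pow_log_le_self 2 hμ
  generalize Nat.log 2 μ = L at hb h1
  have h2 : b + b + 1 ≤ 2 * (L + 1) ^ 2 := by nlinarith [Nat.zero_le L]
  have h3 : (L + 1) ^ (2 * c) ≤ (2 * c).factorial * 2 ^ (L + 2 * c) := by
    refine le_trans (Nat.pow_succ_le_ascFactorial (L + 1) (2 * c)) ?_
    rw [Nat.ascFactorial_eq_factorial_mul_choose]
    exact Nat.mul_le_mul_left _ (Nat.choose_le_two_pow _ _)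
  calc (b + b + 1) ^ c ≤ (2 * (L + 1) ^ 2) ^ c := Nat.pow_le_pow_left h2 c
    _ = 2 ^ c * (L + 1) ^ (2 * c) := by rw [mul_pow, ← pow_mul]
    _ ≤ 2 ^ c * ((2 * c).factorial * 2 ^ (L + 2 * c)) := Nat.mul_le_mul_left _ h3
    _ = 2 ^ c * ((2 * c).factorial * 2 ^ (2 * c)) * 2 ^ L := by ring
    _ ≤ _ := Nat.mul_le_mul_left _ h1

end SwapAux

end Vale.Agent.P338
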