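import Vale.Agent.P338.Lang

/-! Bracket words and programs that move them between stacks. -/

namespace Vale.Agent.P338

open Function

/-- Well bracketed words. -/
inductive Dyck : List Tk → Prop
  | nil : Dyck []
  | cons {u v : List Tk} : Dyck u → Dyck v → Dyck (.op :: u ++ .cl :: v)

/-- Concatenations of `n` bracketed items. -/
inductive Items : ℕ → List Tk → Prop
  | nil : Items 0 []
  | cons {u v : List Tk} {n : ℕ} : Dyck u → Items n v → Items (n + 1) (.op :: u ++ .cl :: v)

theorem Dyck.append {u v : List Tk} (hu : Dyck u) (hv : Dyck v) : Dyck (u ++ v) := by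
  induction hu with
  | nil => simpa
  | cons h1 _ _ ih => simpa using Dyck.cons h1 ih

theorem Items.append {n n' : ℕ} {u v : List Tk} (hu : Items n u) (hv : Items n' v) :
    Items (n + n') (u ++ v) := by
  induction hu with
  | nil => simpa
  | @cons u w n h1 _ ih =>
    have := Items.cons h1 ih
    rw [show n + 1 + n' = n + n' + 1 by omega]
    simpa using this

theorem Items.dyck {n : ℕ} {u : List Tk} (h : Items n u) : Dyck u := by
  induction h with
  | nil => exact .nil
  | cons h1 _ ih => exact .cons h1 ih

theorem Items.one {u : List Tk} (h : Dyck u) : Items 1 (.op :: u ++ [.cl]) := .cons h .nil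

theorem Items.head {n : ℕ} {u : List Tk} (h : Items n u) (hn : 0 < n) : ∃ v, u = .op :: v := by
  cases h with
  | nil => omega
  | cons _ _ => exact ⟨_, rfl⟩

/-- Exchange of the two brackets. -/
def Tk.flip : Tk → Tk
  | .op => .cl
  | .cl => .op
  | a => a

/-- The mirror image of a word. -/
def mir (w : List Tk) : List Tk := (w.map Tk.flip).reverse

@[simp] theorem mir_nil : mir [] = [] := rfl
@[simp] theorem mir_append (u v : List Tk) : mir (u ++ v) = mir v ++ mir u := by simp [mir]
@[simp] theorem mir_op (u : List Tk) : mir (.op :: u) = mir u ++ [.cl] := by simp [mir, Tk.flip]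
@[simp] theorem mir_cl (u : List Tk) : mir (.cl :: u) = mir u ++ [.op] := by simp [mir, Tk.flip]
@[simp] theorem mir_length (u : List Tk) : (mir u).length = u.length := by simp [mir]
@[simp] theorem mir_mir (u : List Tk) : mir (mir u) = u := by
  have : Tk.flip ∘ Tk.flip = id := by funext a; cases a <;> rfl
  simp [mir, this]

theorem Dyck.mir {u : List Tk} (h : Dyck u) : Dyck (mir u) := by
  induction h with
  | nil => exact .nil
  | cons _ _ ih1 ih2 => simpa using ih2.append (Dyck.cons ih1 .nil)

theorem Items.mir {n : ℕ} {u : List Tk} (h : Items n u) : Items n (mir u) := by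
  induction h with
  | nil => exact .nil
  | cons h1 _ ih => simpa using ih.append (Items.one h1.mir)

/-- The empty program. -/
def skip : Prog := .seq (.push .z .sep) (.pop .z)

theorem run_skip (b : Prog) (s : St) : Run b skip s s 2 :=
  ((Run.push b .z .sep s).seq (Run.pop b .z _)).congr (by simp) le_rfl

/-- Put a word on each stack of a list. -/
def addAll (w : List Tk) : List K → St → St
  | [], s => s
  | k :: ks, s => addAll w ks (update s k (w ++ s k))

theorem addAll_apply (w : List Tk) {ks : List K} (h : ks.Nodup) (s : St) (k : K) :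
    addAll w ks s k = if k ∈ ks then w ++ s k else s k := by
  induction ks generalizing s with
  | nil => simp [addAll]
  | cons j ks ih =>
    rw [List.nodup_cons] at h
    rw [addAll, ih h.2]
    by_cases e : k = j
    · subst e; simp [h.1]
    · simp [e]

/-- Push a token on each stack of a list. -/
def pushAll (a : Tk) : List K → Prog
  | [] => skip
  | k :: ks => .seq (.push k a) (pushAll a ks)

theorem run_pushAll (b : Prog) (a : Tk) (ks : List K) (s : St) :
    Run b (pushAll a ks) s (addAll [a] ks s) (ks.length + 2) := by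
  induction ks generalizing s with
  | nil => exact run_skip b s
  | cons k ks ih => exact ((Run.push b k a s).seq (ih _)).congr rfl (by simp; omega)

/-- One round of the transfer loop. -/
def xbody (a : K) (ks : List K) : Prog :=
  .ite a .op (.seq (.pop a) (.seq (pushAll .cl ks) (.push .z .op)))
    (.seq (.pop a) (.seq (pushAll .op ks) (.pop .z)))

/-- The state after removing `u` from `a`, with its mirror image put on `ks`. -/
def moved (a : K) (ks : List K) (s : St) (u r zs : List Tk) : St :=
  fun k => if k = .z then zs else if k = a then r else if k ∈ ks then mir u ++ s k else s k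

theorem xstep_op {b : Prog} {a : K} {ks : List K} (ha : a ≠ .z) (hn : ks.Nodup) (h1 : a ∉ ks)
    (h2 : K.z ∉ ks) (s : St) (u r zs : List Tk) :
    Run b (xbody a ks) (moved a ks s u (.op :: r) zs) (moved a ks s (u ++ [.op]) r (.op :: zs))
      (ks.length + 5) := by
  refine (Run.iteT (by simp [moved, ha]) ((Run.pop _ _ _).seq
    ((run_pushAll _ _ _ _).seq (Run.push _ _ _ _)))).congr ?_ (by omega)
  funext k
  by_cases e : k = .z
  · subst e; simp [addAll_apply _ hn, h2, moved, ha.symm]
  · by_cases e' : k = a
    · subst e'; simp [addAll_apply _ hn, h1, moved, e]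
    · by_cases e'' : k ∈ ks <;> simp [addAll_apply _ hn, moved, e, e', e'']

theorem xstep_cl {b : Prog} {a : K} {ks : List K} (ha : a ≠ .z) (hn : ks.Nodup) (h1 : a ∉ ks)
    (h2 : K.z ∉ ks) (s : St) (u r zs : List Tk) :
    Run b (xbody a ks) (moved a ks s u (.cl :: r) (.op :: zs)) (moved a ks s (u ++ [.cl]) r zs)
      (ks.length + 5) := by
  refine (Run.iteF (by simp [moved, ha]) ((Run.pop _ _ _).seq
    ((run_pushAll _ _ _ _).seq (Run.pop _ _ _)))).congr ?_ (by omega)
  funext k
  by_cases e : k = .z
  · subst e; simp [addAll_apply _ hn, h2, moved, ha.symm]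
  · by_cases e' : k = a
    · subst e'; simp [addAll_apply _ hn, h1, moved, e]
    · by_cases e'' : k ∈ ks <;> simp [addAll_apply _ hn, moved, e, e', e'']

theorem xloop {b : Prog} {a : K} {ks : List K} (ha : a ≠ .z) (hn : ks.Nodup) (h1 : a ∉ ks)
    (h2 : K.z ∉ ks) (s : St) {d : List Tk} (hd : Dyck d) : ∀ (u r zs : List Tk) (s' : St) (t : ℕ),
    Run b (.loop .z .op (xbody a ks)) (moved a ks s (u ++ d) r (.op :: zs)) s' t →
    Run b (.loop .z .op (xbody a ks)) (moved a ks s u (d ++ r) (.op :: zs)) s'
      (t + d.length * (ks.length + 6)) := by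
  induction hd with
  | nil => intro u r zs s' t h; simpa using h
  | @cons d1 d2 _ _ ih1 ih2 =>
    intro u r zs s' t h
    have e1 := ih2 (u ++ [.op] ++ d1 ++ [.cl]) r zs s' t (by simpa using h)
    have e2 := Run.loopT (by simp [moved])
      (xstep_cl (b := b) ha hn h1 h2 s (u ++ [.op] ++ d1) (d2 ++ r) (.op :: zs)) e1
    have e3 := ih1 (u ++ [.op]) (.cl :: (d2 ++ r)) (.op :: zs) s' _ e2
    have e4 := Run.loopT (by simp [moved])
      (xstep_op (b := b) ha hn h1 h2 s u (d1 ++ .cl :: (d2 ++ r)) (.op :: zs)) e3
    refine (by simpa using e4 : Run b _ _ s' _).weaken ?_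
    simp only [List.length_cons, List.length_append]
    ring_nf; omega

/-- Move one item from `a` to the stacks `ks`. -/
def xfer (a : K) (ks : List K) : Prog :=
  .seq (.push .z .sep) (.seq (xbody a ks) (.seq (.loop .z .op (xbody a ks)) (.pop .z)))

theorem run_xfer {b : Prog} {a : K} {ks : List K} (ha : a ≠ .z) (hn : ks.Nodup) (h1 : a ∉ ks)
    (h2 : K.z ∉ ks) (s : St) {d r : List Tk} (hd : Dyck d) (hs : s a = .op :: d ++ .cl :: r) :
    Run b (xfer a ks) s (addAll (mir (.op :: d ++ [.cl])) ks (update s a r))
      ((d.length + 2) * (ks.length + 8)) := by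
  have e0 : update s .z (.sep :: s .z) =
      moved a ks s [] (.op :: (d ++ .cl :: r)) (.sep :: s .z) := by
    funext k
    by_cases e : k = .z
    · subst e; simp [moved]
    · by_cases e' : k = a
      · subst e'; simp [moved, e, hs]
      · simp [moved, e, e']
  have e1 : Run b (.loop .z .op (xbody a ks)) (moved a ks s ([.op] ++ d ++ [.cl]) r (.sep :: s .z))
      _ 1 := Run.loopF (by simp [moved])
  have e2 := Run.loopT (by simp [moved])
    (xstep_cl (b := b) ha hn h1 h2 s ([.op] ++ d) r (.sep :: s .z)) e1
  have e3 := xloop ha hn h1 h2 s hd [.op] (.cl :: r) (.sep :: s .z) _ _ e2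
  have e4 := xstep_op (b := b) ha hn h1 h2 s [] (d ++ .cl :: r) (.sep :: s .z)
  have e5 := Run.push b .z .sep s
  rw [e0] at e5
  refine (e5.seq (e4.seq (e3.seq (Run.pop _ _ _)))).congr ?_ (by ring_nf; omega)
  funext k
  by_cases e : k = .z
  · subst e; simp [addAll_apply _ hn, h2, moved, ha.symm]
  · by_cases e' : k = a
    · subst e'; simp [addAll_apply _ hn, h1, moved, e]
    · by_cases e'' : k ∈ ks <;> simp [addAll_apply _ hn, moved, e, e', e'']

/-- Move `n` items. -/
def xferN (a : K) (ks : List K) : ℕ → Prog
  | 0 => skip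
  | n + 1 => .seq (xfer a ks) (xferN a ks n)

theorem run_xferN {b : Prog} {a : K} {ks : List K} (ha : a ≠ .z) (hn : ks.Nodup) (h1 : a ∉ ks)
    (h2 : K.z ∉ ks) {n : ℕ} {w : List Tk} (hw : Items n w) : ∀ (s : St) {r : List Tk},
    s a = w ++ r → Run b (xferN a ks n) s (addAll (mir w) ks (update s a r))
      (w.length * (ks.length + 8) + 2) := by
  induction hw with
  | nil =>
    intro s r hs
    refine (run_skip b s).congr ?_ (by simp)
    funext k
    by_cases e' : k = a
    · subst e'; simpa [addAll_apply _ hn, h1] using hs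
    · simp [addAll_apply _ hn, e']
  | @cons d v n hd _ ih =>
    intro s r hs
    have e1 := run_xfer (b := b) ha hn h1 h2 s (r := v ++ r) hd (by simpa using hs)
    refine (e1.seq (ih _ (r := r) (by simp [addAll_apply _ hn, h1]))).congr ?_ ?_
    · funext k
      by_cases e' : k = a
      · subst e'; simp [addAll_apply _ hn, h1]
      · by_cases e'' : k ∈ ks <;> simp [addAll_apply _ hn, e', e'']
    · simp only [List.length_cons, List.length_append]
      ring_nf; omega

section
variable {b : Prog} {n : ℕ} {w : List Tk} (hw : Items n w) (i o m x y z : List Tk)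
include hw

theorem mv_mx : Run b (xferN .m [.x] n) (st i o (w ++ m) x y z) (st i o m (mir w ++ x) y z)
    (9 * w.length + 2) :=
  (run_xferN (by simp) (by simp) (by simp) (by simp) hw _ rfl).congr (by simp [addAll])
    (by simp; omega)

theorem mv_my : Run b (xferN .m [.y] n) (st i o (w ++ m) x y z) (st i o m x (mir w ++ y) z)
    (9 * w.length + 2) :=
  (run_xferN (by simp) (by simp) (by simp) (by simp) hw _ rfl).congr (by simp [addAll])
    (by simp; omega)

theorem mv_xy : Run b (xferN .x [.y] n) (st i o m (w ++ x) y z) (st i o m x (mir w ++ y) z)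
    (9 * w.length + 2) :=
  (run_xferN (by simp) (by simp) (by simp) (by simp) hw _ rfl).congr (by simp [addAll])
    (by simp; omega)

theorem mv_xm : Run b (xferN .x [.m] n) (st i o m (mir w ++ x) y z) (st i o (w ++ m) x y z)
    (9 * w.length + 2) :=
  (run_xferN (by simp) (by simp) (by simp) (by simp) hw.mir _ rfl).congr (by simp [addAll])
    (by simp; omega)

theorem mv_ym : Run b (xferN .y [.m] n) (st i o m x (mir w ++ y) z) (st i o (w ++ m) x y z)
    (9 * w.length + 2) :=
  (run_xferN (by simp) (by simp) (by simp) (by simp) hw.mir _ rfl).congr (by simp [addAll])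
    (by simp; omega)

theorem mv_yx : Run b (xferN .y [.x] n) (st i o m x (mir w ++ y) z) (st i o m (w ++ x) y z)
    (9 * w.length + 2) :=
  (run_xferN (by simp) (by simp) (by simp) (by simp) hw.mir _ rfl).congr (by simp [addAll])
    (by simp; omega)

theorem mv_mxy : Run b (xferN .m [.x, .y] n) (st i o (w ++ m) x y z)
    (st i o m (mir w ++ x) (mir w ++ y) z) (10 * w.length + 2) :=
  (run_xferN (by simp) (by simp) (by simp) (by simp) hw _ rfl).congr (by simp [addAll])
    (by simp; omega)

theorem mv_drop : Run b (xferN .m [] n) (st i o (w ++ m) x y z) (st i o m x y z)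
    (8 * w.length + 2) :=
  (run_xferN (by simp) (by simp) (by simp) (by simp) hw _ rfl).congr (by simp [addAll])
    (by simp; omega)

end

/-- Write a fixed word on the main stack. -/
def pushW : List Tk → Prog
  | [] => skip
  | a :: w => .seq (pushW w) (.push .m a)

theorem run_pushW (b : Prog) (w i o m x y z : List Tk) :
    Run b (pushW w) (st i o m x y z) (st i o (w ++ m) x y z) (w.length + 2) := by
  induction w with
  | nil => exact run_skip _ _
  | cons a w ih => exact (ih.seq (Run.push _ _ _ _)).congr (by simp) (by simp)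

end Vale.Agent.P338
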